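import Vale.Agent.Lib.P226.Maximizer

/-!
Zero-moment groups of cells: averaging over cyclic shifts of the groups reduces
the functional to partitions with at most `n` cells.
-/

open MeasureTheory ProbabilityTheory Real Set
open scoped RealInnerProductSpace ENNReal NNReal

namespace Vale.Agent.Lib.P226

section Shifts

variable {J : Type*} [Fintype J] [DecidableEq J] {n : ℕ} [NeZero n]

/-- Averaging over one coordinate of a shift vector. -/
lemma sum_update_average (j : J) (H : (J → Fin n) → ℝ) :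
    (n : ℝ) * ∑ s, H s = ∑ s, ∑ t : Fin n, H (Function.update s j t) := by
  have hinv : Function.Involutive
      (fun p : (J → Fin n) × Fin n => (Function.update p.1 j p.2, p.1 j)) := by
    rintro ⟨s, t⟩
    ext k <;> simp
  have h1 : ∑ p : (J → Fin n) × Fin n, H (Function.update p.1 j p.2)
      = ∑ p : (J → Fin n) × Fin n, H p.1 := by
    have := Equiv.sum_comp hinv.toPerm (fun p : (J → Fin n) × Fin n => H p.1)
    simpa using this
  rw [Fintype.sum_prod_type] at h1
  rw [h1, Fintype.sum_prod_type]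
  simp only [Finset.sum_const, Finset.card_univ, Fintype.card_fin, nsmul_eq_mul]
  rw [Finset.mul_sum]

variable {E : Type*} [NormedAddCommGroup E] [InnerProductSpace ℝ E]

/-- A zero-sum coordinate averages out. -/
lemma sum_inner_shift_eq_zero (j : J) {w : Fin n → E} (hw : ∑ l, w l = 0)
    (c : (J → Fin n) → Fin n) (X : (J → Fin n) → E)
    (hc : ∀ s t, c (Function.update s j t) = c s)
    (hX : ∀ s t, X (Function.update s j t) = X s) :
    ∑ s, ⟪w (c s + s j), X s⟫ = 0 := by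
  have hn : (n : ℝ) ≠ 0 := by exact_mod_cast NeZero.ne n
  have h := sum_update_average (n := n) j (fun s => ⟪w (c s + s j), X s⟫)
  have h2 : ∑ s : J → Fin n, ∑ t : Fin n,
      ⟪w (c (Function.update s j t) + (Function.update s j t) j), X (Function.update s j t)⟫ = 0 := by
    refine Finset.sum_eq_zero (fun s _ => ?_)
    simp only [hc, hX, Function.update_self]
    rw [← sum_inner]
    have h3 : ∑ t : Fin n, w (c s + t) = ∑ l, w l :=
      Equiv.sum_comp (Equiv.addLeft (c s)) w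
    rw [h3, hw, inner_zero_left]
  rw [h2] at h
  exact (mul_eq_zero.mp h).resolve_left hn

/-- The shifted sums `a s l = ∑ j, v j (l + s j)`. -/
def shiftSum (v : J → Fin n → E) (s : J → Fin n) (l : Fin n) : E := ∑ j, v j (l + s j)

lemma sum_inner_shiftSum (v : J → Fin n → E) (hv : ∀ j, ∑ l, v j l = 0) (j₀ : J) (l₀ : Fin n)
    (x : E) :
    ∑ s : J → Fin n, ⟪shiftSum v s (l₀ - s j₀), x⟫
      = (Fintype.card (J → Fin n) : ℝ) * ⟪v j₀ l₀, x⟫ := by
  simp only [shiftSum, sum_inner]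
  rw [Finset.sum_comm, Finset.sum_eq_single j₀]
  · simp [Finset.card_univ]
  · intro j _ hj
    refine sum_inner_shift_eq_zero j (hv j) (fun s => l₀ - s j₀) (fun _ => x) ?_ (fun _ _ => rfl)
    intro s t
    simp [Function.update_of_ne (Ne.symm hj)]
  · intro h
    exact absurd (Finset.mem_univ j₀) h

lemma sum_norm_sq_shiftSum (v : J → Fin n → E) (hv : ∀ j, ∑ l, v j l = 0) :
    ∑ s : J → Fin n, ∑ l, ‖shiftSum v s l‖ ^ 2
      = (Fintype.card (J → Fin n) : ℝ) * ∑ j, ∑ l, ‖v j l‖ ^ 2 := by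
  have h1 : ∀ (s : J → Fin n) (l : Fin n), ‖shiftSum v s l‖ ^ 2
      = ∑ j, ∑ j', ⟪v j (l + s j), v j' (l + s j')⟫ := by
    intro s l
    rw [← real_inner_self_eq_norm_sq, shiftSum, sum_inner]
    refine Finset.sum_congr rfl (fun j _ => ?_)
    rw [inner_sum]
  simp_rw [h1]
  rw [Finset.sum_comm]
  have h2 : ∀ l : Fin n, ∑ s : J → Fin n, ∑ j, ∑ j', ⟪v j (l + s j), v j' (l + s j')⟫
      = ∑ s : J → Fin n, ∑ j, ‖v j (l + s j)‖ ^ 2 := by
    intro l
    rw [Finset.sum_comm]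
    have h3 : ∀ j, ∑ s : J → Fin n, ∑ j', ⟪v j (l + s j), v j' (l + s j')⟫
        = ∑ s : J → Fin n, ‖v j (l + s j)‖ ^ 2 := by
      intro j
      rw [Finset.sum_comm, Finset.sum_eq_single j]
      · simp_rw [real_inner_self_eq_norm_sq]
      · intro j' _ hj'
        refine sum_inner_shift_eq_zero j (hv j) (fun _ => l) (fun s => v j' (l + s j'))
          (fun _ _ => rfl) ?_
        intro s t
        simp [Function.update_of_ne hj']
      · intro h
        exact absurd (Finset.mem_univ j) h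
    simp_rw [h3]
    rw [Finset.sum_comm]
  simp_rw [h2]
  rw [Finset.sum_comm]
  have h4 : ∀ s : J → Fin n, ∑ l : Fin n, ∑ j, ‖v j (l + s j)‖ ^ 2 = ∑ j, ∑ l, ‖v j l‖ ^ 2 := by
    intro s
    rw [Finset.sum_comm]
    refine Finset.sum_congr rfl (fun j _ => ?_)
    exact Equiv.sum_comp (Equiv.addRight (s j)) (fun l => ‖v j l‖ ^ 2)
  simp_rw [h4]
  simp [Finset.card_univ]

end Shifts

variable {E : Type*} [NormedAddCommGroup E] [InnerProductSpace ℝ E] [FiniteDimensional ℝ E]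
  [MeasurableSpace E] [BorelSpace E]

section Reduction

variable {ι : Type*} [Fintype ι]

/-- `F(A) ≤ E max ⟨z i, x⟩` -/
lemma energy_le_Phi [Nonempty ι] {A : ι → Set E} (hA : IsMeasPartition A) :
    momentEnergy A ≤ Phi (fun i => gaussMoment (A i)) := by
  set y : ι → E := fun i => gaussMoment (A i) with hy
  rw [Phi, ← hA.sum_setIntegral (integrable_phi y)]
  refine Finset.sum_le_sum (fun i _ => ?_)
  have h2 : ‖y i‖ ^ 2 = ∫ x in A i, ⟪y i, x⟫ ∂(stdGaussian E) := by
    rw [← inner_gaussMoment, real_inner_self_eq_norm_sq]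
  simp only [hy] at h2 ⊢
  rw [h2]
  exact setIntegral_mono (integrable_inner_std _).integrableOn (integrable_phi y).integrableOn
    (fun x => inner_le_phi y x i)

/-- A bound on all `n`-cell partitions gives a bound on `Φ`. -/
lemma Phi_le_of_partition_bound {n : ℕ} [NeZero n] {M : ℝ}
    (hM : ∀ B : Fin n → Set E, IsMeasPartition B → momentEnergy B ≤ M) (a : Fin n → E) :
    Phi a ≤ √M * √(∑ l, ‖a l‖ ^ 2) := by
  have hpart := isMeasPartition_cell a
  set z : Fin n → E := fun l => gaussMoment (cell a l) with hz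
  have h1 : Phi a = ∑ l, ⟪a l, z l⟫ := by
    rw [Phi, ← hpart.sum_setIntegral (integrable_phi a)]
    refine Finset.sum_congr rfl (fun l _ => ?_)
    rw [hz, inner_gaussMoment]
    exact setIntegral_congr_fun (measurableSet_cell a l) (fun x hx => phi_eq_of_mem_cell hx)
  have h2 : ∑ l, ⟪a l, z l⟫ ≤ ∑ l, ‖a l‖ * ‖z l‖ :=
    Finset.sum_le_sum (fun l _ => real_inner_le_norm _ _)
  have h3 : ∑ l, ‖a l‖ * ‖z l‖ ≤ √(∑ l, ‖a l‖ ^ 2) * √(∑ l, ‖z l‖ ^ 2) :=
    Real.sum_mul_le_sqrt_mul_sqrt _ _ _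
  have h4 : √(∑ l, ‖z l‖ ^ 2) ≤ √M := Real.sqrt_le_sqrt (hM _ hpart)
  rw [h1]
  calc ∑ l, ⟪a l, z l⟫ ≤ √(∑ l, ‖a l‖ ^ 2) * √(∑ l, ‖z l‖ ^ 2) := h2.trans h3
    _ ≤ √(∑ l, ‖a l‖ ^ 2) * √M := mul_le_mul_of_nonneg_left h4 (Real.sqrt_nonneg _)
    _ = √M * √(∑ l, ‖a l‖ ^ 2) := mul_comm _ _

/-- Core inequality: if the moments of a partition occur among vectors `v j l` with
`∑ l, v j l = 0`, then `F ≤ √M √(∑ ‖v j l‖²)`. -/
lemma core_bound {J : Type*} [Fintype J] [DecidableEq J] {n : ℕ} [NeZero n] {M : ℝ}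
    (hΦ : ∀ a : Fin n → E, Phi a ≤ √M * √(∑ l, ‖a l‖ ^ 2))
    (v : J → Fin n → E) (hv : ∀ j, ∑ l, v j l = 0)
    {A : ι → Set E} (hA : IsMeasPartition A) (g : ι → J) (e : ι → Fin n)
    (hz : ∀ i, gaussMoment (A i) = v (g i) (e i)) :
    momentEnergy A ≤ √M * √(∑ j, ∑ l, ‖v j l‖ ^ 2) := by
  set S := J → Fin n
  set N : ℝ := (Fintype.card S : ℝ) with hN
  set Q : ℝ := ∑ j, ∑ l, ‖v j l‖ ^ 2 with hQ
  have hNpos : 0 < N := by
    rw [hN]
    exact_mod_cast Fintype.card_pos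
  set Θ : E → ℝ := fun x => ∑ s : S, phi (shiftSum v s) x with hΘ
  have hΘint : Integrable Θ (stdGaussian E) :=
    integrable_finsetSum _ (fun s _ => integrable_phi (shiftSum v s))
  -- pointwise domination
  have hpt : ∀ (j₀ : J) (l₀ : Fin n) (x : E), N * ⟪v j₀ l₀, x⟫ ≤ Θ x := by
    intro j₀ l₀ x
    rw [hN, ← sum_inner_shiftSum v hv j₀ l₀ x]
    exact Finset.sum_le_sum (fun s _ => inner_le_phi _ x _)
  -- F ≤ (1/N) ∫ Θ
  have h1 : N * momentEnergy A ≤ ∫ x, Θ x ∂(stdGaussian E) := by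
    rw [← hA.sum_setIntegral hΘint, momentEnergy, Finset.mul_sum]
    refine Finset.sum_le_sum (fun i _ => ?_)
    have h2 : ‖gaussMoment (A i)‖ ^ 2 = ∫ x in A i, ⟪gaussMoment (A i), x⟫ ∂(stdGaussian E) := by
      rw [← inner_gaussMoment, real_inner_self_eq_norm_sq]
    rw [h2, ← integral_const_mul]
    refine setIntegral_mono (((integrable_inner_std _).const_mul N).integrableOn)
      hΘint.integrableOn (fun x => ?_)
    rw [hz i]
    exact hpt _ _ x
  -- integrate
  have h3 : ∫ x, Θ x ∂(stdGaussian E) = ∑ s : S, Phi (shiftSum v s) := by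
    rw [hΘ, integral_finsetSum _ (fun s _ => integrable_phi (shiftSum v s))]
    rfl
  have h4 : ∑ s : S, Phi (shiftSum v s) ≤ ∑ s : S, √M * √(∑ l, ‖shiftSum v s l‖ ^ 2) :=
    Finset.sum_le_sum (fun s _ => hΦ _)
  -- Cauchy-Schwarz over `s`
  have h5 : ∑ s : S, √(∑ l, ‖shiftSum v s l‖ ^ 2) ≤ √N * √(N * Q) := by
    have h6 := Real.sum_mul_le_sqrt_mul_sqrt (Finset.univ : Finset S) (fun _ => (1:ℝ))
      (fun s => √(∑ l, ‖shiftSum v s l‖ ^ 2))
    simp only [one_mul, one_pow, Finset.sum_const, Finset.card_univ, nsmul_eq_mul, mul_one] at h6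
    have h7 : ∑ s : S, (√(∑ l, ‖shiftSum v s l‖ ^ 2)) ^ 2 = N * Q := by
      have : ∀ s : S, (√(∑ l, ‖shiftSum v s l‖ ^ 2)) ^ 2 = ∑ l, ‖shiftSum v s l‖ ^ 2 := fun s =>
        Real.sq_sqrt (Finset.sum_nonneg (fun _ _ => by positivity))
      simp_rw [this]
      rw [sum_norm_sq_shiftSum v hv]
    rw [h7] at h6
    exact h6
  have hQ0 : 0 ≤ Q := Finset.sum_nonneg (fun _ _ => Finset.sum_nonneg (fun _ _ => by positivity))
  have h8 : N * momentEnergy A ≤ √M * (√N * √(N * Q)) := by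
    calc N * momentEnergy A ≤ ∑ s : S, Phi (shiftSum v s) := h1.trans_eq h3
      _ ≤ ∑ s : S, √M * √(∑ l, ‖shiftSum v s l‖ ^ 2) := h4
      _ = √M * ∑ s : S, √(∑ l, ‖shiftSum v s l‖ ^ 2) := by rw [Finset.mul_sum]
      _ ≤ √M * (√N * √(N * Q)) :=
          mul_le_mul_of_nonneg_left h5 (Real.sqrt_nonneg _)
  have h9 : √N * √(N * Q) = N * √Q := by
    rw [Real.sqrt_mul hNpos.le, ← mul_assoc, Real.mul_self_sqrt hNpos.le]
  rw [h9] at h8
  have : N * momentEnergy A ≤ N * (√M * √Q) := by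
    calc N * momentEnergy A ≤ √M * (N * √Q) := h8
      _ = N * (√M * √Q) := by ring
  exact le_of_mul_le_mul_left this hNpos

/-- The stability form: group the cells into groups with sums `s j`; each group has fewer than `n`
cells, or at most `n` cells and vanishing sum.  Then `F² ≤ M (F + ∑ ‖s j‖²)` for any bound `M`
on all `n`-cell partitions. -/
theorem energy_sq_le_of_groups {J : Type*} [Fintype J] [DecidableEq J] {n : ℕ} [NeZero n] {M : ℝ}
    (hΦ : ∀ a : Fin n → E, Phi a ≤ √M * √(∑ l, ‖a l‖ ^ 2)) (hM0 : 0 ≤ M)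
    {A : ι → Set E} (hA : IsMeasPartition A) (g : ι → J)
    (hgrp : ∀ j, (Finset.univ.filter (fun i => g i = j)).card < n ∨
      ((Finset.univ.filter (fun i => g i = j)).card ≤ n ∧
        ∑ i with g i = j, gaussMoment (A i) = 0)) :
    momentEnergy A ^ 2 ≤ M * (momentEnergy A + ∑ j, ‖∑ i with g i = j, gaussMoment (A i)‖ ^ 2) := by
  classical
  set s : J → E := fun j => ∑ i with g i = j, gaussMoment (A i) with hs
  have hcard : ∀ j, (Finset.univ.filter (fun i => g i = j)).card ≤ n := by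
    intro j
    rcases hgrp j with h | h
    · exact h.le
    · exact h.1
  -- labels inside the groups
  have hemb : ∀ j, Nonempty ({i // g i = j} ↪ Fin n) := by
    intro j
    apply Function.Embedding.nonempty_of_card_le
    rw [Fintype.card_fin, Fintype.card_subtype]
    exact hcard j
  have emb : ∀ j, {i // g i = j} ↪ Fin n := fun j => (hemb j).some
  -- a free label for the auxiliary vector
  have hfree : ∀ j, ∃ a : Fin n, s j = 0 ∨ ∀ (i : ι) (hi : g i = j), emb j ⟨i, hi⟩ ≠ a := by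
    intro j
    rcases hgrp j with h | h
    · have hns : ¬ Function.Surjective (emb j) := by
        intro hsurj
        have h2 := Fintype.card_le_of_surjective _ hsurj
        rw [Fintype.card_fin, Fintype.card_subtype] at h2
        exact absurd h (not_lt.mpr h2)
      simp only [Function.Surjective, not_forall, not_exists] at hns
      obtain ⟨a, ha⟩ := hns
      exact ⟨a, Or.inr (fun i hi => ha ⟨i, hi⟩)⟩
    · exact ⟨0, Or.inl h.2⟩
  choose a ha using hfree
  set e : ι → Fin n := fun i => emb (g i) ⟨i, rfl⟩ with he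
  have hkey : ∀ (j j' : J) (h : j = j') (i' : ι) (hi : g i' = j),
      emb j ⟨i', hi⟩ = emb j' ⟨i', h ▸ hi⟩ := by
    rintro j _ rfl i' hi
    rfl
  have hinj : ∀ i i', g i = g i' → e i = e i' → i = i' := by
    intro i i' hg hl
    have h1 : emb (g i) ⟨i, rfl⟩ = emb (g i) ⟨i', hg.symm⟩ := by
      have h2 := hkey (g i') (g i) hg.symm i' rfl
      rw [← h2]
      exact hl
    have h3 := (emb (g i)).injective h1
    exact congrArg Subtype.val h3
  -- the sub-sums
  set w : J → Fin n → E := fun j l => ∑ i with g i = j ∧ e i = l, gaussMoment (A i) with hwdef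
  have hwsum : ∀ j, ∑ l, w j l = s j := by
    intro j
    simp only [hwdef, hs]
    have h1 : ∀ l, ∑ i with g i = j ∧ e i = l, gaussMoment (A i)
        = ∑ i with g i = j, if e i = l then gaussMoment (A i) else 0 := by
      intro l
      rw [Finset.sum_filter, Finset.sum_filter]
      refine Finset.sum_congr rfl (fun i _ => ?_)
      by_cases h1 : g i = j <;> by_cases h2 : e i = l <;> simp [h1, h2]
    simp_rw [h1]
    rw [Finset.sum_comm]
    refine Finset.sum_congr rfl (fun i _ => ?_)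
    simp
  have hfilter : ∀ i, (Finset.univ.filter (fun i' => g i' = g i ∧ e i' = e i)) = {i} := by
    intro i
    ext i'
    simp only [Finset.mem_filter, Finset.mem_univ, true_and, Finset.mem_singleton]
    constructor
    · rintro ⟨h1, h2⟩
      exact hinj _ _ h1 h2
    · rintro rfl
      exact ⟨rfl, rfl⟩
  have hwz : ∀ i, w (g i) (e i) = gaussMoment (A i) := by
    intro i
    simp only [hwdef]
    rw [hfilter i, Finset.sum_singleton]
  have hwnorm : ∑ j, ∑ l, ‖w j l‖ ^ 2 = momentEnergy A := by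
    have h1 : ∀ j l, ‖w j l‖ ^ 2 = ∑ i with g i = j ∧ e i = l, ‖gaussMoment (A i)‖ ^ 2 := by
      intro j l
      by_cases hex : ∃ i, g i = j ∧ e i = l
      · obtain ⟨i, rfl, rfl⟩ := hex
        simp only [hwdef]
        rw [hfilter i, Finset.sum_singleton, Finset.sum_singleton]
      · have hemp : (Finset.univ.filter (fun i => g i = j ∧ e i = l)) = ∅ := by
          ext i
          simp only [Finset.mem_filter, Finset.mem_univ, true_and, Finset.notMem_empty, iff_false]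
          exact fun h => hex ⟨i, h⟩
        simp only [hwdef]
        rw [hemp]
        simp
    simp_rw [h1]
    rw [momentEnergy]
    have h2 : ∀ j l, ∑ i with g i = j ∧ e i = l, ‖gaussMoment (A i)‖ ^ 2
        = ∑ i, if g i = j ∧ e i = l then ‖gaussMoment (A i)‖ ^ 2 else 0 := by
      intro j l
      rw [Finset.sum_filter]
    simp_rw [h2]
    have h3 : ∀ j, ∑ l, ∑ i, (if g i = j ∧ e i = l then ‖gaussMoment (A i)‖ ^ 2 else 0)
        = ∑ i, ∑ l, (if g i = j ∧ e i = l then ‖gaussMoment (A i)‖ ^ 2 else 0) := fun j =>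
      Finset.sum_comm
    simp_rw [h3]
    rw [Finset.sum_comm]
    refine Finset.sum_congr rfl (fun i _ => ?_)
    rw [Finset.sum_eq_single (g i), Finset.sum_eq_single (e i)]
    · simp
    · intro l _ hl
      simp [Ne.symm hl]
    · intro h
      exact absurd (Finset.mem_univ _) h
    · intro j _ hj
      refine Finset.sum_eq_zero (fun l _ => ?_)
      simp [Ne.symm hj]
    · intro h
      exact absurd (Finset.mem_univ _) h
  -- the vectors, with the auxiliary entry
  set v : J → Fin n → E := fun j l => w j l - (if l = a j then s j else 0) with hvdef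
  have hvsum : ∀ j, ∑ l, v j l = 0 := by
    intro j
    simp only [hvdef]
    rw [Finset.sum_sub_distrib, hwsum]
    simp
  have hvz : ∀ i, gaussMoment (A i) = v (g i) (e i) := by
    intro i
    simp only [hvdef]
    rw [hwz]
    by_cases hl : e i = a (g i)
    · rcases ha (g i) with h0 | h0
      · simp [hl, h0]
      · exact absurd hl (h0 i rfl)
    · simp [hl]
  have hvnorm : ∀ j l, ‖v j l‖ ^ 2 = ‖w j l‖ ^ 2 + (if l = a j then ‖s j‖ ^ 2 else 0) := by
    intro j l
    simp only [hvdef]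
    by_cases hl : l = a j
    · subst hl
      simp only [if_true]
      rcases ha j with h0 | h0
      · simp [h0]
      · have hw0 : w j (a j) = 0 := by
          simp only [hwdef]
          refine Finset.sum_eq_zero (fun i hi => ?_)
          exfalso
          simp only [Finset.mem_filter, Finset.mem_univ, true_and] at hi
          obtain ⟨hi1, hi2⟩ := hi
          apply h0 i hi1
          have := hkey (g i) j hi1 i rfl
          rw [← this]
          exact hi2
        simp [hw0]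
    · simp [hl]
  have hQ : ∑ j, ∑ l, ‖v j l‖ ^ 2 = momentEnergy A + ∑ j, ‖s j‖ ^ 2 := by
    simp_rw [hvnorm]
    simp_rw [Finset.sum_add_distrib]
    rw [hwnorm]
    simp
  have hcore := core_bound hΦ v hvsum hA g e hvz
  rw [hQ] at hcore
  have hF0 : 0 ≤ momentEnergy A := Finset.sum_nonneg (fun _ _ => by positivity)
  have hQ0 : 0 ≤ momentEnergy A + ∑ j, ‖s j‖ ^ 2 :=
    add_nonneg hF0 (Finset.sum_nonneg (fun _ _ => by positivity))
  calc momentEnergy A ^ 2 ≤ (√M * √(momentEnergy A + ∑ j, ‖s j‖ ^ 2)) ^ 2 :=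
        pow_le_pow_left₀ hF0 hcore 2
    _ = M * (momentEnergy A + ∑ j, ‖s j‖ ^ 2) := by
        rw [mul_pow, Real.sq_sqrt hM0, Real.sq_sqrt hQ0]

/-- **Reduction to `n` cells.**  If the cells are grouped into groups of at most `n` cells whose
moments sum to zero then `F ≤ M`. -/
theorem energy_le_of_groups {J : Type*} [Fintype J] [DecidableEq J] {n : ℕ} [NeZero n] {M : ℝ}
    (hΦ : ∀ a : Fin n → E, Phi a ≤ √M * √(∑ l, ‖a l‖ ^ 2)) (hM0 : 0 ≤ M)
    {A : ι → Set E} (hA : IsMeasPartition A) (g : ι → J)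
    (hcard : ∀ j, (Finset.univ.filter (fun i => g i = j)).card ≤ n)
    (hzero : ∀ j, ∑ i with g i = j, gaussMoment (A i) = 0) :
    momentEnergy A ≤ M := by
  have h := energy_sq_le_of_groups hΦ hM0 hA g (fun j => Or.inr ⟨hcard j, hzero j⟩)
  simp only [hzero, norm_zero] at h
  have h2 : ∑ j : J, (0:ℝ) ^ 2 = 0 := by simp
  rw [h2, add_zero] at h
  have hF0 : 0 ≤ momentEnergy A := Finset.sum_nonneg (fun _ _ => by positivity)
  by_cases hF : momentEnergy A = 0
  · rw [hF]; exact hM0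
  have hFpos : 0 < momentEnergy A := lt_of_le_of_ne hF0 (Ne.symm hF)
  have h3 : momentEnergy A * momentEnergy A ≤ M * momentEnergy A := by nlinarith
  exact le_of_mul_le_mul_right h3 hFpos

end Reduction

section Small

/-- Symmetry of the standard Gaussian under `x ↦ -x`. -/
lemma integral_neg_std {f : E → ℝ} :
    ∫ x, f (-x) ∂(stdGaussian E) = ∫ x, f x ∂(stdGaussian E) := by
  have h := stdGaussian_map (E := E) (LinearIsometryEquiv.neg ℝ)
  have h2 : ∫ x, f x ∂(stdGaussian E) = ∫ x, f x ∂((stdGaussian E).map (LinearIsometryEquiv.neg ℝ)) := by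
    rw [h]
  have he : MeasurableEmbedding (LinearIsometryEquiv.neg ℝ (E := E)) :=
    (LinearIsometryEquiv.neg ℝ (E := E)).toHomeomorph.measurableEmbedding
  rw [h2, he.integral_map]
  rfl

variable {ι : Type*} [Fintype ι] [Nonempty ι]

omit [FiniteDimensional ℝ E] [MeasurableSpace E] [BorelSpace E] [Fintype ι] [Nonempty ι] in
lemma inner_neg_right' (v x : E) : ⟪v, -x⟫ = -⟪v, x⟫ := inner_neg_right v x

lemma Phi_eq_half_sum (a : ι → E) :
    Phi a = (1 / 2) * ∫ x, (phi a x + phi a (-x)) ∂(stdGaussian E) := by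
  have hint : Integrable (fun x => phi a (-x)) (stdGaussian E) := by
    refine Integrable.mono' ((integrable_norm_std (E := E)).const_mul ‖a‖)
      ((continuous_phi a).comp continuous_neg).aestronglyMeasurable
      (Filter.Eventually.of_forall ?_)
    intro x
    have := abs_phi_le a (-x)
    rw [norm_neg] at this
    simpa [Real.norm_eq_abs] using this
  rw [integral_add (integrable_phi a) hint, integral_neg_std (f := phi a), Phi]
  ring

/-- Two vectors: `E max(⟨a,x⟩,⟨b,x⟩) = ‖a-b‖/√(2π)`. -/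
lemma Phi_two (a : Fin 2 → E) : Phi a = ‖a 0 - a 1‖ / √(2 * π) := by
  rw [Phi_eq_half_sum]
  have hpt : ∀ x : E, phi a x + phi a (-x) = |⟪a 0 - a 1, x⟫| := by
    intro x
    have h1 : phi a x = max ⟪a 0, x⟫ ⟪a 1, x⟫ := by
      simp [phi, Fin.univ_succ, Finset.sup'_insert]
    have h2 : phi a (-x) = max (-⟪a 0, x⟫) (-⟪a 1, x⟫) := by
      simp [phi, Fin.univ_succ, Finset.sup'_insert, inner_neg_right]
    rw [h1, h2, inner_sub_left]
    rcases le_total ⟪a 0, x⟫ ⟪a 1, x⟫ with h | h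
    · rw [max_eq_right h, max_eq_left (by linarith), abs_of_nonpos (by linarith)]
      ring
    · rw [max_eq_left h, max_eq_right (by linarith), abs_of_nonneg (by linarith)]
      ring
  simp_rw [hpt]
  rw [integral_abs_inner]
  ring

omit [FiniteDimensional ℝ E] [MeasurableSpace E] [BorelSpace E] [Fintype ι] [Nonempty ι] in
lemma max_three_identity (p q r : ℝ) :
    max p (max q r) + max (-p) (max (-q) (-r)) = (|p - q| + |q - r| + |r - p|) / 2 := by
  rcases abs_cases (p - q) with ⟨h1, _⟩ | ⟨h1, _⟩ <;>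
  rcases abs_cases (q - r) with ⟨h2, _⟩ | ⟨h2, _⟩ <;>
  rcases abs_cases (r - p) with ⟨h3, _⟩ | ⟨h3, _⟩ <;>
  rcases max_cases q r with ⟨h4, _⟩ | ⟨h4, _⟩ <;>
  rcases max_cases p (max q r) with ⟨h5, _⟩ | ⟨h5, _⟩ <;>
  rcases max_cases (-q) (-r) with ⟨h6, _⟩ | ⟨h6, _⟩ <;>
  rcases max_cases (-p) (max (-q) (-r)) with ⟨h7, _⟩ | ⟨h7, _⟩ <;>
  linarith

/-- Three vectors: `E max = (1/(2√(2π))) ∑ ‖a i - a j‖`. -/
lemma Phi_three (a : Fin 3 → E) :
    Phi a = (‖a 0 - a 1‖ + ‖a 1 - a 2‖ + ‖a 2 - a 0‖) / (2 * √(2 * π)) := by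
  rw [Phi_eq_half_sum]
  have hpt : ∀ x : E, phi a x + phi a (-x)
      = (|⟪a 0 - a 1, x⟫| + |⟪a 1 - a 2, x⟫| + |⟪a 2 - a 0, x⟫|) / 2 := by
    intro x
    have h1 : phi a x = max ⟪a 0, x⟫ (max ⟪a 1, x⟫ ⟪a 2, x⟫) := by
      simp [phi, Fin.univ_succ, Finset.sup'_insert]
    have h2 : phi a (-x) = max (-⟪a 0, x⟫) (max (-⟪a 1, x⟫) (-⟪a 2, x⟫)) := by
      simp [phi, Fin.univ_succ, Finset.sup'_insert, inner_neg_right]
    rw [h1, h2, inner_sub_left, inner_sub_left, inner_sub_left]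
    exact max_three_identity _ _ _
  simp_rw [hpt]
  have hI : ∫ x, (|⟪a 0 - a 1, x⟫| + |⟪a 1 - a 2, x⟫| + |⟪a 2 - a 0, x⟫|) ∂(stdGaussian E)
      = 2 * ‖a 0 - a 1‖ / √(2 * π) + 2 * ‖a 1 - a 2‖ / √(2 * π) + 2 * ‖a 2 - a 0‖ / √(2 * π) := by
    rw [integral_add (f := fun x => |⟪a 0 - a 1, x⟫| + |⟪a 1 - a 2, x⟫|)
      (g := fun x => |⟪a 2 - a 0, x⟫|)
      ((integrable_abs_inner _).add (integrable_abs_inner _)) (integrable_abs_inner _),
      integral_add (integrable_abs_inner _) (integrable_abs_inner _),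
      integral_abs_inner, integral_abs_inner, integral_abs_inner]
  rw [integral_div, hI]
  have hs : √(2 * π) ≠ 0 := by positivity
  field_simp

lemma Phi_two_le (a : Fin 2 → E) : Phi a ≤ √(1 / π) * √(∑ l, ‖a l‖ ^ 2) := by
  rw [Phi_two, ← Real.sqrt_mul (by positivity)]
  have hN : ∑ l, ‖a l‖ ^ 2 = ‖a 0‖ ^ 2 + ‖a 1‖ ^ 2 := by
    simp [Fin.sum_univ_two]
  rw [hN]
  apply Real.le_sqrt_of_sq_le
  rw [div_pow, Real.sq_sqrt (by positivity)]
  have h1 : ‖a 0 - a 1‖ ^ 2 ≤ 2 * (‖a 0‖ ^ 2 + ‖a 1‖ ^ 2) := by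
    have h2 := parallelogram_law_with_norm ℝ (a 0) (a 1)
    have h3 : 0 ≤ ‖a 0 + a 1‖ * ‖a 0 + a 1‖ := by positivity
    nlinarith
  have hpi : 0 < π := Real.pi_pos
  rw [div_le_iff₀ (by positivity)]
  have h4 : 1 / π * (‖a 0‖ ^ 2 + ‖a 1‖ ^ 2) * (2 * π) = 2 * (‖a 0‖ ^ 2 + ‖a 1‖ ^ 2) := by
    field_simp
  rw [h4]
  exact h1

lemma Phi_three_le (a : Fin 3 → E) : Phi a ≤ √(9 / (8 * π)) * √(∑ l, ‖a l‖ ^ 2) := by
  rw [Phi_three, ← Real.sqrt_mul (by positivity)]
  have hN : ∑ l, ‖a l‖ ^ 2 = ‖a 0‖ ^ 2 + ‖a 1‖ ^ 2 + ‖a 2‖ ^ 2 := by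
    simp [Fin.sum_univ_three]
  rw [hN]
  apply Real.le_sqrt_of_sq_le
  rw [div_pow, mul_pow, Real.sq_sqrt (by positivity)]
  have hpi : 0 < π := Real.pi_pos
  rw [div_le_iff₀ (by positivity)]
  set p := ‖a 0 - a 1‖
  set q := ‖a 1 - a 2‖
  set r := ‖a 2 - a 0‖
  have h1 : p ^ 2 + q ^ 2 + r ^ 2 ≤ 3 * (‖a 0‖ ^ 2 + ‖a 1‖ ^ 2 + ‖a 2‖ ^ 2) := by
    have h2 : ‖a 0 + a 1 + a 2‖ ^ 2 = ‖a 0‖ ^ 2 + ‖a 1‖ ^ 2 + ‖a 2‖ ^ 2
        + 2 * ⟪a 0, a 1⟫ + 2 * ⟪a 1, a 2⟫ + 2 * ⟪a 2, a 0⟫ := by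
      rw [norm_add_sq_real, norm_add_sq_real, inner_add_left, real_inner_comm (a 2) (a 1),
        real_inner_comm (a 0) (a 2)]
      ring
    have h3 : p ^ 2 = ‖a 0‖ ^ 2 - 2 * ⟪a 0, a 1⟫ + ‖a 1‖ ^ 2 := norm_sub_sq_real _ _
    have h4 : q ^ 2 = ‖a 1‖ ^ 2 - 2 * ⟪a 1, a 2⟫ + ‖a 2‖ ^ 2 := norm_sub_sq_real _ _
    have h5 : r ^ 2 = ‖a 2‖ ^ 2 - 2 * ⟪a 2, a 0⟫ + ‖a 0‖ ^ 2 := norm_sub_sq_real _ _
    have h6 := sq_nonneg ‖a 0 + a 1 + a 2‖
    nlinarith
  have h7 : (p + q + r) ^ 2 ≤ 3 * (p ^ 2 + q ^ 2 + r ^ 2) := by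
    nlinarith [sq_nonneg (p - q), sq_nonneg (q - r), sq_nonneg (r - p)]
  have h8 : 9 / (8 * π) * (‖a 0‖ ^ 2 + ‖a 1‖ ^ 2 + ‖a 2‖ ^ 2) * (2 ^ 2 * (2 * π))
      = 9 * (‖a 0‖ ^ 2 + ‖a 1‖ ^ 2 + ‖a 2‖ ^ 2) := by
    field_simp
    ring
  rw [h8]
  nlinarith

end Small

section Bounds

variable {ι : Type*} [Fintype ι] [Nonempty ι]

lemma energy_le_of_Phi_le {M : ℝ} (hM0 : 0 ≤ M)
    (hΦ : ∀ a : ι → E, Phi a ≤ √M * √(∑ l, ‖a l‖ ^ 2))
    {B : ι → Set E} (hB : IsMeasPartition B) : momentEnergy B ≤ M := by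
  have h1 := (energy_le_Phi hB).trans (hΦ _)
  have hF0 : 0 ≤ momentEnergy B := Finset.sum_nonneg (fun _ _ => by positivity)
  change momentEnergy B ≤ √M * √(momentEnergy B) at h1
  by_cases hF : momentEnergy B = 0
  · rw [hF]; exact hM0
  have hFpos : 0 < √(momentEnergy B) := Real.sqrt_pos.mpr (lt_of_le_of_ne hF0 (Ne.symm hF))
  have h11 : √(momentEnergy B) ≤ √M := by
    have h12 : √(momentEnergy B) * √(momentEnergy B) ≤ √M * √(momentEnergy B) := by
      rw [Real.mul_self_sqrt hF0]; exact h1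
    exact le_of_mul_le_mul_right h12 hFpos
  exact (Real.sqrt_le_sqrt_iff hM0).mp h11

/-- Khot-Naor: three cells. -/
theorem energy_three_le {B : Fin 3 → Set E} (hB : IsMeasPartition B) :
    momentEnergy B ≤ 9 / (8 * π) :=
  energy_le_of_Phi_le (by positivity) Phi_three_le hB

/-- Two cells. -/
theorem energy_two_le {B : Fin 2 → Set E} (hB : IsMeasPartition B) :
    momentEnergy B ≤ 1 / π :=
  energy_le_of_Phi_le (by positivity) Phi_two_le hB

end Bounds

section Equivariance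

variable {F : Type*}

/-- First moments are equivariant under linear isometries. -/
lemma gaussMoment_image (ρ : E ≃ₗᵢ[ℝ] E) (A : Set E) :
    gaussMoment (ρ '' A) = ρ (gaussMoment A) := by
  have he : MeasurableEmbedding ρ := ρ.toHomeomorph.measurableEmbedding
  have h := stdGaussian_map (E := E) ρ
  have hpre : ρ ⁻¹' (ρ '' A) = A := Set.preimage_image_eq A ρ.injective
  have h2 : gaussMoment (ρ '' A) = ∫ x in ρ '' A, x ∂((stdGaussian E).map ρ) := by
    rw [h]; rfl
  rw [h2, he.setIntegral_map, hpre, gaussMoment]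
  exact ρ.toContinuousLinearEquiv.toContinuousLinearMap.integral_comp_comm
    integrable_id_std.integrableOn

end Equivariance

section Statements

/-- Number of cells in the group `j`. -/
def groupSize {ι J : Type*} [Fintype ι] [DecidableEq J] (g : ι → J) (j : J) : ℕ :=
  (Finset.univ.filter (fun i => g i = j)).card

/-- Total first moment `s j` of the group `j` of cells. -/
noncomputable def groupMoment {ι J : Type*} [Fintype ι] [DecidableEq J] (A : ι → Set E) (g : ι → J)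
    (j : J) : E :=
  ∑ i with g i = j, gaussMoment (A i)

/-- For all partitions of `E` and all groupings of its cells: if each group has fewer than `n`
cells, or at most `n` cells and total moment zero, then `F² ≤ M (F + ∑ ‖s j‖²)`; and if each group
has at most `n` cells and total moment zero, then `F ≤ M`. -/
def GroupBound (E : Type*) [NormedAddCommGroup E] [InnerProductSpace ℝ E] [FiniteDimensional ℝ E]
    [MeasurableSpace E] [BorelSpace E] (n : ℕ) (M : ℝ) : Prop :=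
  ∀ (ι J : Type) [Fintype ι] [Fintype J] [DecidableEq J] (A : ι → Set E) (g : ι → J),
    IsMeasPartition A →
    ((∀ j, groupSize g j < n ∨ (groupSize g j ≤ n ∧ groupMoment A g j = 0)) →
      momentEnergy A ^ 2 ≤ M * (momentEnergy A + ∑ j, ‖groupMoment A g j‖ ^ 2)) ∧
    ((∀ j, groupSize g j ≤ n ∧ groupMoment A g j = 0) → momentEnergy A ≤ M)

/-- Partitions of `E` into orbits of three cells under `ρ` obey the bound `M`. -/
def OrbitBound {E : Type*} [NormedAddCommGroup E] [InnerProductSpace ℝ E] [FiniteDimensional ℝ E]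
    [MeasurableSpace E] [BorelSpace E] (ρ : E ≃ₗᵢ[ℝ] E) (M : ℝ) : Prop :=
  ∀ (J : Type) [Fintype J] [DecidableEq J] (B : J × Fin 3 → Set E), IsMeasPartition B →
    (∀ j, B (j, 1) = ρ '' B (j, 0) ∧ B (j, 2) = ρ '' B (j, 1)) → momentEnergy B ≤ M

lemma groupBound_of_Phi {n : ℕ} [NeZero n] {M : ℝ}
    (hΦ : ∀ a : Fin n → E, Phi a ≤ √M * √(∑ l, ‖a l‖ ^ 2)) (hM0 : 0 ≤ M) :
    GroupBound E n M := by
  intro ι J _ _ _ A g hA
  exact ⟨fun h => energy_sq_le_of_groups hΦ hM0 hA g h,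
    fun h => energy_le_of_groups hΦ hM0 hA g (fun j => (h j).1) (fun j => (h j).2)⟩

end Statements

end Vale.Agent.Lib.P226
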