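import Vale.Agent.Lib.P226.Tensor

/-!
Ehrhard's inequality for closed sets (in the generality due to Borell).
-/

open MeasureTheory ProbabilityTheory Real Set Filter Topology Metric

set_option linter.unusedSectionVars false

namespace Vale.Agent.Lib.P226

/-- The profile of the approximating functions. -/
noncomputable def prof (c r s : ℝ) : ℝ := if s < r then ncdf (c - s / (r - s)) else 0

lemma prof_nonneg (c r s : ℝ) : 0 ≤ prof c r s := by
  unfold prof
  split_ifs
  · exact ncdf_nonneg _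
  · exact le_rfl

lemma prof_le {c r s : ℝ} (hs : 0 ≤ s) : prof c r s ≤ ncdf c := by
  unfold prof
  split_ifs with h
  · apply strictMono_ncdf.monotone
    have : 0 ≤ s / (r - s) := div_nonneg hs (by linarith)
    linarith
  · exact ncdf_nonneg _

lemma prof_zero {c r : ℝ} (hr : 0 < r) : prof c r 0 = ncdf c := by
  simp [prof, hr]

lemma prof_of_le {c r s : ℝ} (h : r ≤ s) : prof c r s = 0 := by
  simp [prof, not_lt.mpr h]

lemma continuous_prof {c r : ℝ} (hr : 0 < r) : Continuous (prof c r) := by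
  rw [continuous_iff_continuousAt]
  intro s
  rcases lt_trichotomy s r with h | h | h
  · -- inside
    have h1 : ContinuousAt (fun s => ncdf (c - s / (r - s))) s := by
      apply continuous_ncdf.continuousAt.comp
      apply ContinuousAt.sub continuousAt_const
      exact continuousAt_id.div (continuousAt_const.sub continuousAt_id) (by
        have : 0 < r - s := by linarith
        exact this.ne')
    refine h1.congr ?_
    filter_upwards [Iio_mem_nhds h] with t ht
    simp [prof, mem_Iio.mp ht]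
  · -- the boundary
    subst h
    rw [Metric.continuousAt_iff]
    intro ε hε
    obtain ⟨L, hL⟩ : ∃ L, ncdf L < ε := (tendsto_ncdf_atBot.eventually (gt_mem_nhds hε)).exists
    set K : ℝ := max (c - L) 1 with hK
    have hKpos : 0 < K := lt_of_lt_of_le one_pos (le_max_right _ _)
    -- when `s/(r-s) ≥ K`
    refine ⟨s * (1 / (K + 1)) , by positivity, fun t ht => ?_⟩
    rw [prof_of_le le_rfl, dist_zero_right, Real.norm_eq_abs, abs_of_nonneg (prof_nonneg _ _ _)]
    by_cases hts : t < s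
    · have h0 : 0 < s - t := by linarith
      rw [prof, if_pos hts]
      have hd : s - t < s * (1 / (K + 1)) := by
        rw [Real.dist_eq, abs_lt] at ht
        linarith [ht.1]
      have hKt : K ≤ t / (s - t) := by
        rw [le_div_iff₀ h0]
        have h2 : (s - t) * (K + 1) < s := by
          have := mul_lt_mul_of_pos_right hd (show 0 < K + 1 by linarith)
          have e : s * (1 / (K + 1)) * (K + 1) = s := by
            field_simp
          linarith
        nlinarith
      have h3 : c - t / (s - t) ≤ L := by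
        have := le_max_left (c - L) 1
        linarith
      exact lt_of_le_of_lt (strictMono_ncdf.monotone h3) hL
    · rw [prof_of_le (not_lt.mp hts)]
      exact hε
  · -- outside
    have h1 : ContinuousAt (fun _ : ℝ => (0:ℝ)) s := continuousAt_const
    refine h1.congr ?_
    filter_upwards [Ioi_mem_nhds h] with t ht
    rw [prof_of_le (le_of_lt ht)]

/-- The convexity of the blowing up function. -/
lemma psi_convex {r s₁ s₂ θ : ℝ} (hr : 0 < r) (h₁ : s₁ < r) (h₂ : s₂ < r) (hθ0 : 0 < θ)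
    (hθ1 : θ < 1) :
    (θ * s₁ + (1 - θ) * s₂) / (r - (θ * s₁ + (1 - θ) * s₂))
      ≤ θ * (s₁ / (r - s₁)) + (1 - θ) * (s₂ / (r - s₂)) := by
  have hw₁ : 0 < r - s₁ := by linarith
  have hw₂ : 0 < r - s₂ := by linarith
  have hθ' : 0 < 1 - θ := by linarith
  have hw : 0 < r - (θ * s₁ + (1 - θ) * s₂) := by
    have : r - (θ * s₁ + (1 - θ) * s₂) = θ * (r - s₁) + (1 - θ) * (r - s₂) := by ring
    rw [this]
    positivity
  have e1 : ∀ s, s < r → s / (r - s) = r * (1 / (r - s)) - 1 := by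
    intro s hs
    have : r - s ≠ 0 := by linarith
    field_simp
    ring
  rw [e1 _ h₁, e1 _ h₂, e1 _ (show θ * s₁ + (1 - θ) * s₂ < r by linarith)]
  set w₁ := r - s₁ with hw₁d
  set w₂ := r - s₂ with hw₂d
  have ew : r - (θ * s₁ + (1 - θ) * s₂) = θ * w₁ + (1 - θ) * w₂ := by
    rw [hw₁d, hw₂d]
    ring
  rw [ew] at hw ⊢
  have key : 1 / (θ * w₁ + (1 - θ) * w₂) ≤ θ * (1 / w₁) + (1 - θ) * (1 / w₂) := by
    have e2 : θ * (1 / w₁) + (1 - θ) * (1 / w₂) = (θ * w₂ + (1 - θ) * w₁) / (w₁ * w₂) := by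
      field_simp
    rw [e2, div_le_div_iff₀ hw (by positivity)]
    have := mul_nonneg (mul_nonneg hθ0.le hθ'.le) (sq_nonneg (w₁ - w₂))
    nlinarith
  have := mul_le_mul_of_nonneg_left key hr.le
  nlinarith

/-- The profile satisfies the hypothesis of the functional inequality. -/
lemma prof_ehrM {c r s₁ s₂ s₃ θ : ℝ} (hr : 0 < r) (hs₃ : 0 ≤ s₃) (hθ0 : 0 < θ) (hθ1 : θ < 1)
    (hs : s₃ ≤ θ * s₁ + (1 - θ) * s₂) :
    ehrM θ (prof c r s₁) (prof c r s₂) ≤ prof c r s₃ := by
  by_cases h₁ : s₁ < r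
  · by_cases h₂ : s₂ < r
    · have hθ' : 0 < 1 - θ := by linarith
      have hm : θ * s₁ + (1 - θ) * s₂ < r := by
        have h3 : θ * s₁ < θ * r := mul_lt_mul_of_pos_left h₁ hθ0
        have h4 : (1 - θ) * s₂ < (1 - θ) * r := mul_lt_mul_of_pos_left h₂ hθ'
        linarith
      have h3 : s₃ < r := lt_of_le_of_lt hs hm
      rw [prof, if_pos h₁, prof, if_pos h₂, prof, if_pos h3, ehrM_ncdf]
      apply strictMono_ncdf.monotone
      have h4 := psi_convex hr h₁ h₂ hθ0 hθ1
      have h5 : s₃ / (r - s₃) ≤ (θ * s₁ + (1 - θ) * s₂) / (r - (θ * s₁ + (1 - θ) * s₂)) :=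
        div_le_div₀ (le_trans hs₃ hs) hs (by linarith) (by linarith)
      nlinarith
    · rw [prof_of_le (le_of_not_gt h₂), ehrM_of_right le_rfl]
      exact prof_nonneg _ _ _
  · rw [prof_of_le (le_of_not_gt h₁), ehrM_of_left le_rfl]
    exact prof_nonneg _ _ _

variable {E : Type*} [NormedAddCommGroup E] [InnerProductSpace ℝ E] [FiniteDimensional ℝ E]
  [MeasurableSpace E] [BorelSpace E]

/-- The approximating function of a compact set. -/
noncomputable def approx (n : ℕ) (K : Set E) (x : E) : ℝ :=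
  prof n (1 / ((n : ℝ) + 1)) (infDist x K)

lemma continuous_approx (n : ℕ) {K : Set E} : Continuous (approx n K) :=
  (continuous_prof (by positivity)).comp (continuous_infDist_pt K)

lemma approx_nonneg (n : ℕ) (K : Set E) (x : E) : 0 ≤ approx n K x := prof_nonneg _ _ _

lemma approx_le (n : ℕ) (K : Set E) (x : E) : approx n K x ≤ ncdf n :=
  prof_le infDist_nonneg

lemma approx_le_one (n : ℕ) (K : Set E) (x : E) : approx n K x ≤ 1 :=
  (approx_le n K x).trans (ncdf_le_one _)

lemma approx_compact (n : ℕ) {K : Set E} (hK : IsCompact K) (hne : K.Nonempty) :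
    HasCompactSupport (approx n K) := by
  have : ProperSpace E := FiniteDimensional.proper_real E
  obtain ⟨ρ, hρ⟩ := hK.isBounded.subset_closedBall (0 : E)
  refine HasCompactSupport.intro (isCompact_closedBall (0 : E) (ρ + 1 / ((n : ℝ) + 1))) ?_
  intro x hx
  apply prof_of_le
  by_contra hcon
  push Not at hcon
  obtain ⟨y, hy, hd⟩ := (infDist_lt_iff hne).mp hcon
  apply hx
  have h1 := hρ hy
  rw [mem_closedBall, dist_zero_right] at h1 ⊢
  have h2 : ‖x‖ ≤ ‖x - y‖ + ‖y‖ := by
    have := norm_add_le (x - y) y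
    rwa [sub_add_cancel] at this
  rw [dist_eq_norm] at hd
  linarith

/-- The Minkowski combination and the distance functions. -/
lemma infDist_combo_le {K₁ K₂ K₃ : Set E} {θ : ℝ} (hθ0 : 0 < θ) (hθ1 : θ < 1) (h₁ : IsCompact K₁)
    (h₂ : IsCompact K₂) (hne₁ : K₁.Nonempty) (hne₂ : K₂.Nonempty)
    (hsub : ∀ p ∈ K₁, ∀ q ∈ K₂, θ • p + (1 - θ) • q ∈ K₃) (x y : E) :
    infDist (θ • x + (1 - θ) • y) K₃ ≤ θ * infDist x K₁ + (1 - θ) * infDist y K₂ := by
  obtain ⟨p, hp, hpd⟩ := h₁.exists_infDist_eq_dist hne₁ x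
  obtain ⟨q, hq, hqd⟩ := h₂.exists_infDist_eq_dist hne₂ y
  rw [hpd, hqd]
  refine (infDist_le_dist_of_mem (hsub p hp q hq)).trans ?_
  rw [dist_eq_norm, dist_eq_norm, dist_eq_norm]
  have e : θ • x + (1 - θ) • y - (θ • p + (1 - θ) • q) = θ • (x - p) + (1 - θ) • (y - q) := by
    simp only [smul_sub]
    abel
  rw [e]
  refine (norm_add_le _ _).trans ?_
  rw [norm_smul, norm_smul, Real.norm_of_nonneg hθ0.le, Real.norm_of_nonneg (by linarith)]

lemma approx_ehrM {K₁ K₂ K₃ : Set E} {θ : ℝ} (hθ0 : 0 < θ) (hθ1 : θ < 1) (h₁ : IsCompact K₁)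
    (h₂ : IsCompact K₂) (hne₁ : K₁.Nonempty) (hne₂ : K₂.Nonempty)
    (hsub : ∀ p ∈ K₁, ∀ q ∈ K₂, θ • p + (1 - θ) • q ∈ K₃) (n : ℕ) (x y : E) :
    ehrM θ (approx n K₁ x) (approx n K₂ y) ≤ approx n K₃ (θ • x + (1 - θ) • y) :=
  prof_ehrM (by positivity) infDist_nonneg hθ0 hθ1
    (infDist_combo_le hθ0 hθ1 h₁ h₂ hne₁ hne₂ hsub x y)

/-- Vanishing of the approximating functions outside a closed set. -/
lemma approx_eventually_zero {D : Set E} (hD : IsClosed D) {K : ℕ → Set E} (hsub : ∀ n, K n ⊆ D)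
    (hne : ∀ n, (K n).Nonempty) {z : E} (hz : z ∉ D) : ∀ᶠ n in atTop, approx n (K n) z = 0 := by
  have hDne : D.Nonempty := (hne 0).mono (hsub 0)
  have hd : 0 < infDist z D := (hD.notMem_iff_infDist_pos hDne).mp hz
  have hlim : Tendsto (fun n : ℕ => 1 / ((n : ℝ) + 1)) atTop (𝓝 0) :=
    tendsto_one_div_add_atTop_nhds_zero_nat
  filter_upwards [hlim.eventually (gt_mem_nhds hd)] with n hn
  apply prof_of_le
  exact hn.le.trans (infDist_le_infDist_of_subset (hsub n) (hne n))

/-- Pointwise convergence of the approximating functions. -/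
lemma tendsto_approx {A : Set E} (hA : IsClosed A) {K : ℕ → Set E} (hsub : ∀ n, K n ⊆ A)
    (hne : ∀ n, (K n).Nonempty) (hall : ∀ x ∈ A, ∀ᶠ n in atTop, x ∈ K n) (x : E) :
    Tendsto (fun n => approx n (K n) x) atTop (𝓝 (A.indicator (fun _ => (1:ℝ)) x)) := by
  by_cases hx : x ∈ A
  · rw [indicator_of_mem hx]
    have h1 : Tendsto (fun n : ℕ => ncdf n) atTop (𝓝 1) :=
      tendsto_ncdf_atTop.comp tendsto_natCast_atTop_atTop
    refine h1.congr' ?_
    filter_upwards [hall x hx] with n hn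
    have h2 : infDist x (K n) = 0 := infDist_zero_of_mem hn
    simp only [approx, h2]
    rw [prof_zero (by positivity)]
  · rw [indicator_of_notMem hx]
    refine tendsto_const_nhds.congr' ?_
    filter_upwards [approx_eventually_zero hA hsub hne hx] with n hn
    exact hn.symm

lemma approx_integrable (n : ℕ) (K : Set E) (μ : Measure E) [IsProbabilityMeasure μ] :
    Integrable (approx n K) μ := by
  refine Integrable.of_bound (continuous_approx n).aestronglyMeasurable 1 (ae_of_all _ (fun x => ?_))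
  rw [Real.norm_eq_abs, abs_of_nonneg (approx_nonneg n K x)]
  exact approx_le_one n K x

lemma integral_approx_le (n : ℕ) (K : Set E) (μ : Measure E) [IsProbabilityMeasure μ] :
    ∫ x, approx n K x ∂μ ≤ ncdf n := by
  have h := integral_mono (approx_integrable n K μ) (integrable_const (ncdf n))
    (fun x => approx_le n K x)
  simpa using h

/-- Ehrhard's inequality for closed sets, after Borell. -/
theorem borell_closed {θ : ℝ} (hθ0 : 0 < θ) (hθ1 : θ < 1) {A B D : Set E} (hA : IsClosed A)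
    (hB : IsClosed B) (hD : IsClosed D) (hsub : ∀ x ∈ A, ∀ y ∈ B, θ • x + (1 - θ) • y ∈ D) {a b : ℝ}
    (ha : ncdf a ≤ (stdGaussian E).real A) (hb : ncdf b ≤ (stdGaussian E).real B) :
    ncdf (θ * a + (1 - θ) * b) ≤ (stdGaussian E).real D := by
  have : ProperSpace E := FiniteDimensional.proper_real E
  by_contra hcon
  push Not at hcon
  set γ := stdGaussian E with hγ
  -- nonemptiness
  obtain ⟨x₀, hx₀⟩ : A.Nonempty := by
    by_contra hno
    rw [not_nonempty_iff_eq_empty] at hno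
    rw [hno] at ha
    simp only [measureReal_empty] at ha
    linarith [ncdf_pos a]
  obtain ⟨y₀, hy₀⟩ : B.Nonempty := by
    by_contra hno
    rw [not_nonempty_iff_eq_empty] at hno
    rw [hno] at hb
    simp only [measureReal_empty] at hb
    linarith [ncdf_pos b]
  -- the compact sets
  set N₀ : ℝ := max ‖x₀‖ ‖y₀‖ with hN₀
  set K₁ : ℕ → Set E := fun n => A ∩ closedBall 0 (N₀ + n) with hK₁
  set K₂ : ℕ → Set E := fun n => B ∩ closedBall 0 (N₀ + n) with hK₂
  set K₃ : ℕ → Set E := fun n =>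
    (fun p : E × E => θ • p.1 + (1 - θ) • p.2) '' (K₁ n ×ˢ K₂ n) with hK₃
  have hK₁c : ∀ n, IsCompact (K₁ n) := fun n => (isCompact_closedBall _ _).inter_left hA
  have hK₂c : ∀ n, IsCompact (K₂ n) := fun n => (isCompact_closedBall _ _).inter_left hB
  have hK₃c : ∀ n, IsCompact (K₃ n) := fun n =>
    ((hK₁c n).prod (hK₂c n)).image (by fun_prop)
  have hN0 : ∀ n : ℕ, 0 ≤ (n : ℝ) := fun n => Nat.cast_nonneg n
  have hK₁ne : ∀ n, (K₁ n).Nonempty := fun n => ⟨x₀, hx₀, by
    rw [mem_closedBall, dist_zero_right]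
    linarith [le_max_left ‖x₀‖ ‖y₀‖, hN0 n]⟩
  have hK₂ne : ∀ n, (K₂ n).Nonempty := fun n => ⟨y₀, hy₀, by
    rw [mem_closedBall, dist_zero_right]
    linarith [le_max_right ‖x₀‖ ‖y₀‖, hN0 n]⟩
  have hK₃ne : ∀ n, (K₃ n).Nonempty := fun n =>
    ((hK₁ne n).prod (hK₂ne n)).image _
  have hK₃sub : ∀ n, K₃ n ⊆ D := by
    rintro n _ ⟨p, ⟨hp1, hp2⟩, rfl⟩
    exact hsub _ hp1.1 _ hp2.1
  have hcombo : ∀ n, ∀ p ∈ K₁ n, ∀ q ∈ K₂ n, θ • p + (1 - θ) • q ∈ K₃ n :=
    fun n p hp q hq => ⟨(p, q), ⟨hp, hq⟩, rfl⟩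
  have hevA : ∀ x ∈ A, ∀ᶠ n : ℕ in atTop, x ∈ K₁ n := by
    intro x hx
    filter_upwards [tendsto_natCast_atTop_atTop.eventually (eventually_ge_atTop (‖x‖ - N₀))]
      with n hn
    refine ⟨hx, ?_⟩
    rw [mem_closedBall, dist_zero_right]
    linarith
  have hevB : ∀ x ∈ B, ∀ᶠ n : ℕ in atTop, x ∈ K₂ n := by
    intro x hx
    filter_upwards [tendsto_natCast_atTop_atTop.eventually (eventually_ge_atTop (‖x‖ - N₀))]
      with n hn
    refine ⟨hx, ?_⟩
    rw [mem_closedBall, dist_zero_right]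
    linarith
  -- the functional inequality
  have hP : ∀ n : ℕ, ehrM θ (∫ x, approx n (K₁ n) x ∂γ) (∫ x, approx n (K₂ n) x ∂γ)
      ≤ ∫ x, approx n (K₃ n) x ∂γ := by
    intro n
    have hη0 : 0 < 1 - ncdf n := by linarith [ncdf_lt_one (n : ℝ)]
    have hη1 : 1 - ncdf n < 1 := by linarith [ncdf_pos (n : ℝ)]
    have hle : ∀ (K : Set E) (x : E), approx n K x ≤ 1 - (1 - ncdf n) := by
      intro K x
      have := approx_le n K x
      linarith
    exact ehrProp_E hθ0 hθ1 hη0 hη1 _ _ _ (continuous_approx n)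
      (approx_compact n (hK₁c n) (hK₁ne n)) (approx_nonneg n _) (hle _)
      (continuous_approx n) (approx_compact n (hK₂c n) (hK₂ne n)) (approx_nonneg n _) (hle _)
      (continuous_approx n) (approx_compact n (hK₃c n) (hK₃ne n)) (approx_nonneg n _)
      (fun x y => approx_ehrM hθ0 hθ1 (hK₁c n) (hK₂c n) (hK₁ne n) (hK₂ne n) (hcombo n) n x y)
  -- the limits
  have hnormle : ∀ (n : ℕ) (K : Set E) (x : E), ‖approx n K x‖ ≤ 1 := by
    intro n K x
    rw [Real.norm_eq_abs, abs_of_nonneg (approx_nonneg n K x)]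
    exact approx_le_one n K x
  have hlim : ∀ {S : Set E} {K : ℕ → Set E}, IsClosed S → (∀ n, K n ⊆ S) → (∀ n, (K n).Nonempty) →
      (∀ x ∈ S, ∀ᶠ n : ℕ in atTop, x ∈ K n) →
      Tendsto (fun n => ∫ x, approx n (K n) x ∂γ) atTop (𝓝 (γ.real S)) := by
    intro S K hS hsubS hneS hallS
    have h1 := tendsto_integral_of_dominated_convergence (μ := γ)
      (F := fun n x => approx n (K n) x) (f := S.indicator (fun _ => (1:ℝ))) (fun _ => 1)
      (fun n => (continuous_approx n).aestronglyMeasurable) (integrable_const 1)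
      (fun n => ae_of_all _ (fun x => hnormle n _ x))
      (ae_of_all _ (fun x => tendsto_approx hS hsubS hneS hallS x))
    rw [integral_indicator_const _ hS.measurableSet] at h1
    simpa using h1
  have hIA := hlim hA (fun n => inter_subset_left) hK₁ne hevA
  have hIB := hlim hB (fun n => inter_subset_left) hK₂ne hevB
  have hID : Tendsto (fun n => ∫ x in Dᶜ, approx n (K₃ n) x ∂γ) atTop (𝓝 0) := by
    have h1 := tendsto_integral_of_dominated_convergence (μ := γ.restrict Dᶜ)
      (F := fun n x => approx n (K₃ n) x) (f := fun _ => (0:ℝ)) (fun _ => 1)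
      (fun n => (continuous_approx n).aestronglyMeasurable) (integrable_const 1)
      (fun n => ae_of_all _ (fun x => hnormle n _ x))
      ((ae_restrict_iff' hD.measurableSet.compl).mpr (ae_of_all _ (fun x hx => by
        refine tendsto_const_nhds.congr' ?_
        filter_upwards [approx_eventually_zero hD hK₃sub hK₃ne hx] with n hn
        exact hn.symm)))
    simpa using h1
  have hupper : ∀ n : ℕ, ∫ x, approx n (K₃ n) x ∂γ
      ≤ γ.real D + ∫ x in Dᶜ, approx n (K₃ n) x ∂γ := by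
    intro n
    have h1 := integral_add_compl hD.measurableSet (approx_integrable n (K₃ n) γ)
    have h2 : ∫ x in D, approx n (K₃ n) x ∂γ ≤ ∫ _x in D, (1:ℝ) ∂γ :=
      integral_mono (approx_integrable n (K₃ n) γ).integrableOn (integrable_const 1)
        (fun x => approx_le_one n _ x)
    have h3 : ∫ _x in D, (1:ℝ) ∂γ = γ.real D := by simp
    linarith
  -- the choice of a smaller level
  set x₁ : ℝ := θ * a + (1 - θ) * b with hx₁
  obtain ⟨τ, hτ, hτ2⟩ : ∃ τ, 0 < τ ∧ γ.real D < ncdf (x₁ - τ) := by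
    have h1 := (continuous_ncdf.continuousAt (x := x₁)).eventually (lt_mem_nhds hcon)
    obtain ⟨δ, hδ, hd⟩ := Metric.eventually_nhds_iff.mp h1
    refine ⟨δ / 2, by positivity, hd ?_⟩
    rw [Real.dist_eq, abs_lt]
    constructor <;> linarith
  have hevn := ((hIA.eventually (lt_mem_nhds (lt_of_lt_of_le (strictMono_ncdf
    (show a - τ < a by linarith)) ha))).and (hIB.eventually (lt_mem_nhds (lt_of_lt_of_le
    (strictMono_ncdf (show b - τ < b by linarith)) hb)))).and
    (hID.eventually (gt_mem_nhds (show 0 < ncdf (x₁ - τ) - γ.real D by linarith)))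
  obtain ⟨n, ⟨h1, h2⟩, h3⟩ := hevn.exists
  have h4 := hP n
  have h5 : ehrM θ (ncdf (a - τ)) (ncdf (b - τ))
      ≤ ehrM θ (∫ x, approx n (K₁ n) x ∂γ) (∫ x, approx n (K₂ n) x ∂γ) :=
    ehrM_mono hθ0.le hθ1.le h1.le h2.le
      (lt_of_le_of_lt (integral_approx_le n _ γ) (ncdf_lt_one _))
      (lt_of_le_of_lt (integral_approx_le n _ γ) (ncdf_lt_one _))
  have h6 : ehrM θ (ncdf (a - τ)) (ncdf (b - τ)) = ncdf (x₁ - τ) := by
    rw [ehrM_ncdf, hx₁]
    congr 1
    ring
  rw [h6] at h5
  linarith [hupper n]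

end Vale.Agent.Lib.P226
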