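import Mathlib

/-!
The standard normal density and distribution function.
-/

open MeasureTheory ProbabilityTheory Real Set
open scoped ENNReal NNReal

namespace Vale.Agent.Lib.P226

/-- The standard normal density. -/
noncomputable def npdf (x : ℝ) : ℝ := (√(2 * π))⁻¹ * rexp (-x ^ 2 / 2)

/-- The standard normal distribution function. -/
noncomputable def ncdf (x : ℝ) : ℝ := (gaussianReal 0 1).real (Iic x)

lemma npdf_eq (x : ℝ) : npdf x = gaussianPDFReal 0 1 x := by
  simp [npdf, gaussianPDFReal]

lemma npdf_pos (x : ℝ) : 0 < npdf x := by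
  unfold npdf; positivity

lemma continuous_npdf : Continuous npdf := by
  unfold npdf; fun_prop

lemma npdf_neg (x : ℝ) : npdf (-x) = npdf x := by
  simp [npdf]

lemma hasDerivAt_npdf (x : ℝ) : HasDerivAt npdf (-x * npdf x) x := by
  have h0 : HasDerivAt (fun x : ℝ => -x ^ 2 / 2) (-x) x := by
    have h : HasDerivAt (fun x : ℝ => x ^ 2) (2 * x) x := by
      simpa using hasDerivAt_pow 2 x
    have h2 := (h.neg).div_const 2
    have e : -(2 * x) / 2 = -x := by ring
    rw [e] at h2
    exact h2
  have h2 := (h0.exp).const_mul ((√(2 * π))⁻¹)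
  have e : (√(2 * π))⁻¹ * (rexp (-x ^ 2 / 2) * -x) = -x * npdf x := by
    unfold npdf; ring
  rw [e] at h2
  exact h2

lemma integrable_npdf : Integrable npdf := by
  have h := integrable_gaussianPDFReal 0 1
  exact h.congr (Filter.Eventually.of_forall (fun x => (npdf_eq x).symm))

lemma ncdf_eq_integral (x : ℝ) : ncdf x = ∫ t in Iic x, npdf t := by
  unfold ncdf
  rw [measureReal_def, gaussianReal_apply_eq_integral 0 (by simp),
    ENNReal.toReal_ofReal (integral_nonneg (fun t => gaussianPDFReal_nonneg 0 1 t))]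
  simp only [npdf_eq]

lemma ncdf_sub (x y : ℝ) : ncdf x - ncdf y = ∫ t in y..x, npdf t := by
  have h1 : ∀ a b : ℝ, a ≤ b → ncdf b - ncdf a = ∫ t in a..b, npdf t := by
    intro a b hab
    rw [ncdf_eq_integral, ncdf_eq_integral, intervalIntegral.integral_of_le hab]
    have hu : Iic b = Iic a ∪ Ioc a b := (Iic_union_Ioc_eq_Iic hab).symm
    rw [hu, setIntegral_union (Iic_disjoint_Ioc le_rfl) measurableSet_Ioc
      integrable_npdf.integrableOn integrable_npdf.integrableOn]
    ring
  rcases le_total y x with h | h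
  · exact h1 y x h
  · rw [intervalIntegral.integral_symm, ← h1 x y h]
    ring

lemma hasDerivAt_ncdf (x : ℝ) : HasDerivAt ncdf (npdf x) x := by
  have h1 : ncdf = fun z => ncdf 0 + ∫ t in (0:ℝ)..z, npdf t := by
    ext z
    rw [← ncdf_sub]
    ring
  rw [h1]
  have h2 := intervalIntegral.integral_hasDerivAt_right (f := npdf) (a := 0) (b := x)
    (continuous_npdf.intervalIntegrable _ _)
    (continuous_npdf.stronglyMeasurableAtFilter _ _) continuous_npdf.continuousAt
  exact h2.const_add _

lemma continuous_ncdf : Continuous ncdf :=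
  continuous_iff_continuousAt.mpr (fun x => (hasDerivAt_ncdf x).continuousAt)

lemma strictMono_ncdf : StrictMono ncdf := by
  apply strictMono_of_deriv_pos
  intro x
  rw [(hasDerivAt_ncdf x).deriv]
  exact npdf_pos x

lemma ncdf_nonneg (x : ℝ) : 0 ≤ ncdf x := measureReal_nonneg

lemma ncdf_le_one (x : ℝ) : ncdf x ≤ 1 := measureReal_le_one

lemma ncdf_pos (x : ℝ) : 0 < ncdf x := by
  have h := strictMono_ncdf (show x - 1 < x by linarith)
  have h2 := ncdf_nonneg (x - 1)
  linarith

lemma ncdf_lt_one (x : ℝ) : ncdf x < 1 := by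
  have h := strictMono_ncdf (show x < x + 1 by linarith)
  have h2 := ncdf_le_one (x + 1)
  linarith

lemma ncdf_neg (x : ℝ) : ncdf (-x) = 1 - ncdf x := by
  have hn : (gaussianReal (0:ℝ) 1).map (fun y => -y) = gaussianReal 0 1 := by
    rw [gaussianReal_map_neg]; simp
  have h1 : ncdf (-x) = (gaussianReal (0:ℝ) 1).real (Ici x) := by
    unfold ncdf
    conv_lhs => rw [← hn]
    rw [map_measureReal_apply (by fun_prop) measurableSet_Iic]
    congr 1
    ext y
    simp
  have hat : NullSingletonClass (gaussianReal (0:ℝ) 1) :=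
    nullSingletonClass_gaussianReal (μ := 0) (v := 1) (by simp)
  have h2 : (gaussianReal (0:ℝ) 1).real (Ici x) = 1 - (gaussianReal (0:ℝ) 1).real (Iic x) := by
    have h3 : (gaussianReal (0:ℝ) 1).real (Ici x) = (gaussianReal (0:ℝ) 1).real (Ioi x) :=
      measureReal_congr Ioi_ae_eq_Ici.symm
    rw [h3, ← compl_Iic, probReal_compl_eq_one_sub measurableSet_Iic]
  rw [h1, h2]
  rfl

lemma ncdf_zero : ncdf 0 = 1 / 2 := by
  have h := ncdf_neg 0
  simp only [neg_zero] at h
  linarith

lemma tendsto_ncdf_atBot : Filter.Tendsto ncdf Filter.atBot (nhds 0) := by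
  have h := tendsto_cdf_atBot (gaussianReal (0:ℝ) 1)
  refine h.congr (fun x => ?_)
  rw [cdf_eq_real]
  rfl

lemma tendsto_ncdf_atTop : Filter.Tendsto ncdf Filter.atTop (nhds 1) := by
  have h := tendsto_cdf_atTop (gaussianReal (0:ℝ) 1)
  refine h.congr (fun x => ?_)
  rw [cdf_eq_real]
  rfl

/-- Every value in `(0,1)` is attained by the normal distribution function. -/
lemma exists_ncdf_eq {a : ℝ} (h0 : 0 < a) (h1 : a < 1) : ∃ α, ncdf α = a := by
  have hlo : ∃ x, ncdf x < a := by
    have := (tendsto_ncdf_atBot.eventually (gt_mem_nhds h0)).exists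
    exact this
  have hhi : ∃ x, a < ncdf x := by
    have := (tendsto_ncdf_atTop.eventually (lt_mem_nhds h1)).exists
    exact this
  obtain ⟨x, hx⟩ := hlo
  obtain ⟨y, hy⟩ := hhi
  have hc := mem_range_of_exists_le_of_exists_ge continuous_ncdf ⟨x, hx.le⟩ ⟨y, hy.le⟩
  exact hc

/-- The antiderivative `G(s) = s Φ(s) + φ(s)` of `Φ`. -/
noncomputable def ngrand (s : ℝ) : ℝ := s * ncdf s + npdf s

lemma hasDerivAt_ngrand (s : ℝ) : HasDerivAt ngrand (ncdf s) s := by
  have h := ((hasDerivAt_id s).mul (hasDerivAt_ncdf s)).add (hasDerivAt_npdf s)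
  have e : 1 * ncdf s + id s * npdf s + -s * npdf s = ncdf s := by
    simp only [id]; ring
  rw [e] at h
  exact h

/-- `E (Y + s)₊ = s Φ(s) + φ(s)` for a standard Gaussian `Y`. -/
lemma integral_max_add (s : ℝ) :
    ∫ y, max (y + s) 0 ∂(gaussianReal 0 1) = ngrand s := by
  -- the integrand on the half line
  have hint0 : Integrable (fun y : ℝ => y * npdf y) := by
    have h3 := integrable_mul_exp_neg_mul_sq (b := 1/2) (by norm_num)
    have h4 := h3.const_mul ((√(2 * π))⁻¹)
    refine h4.congr (Filter.Eventually.of_forall (fun x => ?_))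
    have : -(1 / 2 : ℝ) * x ^ 2 = -x ^ 2 / 2 := by ring
    simp only [npdf, this]
    ring
  have hint : Integrable (fun y : ℝ => (y + s) * npdf y) := by
    have := hint0.add (integrable_npdf.const_mul s)
    refine this.congr (Filter.Eventually.of_forall (fun x => ?_))
    simp only [Pi.add_apply]
    ring
  rw [integral_gaussianReal_eq_integral_smul (by simp)]
  have h1 : (fun x : ℝ => gaussianPDFReal 0 1 x • max (x + s) 0)
      = fun x => (Ioi (-s)).indicator (fun x => (x + s) * npdf x) x := by
    ext x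
    by_cases hx : -s < x
    · have : 0 < x + s := by linarith
      rw [indicator_of_mem (mem_Ioi.mpr hx), max_eq_left this.le, npdf_eq, smul_eq_mul]
      ring
    · have : x + s ≤ 0 := by
        have := not_lt.mp hx
        linarith
      rw [indicator_of_notMem (by simpa using hx), max_eq_right this]
      simp
  rw [h1, integral_indicator measurableSet_Ioi]
  have hderiv : ∀ x ∈ Ici (-s), HasDerivAt (fun x : ℝ => s * ncdf x - npdf x)
      ((x + s) * npdf x) x := by
    intro x _
    have h := ((hasDerivAt_ncdf x).const_mul s).sub (hasDerivAt_npdf x)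
    have e : s * npdf x - -x * npdf x = (x + s) * npdf x := by ring
    rw [e] at h
    exact h
  have htop : Filter.Tendsto (fun x : ℝ => s * ncdf x - npdf x) Filter.atTop (nhds (s * 1 - 0)) := by
    refine (tendsto_ncdf_atTop.const_mul s).sub ?_
    have h5 : Filter.Tendsto (fun x : ℝ => rexp (-x ^ 2 / 2)) Filter.atTop (nhds 0) := by
      apply Real.tendsto_exp_atBot.comp
      have : (fun x : ℝ => -x ^ 2 / 2) = fun x : ℝ => -(1 / 2 : ℝ) * x ^ 2 := by
        ext x; ring
      rw [this]
      exact (Filter.tendsto_pow_atTop (two_ne_zero)).const_mul_atTop_of_neg (by norm_num)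
    have h6 := h5.const_mul ((√(2 * π))⁻¹)
    rw [mul_zero] at h6
    exact h6
  have := integral_Ioi_of_hasDerivAt_of_tendsto' hderiv hint.integrableOn htop
  rw [this]
  have h7 := ncdf_neg s
  have h8 : npdf (-s) = npdf s := npdf_neg s
  rw [h7, h8]
  unfold ngrand
  ring

lemma ngrand_nonneg (s : ℝ) : 0 ≤ ngrand s := by
  rw [← integral_max_add]
  exact integral_nonneg (fun y => le_max_right _ _)

lemma ngrand_le (s : ℝ) (hs : s < 0) : ngrand s ≤ 1 / (4 * (-s)) := by
  rw [← integral_max_add]
  have hm : Integrable (fun y : ℝ => y ^ 2) (gaussianReal 0 1) :=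
    (memLp_id_gaussianReal 2).integrable_sq
  have hmax : Integrable (fun y : ℝ => max (y + s) 0) (gaussianReal 0 1) := by
    have h1 : Integrable (fun y : ℝ => y + s) (gaussianReal 0 1) :=
      (memLp_id_gaussianReal 1).integrable (by norm_num) |>.add (integrable_const s)
    exact h1.sup (integrable_zero _ _ _)
  have hpt : ∀ y : ℝ, max (y + s) 0 ≤ (1 / (4 * (-s))) * y ^ 2 := by
    intro y
    have hsp : 0 < -s := by linarith
    have h0 : 0 ≤ (1 / (4 * (-s))) * y ^ 2 := by positivity
    refine max_le ?_ h0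
    have hne : s ≠ 0 := ne_of_lt hs
    have : (1 / (4 * (-s))) * y ^ 2 - (y + s) = (y + 2 * s) ^ 2 / (4 * (-s)) := by
      field_simp
      ring
    have h2 : 0 ≤ (y + 2 * s) ^ 2 / (4 * (-s)) := by positivity
    linarith
  have h := integral_mono hmax (hm.const_mul _) hpt
  have h2 : ∫ y, y ^ 2 ∂(gaussianReal (0:ℝ) 1) = 1 := by
    have h3 := variance_fun_id_gaussianReal (μ := 0) (v := 1)
    rw [variance_eq_integral (by fun_prop)] at h3
    simpa [integral_id_gaussianReal] using h3
  rw [integral_const_mul, h2, mul_one] at h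
  exact h

lemma tendsto_ngrand_atBot : Filter.Tendsto ngrand Filter.atBot (nhds 0) := by
  have hup : Filter.Tendsto (fun s : ℝ => 1 / (4 * (-s))) Filter.atBot (nhds 0) := by
    have h1 : Filter.Tendsto (fun s : ℝ => 4 * (-s)) Filter.atBot Filter.atTop :=
      (Filter.tendsto_neg_atBot_atTop).const_mul_atTop (by norm_num)
    have h2 := h1.inv_tendsto_atTop
    refine h2.congr (fun s => ?_)
    simp only [Pi.inv_apply, one_div]
  refine tendsto_of_tendsto_of_tendsto_of_le_of_le' tendsto_const_nhds hup
    (Filter.Eventually.of_forall ngrand_nonneg) ?_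
  filter_upwards [Filter.eventually_lt_atBot (0:ℝ)] with s hs
  exact ngrand_le s hs

/-- `∫₀^∞ Φ(α - c t) dt = G(α) / c`. -/
lemma integral_ncdf_Ioi (α : ℝ) {c : ℝ} (hc : 0 < c) :
    IntegrableOn (fun t => ncdf (α - c * t)) (Ioi 0) ∧
      ∫ t in Ioi (0:ℝ), ncdf (α - c * t) = ngrand α / c := by
  set F : ℝ → ℝ := fun t => -(ngrand (α - c * t) / c) with hF
  have hderiv : ∀ t ∈ Ici (0:ℝ), HasDerivAt F (ncdf (α - c * t)) t := by
    intro t _
    have h1 : HasDerivAt (fun t : ℝ => α - c * t) (-c) t := by
      have := ((hasDerivAt_id t).const_mul c).const_sub α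
      simpa using this
    have h2 := (hasDerivAt_ngrand (α - c * t)).comp t h1
    have h3 := (h2.div_const c).neg
    have e : -(ncdf (α - c * t) * -c / c) = ncdf (α - c * t) := by
      field_simp
    rw [e] at h3
    exact h3
  have htop : Filter.Tendsto F Filter.atTop (nhds 0) := by
    have h1 : Filter.Tendsto (fun t : ℝ => α - c * t) Filter.atTop Filter.atBot := by
      have h2 : Filter.Tendsto (fun t : ℝ => c * t) Filter.atTop Filter.atTop :=
        Filter.tendsto_id.const_mul_atTop hc
      have h3 := Filter.tendsto_neg_atTop_atBot.comp h2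
      have h4 := h3.atBot_add (tendsto_const_nhds (x := α))
      refine h4.congr (fun t => ?_)
      simp only [Function.comp]
      ring
    have h5 := (tendsto_ngrand_atBot.comp h1).div_const c
    have h6 := h5.neg
    simpa [hF] using h6
  have hint : IntegrableOn (fun t => ncdf (α - c * t)) (Ioi 0) :=
    integrableOn_Ioi_deriv_of_nonneg' hderiv (fun t _ => ncdf_nonneg _) htop
  refine ⟨hint, ?_⟩
  have := integral_Ioi_of_hasDerivAt_of_tendsto' hderiv hint htop
  rw [this]
  simp [hF]

/-- The first moment on an upper half line, in the form used for the bathtub bound: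
for every measurable set of the line `E (Y + s)₊` dominates `∫_A Y + s ∗ mass`. -/
lemma ngrand_eq (α : ℝ) : ngrand α = α * ncdf α + npdf α := rfl

end Vale.Agent.Lib.P226
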