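import Vale.Agent.Lib.P226.Gauss

/-!
The translation formula for the standard Gaussian measure (Cameron-Martin in finite dimension).
-/

open MeasureTheory ProbabilityTheory Real Set Complex
open scoped RealInnerProductSpace ENNReal NNReal

namespace Vale.Agent.Lib.P226

variable {E : Type*} [NormedAddCommGroup E] [InnerProductSpace ℝ E] [FiniteDimensional ℝ E]
  [MeasurableSpace E] [BorelSpace E]

/-- The density of the translated Gaussian measure. -/
noncomputable def shiftDens (s y : E) : ℝ := rexp (⟪s, y⟫ - ‖s‖ ^ 2 / 2)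

lemma shiftDens_pos (s y : E) : 0 < shiftDens s y := Real.exp_pos _

lemma measurable_shiftDens (s : E) : Measurable (shiftDens s) :=
  (((continuous_const.inner continuous_id).sub continuous_const).rexp).measurable

lemma integrable_shiftDens (s : E) : Integrable (shiftDens s) (stdGaussian E) := by
  have h := (integrable_exp_inner_std s).const_mul (rexp (-(‖s‖ ^ 2 / 2)))
  refine h.congr (Filter.Eventually.of_forall (fun y => ?_))
  simp only [shiftDens]
  rw [sub_eq_add_neg, Real.exp_add]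
  ring

lemma integral_shiftDens (s : E) : ∫ y, shiftDens s y ∂(stdGaussian E) = 1 := by
  have h : ∀ y, shiftDens s y = rexp (-(‖s‖ ^ 2 / 2)) * rexp ⟪s, y⟫ := by
    intro y
    simp only [shiftDens]
    rw [sub_eq_add_neg, Real.exp_add]
    ring
  simp_rw [h]
  rw [integral_const_mul, integral_exp_inner_std, ← Real.exp_add]
  simp

/-- The integral of the complex exponential of a linear form against the standard Gaussian. -/
lemma integral_cexp_inner (s t : E) :
    ∫ y, cexp ((⟪s, y⟫ : ℂ) + (⟪y, t⟫ : ℂ) * I) ∂(stdGaussian E)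
      = cexp (((‖s‖ ^ 2 - ‖t‖ ^ 2) / 2 : ℝ) + (⟪s, t⟫ : ℂ) * I) := by
  set b := stdOrthonormalBasis ℝ E with hb
  have hm : Measurable (fun x : Fin (Module.finrank ℝ E) → ℝ => ∑ i, x i • b i) := by fun_prop
  rw [stdGaussian, integral_map hm.aemeasurable (Measurable.aestronglyMeasurable (by fun_prop))]
  have hpt : ∀ x : Fin (Module.finrank ℝ E) → ℝ,
      cexp ((⟪s, ∑ i, x i • b i⟫ : ℂ) + (⟪∑ i, x i • b i, t⟫ : ℂ) * I)
        = ∏ i, cexp (((⟪s, b i⟫ : ℂ) + (⟪b i, t⟫ : ℂ) * I) * (x i : ℂ)) := by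
    intro x
    rw [← Complex.exp_sum]
    congr 1
    rw [inner_sum, sum_inner]
    simp only [inner_smul_right, inner_smul_left, conj_trivial]
    push_cast
    rw [Finset.sum_mul, ← Finset.sum_add_distrib]
    refine Finset.sum_congr rfl (fun i _ => ?_)
    ring
  simp_rw [hpt]
  rw [integral_fintype_prod_eq_prod (𝕜 := ℂ)
    (f := fun i (c : ℝ) => cexp (((⟪s, b i⟫ : ℂ) + (⟪b i, t⟫ : ℂ) * I) * (c : ℂ)))]
  have h1 : ∀ i, ∫ c : ℝ, cexp (((⟪s, b i⟫ : ℂ) + (⟪b i, t⟫ : ℂ) * I) * (c : ℂ))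
      ∂(gaussianReal 0 1) = cexp (((⟪s, b i⟫ : ℂ) + (⟪b i, t⟫ : ℂ) * I) ^ 2 / 2) := by
    intro i
    have h2 := complexMGF_id_gaussianReal (μ := 0) (v := 1)
      ((⟪s, b i⟫ : ℂ) + (⟪b i, t⟫ : ℂ) * I)
    simp only [complexMGF, id] at h2
    rw [h2]
    simp
  simp_rw [h1]
  rw [← Complex.exp_sum]
  congr 1
  have hs : ∑ i, ⟪s, b i⟫ ^ 2 = ‖s‖ ^ 2 := by
    simp_rw [real_inner_comm (b _) s]
    exact b.sum_sq_inner_right s
  have ht : ∑ i, ⟪b i, t⟫ ^ 2 = ‖t‖ ^ 2 := by
    exact b.sum_sq_inner_right t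
  have hst : ∑ i, ⟪s, b i⟫ * ⟪b i, t⟫ = ⟪s, t⟫ := by
    have := b.sum_inner_mul_inner s t
    simpa using this
  have hs' : ∑ i, ((⟪s, b i⟫ : ℝ) : ℂ) ^ 2 = ((‖s‖ ^ 2 : ℝ) : ℂ) := by
    rw [← hs]; push_cast; rfl
  have ht' : ∑ i, ((⟪b i, t⟫ : ℝ) : ℂ) ^ 2 = ((‖t‖ ^ 2 : ℝ) : ℂ) := by
    rw [← ht]; push_cast; rfl
  have hst' : ∑ i, ((⟪s, b i⟫ : ℝ) : ℂ) * ((⟪b i, t⟫ : ℝ) : ℂ) = ((⟪s, t⟫ : ℝ) : ℂ) := by
    rw [← hst]; push_cast; rfl
  have hexp : ∀ i, (((⟪s, b i⟫ : ℂ) + (⟪b i, t⟫ : ℂ) * I) ^ 2 / 2)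
      = ((⟪s, b i⟫ : ℂ) ^ 2 - (⟪b i, t⟫ : ℂ) ^ 2) / 2
        + (⟪s, b i⟫ : ℂ) * (⟪b i, t⟫ : ℂ) * I := by
    intro i
    have hI : I ^ 2 = -1 := Complex.I_sq
    ring_nf
    rw [hI]
    ring
  simp_rw [hexp]
  rw [Finset.sum_add_distrib, ← Finset.sum_div, Finset.sum_sub_distrib, hs', ht',
    ← Finset.sum_mul, hst']
  push_cast
  ring

/-- Translating the Gaussian measure multiplies it by the Cameron-Martin density. -/
theorem map_add_eq_withDensity (s : E) :
    (stdGaussian E).map (fun x => x + s)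
      = (stdGaussian E).withDensity (fun y => ENNReal.ofReal (shiftDens s y)) := by
  have hm : Measurable (fun x : E => x + s) := by fun_prop
  have hfin : IsFiniteMeasure ((stdGaussian E).withDensity
      (fun y => ENNReal.ofReal (shiftDens s y))) :=
    isFiniteMeasure_withDensity_ofReal (integrable_shiftDens s).2
  have hmap : IsProbabilityMeasure ((stdGaussian E).map (fun x => x + s)) :=
    Measure.isProbabilityMeasure_map hm.aemeasurable
  apply Measure.ext_of_charFun
  ext t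
  have hL : charFun ((stdGaussian E).map (fun x => x + s)) t
      = cexp (-‖t‖ ^ 2 / 2) * cexp ((⟪s, t⟫ : ℂ) * I) := by
    rw [charFun_apply, integral_map hm.aemeasurable (Measurable.aestronglyMeasurable (by fun_prop))]
    have h1 : ∀ x : E, cexp ((⟪x + s, t⟫ : ℂ) * I)
        = cexp ((⟪x, t⟫ : ℂ) * I) * cexp ((⟪s, t⟫ : ℂ) * I) := by
      intro x
      rw [← Complex.exp_add, inner_add_left]
      push_cast
      ring_nf
    simp_rw [h1]
    rw [integral_mul_const, ← charFun_apply, charFun_stdGaussian]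
  have hR : charFun ((stdGaussian E).withDensity (fun y => ENNReal.ofReal (shiftDens s y))) t
      = cexp (-‖t‖ ^ 2 / 2) * cexp ((⟪s, t⟫ : ℂ) * I) := by
    rw [charFun_apply, integral_withDensity_eq_integral_toReal_smul₀
      (measurable_shiftDens s).ennreal_ofReal.aemeasurable
      (Filter.Eventually.of_forall (fun y => ENNReal.ofReal_lt_top))]
    have h1 : ∀ y : E, (ENNReal.ofReal (shiftDens s y)).toReal • cexp ((⟪y, t⟫ : ℂ) * I)
        = cexp ((-(‖s‖ ^ 2 / 2) : ℝ)) * cexp ((⟪s, y⟫ : ℂ) + (⟪y, t⟫ : ℂ) * I) := by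
      intro y
      rw [ENNReal.toReal_ofReal (shiftDens_pos s y).le, Complex.real_smul, shiftDens,
        ← Complex.exp_add]
      rw [Complex.ofReal_exp, ← Complex.exp_add]
      congr 1
      push_cast
      ring
    simp_rw [h1]
    rw [integral_const_mul, integral_cexp_inner, ← Complex.exp_add, ← Complex.exp_add]
    congr 1
    push_cast
    ring
  rw [hL, hR]

/-- Real form of the translation formula. -/
theorem real_preimage_add (s : E) {S : Set E} (hS : MeasurableSet S) :
    (stdGaussian E).real {x | x + s ∈ S} = ∫ y in S, shiftDens s y ∂(stdGaussian E) := by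
  have hm : Measurable (fun x : E => x + s) := by fun_prop
  have h1 : (stdGaussian E) {x | x + s ∈ S} = ∫⁻ y in S, ENNReal.ofReal (shiftDens s y)
      ∂(stdGaussian E) := by
    have h2 : {x | x + s ∈ S} = (fun x : E => x + s) ⁻¹' S := rfl
    rw [h2, ← Measure.map_apply hm hS, map_add_eq_withDensity, withDensity_apply _ hS]
  rw [measureReal_def, h1, ← ofReal_integral_eq_lintegral_ofReal
    (integrable_shiftDens s).integrableOn (Filter.Eventually.of_forall
      (fun y => (shiftDens_pos s y).le)), ENNReal.toReal_ofReal]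
  exact integral_nonneg (fun y => (shiftDens_pos s y).le)

/-- A translate of a null set is null. -/
lemma real_preimage_add_eq_zero (s : E) {S : Set E} (hS : MeasurableSet S)
    (h0 : (stdGaussian E).real S = 0) : (stdGaussian E).real {x | x + s ∈ S} = 0 := by
  rw [real_preimage_add s hS]
  have h2 : (stdGaussian E) S = 0 := by
    rw [measureReal_def, ENNReal.toReal_eq_zero_iff] at h0
    rcases h0 with h | h
    · exact h
    · exact absurd h (measure_ne_top _ _)
  exact setIntegral_measure_zero _ h2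

end Vale.Agent.Lib.P226
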