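import Vale.Agent.Lib.P226.Structure
import Vale.Agent.Lib.P226.Shift
import Vale.Agent.Lib.P226.Normal

/-!
Closed cells of a configuration with pairwise obtuse vectors, dual vectors.
-/

open MeasureTheory ProbabilityTheory Real Set
open scoped RealInnerProductSpace ENNReal NNReal

namespace Vale.Agent.Lib.P226

variable {E : Type*} [NormedAddCommGroup E] [InnerProductSpace ℝ E] [FiniteDimensional ℝ E]
  [MeasurableSpace E] [BorelSpace E]

variable {ι : Type*} [Fintype ι]

/-- The closed cell of index `l`. -/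
def ccell (t : ι → E) (l : ι) : Set E := {x | ∀ m, ⟪t m, x⟫ ≤ ⟪t l, x⟫}

omit [FiniteDimensional ℝ E] [MeasurableSpace E] [BorelSpace E] in
lemma mem_ccell {t : ι → E} {l : ι} {x : E} : x ∈ ccell t l ↔ ∀ m, ⟪t m, x⟫ ≤ ⟪t l, x⟫ := Iff.rfl

omit [FiniteDimensional ℝ E] [MeasurableSpace E] [BorelSpace E] in
lemma isClosed_ccell (t : ι → E) (l : ι) : IsClosed (ccell t l) := by
  have h : ccell t l = ⋂ m, {x | ⟪t m, x⟫ ≤ ⟪t l, x⟫} := by
    ext x
    simp [ccell]
  rw [h]
  exact isClosed_iInter (fun m => isClosed_le (continuous_const.inner continuous_id)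
    (continuous_const.inner continuous_id))

omit [FiniteDimensional ℝ E] [MeasurableSpace E] [BorelSpace E] in
lemma convex_ccell (t : ι → E) (l : ι) : Convex ℝ (ccell t l) := by
  intro x hx y hy a b ha hb _ m
  have h1 := hx m
  have h2 := hy m
  simp only [inner_add_right, inner_smul_right]
  nlinarith [mul_le_mul_of_nonneg_left h1 ha, mul_le_mul_of_nonneg_left h2 hb]

omit [FiniteDimensional ℝ E] in
lemma measurableSet_ccell (t : ι → E) (l : ι) : MeasurableSet (ccell t l) :=
  (isClosed_ccell t l).measurableSet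

/-- A hyperplane through the origin is null. -/
lemma real_hyperplane_eq_zero {v : E} (hv : v ≠ 0) :
    (stdGaussian E) {x | ⟪v, x⟫ = 0} = 0 := by
  have h := map_inner_std v
  have hvar : (‖v‖ ^ 2).toNNReal ≠ 0 := by
    rw [Ne, Real.toNNReal_eq_zero, not_le]
    exact pow_pos (norm_pos_iff.mpr hv) 2
  have hat : NullSingletonClass (gaussianReal 0 (‖v‖ ^ 2).toNNReal) :=
    nullSingletonClass_gaussianReal hvar
  have h2 : (stdGaussian E) ((fun x => ⟪v, x⟫) ⁻¹' {0}) = 0 := by
    rw [← Measure.map_apply (measurable_inner_const v) (measurableSet_singleton 0), h]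
    exact measure_singleton 0
  exact h2

namespace IsOptimal

variable {t : ι → E} {A : ι → Set E}

omit [FiniteDimensional ℝ E] [MeasurableSpace E] [BorelSpace E] in
lemma mem_ccell_of_mem [MeasurableSpace E] [BorelSpace E] [FiniteDimensional ℝ E]
    (h : IsOptimal t A) {l : ι} {x : E} (hx : x ∈ A l) :
    x ∈ ccell t l := fun m => h.max_on l m x hx

lemma subset_ccell (h : IsOptimal t A) (l : ι) : A l ⊆ ccell t l :=
  fun _ hx => h.mem_ccell_of_mem hx

/-- A cell differs from the closed cell by a null set when the vectors are distinct. -/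
lemma ccell_diff_null (h : IsOptimal t A) (hd : ∀ i j, i ≠ j → t i ≠ t j) (l : ι) :
    (stdGaussian E) (ccell t l \ A l) = 0 := by
  classical
  have hsub : ccell t l \ A l ⊆ ⋃ m ∈ (Finset.univ.filter (fun m => m ≠ l)),
      {x | ⟪t m - t l, x⟫ = 0} := by
    intro x hx
    have hx1 := hx.1
    have hcov : x ∈ ⋃ i, A i := by rw [h.part.2.2]; exact mem_univ x
    obtain ⟨m, hm⟩ := mem_iUnion.mp hcov
    have hml : m ≠ l := by
      rintro rfl
      exact hx.2 hm
    simp only [mem_iUnion, Finset.mem_filter, Finset.mem_univ, true_and, exists_prop]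
    refine ⟨m, hml, ?_⟩
    have h1 := hx1 m
    have h2 := h.max_on m l x hm
    simp only [Set.mem_ofPred_eq, inner_sub_left]
    linarith
  refine measure_mono_null hsub ?_
  refine measure_iUnion_null (fun m => measure_iUnion_null (fun hm => ?_))
  have hml : m ≠ l := by simpa using hm
  exact real_hyperplane_eq_zero (sub_ne_zero.mpr (hd m l hml))

lemma ae_ccell_eq (h : IsOptimal t A) (hd : ∀ i j, i ≠ j → t i ≠ t j) (l : ι) :
    (A l : Set E) =ᵐ[stdGaussian E] ccell t l := by
  have h1 := h.ccell_diff_null hd l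
  have hsub := h.subset_ccell l
  have h2 : (A l \ ccell t l) = ∅ := sdiff_eq_empty.mpr hsub
  refine ae_eq_set.mpr ⟨?_, h1⟩
  rw [h2]
  simp

lemma real_ccell (h : IsOptimal t A) (hd : ∀ i j, i ≠ j → t i ≠ t j) (l : ι) :
    (stdGaussian E).real (ccell t l) = (stdGaussian E).real (A l) :=
  measureReal_congr (h.ae_ccell_eq hd l).symm

lemma setIntegral_ccell (h : IsOptimal t A) (hd : ∀ i j, i ≠ j → t i ≠ t j) (l : ι)
    {F : Type*} [NormedAddCommGroup F] [NormedSpace ℝ F] (f : E → F) :
    ∫ x in ccell t l, f x ∂(stdGaussian E) = ∫ x in A l, f x ∂(stdGaussian E) :=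
  setIntegral_congr_set (h.ae_ccell_eq hd l).symm

lemma inner_setIntegral_ccell (h : IsOptimal t A) (hd : ∀ i j, i ≠ j → t i ≠ t j) (l : ι) (v : E) :
    ∫ x in ccell t l, ⟪v, x⟫ ∂(stdGaussian E) = ⟪v, t l⟫ := by
  rw [h.setIntegral_ccell hd l, ← inner_gaussMoment, h.moment]

end IsOptimal

section Dual

variable {t : ι → E}

omit [FiniteDimensional ℝ E] [MeasurableSpace E] [BorelSpace E] in
/-- A linear relation among pairwise obtuse vectors with sum zero is constant. -/
lemma const_of_sum_smul_eq_zero (hsum : ∑ i, t i = 0)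
    (hneg : ∀ i j, i ≠ j → ⟪t i, t j⟫ < 0) {c : ι → ℝ} (hc : ∑ i, c i • t i = 0) (i j : ι) :
    c i = c j := by
  classical
  have hrow : ∀ i, ∑ j, ⟪t i, t j⟫ = 0 := by
    intro i
    rw [← inner_sum, hsum, inner_zero_right]
  have hcol : ∀ j, ∑ i, ⟪t i, t j⟫ = 0 := by
    intro j
    rw [← sum_inner, hsum, inner_zero_left]
  have hnorm : ∑ i, ∑ j, c i * c j * ⟪t i, t j⟫ = 0 := by
    have h1 : ⟪∑ i, c i • t i, ∑ j, c j • t j⟫ = ∑ i, ∑ j, c i * c j * ⟪t i, t j⟫ := by
      rw [sum_inner]
      refine Finset.sum_congr rfl (fun i _ => ?_)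
      rw [inner_sum]
      refine Finset.sum_congr rfl (fun j _ => ?_)
      rw [inner_smul_left, inner_smul_right]
      simp only [conj_trivial]
      ring
    rw [← h1, hc, inner_zero_left]
  have hid : ∑ i, ∑ j, (-⟪t i, t j⟫) * (c i - c j) ^ 2 = 0 := by
    have h2 : ∀ i j, (-⟪t i, t j⟫) * (c i - c j) ^ 2
        = -(c i ^ 2 * ⟪t i, t j⟫) - c j ^ 2 * ⟪t i, t j⟫ + 2 * (c i * c j * ⟪t i, t j⟫) := by
      intro i j; ring
    simp_rw [h2, Finset.sum_add_distrib, Finset.sum_sub_distrib, Finset.sum_neg_distrib,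
      ← Finset.mul_sum]
    rw [Finset.sum_comm (f := fun i j => c j ^ 2 * ⟪t i, t j⟫)]
    simp_rw [← Finset.mul_sum, hrow, hcol, mul_zero, Finset.sum_const_zero]
    rw [hnorm]
    simp
  have hnn : ∀ i j, 0 ≤ (-⟪t i, t j⟫) * (c i - c j) ^ 2 := by
    intro i j
    by_cases hij : i = j
    · rw [hij]; simp
    · have := hneg i j hij
      have h3 := sq_nonneg (c i - c j)
      nlinarith
  have h4 := (Finset.sum_eq_zero_iff_of_nonneg
    (fun i _ => Finset.sum_nonneg (fun j _ => hnn i j))).mp hid i (Finset.mem_univ i)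
  have h5 := (Finset.sum_eq_zero_iff_of_nonneg (fun j _ => hnn i j)).mp h4 j (Finset.mem_univ j)
  by_cases hij : i = j
  · rw [hij]
  · have h6 := hneg i j hij
    have h7 : (c i - c j) ^ 2 = 0 := by
      rcases mul_eq_zero.mp h5 with h8 | h8
      · linarith
      · exact h8
    have h8 : c i - c j = 0 := pow_eq_zero_iff (two_ne_zero) |>.mp h7
    linarith

/-- Prescribed inner products with sum zero are realized. -/
lemma exists_inner_eq (hsum : ∑ i, t i = 0)
    (hneg : ∀ i j, i ≠ j → ⟪t i, t j⟫ < 0) {d : ι → ℝ} (hd : ∑ i, d i = 0) :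
    ∃ u : E, ∀ m, ⟪t m, u⟫ = d m := by
  classical
  let T : E →ₗ[ℝ] EuclideanSpace ℝ ι :=
    { toFun := fun x => WithLp.toLp 2 (fun m => ⟪t m, x⟫)
      map_add' := by
        intro x y
        ext m
        simp [inner_add_right]
      map_smul' := by
        intro a x
        ext m
        simp [inner_smul_right] }
  set R := LinearMap.range T with hR
  have hmem : (WithLp.toLp 2 d : EuclideanSpace ℝ ι) ∈ R := by
    rw [← Submodule.orthogonal_orthogonal R, Submodule.mem_orthogonal]
    intro c hc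
    rw [Submodule.mem_orthogonal] at hc
    have h1 : ∑ i, (c i) • t i = 0 := by
      have h2 : ∀ x : E, ⟪∑ i, (c i) • t i, x⟫ = 0 := by
        intro x
        have h3 := hc (T x) (LinearMap.mem_range_self T x)
        rw [PiLp.inner_apply] at h3
        rw [sum_inner]
        rw [← h3]
        refine Finset.sum_congr rfl (fun i _ => ?_)
        rw [inner_smul_left]
        simp [T, mul_comm]
      exact inner_self_eq_zero.mp (h2 _)
    by_cases hne : Nonempty ι
    · obtain ⟨i₀⟩ := hne
      have hconst : ∀ i, c i = c i₀ := fun i => const_of_sum_smul_eq_zero hsum hneg h1 i i₀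
      rw [PiLp.inner_apply]
      simp only [RCLike.inner_apply, conj_trivial]
      have h4 : ∀ i, d i * c.ofLp i = c i₀ * d i := by
        intro i
        rw [hconst i]
        ring
      simp_rw [h4]
      rw [← Finset.mul_sum, hd, mul_zero]
    · rw [not_nonempty_iff] at hne
      rw [PiLp.inner_apply]
      simp
  obtain ⟨u, hu⟩ := hmem
  refine ⟨u, fun m => ?_⟩
  have := congrArg (fun z : EuclideanSpace ℝ ι => z m) hu
  simpa [T] using this

/-- The dual vectors of a simplex. -/
lemma exists_dual [DecidableEq ι] (hsum : ∑ i, t i = 0)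
    (hneg : ∀ i j, i ≠ j → ⟪t i, t j⟫ < 0) (l : ι) :
    ∃ u : E, ∀ m, ⟪t m, u⟫ = (if m = l then 1 else 0) - 1 / (Fintype.card ι : ℝ) := by
  apply exists_inner_eq hsum hneg
  have hcard : (Fintype.card ι : ℝ) ≠ 0 := by
    have : Nonempty ι := ⟨l⟩
    exact_mod_cast Fintype.card_ne_zero
  rw [Finset.sum_sub_distrib, Finset.sum_ite_eq' Finset.univ l]
  simp only [Finset.mem_univ, if_true, Finset.sum_const, Finset.card_univ, nsmul_eq_mul]
  field_simp
  ring

end Dual

end Vale.Agent.Lib.P226
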