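import Vale.Agent.Lib.P226.Normal

/-!
Analytic bounds for the normal distribution function and for the arctangent.
-/

open MeasureTheory ProbabilityTheory Real Set
open scoped ENNReal NNReal

namespace Vale.Agent.Lib.P226

/-! ### Alternating Taylor bounds for `exp (-y)` -/

/-- Taylor polynomial of `exp (-y)`. -/
noncomputable def expS (M : ℕ) (y : ℝ) : ℝ :=
  ∑ n ∈ Finset.range (M + 1), (-y) ^ n / (n.factorial : ℝ)

lemma expS_succ (M : ℕ) (y : ℝ) :
    expS (M + 1) y = expS M y + (-y) ^ (M + 1) / ((M + 1).factorial : ℝ) := by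
  unfold expS
  rw [Finset.sum_range_succ]

lemma expS_zero_right (M : ℕ) : expS M 0 = 1 := by
  induction M with
  | zero => simp [expS]
  | succ M ih => rw [expS_succ, ih]; simp

lemma hasDerivAt_expS (M : ℕ) (y : ℝ) : HasDerivAt (expS (M + 1)) (-expS M y) y := by
  induction M with
  | zero =>
    have h : expS 1 = fun y => 1 - y := by
      ext y
      simp [expS, Finset.sum_range_succ]
      ring
    rw [h]
    have := (hasDerivAt_id y).const_sub 1
    simpa [expS] using this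
  | succ M ih =>
    have h : expS (M + 1 + 1) = fun y => expS (M + 1) y + (-y) ^ (M + 1 + 1) /
        ((M + 1 + 1).factorial : ℝ) := by
      ext y
      rw [expS_succ]
    rw [h]
    have h1 : HasDerivAt (fun y : ℝ => (-y) ^ (M + 1 + 1)) (((M + 1 + 1 : ℕ) : ℝ) * (-y) ^ (M + 1) * (-1)) y :=
      ((hasDerivAt_neg y).fun_pow (M + 1 + 1)).congr_deriv (by
        simp only [Nat.add_one_sub_one])
    have h2 := ih.add (h1.div_const (((M + 1 + 1).factorial : ℝ)))
    refine h2.congr_deriv ?_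
    rw [expS_succ]
    have hf : ((M + 1 + 1).factorial : ℝ) = ((M + 1 + 1 : ℕ) : ℝ) * ((M + 1).factorial : ℝ) := by
      rw [Nat.factorial_succ]
      push_cast
      ring
    have hne : ((M + 1).factorial : ℝ) ≠ 0 := by positivity
    have hne2 : ((M + 1 + 1 : ℕ) : ℝ) ≠ 0 := by positivity
    rw [hf]
    field_simp
    ring

lemma hasDerivAt_exp_neg (y : ℝ) : HasDerivAt (fun y => rexp (-y)) (-rexp (-y)) y := by
  have := (hasDerivAt_neg y).exp
  simpa using this

/-- A function with nonnegative derivative on `[0, ∞)` vanishing at zero is nonnegative. -/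
lemma nonneg_of_deriv_nonneg {f f' : ℝ → ℝ} (hf : ∀ y, HasDerivAt f (f' y) y) (h0 : f 0 = 0)
    (hd : ∀ y, 0 ≤ y → 0 ≤ f' y) {y : ℝ} (hy : 0 ≤ y) : 0 ≤ f y := by
  have hmono : MonotoneOn f (Ici 0) := by
    apply monotoneOn_of_deriv_nonneg (convex_Ici 0)
    · exact fun x _ => (hf x).continuousAt.continuousWithinAt
    · exact fun x _ => (hf x).differentiableAt.differentiableWithinAt
    · intro x hx
      rw [(hf x).deriv]
      rw [interior_Ici] at hx
      exact hd x (le_of_lt hx)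
  have := hmono (mem_Ici.mpr le_rfl) (mem_Ici.mpr hy) hy
  rwa [h0] at this

/-- Alternating bound. -/
lemma exp_alt (M : ℕ) {y : ℝ} (hy : 0 ≤ y) : 0 ≤ (-1) ^ M * (expS M y - rexp (-y)) := by
  induction M generalizing y with
  | zero =>
    simp only [pow_zero, one_mul]
    have : expS 0 y = 1 := by simp [expS]
    rw [this]
    have := Real.exp_le_one_iff.mpr (by linarith : -y ≤ 0)
    linarith
  | succ M ih =>
    refine nonneg_of_deriv_nonneg (f := fun y => (-1) ^ (M + 1) * (expS (M + 1) y - rexp (-y)))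
      (f' := fun y => (-1) ^ M * (expS M y - rexp (-y))) (fun y => ?_) ?_ (fun y hy => ih hy) hy
    · have h1 := ((hasDerivAt_expS M y).sub (hasDerivAt_exp_neg y)).const_mul ((-1:ℝ) ^ (M + 1))
      refine h1.congr_deriv ?_
      rw [pow_succ]
      ring
    · simp [expS_zero_right]

lemma exp_neg_le_expS {N : ℕ} {y : ℝ} (hy : 0 ≤ y) : rexp (-y) ≤ expS (2 * N) y := by
  have := exp_alt (2 * N) hy
  rw [pow_mul] at this
  simp only [even_two, Even.neg_pow, one_pow, one_mul] at this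
  linarith

lemma expS_le_exp_neg {N : ℕ} {y : ℝ} (hy : 0 ≤ y) : expS (2 * N + 1) y ≤ rexp (-y) := by
  have := exp_alt (2 * N + 1) hy
  rw [pow_succ, pow_mul] at this
  simp only [even_two, Even.neg_pow, one_pow, one_mul] at this
  linarith

/-! ### The normal distribution function -/

/-- The normalizing constant. -/
noncomputable def cn : ℝ := (√(2 * π))⁻¹

lemma cn_pos : 0 < cn := by unfold cn; positivity

lemma npdf_eq_cn (x : ℝ) : npdf x = cn * rexp (-(x ^ 2 / 2)) := by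
  unfold npdf cn
  congr 2
  ring

lemma sqrt_two_pi_bounds : (2.50662 : ℝ) < √(2 * π) ∧ √(2 * π) < 2.50663 := by
  have h1 := Real.pi_gt_d6
  have h2 := Real.pi_lt_d6
  constructor
  · apply Real.lt_sqrt_of_sq_lt
    norm_num
    linarith
  · rw [Real.sqrt_lt' (by norm_num)]
    norm_num
    linarith

lemma cn_bounds : (0.398942 : ℝ) < cn ∧ cn < 0.398944 := by
  obtain ⟨h1, h2⟩ := sqrt_two_pi_bounds
  have h0 : 0 < √(2 * π) := by positivity
  unfold cn
  constructor
  · rw [lt_inv_comm₀ (by norm_num) h0]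
    refine lt_trans h2 ?_
    norm_num
  · rw [inv_lt_comm₀ h0 (by norm_num)]
    refine lt_trans ?_ h1
    norm_num

/-- Integrated Taylor polynomial. -/
noncomputable def Qs (M : ℕ) (x : ℝ) : ℝ :=
  ∑ n ∈ Finset.range (M + 1), (-1) ^ n * x ^ (2 * n + 1) /
    ((2:ℝ) ^ n * (n.factorial : ℝ) * (2 * (n:ℝ) + 1))

lemma hasDerivAt_Qs (M : ℕ) (x : ℝ) : HasDerivAt (Qs M) (expS M (x ^ 2 / 2)) x := by
  unfold expS
  have hsum : HasDerivAt (fun x : ℝ => ∑ n ∈ Finset.range (M + 1), (-1) ^ n * x ^ (2 * n + 1) /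
      ((2:ℝ) ^ n * (n.factorial : ℝ) * (2 * (n:ℝ) + 1)))
      (∑ n ∈ Finset.range (M + 1), (-(x ^ 2 / 2)) ^ n / (n.factorial : ℝ)) x := ?_
  · exact hsum
  apply HasDerivAt.fun_sum
  intro n _
  have h1 : HasDerivAt (fun x : ℝ => x ^ (2 * n + 1)) (((2 * n + 1 : ℕ) : ℝ) * x ^ (2 * n)) x := by
    simpa using hasDerivAt_pow (2 * n + 1) x
  have h2 := (h1.const_mul ((-1:ℝ) ^ n)).div_const ((2:ℝ) ^ n * (n.factorial : ℝ) * (2 * (n:ℝ) + 1))
  refine h2.congr_deriv ?_
  have h3 : (-(x ^ 2 / 2)) ^ n = (-1) ^ n * x ^ (2 * n) / 2 ^ n := by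
    rw [neg_pow, div_pow, ← pow_mul]
    ring
  rw [h3]
  push_cast
  have hne : (2 * (n:ℝ) + 1) ≠ 0 := by positivity
  have hne2 : (n.factorial : ℝ) ≠ 0 := by positivity
  field_simp

lemma Qs_zero (M : ℕ) : Qs M 0 = 0 := by
  unfold Qs
  apply Finset.sum_eq_zero
  intro n _
  simp

lemma ncdf_le_Qs {N : ℕ} {x : ℝ} (hx : 0 ≤ x) : ncdf x ≤ 1 / 2 + cn * Qs (2 * N) x := by
  have h := nonneg_of_deriv_nonneg (f := fun x => 1 / 2 + cn * Qs (2 * N) x - ncdf x)
    (f' := fun x => cn * (expS (2 * N) (x ^ 2 / 2) - rexp (-(x ^ 2 / 2))))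
    (fun x => ?_) ?_ (fun x _ => ?_) hx
  · linarith
  · have h1 := ((hasDerivAt_Qs (2 * N) x).const_mul cn).const_add (1 / 2)
    have h2 := h1.sub (hasDerivAt_ncdf x)
    refine h2.congr_deriv ?_
    rw [npdf_eq_cn]
    ring
  · simp [Qs_zero, ncdf_zero]
  · have := exp_neg_le_expS (N := N) (y := x ^ 2 / 2) (by positivity)
    exact mul_nonneg cn_pos.le (by linarith)

lemma Qs_le_ncdf {N : ℕ} {x : ℝ} (hx : 0 ≤ x) : 1 / 2 + cn * Qs (2 * N + 1) x ≤ ncdf x := by
  have h := nonneg_of_deriv_nonneg (f := fun x => ncdf x - (1 / 2 + cn * Qs (2 * N + 1) x))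
    (f' := fun x => cn * (rexp (-(x ^ 2 / 2)) - expS (2 * N + 1) (x ^ 2 / 2)))
    (fun x => ?_) ?_ (fun x _ => ?_) hx
  · linarith
  · have h1 := ((hasDerivAt_Qs (2 * N + 1) x).const_mul cn).const_add (1 / 2)
    have h2 := (hasDerivAt_ncdf x).sub h1
    refine h2.congr_deriv ?_
    rw [npdf_eq_cn]
    ring
  · simp [Qs_zero, ncdf_zero]
  · have := expS_le_exp_neg (N := N) (y := x ^ 2 / 2) (by positivity)
    exact mul_nonneg cn_pos.le (by linarith)

/-! ### The function `e` and its convexity in the variable `Φ` -/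

/-- `e(α) = φ(α) (φ(α) + α Φ(α))`. -/
noncomputable def eF (α : ℝ) : ℝ := npdf α * ngrand α

/-- The derivative of `e` with respect to `Φ`. -/
noncomputable def eD (α : ℝ) : ℝ := ncdf α - α * ngrand α

lemma hasDerivAt_eF (α : ℝ) : HasDerivAt eF (npdf α * eD α) α := by
  have h := (hasDerivAt_npdf α).mul (hasDerivAt_ngrand α)
  refine HasDerivAt.congr_deriv h ?_
  unfold eD
  ring

lemma hasDerivAt_eD (α : ℝ) : HasDerivAt eD (-(2 * α * ncdf α)) α := by
  have h1 := (hasDerivAt_id α).mul (hasDerivAt_ngrand α)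
  have h2 := (hasDerivAt_ncdf α).sub h1
  refine HasDerivAt.congr_deriv h2 ?_
  simp only [id, ngrand]
  ring

lemma eD_mono {x y : ℝ} (hxy : x ≤ y) (hy : y ≤ 0) : eD x ≤ eD y := by
  have hmono : MonotoneOn eD (Iic 0) := by
    apply monotoneOn_of_deriv_nonneg (convex_Iic 0)
    · exact fun x _ => (hasDerivAt_eD x).continuousAt.continuousWithinAt
    · exact fun x _ => (hasDerivAt_eD x).differentiableAt.differentiableWithinAt
    · intro x hx
      rw [(hasDerivAt_eD x).deriv]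
      rw [interior_Iic] at hx
      have hx' : x < 0 := hx
      have := ncdf_pos x
      nlinarith
  exact hmono (mem_Iic.mpr (hxy.trans hy)) (mem_Iic.mpr hy) hxy

/-- The chord bound for `e` against `Φ`. -/
theorem eF_chord {α₁ α₂ s b : ℝ} (h2 : α₂ ≤ 0)
    (h1' : eF α₁ ≤ s * ncdf α₁ + b) (h2' : eF α₂ ≤ s * ncdf α₂ + b) {α : ℝ}
    (hα : α ∈ Icc α₁ α₂) : eF α ≤ s * ncdf α + b := by
  set h : ℝ → ℝ := fun β => s * ncdf β + b - eF β with hh
  have hder : ∀ β, HasDerivAt h (npdf β * (s - eD β)) β := by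
    intro β
    have h3 := (((hasDerivAt_ncdf β).const_mul s).add_const b).sub (hasDerivAt_eF β)
    refine HasDerivAt.congr_deriv h3 ?_
    ring
  have hc : Continuous h := continuous_iff_continuousAt.mpr (fun β => (hder β).continuousAt)
  have hd : Differentiable ℝ h := fun β => (hder β).differentiableAt
  rcases le_total (eD α) s with hcase | hcase
  · have hmono : MonotoneOn h (Icc α₁ α) := by
      apply monotoneOn_of_deriv_nonneg (convex_Icc _ _) hc.continuousOn hd.differentiableOn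
      intro β hβ
      rw [(hder β).deriv]
      rw [interior_Icc] at hβ
      have h4 : eD β ≤ eD α := eD_mono hβ.2.le (hα.2.trans h2)
      exact mul_nonneg (npdf_pos β).le (by linarith)
    have h5 := hmono (left_mem_Icc.mpr hα.1) (right_mem_Icc.mpr hα.1) hα.1
    simp only [hh] at h5
    linarith
  · have hanti : AntitoneOn h (Icc α α₂) := by
      apply antitoneOn_of_deriv_nonpos (convex_Icc _ _) hc.continuousOn hd.differentiableOn
      intro β hβ
      rw [(hder β).deriv]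
      rw [interior_Icc] at hβ
      have h4 : eD α ≤ eD β := eD_mono hβ.1.le (hβ.2.le.trans h2)
      exact mul_nonpos_of_nonneg_of_nonpos (npdf_pos β).le (by linarith)
    have h5 := hanti (left_mem_Icc.mpr hα.2) (right_mem_Icc.mpr hα.2) hα.2
    simp only [hh] at h5
    linarith

/-! ### Tangent lines for `φ²` -/

lemma mul_npdf_mono {x y : ℝ} (hx : -1 ≤ x) (hxy : x ≤ y) (hy : y ≤ 0) :
    x * npdf x ≤ y * npdf y := by
  have hmono : MonotoneOn (fun z => z * npdf z) (Icc (-1) 0) := by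
    have hder : ∀ z, HasDerivAt (fun z => z * npdf z) (npdf z * (1 - z ^ 2)) z := by
      intro z
      have := (hasDerivAt_id z).mul (hasDerivAt_npdf z)
      refine HasDerivAt.congr_deriv this ?_
      simp only [id]
      ring
    apply monotoneOn_of_deriv_nonneg (convex_Icc _ _)
    · exact fun z _ => (hder z).continuousAt.continuousWithinAt
    · exact fun z _ => (hder z).differentiableAt.differentiableWithinAt
    · intro z hz
      rw [(hder z).deriv]
      rw [interior_Icc] at hz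
      have h1 := hz.1
      have h2 := hz.2
      exact mul_nonneg (npdf_pos z).le (by nlinarith)
  exact hmono ⟨hx, hxy.trans hy⟩ ⟨hx.trans hxy, hy⟩ hxy

/-- Tangent line for `φ²` as a function of `Φ`. -/
theorem npdf_sq_tangent {α₀ α : ℝ} (h0 : α₀ ≤ 0) (hα₀ : -1 ≤ α₀) (hα : -1 ≤ α) :
    npdf α ^ 2 ≤ npdf α₀ ^ 2 - 2 * α₀ * npdf α₀ * (ncdf α - ncdf α₀) := by
  set h : ℝ → ℝ := fun β => npdf α₀ ^ 2 - 2 * α₀ * npdf α₀ * (ncdf β - ncdf α₀) - npdf β ^ 2 with hh
  have hder : ∀ β, HasDerivAt h (2 * npdf β * (β * npdf β - α₀ * npdf α₀)) β := by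
    intro β
    have h3 := (((hasDerivAt_ncdf β).sub_const (ncdf α₀)).const_mul (2 * α₀ * npdf α₀)).const_sub
      (npdf α₀ ^ 2)
    have h4 := (hasDerivAt_npdf β).fun_pow 2
    have h5 := h3.sub h4
    refine HasDerivAt.congr_deriv h5 ?_
    simp only [Nat.cast_ofNat, Nat.add_one_sub_one, pow_one]
    ring
  have hc : Continuous h := continuous_iff_continuousAt.mpr (fun β => (hder β).continuousAt)
  have hd : Differentiable ℝ h := fun β => (hder β).differentiableAt
  have h00 : h α₀ = 0 := by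
    simp [hh]
  have key : 0 ≤ h α := by
    rcases le_total α α₀ with hle | hle
    · have hanti : AntitoneOn h (Icc α α₀) := by
        apply antitoneOn_of_deriv_nonpos (convex_Icc _ _) hc.continuousOn hd.differentiableOn
        intro β hβ
        rw [(hder β).deriv]
        rw [interior_Icc] at hβ
        have h4 := mul_npdf_mono (hα.trans hβ.1.le) hβ.2.le h0
        exact mul_nonpos_of_nonneg_of_nonpos (by have := npdf_pos β; positivity) (by linarith)
      have := hanti (left_mem_Icc.mpr hle) (right_mem_Icc.mpr hle) hle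
      linarith
    · have hmono : MonotoneOn h (Icc α₀ α) := by
        apply monotoneOn_of_deriv_nonneg (convex_Icc _ _) hc.continuousOn hd.differentiableOn
        intro β hβ
        rw [(hder β).deriv]
        rw [interior_Icc] at hβ
        have h6 : α₀ * npdf α₀ ≤ β * npdf β := by
          rcases le_total β 0 with h7 | h7
          · exact mul_npdf_mono hα₀ hβ.1.le h7
          · have h8 : α₀ * npdf α₀ ≤ 0 := mul_nonpos_of_nonpos_of_nonneg h0 (npdf_pos _).le
            have h9 : 0 ≤ β * npdf β := mul_nonneg h7 (npdf_pos _).le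
            linarith
        exact mul_nonneg (by have := npdf_pos β; positivity) (by linarith)
      have := hmono (left_mem_Icc.mpr hle) (right_mem_Icc.mpr hle) hle
      linarith
  simp only [hh] at key
  linarith

/-! ### Tail bounds and `e ≤ Φ²` -/

lemma tendsto_npdf_atBot : Filter.Tendsto npdf Filter.atBot (nhds 0) := by
  have h1 : Filter.Tendsto (fun x : ℝ => x ^ 2 / 2) Filter.atTop Filter.atTop :=
    (Filter.tendsto_pow_atTop two_ne_zero).atTop_div_const (by norm_num)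
  have h2 : Filter.Tendsto (fun x : ℝ => cn * rexp (-(x ^ 2 / 2))) Filter.atTop (nhds (cn * 0)) :=
    (Real.tendsto_exp_neg_atTop_nhds_zero.comp h1).const_mul cn
  rw [mul_zero] at h2
  have h3 := h2.comp Filter.tendsto_neg_atBot_atTop
  refine h3.congr (fun x => ?_)
  simp only [Function.comp, npdf_eq_cn, neg_sq]

/-- Monotonicity with limit zero at `-∞`. -/
lemma nonneg_of_tendsto_atBot {f f' : ℝ → ℝ} {b : ℝ} (hder : ∀ β, β < b → HasDerivAt f (f' β) β)
    (hnn : ∀ β, β < b → 0 ≤ f' β) (hlim : Filter.Tendsto f Filter.atBot (nhds 0)) {α : ℝ}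
    (hα : α < b) : 0 ≤ f α := by
  have hmono : MonotoneOn f (Iio b) := by
    apply monotoneOn_of_deriv_nonneg (convex_Iio b)
    · exact fun x hx => (hder x hx).continuousAt.continuousWithinAt
    · intro x hx
      rw [interior_Iio] at hx
      exact (hder x hx).differentiableAt.differentiableWithinAt
    · intro x hx
      rw [interior_Iio] at hx
      rw [(hder x hx).deriv]
      exact hnn x hx
  refine le_of_tendsto hlim ?_
  filter_upwards [Filter.eventually_le_atBot α] with β hβ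
  exact hmono (lt_of_le_of_lt hβ hα) hα hβ

lemma tendsto_inv_neg_atBot : Filter.Tendsto (fun β : ℝ => (-β)⁻¹) Filter.atBot (nhds 0) :=
  tendsto_inv_atTop_zero.comp Filter.tendsto_neg_atBot_atTop

/-- First tail bound. -/
lemma ncdf_le_tail {α : ℝ} (hα : α < 0) : ncdf α ≤ npdf α * (-α)⁻¹ := by
  have h := nonneg_of_tendsto_atBot (f := fun β => npdf β * (-β)⁻¹ - ncdf β)
    (f' := fun β => npdf β * ((-β)⁻¹) ^ 2) (b := 0) (fun β hβ => ?_) (fun β _ => ?_) ?_ hα
  · linarith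
  · have hne : -β ≠ 0 := by linarith
    have h1 : HasDerivAt (fun β : ℝ => (-β)⁻¹) (-(-1) / (-β) ^ 2) β :=
      (hasDerivAt_neg β).inv hne |>.congr_deriv (by ring)
    have h2 := ((hasDerivAt_npdf β).mul h1).sub (hasDerivAt_ncdf β)
    refine HasDerivAt.congr_deriv h2 ?_
    have : β ≠ 0 := by linarith
    field_simp
    ring
  · have := npdf_pos β
    positivity
  · have h1 := tendsto_npdf_atBot.mul tendsto_inv_neg_atBot
    have h2 := h1.sub tendsto_ncdf_atBot
    simpa using h2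

/-- Second tail bound. -/
lemma ngrand_le_tail {α : ℝ} (hα : α < 0) : ngrand α ≤ npdf α * ((-α)⁻¹) ^ 2 := by
  have h := nonneg_of_tendsto_atBot (f := fun β => npdf β * ((-β)⁻¹) ^ 2 - ngrand β)
    (f' := fun β => npdf β * (-β)⁻¹ + 2 * npdf β * ((-β)⁻¹) ^ 3 - ncdf β) (b := 0)
    (fun β hβ => ?_) (fun β hβ => ?_) ?_ hα
  · linarith
  · have hne : -β ≠ 0 := by linarith
    have h1 : HasDerivAt (fun β : ℝ => (-β)⁻¹) (-(-1) / (-β) ^ 2) β :=
      (hasDerivAt_neg β).inv hne |>.congr_deriv (by ring)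
    have h2 := ((hasDerivAt_npdf β).mul (h1.fun_pow 2)).sub (hasDerivAt_ngrand β)
    refine HasDerivAt.congr_deriv h2 ?_
    have : β ≠ 0 := by linarith
    simp only [Nat.cast_ofNat, Nat.add_one_sub_one, pow_one]
    field_simp
  · have h1 := ncdf_le_tail hβ
    have h2 := npdf_pos β
    have h3 : 0 < (-β)⁻¹ := inv_pos.mpr (by linarith)
    have h4 : 0 ≤ 2 * npdf β * ((-β)⁻¹) ^ 3 := by positivity
    linarith
  · have h1 := tendsto_npdf_atBot.mul (tendsto_inv_neg_atBot.pow 2)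
    have h2 := h1.sub tendsto_ngrand_atBot
    simpa using h2

/-- The function `Φ + α G` is nonnegative. -/
lemma ncdf_add_mul_ngrand_nonneg (α : ℝ) : 0 ≤ ncdf α + α * ngrand α := by
  have hlim : Filter.Tendsto (fun β => ncdf β + β * ngrand β) Filter.atBot (nhds 0) := by
    have h1 : Filter.Tendsto (fun β => β * ngrand β) Filter.atBot (nhds 0) := by
      have h2 := (tendsto_npdf_atBot.mul tendsto_inv_neg_atBot).neg
      simp only [mul_zero, neg_zero] at h2
      refine tendsto_of_tendsto_of_tendsto_of_le_of_le' h2 tendsto_const_nhds ?_ ?_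
      · filter_upwards [Filter.eventually_lt_atBot (0:ℝ)] with β hβ
        have h3 := ngrand_le_tail hβ
        have h4 : β * (npdf β * ((-β)⁻¹) ^ 2) ≤ β * ngrand β :=
          mul_le_mul_of_nonpos_left h3 hβ.le
        have h5 : β * (npdf β * ((-β)⁻¹) ^ 2) = -(npdf β * (-β)⁻¹) := by
          have : β ≠ 0 := hβ.ne
          field_simp
        linarith
      · filter_upwards [Filter.eventually_lt_atBot (0:ℝ)] with β hβ
        exact mul_nonpos_of_nonpos_of_nonneg hβ.le (ngrand_nonneg β)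
    have := tendsto_ncdf_atBot.add h1
    simpa using this
  have h := nonneg_of_tendsto_atBot (f := fun β => ncdf β + β * ngrand β)
    (f' := fun β => 2 * ngrand β) (b := α + 1) (fun β _ => ?_) (fun β _ => ?_) hlim
    (by linarith : α < α + 1)
  · exact h
  · have h1 := (hasDerivAt_ncdf β).add ((hasDerivAt_id β).mul (hasDerivAt_ngrand β))
    refine HasDerivAt.congr_deriv h1 ?_
    simp only [id, ngrand]
    ring
  · have := ngrand_nonneg β
    linarith

/-- `e ≤ Φ²` for every `α`. -/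
theorem eF_le_sq (α : ℝ) : eF α ≤ ncdf α ^ 2 := by
  have hlim : Filter.Tendsto (fun β => ncdf β ^ 2 - eF β) Filter.atBot (nhds 0) := by
    have h1 := tendsto_ncdf_atBot.pow 2
    have h2 := tendsto_npdf_atBot.mul tendsto_ngrand_atBot
    have h3 := h1.sub h2
    simpa [eF] using h3
  have h := nonneg_of_tendsto_atBot (f := fun β => ncdf β ^ 2 - eF β)
    (f' := fun β => npdf β * (ncdf β + β * ngrand β)) (b := α + 1) (fun β _ => ?_) (fun β _ => ?_)
    hlim (by linarith : α < α + 1)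
  · linarith
  · have h1 := ((hasDerivAt_ncdf β).fun_pow 2).sub (hasDerivAt_eF β)
    refine HasDerivAt.congr_deriv h1 ?_
    simp only [Nat.cast_ofNat, Nat.add_one_sub_one, pow_one, eD]
    ring
  · exact mul_nonneg (npdf_pos β).le (ncdf_add_mul_ngrand_nonneg β)

/-! ### The arctangent -/

/-- Padé upper bound for the arctangent. -/
theorem arctan_le_pade {y : ℝ} (hy : 0 ≤ y) :
    arctan y ≤ y * (945 + 735 * y ^ 2 + 64 * y ^ 4) / (945 + 1050 * y ^ 2 + 225 * y ^ 4) := by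
  have h := nonneg_of_deriv_nonneg
    (f := fun y => y * (945 + 735 * y ^ 2 + 64 * y ^ 4) / (945 + 1050 * y ^ 2 + 225 * y ^ 4)
      - arctan y)
    (f' := fun y => 14400 * y ^ 10 / ((945 + 1050 * y ^ 2 + 225 * y ^ 4) ^ 2 * (1 + y ^ 2)))
    (fun y => ?_) ?_ (fun y _ => by positivity) hy
  · linarith
  · have hQ : (945 + 1050 * y ^ 2 + 225 * y ^ 4) ≠ 0 := by positivity
    have h1 : HasDerivAt (fun y : ℝ => y * (945 + 735 * y ^ 2 + 64 * y ^ 4))
        (945 + 2205 * y ^ 2 + 320 * y ^ 4) y := by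
      have h3 : HasDerivAt (fun y : ℝ => 945 * y + 735 * y ^ 3 + 64 * y ^ 5)
          (945 * 1 + 735 * (((3:ℕ):ℝ) * y ^ 2) + 64 * (((5:ℕ):ℝ) * y ^ 4)) y :=
        (((hasDerivAt_id y).const_mul 945).add ((hasDerivAt_pow 3 y).const_mul 735)).add
          ((hasDerivAt_pow 5 y).const_mul 64)
      have e : (fun y : ℝ => y * (945 + 735 * y ^ 2 + 64 * y ^ 4))
          = fun y => 945 * y + 735 * y ^ 3 + 64 * y ^ 5 := by
        ext y; ring
      rw [e]
      refine h3.congr_deriv ?_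
      push_cast
      ring
    have h2 : HasDerivAt (fun y : ℝ => 945 + 1050 * y ^ 2 + 225 * y ^ 4)
        (2100 * y + 900 * y ^ 3) y := by
      have h3 : HasDerivAt (fun y : ℝ => 945 + 1050 * y ^ 2 + 225 * y ^ 4)
          (1050 * (((2:ℕ):ℝ) * y ^ 1) + 225 * (((4:ℕ):ℝ) * y ^ 3)) y :=
        (((hasDerivAt_pow 2 y).const_mul 1050).const_add 945).add
          ((hasDerivAt_pow 4 y).const_mul 225)
      refine h3.congr_deriv ?_
      push_cast
      ring
    have h3 := (h1.div h2 hQ).sub (hasDerivAt_arctan y)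
    refine HasDerivAt.congr_deriv h3 ?_
    have h1y : (1 + y ^ 2) ≠ 0 := by positivity
    field_simp
    ring
  · simp

/-- Tangent line for the arctangent on the positive half line. -/
theorem arctan_le_tangent {y y₀ : ℝ} (hy : 0 ≤ y) (hy₀ : 0 ≤ y₀) :
    arctan y ≤ arctan y₀ + (y - y₀) / (1 + y₀ ^ 2) := by
  rcases le_total y y₀ with hle | hle
  · rcases hle.eq_or_lt with heq | hlt
    · rw [heq]; simp
    obtain ⟨ξ, hξ, hval⟩ := exists_hasDerivAt_eq_slope arctan (fun z => 1 / (1 + z ^ 2)) hlt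
      Real.continuous_arctan.continuousOn (fun z _ => hasDerivAt_arctan z)
    have h1 : 1 / (1 + y₀ ^ 2) ≤ 1 / (1 + ξ ^ 2) := by
      apply one_div_le_one_div_of_le (by positivity)
      have : ξ ^ 2 ≤ y₀ ^ 2 := pow_le_pow_left₀ (hy.trans hξ.1.le) hξ.2.le 2
      linarith
    have h2 : 0 < y₀ - y := by linarith
    have h3 : (arctan y₀ - arctan y) = 1 / (1 + ξ ^ 2) * (y₀ - y) := by
      rw [hval]
      field_simp
    have h4 : 1 / (1 + y₀ ^ 2) * (y₀ - y) ≤ arctan y₀ - arctan y := by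
      rw [h3]
      exact mul_le_mul_of_nonneg_right h1 h2.le
    have e : (y - y₀) / (1 + y₀ ^ 2) = -(1 / (1 + y₀ ^ 2) * (y₀ - y)) := by ring
    rw [e]
    linarith
  · rcases hle.eq_or_lt with heq | hlt
    · rw [heq]; simp
    obtain ⟨ξ, hξ, hval⟩ := exists_hasDerivAt_eq_slope arctan (fun z => 1 / (1 + z ^ 2)) hlt
      Real.continuous_arctan.continuousOn (fun z _ => hasDerivAt_arctan z)
    have h1 : 1 / (1 + ξ ^ 2) ≤ 1 / (1 + y₀ ^ 2) := by
      apply one_div_le_one_div_of_le (by positivity)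
      have : y₀ ^ 2 ≤ ξ ^ 2 := pow_le_pow_left₀ hy₀ hξ.1.le 2
      linarith
    have h2 : 0 < y - y₀ := by linarith
    have h3 : (arctan y - arctan y₀) = 1 / (1 + ξ ^ 2) * (y - y₀) := by
      rw [hval]
      field_simp
    have h4 : arctan y - arctan y₀ ≤ 1 / (1 + y₀ ^ 2) * (y - y₀) := by
      rw [h3]
      exact mul_le_mul_of_nonneg_right h1 h2.le
    have e : (y - y₀) / (1 + y₀ ^ 2) = 1 / (1 + y₀ ^ 2) * (y - y₀) := by ring
    rw [e]
    linarith

/-- Tangent bound in the variable `x²`. -/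
theorem arctan_le_tangent_sq {x x₀ V : ℝ} (hx : 0 ≤ x) (hx₀ : 0 < x₀) (hV : 0 < V) :
    arctan (x / V) ≤ arctan (x₀ / V) + (x ^ 2 - x₀ ^ 2) * (V / (2 * x₀ * (V ^ 2 + x₀ ^ 2))) := by
  have h1 := arctan_le_tangent (y := x / V) (y₀ := x₀ / V) (by positivity) (by positivity)
  have e : (x / V - x₀ / V) / (1 + (x₀ / V) ^ 2) = (x - x₀) * (V / (V ^ 2 + x₀ ^ 2)) := by
    field_simp
  rw [e] at h1
  have h2 : (x - x₀) * (V / (V ^ 2 + x₀ ^ 2))
      ≤ (x ^ 2 - x₀ ^ 2) * (V / (2 * x₀ * (V ^ 2 + x₀ ^ 2))) := by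
    have h3 : (x ^ 2 - x₀ ^ 2) * (V / (2 * x₀ * (V ^ 2 + x₀ ^ 2)))
        - (x - x₀) * (V / (V ^ 2 + x₀ ^ 2))
        = (x - x₀) ^ 2 * (V / (2 * x₀ * (V ^ 2 + x₀ ^ 2))) := by
      field_simp
      ring
    have h4 : 0 ≤ (x - x₀) ^ 2 * (V / (2 * x₀ * (V ^ 2 + x₀ ^ 2))) := by positivity
    linarith
  linarith

/-- Scaling: `arctan (x / V) ≤ (W / V) arctan (x / W)` for `V ≤ W`. -/
theorem arctan_scale {x V W : ℝ} (hx : 0 ≤ x) (hV : 0 < V) (hVW : V ≤ W) :
    arctan (x / V) ≤ W / V * arctan (x / W) := by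
  have hW : 0 < W := lt_of_lt_of_le hV hVW
  set r : ℝ := W / V with hr
  have hr1 : 1 ≤ r := by
    rw [hr, le_div_iff₀ hV]
    linarith
  have e : x / V = r * (x / W) := by
    rw [hr]
    field_simp
  rw [e]
  have h := nonneg_of_deriv_nonneg
    (f := fun y => r * arctan y - arctan (r * y))
    (f' := fun y => r * (1 / (1 + y ^ 2)) - r * (1 / (1 + (r * y) ^ 2)))
    (fun y => ?_) ?_ (fun y hy => ?_) (y := x / W) (by positivity)
  · linarith
  · have h1 : HasDerivAt (fun y : ℝ => r * y) r y := by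
      simpa using (hasDerivAt_id y).const_mul r
    have h2 := (hasDerivAt_arctan (r * y)).comp y h1
    have h3 := ((hasDerivAt_arctan y).const_mul r).sub h2
    refine HasDerivAt.congr_deriv h3 ?_
    ring
  · simp
  · have h1 : 1 / (1 + (r * y) ^ 2) ≤ 1 / (1 + y ^ 2) := by
      apply one_div_le_one_div_of_le (by positivity)
      have : y ^ 2 ≤ (r * y) ^ 2 := by
        rw [mul_pow]
        have : 1 ≤ r ^ 2 := one_le_pow₀ hr1
        nlinarith [sq_nonneg y]
      linarith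
    have hr0 : 0 ≤ r := by linarith
    have := mul_le_mul_of_nonneg_left h1 hr0
    linarith

/-! ### Numerical enclosures at a point -/

/-- Enclosures of `φ(-x)` and `Φ(-x)` from Taylor polynomials. -/
theorem knot_of {x e1 e2 q1 q2 pl pu cl cu : ℝ} (hx : 0 ≤ x) (h1 : e1 ≤ expS (2 * 7 + 1) (x ^ 2 / 2))
    (h2 : expS (2 * 7) (x ^ 2 / 2) ≤ e2) (h3 : q1 ≤ Qs (2 * 7 + 1) x) (h4 : Qs (2 * 7) x ≤ q2)
    (he1 : 0 ≤ e1) (hq1 : 0 ≤ q1)
    (hpl : pl ≤ 0.398942 * e1) (hpu : 0.398944 * e2 ≤ pu) (hcl : cl ≤ 1 / 2 - 0.398944 * q2)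
    (hcu : 1 / 2 - 0.398942 * q1 ≤ cu) :
    pl ≤ npdf (-x) ∧ npdf (-x) ≤ pu ∧ cl ≤ ncdf (-x) ∧ ncdf (-x) ≤ cu := by
  obtain ⟨hc1, hc2⟩ := cn_bounds
  have hy : 0 ≤ x ^ 2 / 2 := by positivity
  have hE1 := expS_le_exp_neg (N := 7) hy
  have hE2 := exp_neg_le_expS (N := 7) hy
  have hQ1 := Qs_le_ncdf (N := 7) hx
  have hQ2 := ncdf_le_Qs (N := 7) hx
  have hneg := ncdf_neg x
  have hexp : 0 < rexp (-(x ^ 2 / 2)) := Real.exp_pos _
  have hq2 : 0 ≤ q2 := by
    have h5 : 0 ≤ Qs (2 * 7) x := by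
      by_contra hcon
      push Not at hcon
      have h6 : cn * Qs (2 * 7) x < 0 := mul_neg_of_pos_of_neg cn_pos hcon
      have h7 := ncdf_le_Qs (N := 7) hx
      have h8 : ncdf 0 ≤ ncdf x := strictMono_ncdf.monotone hx
      rw [ncdf_zero] at h8
      linarith
    linarith
  have hq : cn * Qs (2 * 7) x ≤ 0.398944 * q2 := by
    have h5 : 0 ≤ Qs (2 * 7) x := by
      by_contra hcon
      push Not at hcon
      have h6 : cn * Qs (2 * 7) x < 0 := mul_neg_of_pos_of_neg cn_pos hcon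
      have h7 := ncdf_le_Qs (N := 7) hx
      have h8 : ncdf 0 ≤ ncdf x := strictMono_ncdf.monotone hx
      rw [ncdf_zero] at h8
      linarith
    calc cn * Qs (2 * 7) x ≤ 0.398944 * Qs (2 * 7) x := by gcongr
      _ ≤ 0.398944 * q2 := by gcongr
  have hq' : 0.398942 * q1 ≤ cn * Qs (2 * 7 + 1) x := by
    calc 0.398942 * q1 ≤ cn * q1 := by gcongr
      _ ≤ cn * Qs (2 * 7 + 1) x := mul_le_mul_of_nonneg_left h3 cn_pos.le
  rw [npdf_neg, npdf_eq_cn]
  refine ⟨?_, ?_, ?_, ?_⟩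
  · calc pl ≤ 0.398942 * e1 := hpl
      _ ≤ cn * e1 := by gcongr
      _ ≤ cn * rexp (-(x ^ 2 / 2)) := by
          apply mul_le_mul_of_nonneg_left _ cn_pos.le
          linarith
  · calc cn * rexp (-(x ^ 2 / 2)) ≤ 0.398944 * rexp (-(x ^ 2 / 2)) := by gcongr
      _ ≤ 0.398944 * e2 := by
          apply mul_le_mul_of_nonneg_left _ (by norm_num)
          linarith
      _ ≤ pu := hpu
  · rw [hneg]
    linarith
  · rw [hneg]
    linarith

/-- Upper bound for `e` at a point from enclosures. -/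
theorem eF_le_of_bounds {α pu cl : ℝ} (hα : α ≤ 0) (hp : npdf α ≤ pu) (hc : cl ≤ ncdf α) :
    eF α ≤ pu * (pu + α * cl) := by
  unfold eF
  have h1 : ngrand α ≤ pu + α * cl := by
    rw [ngrand_eq]
    nlinarith
  have h2 := ngrand_nonneg α
  have h3 := npdf_pos α
  calc npdf α * ngrand α ≤ pu * ngrand α := by gcongr
    _ ≤ pu * (pu + α * cl) := by
        apply mul_le_mul_of_nonneg_left h1
        linarith

/-- From the concave bound in `e` to a bound linear in `e`. -/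
theorem p_le_linear {κ F₀ FU e p e₀ : ℝ} (hκ : 0 ≤ κ) (hF₀ : 0 < F₀) (hFU : F₀ ≤ FU)
    (hp : p ≤ 2 * e - κ * e ^ 2 / F₀) :
    p ≤ (2 - 2 * κ * e₀ / FU) * e + κ * e₀ ^ 2 / FU := by
  have hFUpos : 0 < FU := lt_of_lt_of_le hF₀ hFU
  have h1 : κ * e ^ 2 / FU ≤ κ * e ^ 2 / F₀ :=
    div_le_div_of_nonneg_left (by positivity) hF₀ hFU
  have h2 : 2 * e - κ * e ^ 2 / FU ≤ (2 - 2 * κ * e₀ / FU) * e + κ * e₀ ^ 2 / FU := by
    have h3 : (2 - 2 * κ * e₀ / FU) * e + κ * e₀ ^ 2 / FU - (2 * e - κ * e ^ 2 / FU)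
        = κ * (e - e₀) ^ 2 / FU := by
      field_simp
      ring
    have h4 : 0 ≤ κ * (e - e₀) ^ 2 / FU := by positivity
    linarith
  linarith

/-- The concluding algebra of the deletion step. -/
theorem p_le_of_deletion {F F₀ κ κ₀ e p P : ℝ} (hF : F₀ ≤ F) (hF₀ : 0 < F₀) (hκ : 0 < κ)
    (he : 0 ≤ e) (hκe : 2 * (κ * e) ≤ F₀) (hP : F - κ * e ≤ P) (hdel : P ^ 2 ≤ F₀ * (F - κ * p))
    (hκ₀ : κ₀ ≤ κ) : p ≤ 2 * e - κ₀ * e ^ 2 / F₀ := by
  set E : ℝ := κ * e with hE
  have h0 : 0 ≤ F - E := by linarith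
  have h1 : (F - E) ^ 2 ≤ P ^ 2 := pow_le_pow_left₀ h0 hP 2
  have h2 : F₀ * (κ * p) ≤ 2 * E * F₀ - E ^ 2 := by
    have h3 : (F - F₀) * (2 * E - F) ≤ 0 :=
      mul_nonpos_of_nonneg_of_nonpos (by linarith) (by linarith)
    nlinarith
  have h4 : F₀ * (κ * p) ≤ F₀ * (κ * (2 * e - κ * e ^ 2 / F₀)) := by
    have e1 : F₀ * (κ * (2 * e - κ * e ^ 2 / F₀)) = 2 * E * F₀ - E ^ 2 := by
      rw [hE]
      field_simp
    rw [e1]
    exact h2
  have h5 : κ * p ≤ κ * (2 * e - κ * e ^ 2 / F₀) := le_of_mul_le_mul_left h4 hF₀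
  have h6 : p ≤ 2 * e - κ * e ^ 2 / F₀ := le_of_mul_le_mul_left h5 hκ
  have h7 : κ₀ * e ^ 2 / F₀ ≤ κ * e ^ 2 / F₀ := by
    apply div_le_div_of_nonneg_right _ hF₀.le
    have := sq_nonneg e
    nlinarith
  linarith

/-- A tangent line for `φ²` with rational coefficients. -/
theorem tangent_line {α₀ pl pu cl s b : ℝ} (h0 : α₀ ≤ 0) (hα₀ : -1 ≤ α₀)
    (hb : (pl ≤ npdf α₀ ∧ npdf α₀ ≤ pu ∧ cl ≤ ncdf α₀)) (hpl : 0 ≤ pl) (hcl : 0 ≤ cl)
    (hs : 2 * (-α₀) * pu ≤ s) (hb2 : pu ^ 2 - 2 * (-α₀) * pl * cl ≤ b) {α : ℝ} (hα : -1 ≤ α) :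
    npdf α ^ 2 ≤ s * ncdf α + b := by
  obtain ⟨h1, h2, h3⟩ := hb
  have h4 := npdf_sq_tangent h0 hα₀ hα
  have hx : 0 ≤ -α₀ := by linarith
  have ha : 0 < ncdf α := ncdf_pos α
  have hφ : 0 < npdf α₀ := npdf_pos α₀
  have hφ2 : npdf α₀ ^ 2 ≤ pu ^ 2 := pow_le_pow_left₀ hφ.le h2 2
  have h5 : 2 * (-α₀) * npdf α₀ * ncdf α ≤ s * ncdf α := by
    apply mul_le_mul_of_nonneg_right _ ha.le
    have : 2 * (-α₀) * npdf α₀ ≤ 2 * (-α₀) * pu := by gcongr
    linarith
  have h6 : 2 * (-α₀) * pl * cl ≤ 2 * (-α₀) * npdf α₀ * ncdf α₀ := by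
    have h7 : 2 * (-α₀) * pl ≤ 2 * (-α₀) * npdf α₀ := by gcongr
    calc 2 * (-α₀) * pl * cl ≤ 2 * (-α₀) * npdf α₀ * cl := by gcongr
      _ ≤ 2 * (-α₀) * npdf α₀ * ncdf α₀ := by gcongr
  nlinarith

/-- A crude bound for the arctangent. -/
theorem arctan_div_le {x a V c : ℝ} (hx : 0 ≤ x) (ha : 0 ≤ a) (hV : 0 < V) (hc0 : 0 ≤ c)
    (hc : 2 ≤ c ^ 2) (h : x ^ 2 ≤ 2 * a ^ 2) : arctan (x / V) ≤ c * a / V := by
  have h1 : x ≤ c * a := by
    have h2 : x ^ 2 ≤ (c * a) ^ 2 := by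
      rw [mul_pow]
      have := sq_nonneg a
      nlinarith
    exact (abs_le_of_sq_le_sq' h2 (by positivity)).2
  have h3 := arctan_le_tangent (y := x / V) (y₀ := 0) (by positivity) le_rfl
  simp only [Real.arctan_zero, zero_add, ne_eq, OfNat.ofNat_ne_zero, not_false_eq_true, zero_pow,
    add_zero, div_one, sub_zero] at h3
  calc arctan (x / V) ≤ x / V := h3
    _ ≤ c * a / V := by gcongr

lemma om_bound : 1 / (2 * π) ≤ (159156 / 1000000 : ℝ) := by
  have h := Real.pi_gt_d6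
  rw [div_le_iff₀ (by positivity)]
  nlinarith

lemma le_of_sq_le {D Du : ℝ} (hDu : 0 ≤ Du) (h : D ^ 2 ≤ Du ^ 2) : D ≤ Du :=
  (abs_le_of_sq_le_sq' h hDu).2

end Vale.Agent.Lib.P226
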