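import Vale.Agent.Lib.P226.Select
import Vale.Agent.Lib.P226.NumLib

/-!
Combinatorial and geometric lemmas for the concluding numerical chain.
-/

open MeasureTheory ProbabilityTheory Real Set
open scoped RealInnerProductSpace ENNReal NNReal Pointwise

namespace Vale.Agent.Lib.P226

variable {ι : Type*} [Fintype ι]

/-- Selecting the three largest values. -/
lemma top_three [DecidableEq ι] (a : ι → ℝ) (h3 : 3 ≤ Fintype.card ι) :
    ∃ i₁ i₂ i₃ : ι, i₁ ≠ i₂ ∧ i₁ ≠ i₃ ∧ i₂ ≠ i₃ ∧ a i₂ ≤ a i₁ ∧ a i₃ ≤ a i₂ ∧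
      (∀ m, m ≠ i₁ → a m ≤ a i₂) ∧ (∀ m, m ≠ i₁ → m ≠ i₂ → a m ≤ a i₃) := by
  have hc : (Finset.univ : Finset ι).card = Fintype.card ι := Finset.card_univ
  have hne0 : (Finset.univ : Finset ι).Nonempty := by
    rw [← Finset.card_pos, hc]
    omega
  obtain ⟨i₁, -, h₁⟩ := Finset.exists_max_image Finset.univ a hne0
  have hc1 : (Finset.univ.erase i₁).card = Fintype.card ι - 1 := by
    rw [Finset.card_erase_of_mem (Finset.mem_univ _), hc]
  have hne1 : (Finset.univ.erase i₁).Nonempty := by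
    rw [← Finset.card_pos, hc1]
    omega
  obtain ⟨i₂, hi₂, h₂⟩ := Finset.exists_max_image (Finset.univ.erase i₁) a hne1
  have hc2 : ((Finset.univ.erase i₁).erase i₂).card = Fintype.card ι - 2 := by
    rw [Finset.card_erase_of_mem hi₂, hc1]
    omega
  have hne2 : ((Finset.univ.erase i₁).erase i₂).Nonempty := by
    rw [← Finset.card_pos, hc2]
    omega
  obtain ⟨i₃, hi₃, h₃⟩ := Finset.exists_max_image ((Finset.univ.erase i₁).erase i₂) a hne2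
  have h2ne : i₂ ≠ i₁ := (Finset.mem_erase.mp hi₂).1
  have h3ne2 : i₃ ≠ i₂ := (Finset.mem_erase.mp hi₃).1
  have h3ne1 : i₃ ≠ i₁ := (Finset.mem_erase.mp (Finset.mem_erase.mp hi₃).2).1
  refine ⟨i₁, i₂, i₃, h2ne.symm, h3ne1.symm, h3ne2.symm, h₁ _ (Finset.mem_univ _), ?_, ?_, ?_⟩
  · exact h₂ _ (Finset.mem_erase.mpr ⟨h3ne1, Finset.mem_univ _⟩)
  · intro m hm
    exact h₂ _ (Finset.mem_erase.mpr ⟨hm, Finset.mem_univ _⟩)
  · intro m hm1 hm2
    exact h₃ _ (Finset.mem_erase.mpr ⟨hm2, Finset.mem_erase.mpr ⟨hm1, Finset.mem_univ _⟩⟩)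

/-- If the second largest value is small the total is small. -/
lemma second_ge [DecidableEq ι] {a p : ι → ℝ} {i₁ i₂ : ι} (hsum : ∑ m, a m = 1)
    (hord : ∀ m, m ≠ i₁ → a m ≤ a i₂) {z s b FL : ℝ}
    (hhom : ∀ m, a m ≤ z → p m ≤ s * a m) (hoff : p i₁ ≤ s * a i₁ + b)
    (hF : FL < ∑ m, p m) (hnum : s + b ≤ FL) : z ≤ a i₂ := by
  by_contra hcon
  push Not at hcon
  have h1 : ∑ m, p m ≤ ∑ m, (s * a m + if m = i₁ then b else 0) := by
    refine Finset.sum_le_sum (fun m _ => ?_)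
    by_cases hm : m = i₁
    · subst hm
      simpa using hoff
    · have := hhom m (by linarith [hord m hm])
      simpa [hm] using this
  rw [Finset.sum_add_distrib, ← Finset.mul_sum, hsum, Finset.sum_ite_eq'] at h1
  simp only [Finset.mem_univ, if_true] at h1
  linarith

/-- If the third largest value is small the total is small. -/
lemma third_ge [DecidableEq ι] {a p : ι → ℝ} {i₁ i₂ i₃ : ι} (h12 : i₁ ≠ i₂) (hsum : ∑ m, a m = 1)
    (hord : ∀ m, m ≠ i₁ → m ≠ i₂ → a m ≤ a i₃) {z s b FL : ℝ}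
    (hhom : ∀ m, a m ≤ z → p m ≤ s * a m) (hoff1 : p i₁ ≤ s * a i₁ + b) (hoff2 : p i₂ ≤ s * a i₂ + b)
    (hF : FL < ∑ m, p m) (hnum : s + 2 * b ≤ FL) : z ≤ a i₃ := by
  by_contra hcon
  push Not at hcon
  have h1 : ∑ m, p m ≤ ∑ m, (s * a m + ((if m = i₁ then b else 0) + if m = i₂ then b else 0)) := by
    refine Finset.sum_le_sum (fun m _ => ?_)
    by_cases hm : m = i₁
    · subst hm
      simpa [h12] using hoff1
    by_cases hm2 : m = i₂
    · subst hm2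
      simpa [hm] using hoff2
    · have := hhom m (by linarith [hord m hm hm2])
      simpa [hm, hm2] using this
  rw [Finset.sum_add_distrib, Finset.sum_add_distrib, ← Finset.mul_sum, hsum,
    Finset.sum_ite_eq', Finset.sum_ite_eq'] at h1
  simp only [Finset.mem_univ, if_true] at h1
  linarith

/-- Splitting a sum along three indices. -/
lemma sum_split [DecidableEq ι] (f : ι → ℝ) {i₁ i₂ i₃ : ι} (h12 : i₁ ≠ i₂) (h13 : i₁ ≠ i₃)
    (h23 : i₂ ≠ i₃) (S : Finset ι) (hS : ∀ m, m ∈ S ↔ m ≠ i₁ ∧ m ≠ i₂ ∧ m ≠ i₃) :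
    ∑ m, f m = f i₁ + f i₂ + f i₃ + ∑ m ∈ S, f m := by
  have h1 : (Finset.univ : Finset ι) = insert i₁ (insert i₂ (insert i₃ S)) := by
    ext m
    simp only [Finset.mem_univ, Finset.mem_insert, true_iff, hS]
    tauto
  rw [h1, Finset.sum_insert, Finset.sum_insert, Finset.sum_insert]
  · ring
  · intro hm
    exact ((hS i₃).mp hm).2.2 rfl
  · intro hm
    rcases Finset.mem_insert.mp hm with hm | hm
    · exact h23 hm
    · exact ((hS i₂).mp hm).2.1 rfl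
  · intro hm
    rcases Finset.mem_insert.mp hm with hm | hm
    · exact h12 hm
    rcases Finset.mem_insert.mp hm with hm | hm
    · exact h13 hm
    · exact ((hS i₁).mp hm).1 rfl

lemma exists_selection (s : ι → ℝ) (i₁ i₂ i₃ : ι) :
    (s i₂ ≤ s i₁ ∧ s i₃ ≤ s i₁) ∨ (s i₁ ≤ s i₂ ∧ s i₃ ≤ s i₂) ∨ (s i₁ ≤ s i₃ ∧ s i₂ ≤ s i₃) := by
  rcases le_total (s i₁) (s i₂) with h | h
  · rcases le_total (s i₂) (s i₃) with h2 | h2
    · exact Or.inr (Or.inr ⟨h.trans h2, h2⟩)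
    · exact Or.inr (Or.inl ⟨h, h2⟩)
  · rcases le_total (s i₁) (s i₃) with h2 | h2
    · exact Or.inr (Or.inr ⟨h2, h.trans h2⟩)
    · exact Or.inl ⟨h, h2⟩

/-- Sum of arctangents at a smaller radius. -/
lemma ang_le {S : Finset ι} {x : ι → ℝ} (hx : ∀ m, 0 ≤ x m) {V V1 Vb R : ℝ} (hV1 : 0 < V1)
    (hVV : V1 ≤ V) (hVb : V1 ≤ Vb) (hstar : ∑ m ∈ S, arctan (x m / Vb) ≤ R) :
    ∑ m ∈ S, arctan (x m / V) ≤ Vb / V1 * R := by
  have h1 : ∀ m, arctan (x m / V) ≤ Vb / V1 * arctan (x m / Vb) := by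
    intro m
    have h2 : arctan (x m / V) ≤ arctan (x m / V1) := by
      apply Real.arctan_mono
      exact div_le_div_of_nonneg_left (hx m) hV1 hVV
    exact h2.trans (arctan_scale (hx m) hV1 hVb)
  have hr : 0 ≤ Vb / V1 := by
    have : 0 < Vb := lt_of_lt_of_le hV1 hVb
    positivity
  calc ∑ m ∈ S, arctan (x m / V) ≤ ∑ m ∈ S, Vb / V1 * arctan (x m / Vb) :=
        Finset.sum_le_sum (fun m _ => h1 m)
    _ = Vb / V1 * ∑ m ∈ S, arctan (x m / Vb) := by rw [Finset.mul_sum]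
    _ ≤ Vb / V1 * R := mul_le_mul_of_nonneg_left hstar hr

/-- A lower bound for the radius from a lower bound for the two squared norms. -/
lemma V_of_y {V y y1 V1 : ℝ} (hV0 : 0 < V) (hy : y ≤ 8 * V ^ 2) (h1 : y1 ≤ y) (hV1 : 0 ≤ V1)
    (hnum : 8 * V1 ^ 2 ≤ y1) : V1 ≤ V := by
  have h2 : V1 ^ 2 ≤ V ^ 2 := by linarith only [hy, h1, hnum]
  exact le_of_sq_le hV0.le h2

/-- An upper bound for the length from the two squared norms. -/
lemma D_of_sq {D pI pJ y2 Du : ℝ} (hD1 : D ^ 2 ≤ 2 * pI + pJ) (hD2 : D ^ 2 ≤ pI + 2 * pJ)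
    (hc : pI + pJ < y2) (hDu0 : 0 ≤ Du) (hnum : 3 / 2 * y2 ≤ Du ^ 2) : D ≤ Du := by
  have h2 : D ^ 2 ≤ Du ^ 2 := by linarith only [hD1, hD2, hc, hnum]
  exact le_of_sq_le hDu0 h2

/-- A tangent line bound for the length. -/
lemma D_line {D Q0 β e D0 d0 d1 : ℝ} (hQ : D ^ 2 ≤ Q0 + β * e) (hD0 : 0 < D0)
    (h0 : Q0 + D0 ^ 2 = 2 * D0 * d0) (h1 : β = 2 * D0 * d1) : D ≤ d0 + d1 * e := by
  have h2 : 2 * D0 * D ≤ 2 * D0 * (d0 + d1 * e) := by
    have h3 : 0 ≤ (D - D0) ^ 2 := sq_nonneg _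
    have h4 : 2 * D0 * (d0 + d1 * e) = Q0 + D0 ^ 2 + (2 * D0 * d1) * e := by
      rw [h0]
      ring
    rw [h4, ← h1]
    nlinarith only [hQ, h3]
  exact le_of_mul_le_mul_left h2 (by positivity)

/-- The contradiction in one cell of the parameter space. -/
theorem cell_contra {c cb om D Du V V1 w su τ A3 R AngV : ℝ}
    (hc : c ≤ cb) (hom : 1 / (2 * π) ≤ om)
    (hD : D ≤ Du) (hD0 : 0 ≤ D) (hcb : 0 ≤ cb)
    (hV1 : 0 < V1) (hVV : V1 ≤ V)
    (hw : w ≤ su) (hsu : su < 9 * V1 ^ 2) (hτ0 : 0 ≤ τ) (hτ : su ≤ τ ^ 2 * (9 * V1 ^ 2 - su))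
    (hA3 : τ * (945 + 735 * τ ^ 2 + 64 * τ ^ 4) / (945 + 1050 * τ ^ 2 + 225 * τ ^ 4) ≤ A3)
    (hAng : AngV ≤ R) (hAng0 : 0 ≤ AngV)
    (hnum : cb * Du + om * (R + A3) < 1 / 2)
    (hwall : ∀ τ : ℝ, 0 ≤ τ → w < 9 * V ^ 2 → w ≤ τ ^ 2 * (9 * V ^ 2 - w) →
      1 / 2 ≤ c * D + (AngV + arctan τ) / (2 * π)) : False := by
  have hV2 : V1 ^ 2 ≤ V ^ 2 := pow_le_pow_left₀ hV1.le hVV 2
  have hsu0 : 0 < 9 * V1 ^ 2 - su := by linarith
  have h1 : w < 9 * V ^ 2 := by linarith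
  have h2 : w ≤ τ ^ 2 * (9 * V ^ 2 - w) := by
    have h3 : 9 * V1 ^ 2 - su ≤ 9 * V ^ 2 - w := by linarith
    have h4 : τ ^ 2 * (9 * V1 ^ 2 - su) ≤ τ ^ 2 * (9 * V ^ 2 - w) := by gcongr
    linarith
  have h5 := hwall τ hτ0 h1 h2
  have h6 : arctan τ ≤ A3 := (arctan_le_pade hτ0).trans hA3
  have h7 : 0 ≤ arctan τ := Real.arctan_nonneg.mpr hτ0
  have h8 : c * D ≤ cb * Du := by
    calc c * D ≤ cb * D := mul_le_mul_of_nonneg_right hc hD0
      _ ≤ cb * Du := mul_le_mul_of_nonneg_left hD hcb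
  have h9 : (AngV + arctan τ) / (2 * π) ≤ om * (R + A3) := by
    have h10 : (AngV + arctan τ) / (2 * π) = 1 / (2 * π) * (AngV + arctan τ) := by ring
    rw [h10]
    have h11 : 0 ≤ AngV + arctan τ := by linarith
    have hom0 : 0 ≤ om := le_trans (by positivity) hom
    calc 1 / (2 * π) * (AngV + arctan τ) ≤ om * (AngV + arctan τ) :=
          mul_le_mul_of_nonneg_right hom h11
      _ ≤ om * (R + A3) := mul_le_mul_of_nonneg_left (by linarith) hom0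
  linarith

variable {E : Type*} [NormedAddCommGroup E] [InnerProductSpace ℝ E] [FiniteDimensional ℝ E]
  [MeasurableSpace E] [BorelSpace E]

namespace IsOptimal

variable {t : ι → E} {A : ι → Set E}

omit [FiniteDimensional ℝ E] [MeasurableSpace E] [BorelSpace E] in
/-- The norm of a sum of pairwise obtuse vectors. -/
lemma norm_sum_sq_le (hneg : ∀ i j, i ≠ j → ⟪t i, t j⟫ < 0) (S : Finset ι) :
    ‖∑ m ∈ S, t m‖ ^ 2 ≤ ∑ m ∈ S, ‖t m‖ ^ 2 := by
  classical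
  induction S using Finset.induction_on with
  | empty => simp
  | insert a S ha ih =>
    rw [Finset.sum_insert ha, Finset.sum_insert ha, norm_add_sq_real]
    have h1 : ⟪t a, ∑ m ∈ S, t m⟫ ≤ 0 := by
      rw [inner_sum]
      apply Finset.sum_nonpos
      intro m hm
      have hne : a ≠ m := fun e => ha (e ▸ hm)
      exact (hneg a m hne).le
    linarith

omit [FiniteDimensional ℝ E] [MeasurableSpace E] [BorelSpace E] in
lemma inner_sum_nonpos (hneg : ∀ i j, i ≠ j → ⟪t i, t j⟫ < 0) {S : Finset ι} {m : ι}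
    (hm : m ∉ S) : ⟪t m, ∑ s ∈ S, t s⟫ ≤ 0 := by
  rw [inner_sum]
  apply Finset.sum_nonpos
  intro s hs
  have hne : m ≠ s := fun e => hm (e ▸ hs)
  exact (hneg m s hne).le

/-- The square of the norm of the sum over the remaining indices. -/
lemma norm_sum_eq (h : IsOptimal t A) [DecidableEq ι] {l i j : ι}
    (hli : l ≠ i) (hlj : l ≠ j) (hij : i ≠ j)
    (S : Finset ι) (hS : ∀ m, m ∈ S ↔ m ≠ l ∧ m ≠ i ∧ m ≠ j) :
    ‖∑ m ∈ S, t m‖ ^ 2 = -⟪t l, ∑ m ∈ S, t m⟫ - ⟪t i, ∑ m ∈ S, t m⟫ - ⟪t j, ∑ m ∈ S, t m⟫ := by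
  set W : E := ∑ m ∈ S, t m with hW
  have hiS : i ∉ S := fun hm => ((hS i).mp hm).2.1 rfl
  have hjS : j ∉ S := fun hm => ((hS j).mp hm).2.2 rfl
  have hlS : l ∉ S := fun hm => ((hS l).mp hm).1 rfl
  have hsum : t l + t i + t j + W = 0 := by
    have h1 : (Finset.univ : Finset ι) = insert l (insert i (insert j S)) := by
      ext m
      simp only [Finset.mem_univ, Finset.mem_insert, true_iff, hS]
      tauto
    have h2 := h.sum_eq_zero
    rw [h1, Finset.sum_insert, Finset.sum_insert (by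
      intro hm
      rcases Finset.mem_insert.mp hm with hm | hm
      · exact hij hm
      · exact hiS hm), Finset.sum_insert hjS] at h2
    · rw [← add_assoc, ← add_assoc] at h2
      exact h2
    · intro hm
      rcases Finset.mem_insert.mp hm with hm | hm
      · exact hli hm
      rcases Finset.mem_insert.mp hm with hm | hm
      · exact hlj hm
      · exact hlS hm
  have h1 : W = -(t l + t i + t j) := by
    rw [eq_neg_iff_add_eq_zero, add_comm]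
    exact hsum
  have h2 : ⟪W, W⟫ = ⟪-(t l + t i + t j), W⟫ := by rw [← h1]
  rw [real_inner_self_eq_norm_sq, inner_neg_left, inner_add_left, inner_add_left] at h2
  linarith

/-- The numerical data of a selected pair. -/
theorem pair_numbers (h : IsOptimal t A) (hneg : ∀ i j, i ≠ j → ⟪t i, t j⟫ < 0)
    (hd : ∀ i j, i ≠ j → t i ≠ t j) [DecidableEq ι] {l i j : ι}
    (hli : l ≠ i) (hlj : l ≠ j) (hij : i ≠ j)
    (S : Finset ι) (hS : ∀ m, m ∈ S ↔ m ≠ l ∧ m ≠ i ∧ m ≠ j)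
    (hsi : ‖t i‖ ^ 2 + ⟪t i, ∑ m ∈ S, t m⟫ ≤ ‖t l‖ ^ 2 + ⟪t l, ∑ m ∈ S, t m⟫)
    (hsj : ‖t j‖ ^ 2 + ⟪t j, ∑ m ∈ S, t m⟫ ≤ ‖t l‖ ^ 2 + ⟪t l, ∑ m ∈ S, t m⟫)
    (h4i : ‖t i‖ ^ 2 ≤ 4 * ‖t j‖ ^ 2) (h4j : ‖t j‖ ^ 2 ≤ 4 * ‖t i‖ ^ 2) :
    ∃ V D : ℝ, 0 < V ∧ 0 < D ∧
      D ^ 2 ≤ 2 * ‖t i‖ ^ 2 + ‖t j‖ ^ 2 ∧ D ^ 2 ≤ ‖t i‖ ^ 2 + 2 * ‖t j‖ ^ 2 ∧
      D ^ 2 ≤ ‖t l‖ ^ 2 + ‖t i‖ ^ 2 + ‖t j‖ ^ 2 ∧
      ‖t i‖ ^ 2 + ‖t j‖ ^ 2 ≤ 8 * V ^ 2 ∧
      ∀ τ : ℝ, 0 ≤ τ → ‖∑ m ∈ S, t m‖ ^ 2 < 9 * V ^ 2 →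
        ‖∑ m ∈ S, t m‖ ^ 2 ≤ τ ^ 2 * (9 * V ^ 2 - ‖∑ m ∈ S, t m‖ ^ 2) →
        1 / 2 ≤ √(2 * π) * D / (Fintype.card ι : ℝ)
          + (∑ m ∈ S, arctan (‖t m‖ / V) + arctan τ) / (2 * π) := by
  obtain ⟨V, D, hV, hD, hD2, hVD, hwall⟩ := h.wall_final hneg hd hli hlj hij S hS
  set W : E := ∑ m ∈ S, t m with hW
  have hlS : l ∉ S := fun hm => ((hS l).mp hm).1 rfl
  have hiS : i ∉ S := fun hm => ((hS i).mp hm).2.1 rfl
  have hjS : j ∉ S := fun hm => ((hS j).mp hm).2.2 rfl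
  have hhl := inner_sum_nonpos hneg hlS
  have hhi := inner_sum_nonpos hneg hiS
  have hhj := inner_sum_nonpos hneg hjS
  rw [← hW] at hhl hhi hhj
  have hsum : t l + t i + t j + W = 0 := by
    have h1 : (Finset.univ : Finset ι) = insert l (insert i (insert j S)) := by
      ext m
      simp only [Finset.mem_univ, Finset.mem_insert, true_iff, hS]
      tauto
    have h2 := h.sum_eq_zero
    rw [h1, Finset.sum_insert, Finset.sum_insert (by
      intro hm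
      rcases Finset.mem_insert.mp hm with hm | hm
      · exact hij hm
      · exact hiS hm), Finset.sum_insert hjS] at h2
    · rw [← add_assoc, ← add_assoc] at h2
      exact h2
    · intro hm
      rcases Finset.mem_insert.mp hm with hm | hm
      · exact hli hm
      rcases Finset.mem_insert.mp hm with hm | hm
      · exact hlj hm
      · exact hlS hm
  have hwW : ‖W‖ ^ 2 = -⟪t l, W⟫ - ⟪t i, W⟫ - ⟪t j, W⟫ := by
    have h1 : W = -(t l + t i + t j) := by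
      rw [eq_neg_iff_add_eq_zero, add_comm]
      exact hsum
    have h2 : ⟪W, W⟫ = ⟪-(t l + t i + t j), W⟫ := by rw [← h1]
    rw [real_inner_self_eq_norm_sq, inner_neg_left, inner_add_left, inner_add_left] at h2
    linarith
  have hgid : ‖t i‖ ^ 2 + ‖t j‖ ^ 2 + 2 * ⟪t i, t j⟫ = ‖t l‖ ^ 2 + 2 * ⟪t l, W⟫ + ‖W‖ ^ 2 := by
    have h1 : t i + t j = -(t l + W) := by
      rw [eq_neg_iff_add_eq_zero, ← hsum]
      abel
    have h2 : ‖t i + t j‖ ^ 2 = ‖t l + W‖ ^ 2 := by rw [h1, norm_neg]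
    rw [norm_add_sq_real, norm_add_sq_real] at h2
    linarith
  set g : ℝ := -⟪t i, t j⟫ with hg
  have hgpos : 0 < g := by
    have := hneg i j hij
    rw [hg]
    linarith
  set pi' : ℝ := ‖t i‖ ^ 2 with hpi
  set pj' : ℝ := ‖t j‖ ^ 2 with hpj
  set pl' : ℝ := ‖t l‖ ^ 2 with hpl
  have h2g1 : 2 * g ≤ pj' := by
    rw [hg]
    linarith
  have h2g2 : 2 * g ≤ pi' := by
    rw [hg]
    linarith
  have hgle : 2 * g ≤ pl' := by
    rw [hg]
    linarith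
  have hpi0 : 0 < pi' := by linarith
  have hpj0 : 0 < pj' := by linarith
  have hD2' : D ^ 2 = pi' + pj' + 2 * g := by
    rw [hD2, hg]
    ring
  have hV2' : V ^ 2 * D ^ 2 = pi' * pj' - g ^ 2 := by
    rw [hVD, hg]
    ring
  have hDpos : 0 < D ^ 2 := by positivity
  have h8 : pi' + pj' ≤ 8 * V ^ 2 := by
    have hkey : (pi' + pj') * D ^ 2 ≤ 8 * (V ^ 2 * D ^ 2) := by
      rw [hV2', hD2']
      rcases le_total pi' pj' with hle | hle
      · have h1 : 0 ≤ (pj' - pi') * (4 * pi' - pj') := mul_nonneg (by linarith) (by linarith)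
        have h2 : (2 * g) ^ 2 ≤ pi' ^ 2 := pow_le_pow_left₀ (by positivity) h2g2 2
        have h3 : 2 * g * (pi' + pj') ≤ pi' * (pi' + pj') :=
          mul_le_mul_of_nonneg_right h2g2 (by positivity)
        nlinarith
      · have h1 : 0 ≤ (pi' - pj') * (4 * pj' - pi') := mul_nonneg (by linarith) (by linarith)
        have h2 : (2 * g) ^ 2 ≤ pj' ^ 2 := pow_le_pow_left₀ (by positivity) h2g1 2
        have h3 : 2 * g * (pi' + pj') ≤ pj' * (pi' + pj') :=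
          mul_le_mul_of_nonneg_right h2g1 (by positivity)
        nlinarith
    have h9 : (pi' + pj') * D ^ 2 ≤ (8 * V ^ 2) * D ^ 2 := by linarith
    exact le_of_mul_le_mul_right h9 hDpos
  refine ⟨V, D, hV, hD, by linarith, by linarith, ?_, h8, hwall⟩
  rw [hD2', hg]
  linarith

end IsOptimal

end Vale.Agent.Lib.P226
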