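import Mathlib

/-!
Statement-level definitions for the Gaussian propeller problem.
-/

open MeasureTheory ProbabilityTheory

namespace Vale.Agent.Lib.P226

/-- The (unnormalized) Gaussian first moment `z(A) = ∫_A x dγ(x)`, where `γ` is the standard
Gaussian measure of the Euclidean space `E`. -/
noncomputable def gaussMoment {E : Type*} [NormedAddCommGroup E] [InnerProductSpace ℝ E]
    [FiniteDimensional ℝ E] [MeasurableSpace E] [BorelSpace E] (A : Set E) : E :=
  ∫ x in A, x ∂(stdGaussian E)

/-- The functional `F(A₁,…,A_k) = ∑ᵢ |z(Aᵢ)|²`. -/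
noncomputable def momentEnergy {E : Type*} [NormedAddCommGroup E] [InnerProductSpace ℝ E]
    [FiniteDimensional ℝ E] [MeasurableSpace E] [BorelSpace E] {ι : Type*} [Fintype ι]
    (A : ι → Set E) : ℝ :=
  ∑ i, ‖gaussMoment (A i)‖ ^ 2

/-- `A` is a measurable partition of the whole space (empty cells are allowed). -/
def IsMeasPartition {E : Type*} [MeasurableSpace E] {ι : Type*} (A : ι → Set E) : Prop :=
  (∀ i, MeasurableSet (A i)) ∧ Pairwise (fun i j => Disjoint (A i) (A j)) ∧ (⋃ i, A i) = Set.univ

end Vale.Agent.Lib.P226
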