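import Vale.Agent.Lib.P226.Sector
import Vale.Agent.Lib.P226.Borell

/-!
The statement of Ehrhard's inequality, the tangent bound for translates, the gap integral bound,
the bathtub bound.
-/

open MeasureTheory ProbabilityTheory Real Set
open scoped RealInnerProductSpace ENNReal NNReal Pointwise

namespace Vale.Agent.Lib.P226

variable {E : Type*} [NormedAddCommGroup E] [InnerProductSpace ℝ E] [FiniteDimensional ℝ E]
  [MeasurableSpace E] [BorelSpace E]

/-- Ehrhard's inequality (1983) for closed convex sets of the Euclidean space `E`, written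
without the inverse of the normal distribution function: if `Φ(a) ≤ γ(A)` and `Φ(b) ≤ γ(B)` then
`Φ(θ a + (1-θ) b) ≤ γ(θ A + (1-θ) B)`. -/
def EhrhardOn (E : Type*) [NormedAddCommGroup E] [InnerProductSpace ℝ E] [FiniteDimensional ℝ E]
    [MeasurableSpace E] [BorelSpace E] : Prop :=
  ∀ (A B : Set E), IsClosed A → IsClosed B → Convex ℝ A → Convex ℝ B →
    ∀ θ : ℝ, 0 < θ → θ < 1 → ∀ a b : ℝ,
      ncdf a ≤ (stdGaussian E).real A → ncdf b ≤ (stdGaussian E).real B →
        ncdf (θ * a + (1 - θ) * b) ≤ (stdGaussian E).real (θ • A + (1 - θ) • B)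

/-- The tangent bound for translates of a closed convex set. -/
theorem tangent_of_ehrhard {C : Set E} (hC : IsClosed C) (hCc : Convex ℝ C)
    {u : E} {α K N : ℝ} (hα : ncdf α = (stdGaussian E).real C)
    (hup : ∀ s : ℝ, 0 < s →
      (stdGaussian E).real {x | x + (-(s • u)) ∈ C} ≤ ncdf α - s * K + N * s ^ 2)
    {s₁ : ℝ} (hs₁ : 0 < s₁) :
    (stdGaussian E).real {x | x + (-(s₁ • u)) ∈ C} ≤ ncdf (α - s₁ * (K / npdf α)) := by
  by_contra hcon
  push Not at hcon
  set h₁ := (stdGaussian E).real {x | x + (-(s₁ • u)) ∈ C} with hh₁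
  set c := K / npdf α with hc
  have hpdf := npdf_pos α
  have hle1 : h₁ ≤ 1 := measureReal_le_one
  have hlow := ncdf_pos (α - s₁ * c)
  -- pick an intermediate value
  obtain ⟨β, hβ⟩ := exists_ncdf_eq (a := (ncdf (α - s₁ * c) + h₁) / 2) (by linarith) (by linarith)
  have hβ1 : ncdf β ≤ h₁ := by rw [hβ]; linarith
  have hβ2 : α - s₁ * c < β := by
    rw [← strictMono_ncdf.lt_iff_lt, hβ]
    linarith
  set m : ℝ := (β - α) / s₁ with hm
  have hmc : -c < m := by
    rw [hm, lt_div_iff₀ hs₁]
    linarith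
  -- the set on the left
  set S₁ : Set E := {x | x + (-(s₁ • u)) ∈ C} with hS₁
  have hS₁closed : IsClosed S₁ := hC.preimage (by fun_prop)
  have hS₁conv : Convex ℝ S₁ := by
    intro x hx y hy a b ha hb hab
    have := hCc hx hy ha hb hab
    simp only [hS₁, Set.mem_ofPred_eq]
    have e : a • x + b • y + -(s₁ • u)
        = a • (x + -(s₁ • u)) + b • (y + -(s₁ • u)) := by
      have : b = 1 - a := by linarith
      subst this
      simp only [smul_add, smul_neg, sub_smul, one_smul]
      abel
    rw [e]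
    exact this
  -- lower bound from Ehrhard
  have hlowf : ∀ s : ℝ, 0 < s → s < s₁ →
      ncdf (α + s * m) ≤ (stdGaussian E).real {x | x + (-(s • u)) ∈ C} := by
    intro s hs hs2
    set θ : ℝ := s / s₁ with hθ
    have hθ0 : 0 < θ := by positivity
    have hθ1 : θ < 1 := by rw [hθ, div_lt_one hs₁]; exact hs2
    have hDclosed : IsClosed {x | x + (-(s • u)) ∈ C} := hC.preimage (by fun_prop)
    have hsubD : ∀ x ∈ S₁, ∀ y ∈ C, θ • x + (1 - θ) • y ∈ {x | x + (-(s • u)) ∈ C} := by
      intro x hx y hy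
      have hz := hCc hx hy hθ0.le (by linarith : 0 ≤ 1 - θ) (by ring)
      simp only [Set.mem_ofPred_eq]
      have e2 : θ • x + (1 - θ) • y + -(s • u)
          = θ • (x + -(s₁ • u)) + (1 - θ) • y := by
        have e3 : s = θ * s₁ := by
          rw [hθ]
          field_simp
        simp only [smul_add, smul_neg, smul_smul, ← e3]
        abel
      rw [e2]
      exact hz
    have h1 := borell_closed hθ0 hθ1 hS₁closed hC hDclosed hsubD hβ1 hα.le
    have e1 : θ * β + (1 - θ) * α = α + s * m := by
      rw [hθ, hm]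
      field_simp
      ring
    rw [e1] at h1
    exact h1
  -- derivative
  set f : ℝ → ℝ := fun s => ncdf α - s * K + N * s ^ 2 - ncdf (α + s * m) with hf
  have hder : HasDerivAt f (-K - npdf α * m) 0 := by
    have h1 : HasDerivAt (fun s : ℝ => ncdf α - s * K) (-K) 0 := by
      have := ((hasDerivAt_id (0:ℝ)).mul_const K).const_sub (ncdf α)
      simpa using this
    have h2 : HasDerivAt (fun s : ℝ => N * s ^ 2) 0 0 := by
      have := ((hasDerivAt_pow 2 (0:ℝ)).const_mul N)
      simpa using this
    have h3 : HasDerivAt (fun s : ℝ => α + s * m) m 0 := by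
      have := ((hasDerivAt_id (0:ℝ)).mul_const m).const_add α
      simpa using this
    have h4 : HasDerivAt (fun s : ℝ => ncdf (α + s * m)) (npdf α * m) 0 := by
      have h5 := hasDerivAt_ncdf (α + 0 * m)
      have h6 := h5.comp (0:ℝ) h3
      have e : α + 0 * m = α := by ring
      rw [e] at h6
      exact h6
    have := (h1.add h2).sub h4
    simp only [add_zero] at this
    exact this
  have hf0 : f 0 = 0 := by
    simp [hf]
  have hnn : 0 ≤ -K - npdf α * m := by
    have hlim := hder.tendsto_slope_zero_right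
    refine ge_of_tendsto hlim ?_
    have hmem : Ioo (0:ℝ) s₁ ∈ nhdsWithin (0:ℝ) (Ioi 0) := Ioo_mem_nhdsGT hs₁
    filter_upwards [hmem] with s hs
    rw [hf0, sub_zero, zero_add]
    have h1 := hlowf s hs.1 hs.2
    have h2 := hup s hs.1
    have h3 : 0 ≤ f s := by
      simp only [hf]
      linarith
    have h4 : 0 < s⁻¹ := inv_pos.mpr hs.1
    simp only [smul_eq_mul]
    positivity
  have h5 : npdf α * c = K := by
    rw [hc]
    field_simp
  nlinarith

/-- Layer cake comparison. -/
theorem integral_le_of_level {f : E → ℝ} (hf : Integrable f (stdGaussian E)) (hf0 : ∀ x, 0 ≤ f x)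
    {C : Set E} {u : E} {α c : ℝ} (hc : 0 < c)
    (hsub : ∀ τ : ℝ, 0 < τ → {x | τ < f x} ⊆ {x | x + (-(τ • u)) ∈ C})
    (hT : ∀ τ : ℝ, 0 < τ → (stdGaussian E).real {x | x + (-(τ • u)) ∈ C} ≤ ncdf (α - τ * c)) :
    ∫ x, f x ∂(stdGaussian E) ≤ ngrand α / c := by
  rw [hf.integral_eq_integral_meas_lt (Filter.Eventually.of_forall hf0)]
  obtain ⟨hi, hv⟩ := integral_ncdf_Ioi α hc
  rw [← hv]
  have hcongr : (fun t => ncdf (α - c * t)) = fun t => ncdf (α - t * c) := by
    ext t
    rw [mul_comm]
  refine integral_mono_of_nonneg (Filter.Eventually.of_forall (fun _ => measureReal_nonneg)) hi ?_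
  filter_upwards [self_mem_ae_restrict (measurableSet_Ioi (a := (0:ℝ)))] with τ hτ
  have h1 := measureReal_mono (μ := stdGaussian E) (hsub τ hτ)
  have h2 := hT τ hτ
  have e : c * τ = τ * c := mul_comm _ _
  simp only [e]
  exact h1.trans h2

/-- The bathtub bound for a unit direction. -/
theorem setIntegral_inner_le_npdf {S : Set E} (hS : MeasurableSet S) {n : E} (hn : ‖n‖ = 1) {α : ℝ}
    (hα : ncdf α = (stdGaussian E).real S) : ∫ x in S, ⟪n, x⟫ ∂(stdGaussian E) ≤ npdf α := by
  have hm := map_inner_std n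
  rw [hn] at hm
  simp only [one_pow, Real.toNNReal_one] at hm
  have hmm : Measurable (fun y : ℝ => max (y + α) 0) := by fun_prop
  have hval : ∫ x, max (⟪n, x⟫ + α) 0 ∂(stdGaussian E) = ngrand α := by
    rw [← integral_max_add α, ← hm, integral_map (measurable_inner_const n).aemeasurable
      hmm.aestronglyMeasurable]
  have hint : Integrable (fun x : E => max (⟪n, x⟫ + α) 0) (stdGaussian E) := by
    refine ((integrable_inner_std n).add (integrable_const α)).sup (integrable_const 0) |>.congr ?_
    exact Filter.Eventually.of_forall (fun x => rfl)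
  have h1 : ∫ x in S, ⟪n, x⟫ ∂(stdGaussian E) + α * (stdGaussian E).real S
      = ∫ x in S, (⟪n, x⟫ + α) ∂(stdGaussian E) := by
    rw [integral_add (integrable_inner_std n).integrableOn (integrable_const α).integrableOn,
      setIntegral_const]
    simp [measureReal_def, mul_comm]
  have h2 : ∫ x in S, (⟪n, x⟫ + α) ∂(stdGaussian E) ≤ ∫ x in S, max (⟪n, x⟫ + α) 0 ∂(stdGaussian E) :=
    setIntegral_mono ((integrable_inner_std n).add (integrable_const α)).integrableOn
      hint.integrableOn (fun x => le_max_left _ _)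
  have h3 : ∫ x in S, max (⟪n, x⟫ + α) 0 ∂(stdGaussian E) ≤ ∫ x, max (⟪n, x⟫ + α) 0 ∂(stdGaussian E) :=
    setIntegral_le_integral hint (Filter.Eventually.of_forall (fun x => le_max_right _ _))
  rw [hval] at h3
  rw [ngrand_eq, ← hα] at *
  nlinarith

end Vale.Agent.Lib.P226
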