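import Vale.Agent.Lib.P226.Triple
import Vale.Agent.Lib.P226.NumLib

/-!
Consequences of the formula for three vectors: the bound for three cells and the
inequalities used for four cells.
-/

open MeasureTheory ProbabilityTheory Real Set
open scoped RealInnerProductSpace ENNReal NNReal Pointwise

namespace Vale.Agent.Lib.P226

variable {E : Type*} [NormedAddCommGroup E] [InnerProductSpace ℝ E]

/-- The sum of the squared sides of a triangle with centroid at the origin. -/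
lemma three_edges {x y z : E} (h : x + y + z = 0) :
    ‖x - y‖ ^ 2 + ‖y - z‖ ^ 2 + ‖z - x‖ ^ 2 = 3 * (‖x‖ ^ 2 + ‖y‖ ^ 2 + ‖z‖ ^ 2) := by
  have h1 : ‖x + y + z‖ ^ 2 = 0 := by rw [h]; simp
  rw [norm_add_sq_real, norm_add_sq_real, inner_add_left] at h1
  rw [norm_sub_sq_real, norm_sub_sq_real, norm_sub_sq_real, real_inner_comm x z]
  linarith

/-- The squared edges at one vertex of a tetrahedron with centroid at the origin. -/
lemma four_inner {x y z w : E} (h : x + y + z + w = 0) :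
    ‖w - x‖ ^ 2 + ‖w - y‖ ^ 2 + ‖w - z‖ ^ 2
      = 4 * ‖w‖ ^ 2 + (‖x‖ ^ 2 + ‖y‖ ^ 2 + ‖z‖ ^ 2 + ‖w‖ ^ 2) := by
  have h1 : ⟪x + y + z + w, w⟫ = 0 := by rw [h]; simp
  rw [inner_add_left, inner_add_left, inner_add_left, real_inner_self_eq_norm_sq] at h1
  rw [norm_sub_sq_real, norm_sub_sq_real, norm_sub_sq_real, real_inner_comm x w,
    real_inner_comm y w, real_inner_comm z w]
  linarith

/-- The squared edges of the opposite face. -/
lemma four_outer {x y z w : E} (h : x + y + z + w = 0) :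
    ‖x - y‖ ^ 2 + ‖x - z‖ ^ 2 + ‖y - z‖ ^ 2
      = 3 * (‖x‖ ^ 2 + ‖y‖ ^ 2 + ‖z‖ ^ 2 + ‖w‖ ^ 2) - 4 * ‖w‖ ^ 2 := by
  have h0 : x + y + z = -w := by
    rw [eq_neg_iff_add_eq_zero]
    exact h
  have h1 : ‖x + y + z‖ ^ 2 = ‖w‖ ^ 2 := by rw [h0, norm_neg]
  rw [norm_add_sq_real, norm_add_sq_real, inner_add_left] at h1
  rw [norm_sub_sq_real, norm_sub_sq_real, norm_sub_sq_real]
  linarith

/-- Tangent bound for a sum of three numbers with prescribed sum of squares. -/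
lemma sum_three_tangent {u v w Q q : ℝ} (h : u ^ 2 + v ^ 2 + w ^ 2 = Q) :
    2 * q * (u + v + w) ≤ q ^ 2 + 3 * Q := by
  nlinarith [sq_nonneg (u - q / 3), sq_nonneg (v - q / 3), sq_nonneg (w - q / 3)]

variable [FiniteDimensional ℝ E] [MeasurableSpace E] [BorelSpace E]

/-- The propeller bound for three cells. -/
theorem bound_three (A : Fin 3 → Set E) (hA : IsMeasPartition A) :
    momentEnergy A ≤ 9 / (8 * π) := by
  obtain ⟨t, C, hC1, hC2, hC3, hC4⟩ := exists_optimal (ι := Fin 3) (E := E)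
  have h : IsOptimal t C := ⟨hC1, hC2, hC3, hC4⟩
  refine (hC4 A hA).trans ?_
  have hPhi := h.Phi_eq
  rw [Phi_triple t (a := 0) (b := 1) (c := 2) (by decide), Fin.sum_univ_three] at hPhi
  rw [Fin.sum_univ_three]
  have hsum := h.sum_eq_zero
  rw [Fin.sum_univ_three] at hsum
  have he := three_edges hsum
  set F : ℝ := ‖t 0‖ ^ 2 + ‖t 1‖ ^ 2 + ‖t 2‖ ^ 2 with hF
  have hF0 : 0 ≤ F := by positivity
  set s : ℝ := √(2 * π) with hs
  have hs0 : 0 < s := by positivity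
  have hss : s ^ 2 = 2 * π := Real.sq_sqrt (by positivity)
  have hO := sum_three_tangent (q := 0) he
  set O : ℝ := ‖t 0 - t 1‖ + ‖t 1 - t 2‖ + ‖t 2 - t 0‖ with hOd
  have hOsq : O ^ 2 ≤ 9 * F := by
    rw [hOd]
    nlinarith [sq_nonneg (‖t 0 - t 1‖ - ‖t 1 - t 2‖), sq_nonneg (‖t 1 - t 2‖ - ‖t 2 - t 0‖),
      sq_nonneg (‖t 2 - t 0‖ - ‖t 0 - t 1‖)]
  have hFO : O = 2 * s * F := by
    rw [← hPhi]
    field_simp
  have hmain : (2 * s * F) ^ 2 ≤ 9 * F := by rw [← hFO]; exact hOsq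
  by_cases hF1 : F = 0
  · rw [hF1]
    positivity
  have hFpos : 0 < F := lt_of_le_of_ne hF0 (Ne.symm hF1)
  rw [le_div_iff₀ (by positivity)]
  have h2 : (2 * s * F) ^ 2 = F * (8 * π * F) := by
    rw [mul_pow, mul_pow, hss]
    ring
  rw [h2] at hmain
  have h3 : F * (8 * π * F) ≤ F * 9 := by linarith
  have h4 := le_of_mul_le_mul_left h3 hFpos
  linarith

variable {ι : Type*} [Fintype ι] {t : ι → E} {A : ι → Set E}

/-- The gap inequality for four cells. -/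
theorem IsOptimal.gap_triple (h : IsOptimal t A) (hneg : ∀ i j, i ≠ j → ⟪t i, t j⟫ < 0)
    (hd : ∀ i j, i ≠ j → t i ≠ t j) [DecidableEq ι] (hc : Fintype.card ι = 4) {l x y z : ι}
    (hx : x ≠ l) (hy : y ≠ l) (hz : z ≠ l) (hall : ∀ m, m = l ∨ m = x ∨ m = y ∨ m = z) {α : ℝ}
    (hα : ncdf α = (stdGaussian E).real (A l)) :
    ∑ i, ‖t i‖ ^ 2 ≤ (‖t x - t y‖ + ‖t y - t z‖ + ‖t z - t x‖) / (2 * √(2 * π)) + 4 / 3 * eF α := by
  have : Nonempty {m // m ≠ l} := ⟨⟨x, hx⟩⟩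
  have h1 := h.gap_integral_le hneg hd l hα
  rw [Phi_triple (fun m : {m // m ≠ l} => t m) (a := ⟨x, hx⟩) (b := ⟨y, hy⟩) (c := ⟨z, hz⟩) ?_] at h1
  · rw [hc] at h1
    have h2 : npdf α * ngrand α / (1 - 1 / ((4 : ℕ) : ℝ)) = 4 / 3 * eF α := by
      unfold eF
      norm_num
      ring
    rw [h2] at h1
    linarith
  · rintro ⟨m, hm⟩
    rcases hall m with e | e | e | e
    · exact absurd e hm
    · exact Or.inl (Subtype.ext e)
    · exact Or.inr (Or.inl (Subtype.ext e))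
    · exact Or.inr (Or.inr (Subtype.ext e))

/-- The elementary inequality combining the three gap inequalities. -/
lemma key_combine {F s la lb lc m1 m2 m3 e1 e2 e3 : ℝ} (hs : (2.50662 : ℝ) < s)
    (hla : 0 ≤ la) (hlb : 0 ≤ lb) (hlc : 0 ≤ lc) (hm1 : 0 ≤ m1) (hm2 : 0 ≤ m2) (hm3 : 0 ≤ m3)
    (g1 : F ≤ (lc + m3 + m2) / (2 * s) + 4 / 3 * e1)
    (g2 : F ≤ (lb + m3 + m1) / (2 * s) + 4 / 3 * e2)
    (g3 : F ≤ (la + m2 + m1) / (2 * s) + 4 / 3 * e3) :
    F ≤ (19948 / 100000) / 3 * ((la + lb + lc) + 2 * (m1 + m2 + m3)) + 4 / 9 * (e1 + e2 + e3) := by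
  have hs0 : 0 < s := by linarith
  set X : ℝ := (la + lb + lc) + 2 * (m1 + m2 + m3) with hX
  have hX0 : 0 ≤ X := by positivity
  have h1 : 3 * F ≤ X / (2 * s) + 4 / 3 * (e1 + e2 + e3) := by
    have e : X / (2 * s) = (lc + m3 + m2) / (2 * s) + (lb + m3 + m1) / (2 * s)
        + (la + m2 + m1) / (2 * s) := by
      rw [hX]
      ring
    rw [e]
    linarith
  have h2 : X / (2 * s) ≤ (19948 / 100000) * X := by
    rw [div_le_iff₀ (by positivity)]
    have : 1 ≤ (19948 / 100000) * (2 * s) := by linarith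
    nlinarith
  linarith

end Vale.Agent.Lib.P226
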