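import Vale.Agent.Lib.P226.Main
import Vale.Agent.Lib.P226.Triple2

/-!
Preparations for the case of four cells.
-/

open MeasureTheory ProbabilityTheory Real Set
open scoped RealInnerProductSpace ENNReal NNReal Pointwise

namespace Vale.Agent.Lib.P226

/-- The last index of a selection in `Fin 4`. -/
lemma fin4_last : ∀ {i₁ i₂ i₃ : Fin 4}, i₁ ≠ i₂ → i₁ ≠ i₃ → i₂ ≠ i₃ →
    ∃ i₄ : Fin 4, i₄ ≠ i₁ ∧ i₄ ≠ i₂ ∧ i₄ ≠ i₃ ∧ ∀ m, m = i₁ ∨ m = i₂ ∨ m = i₃ ∨ m = i₄ := by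
  decide

/-- Splitting a sum over `Fin 4` along a permutation. -/
lemma sum_four {M : Type*} [AddCommMonoid M] (f : Fin 4 → M) {i₁ i₂ i₃ i₄ : Fin 4}
    (h12 : i₁ ≠ i₂) (h13 : i₁ ≠ i₃) (h23 : i₂ ≠ i₃) (h41 : i₄ ≠ i₁) (h42 : i₄ ≠ i₂) (h43 : i₄ ≠ i₃)
    (hall : ∀ m, m = i₁ ∨ m = i₂ ∨ m = i₃ ∨ m = i₄) :
    ∑ m, f m = f i₁ + f i₂ + f i₃ + f i₄ := by
  have h1 : (Finset.univ : Finset (Fin 4)) = {i₁, i₂, i₃, i₄} := by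
    ext m
    simp only [Finset.mem_univ, Finset.mem_insert, Finset.mem_singleton, true_iff]
    exact hall m
  rw [h1, Finset.sum_insert, Finset.sum_insert, Finset.sum_insert, Finset.sum_singleton]
  · simp only [add_assoc]
  · simp only [Finset.mem_singleton]
    exact h43.symm
  · simp only [Finset.mem_insert, Finset.mem_singleton, not_or]
    exact ⟨h23, h42.symm⟩
  · simp only [Finset.mem_insert, Finset.mem_singleton, not_or]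
    exact ⟨h12, h13, h41.symm⟩

/-- A bound for one arctangent. -/
lemma ang_one {x V V1 hu R : ℝ} (hx0 : 0 ≤ x) (hu0 : 0 ≤ hu) (hxu : x ^ 2 ≤ hu ^ 2) (hV1 : 0 < V1)
    (hVV : V1 ≤ V)
    (hR : hu / V1 * (945 + 735 * (hu / V1) ^ 2 + 64 * (hu / V1) ^ 4) /
      (945 + 1050 * (hu / V1) ^ 2 + 225 * (hu / V1) ^ 4) ≤ R) : arctan (x / V) ≤ R := by
  have h1 : x ≤ hu := le_of_sq_le hu0 hxu
  have h2 : x / V ≤ hu / V1 := div_le_div₀ hu0 h1 hV1 hVV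
  exact (Real.arctan_mono h2).trans ((arctan_le_pade (div_nonneg hu0 hV1.le)).trans hR)

variable {E : Type*} [NormedAddCommGroup E] [InnerProductSpace ℝ E] [FiniteDimensional ℝ E]
  [MeasurableSpace E] [BorelSpace E]

namespace IsOptimal

variable {ι : Type*} [Fintype ι] {t : ι → E} {A : ι → Set E}

/-- The numerical facts for one cell of an optimal configuration with four cells. -/
theorem cell_facts4 (h : IsOptimal t A) [DecidableEq ι]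
    (hneg : ∀ i j, i ≠ j → ⟪t i, t j⟫ < 0) (hd : ∀ i j, i ≠ j → t i ≠ t j)
    {F₀ : ℝ} (hF₀pos : 0 < F₀) (hF₀num : (35 / 100 : ℝ) ≤ F₀)
    (hF₀ : ∀ l : ι, ∀ B : {m // m ≠ l} → Set E, IsMeasPartition B → momentEnergy B ≤ F₀)
    (hF : F₀ < ∑ m, ‖t m‖ ^ 2) (hcard : Fintype.card ι = 4) (l : ι) :
    ∃ α : ℝ, ncdf α = (stdGaussian E).real (A l) ∧ ‖t l‖ ^ 2 ≤ npdf α ^ 2 ∧
      (eF α ≤ 13 / 100 → ‖t l‖ ^ 2 ≤ 2 * eF α - (4 / 3) * eF α ^ 2 / F₀) := by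
  have hcard1 : 1 < Fintype.card ι := by omega
  obtain ⟨m, hm⟩ : ∃ m, m ≠ l := by
    obtain ⟨x, y, hxy⟩ := Fintype.one_lt_card_iff.mp hcard1
    by_cases hx : x = l
    · exact ⟨y, fun e => hxy (hx.trans e.symm)⟩
    · exact ⟨x, hx⟩
  have : Nonempty {m // m ≠ l} := ⟨⟨m, hm⟩⟩
  have hpos : ∀ q, 0 < (stdGaussian E).real (A q) := by
    intro q
    obtain ⟨r, hr⟩ : ∃ r, r ≠ q := by
      obtain ⟨x, y, hxy⟩ := Fintype.one_lt_card_iff.mp hcard1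
      by_cases hx : x = q
      · exact ⟨y, fun e => hxy (hx.trans e.symm)⟩
      · exact ⟨x, hx⟩
    refine lt_of_le_of_ne measureReal_nonneg (fun e => ?_)
    have h0 := gaussMoment_of_real_eq_zero e.symm
    rw [h.moment q] at h0
    have h1 := hneg r q hr
    rw [h0, inner_zero_right] at h1
    exact lt_irrefl _ h1
  have hsum := h.part.sum_real
  have hlt1 : (stdGaussian E).real (A l) < 1 := by
    have h1 : (stdGaussian E).real (A l) + (stdGaussian E).real (A m) ≤ 1 := by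
      rw [← hsum, ← Finset.sum_pair (f := fun q => (stdGaussian E).real (A q)) hm.symm]
      exact Finset.sum_le_sum_of_subset_of_nonneg (Finset.subset_univ _)
        (fun _ _ _ => measureReal_nonneg)
    linarith [hpos m]
  obtain ⟨α, hα⟩ := exists_ncdf_eq (hpos l) hlt1
  refine ⟨α, hα, ?_, ?_⟩
  · exact pow_le_pow_left₀ (norm_nonneg _) (h.norm_le_npdf l hα) 2
  · intro hemax
    have he0 : 0 ≤ eF α := mul_nonneg (npdf_pos α).le (ngrand_nonneg α)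
    have hgap := h.gap_integral_le hneg hd l hα
    have hdel := h.deletion l (hF₀ l)
    rw [hcard] at hgap hdel
    have hK : (1 - 1 / ((4 : ℕ) : ℝ)) = 3 / 4 := by norm_num
    rw [hK] at hgap hdel
    refine p_le_of_deletion (F := ∑ m, ‖t m‖ ^ 2) (κ := 4 / 3)
      (P := Phi (fun m : {m // m ≠ l} => t m)) hF.le hF₀pos (by norm_num) he0 ?_ ?_ ?_ le_rfl
    · linarith
    · have h1 : npdf α * ngrand α / (3 / 4) = 4 / 3 * eF α := by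
        unfold eF
        ring
      rw [h1] at hgap
      linarith
    · have h1 : 4 / 3 * ‖t l‖ ^ 2 = ‖t l‖ ^ 2 / (3 / 4) := by ring
      rw [h1]
      exact hdel

/-- Selecting the pair for the wall inequality with four cells. -/
theorem wall_select (h : IsOptimal t A) (hneg : ∀ i j, i ≠ j → ⟪t i, t j⟫ < 0)
    (hd : ∀ i j, i ≠ j → t i ≠ t j) [DecidableEq ι] (hc : Fintype.card ι = 4) {i₁ i₂ i₃ i₄ : ι}
    (h12 : i₁ ≠ i₂) (h13 : i₁ ≠ i₃) (h23 : i₂ ≠ i₃) (h41 : i₄ ≠ i₁) (h42 : i₄ ≠ i₂) (h43 : i₄ ≠ i₃)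
    (hall : ∀ m, m = i₁ ∨ m = i₂ ∨ m = i₃ ∨ m = i₄) {low PM : ℝ} (hPM : PM ≤ 4 * low)
    (hl1 : low ≤ ‖t i₁‖ ^ 2) (hl2 : low ≤ ‖t i₂‖ ^ 2) (hl3 : low ≤ ‖t i₃‖ ^ 2)
    (hm1 : ‖t i₁‖ ^ 2 ≤ PM) (hm2 : ‖t i₂‖ ^ 2 ≤ PM) (hm3 : ‖t i₃‖ ^ 2 ≤ PM) :
    ∃ pL pI pJ V D : ℝ, pL + pI + pJ = ‖t i₁‖ ^ 2 + ‖t i₂‖ ^ 2 + ‖t i₃‖ ^ 2 ∧
      pL ≤ PM ∧ pI ≤ PM ∧ pJ ≤ PM ∧ 0 < V ∧ 0 < D ∧
      D ^ 2 ≤ 2 * pI + pJ ∧ D ^ 2 ≤ pI + 2 * pJ ∧ D ^ 2 ≤ pL + pI + pJ ∧ pI + pJ ≤ 8 * V ^ 2 ∧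
      ∀ τ : ℝ, 0 ≤ τ → ‖t i₄‖ ^ 2 < 9 * V ^ 2 → ‖t i₄‖ ^ 2 ≤ τ ^ 2 * (9 * V ^ 2 - ‖t i₄‖ ^ 2) →
        1 / 2 ≤ (√(2 * π) / 4) * D + (arctan (‖t i₄‖ / V) + arctan τ) / (2 * π) := by
  have key : ∀ l i j : ι, l ≠ i → l ≠ j → i ≠ j → (∀ m, m = l ∨ m = i ∨ m = j ∨ m = i₄) →
      i₄ ≠ l → i₄ ≠ i → i₄ ≠ j →
      (‖t i‖ ^ 2 + ⟪t i, t i₄⟫ ≤ ‖t l‖ ^ 2 + ⟪t l, t i₄⟫) →
      (‖t j‖ ^ 2 + ⟪t j, t i₄⟫ ≤ ‖t l‖ ^ 2 + ⟪t l, t i₄⟫) →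
      low ≤ ‖t i‖ ^ 2 → low ≤ ‖t j‖ ^ 2 → ‖t i‖ ^ 2 ≤ PM → ‖t j‖ ^ 2 ≤ PM →
      ∃ V D : ℝ, 0 < V ∧ 0 < D ∧
        D ^ 2 ≤ 2 * ‖t i‖ ^ 2 + ‖t j‖ ^ 2 ∧ D ^ 2 ≤ ‖t i‖ ^ 2 + 2 * ‖t j‖ ^ 2 ∧
        D ^ 2 ≤ ‖t l‖ ^ 2 + ‖t i‖ ^ 2 + ‖t j‖ ^ 2 ∧
        ‖t i‖ ^ 2 + ‖t j‖ ^ 2 ≤ 8 * V ^ 2 ∧
        ∀ τ : ℝ, 0 ≤ τ → ‖t i₄‖ ^ 2 < 9 * V ^ 2 →
          ‖t i₄‖ ^ 2 ≤ τ ^ 2 * (9 * V ^ 2 - ‖t i₄‖ ^ 2) →
          1 / 2 ≤ (√(2 * π) / 4) * D + (arctan (‖t i₄‖ / V) + arctan τ) / (2 * π) := by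
    intro l i j hli hlj hij hal hl hi hj q1 q2 hli' hlj' hmi hmj
    have hS : ∀ m, m ∈ ({i₄} : Finset ι) ↔ m ≠ l ∧ m ≠ i ∧ m ≠ j := by
      intro m
      simp only [Finset.mem_singleton]
      constructor
      · rintro rfl
        exact ⟨hl, hi, hj⟩
      · rintro ⟨a1, a2, a3⟩
        rcases hal m with e | e | e | e
        · exact absurd e a1
        · exact absurd e a2
        · exact absurd e a3
        · exact e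
    obtain ⟨V, D, hV, hD, h1, h2, h3, h4, h5⟩ := h.pair_numbers hneg hd hli hlj hij {i₄} hS
      (by simpa only [Finset.sum_singleton] using q1)
      (by simpa only [Finset.sum_singleton] using q2)
      (by linarith) (by linarith)
    refine ⟨V, D, hV, hD, h1, h2, h3, h4, ?_⟩
    intro τ hτ h6 h7
    have h8 := h5 τ hτ (by simpa only [Finset.sum_singleton] using h6)
      (by simpa only [Finset.sum_singleton] using h7)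
    simp only [Finset.sum_singleton, hc] at h8
    have h9 : √(2 * π) * D / ((4 : ℕ) : ℝ) = √(2 * π) / 4 * D := by
      push_cast
      ring
    rw [h9] at h8
    exact h8
  rcases exists_selection (fun m => ‖t m‖ ^ 2 + ⟪t m, t i₄⟫) i₁ i₂ i₃ with
    ⟨q1, q2⟩ | ⟨q1, q2⟩ | ⟨q1, q2⟩
  · obtain ⟨V, D, hV, hD, h1, h2, h3, h4, h5⟩ := key i₁ i₂ i₃ h12 h13 h23 hall h41 h42 h43 q1 q2
      hl2 hl3 hm2 hm3
    exact ⟨‖t i₁‖ ^ 2, ‖t i₂‖ ^ 2, ‖t i₃‖ ^ 2, V, D, rfl, hm1, hm2, hm3, hV, hD, h1, h2, h3, h4, h5⟩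
  · obtain ⟨V, D, hV, hD, h1, h2, h3, h4, h5⟩ := key i₂ i₁ i₃ h12.symm h23 h13
      (fun m => by rcases hall m with e | e | e | e <;> simp [e]) h42 h41 h43 q1 q2
      hl1 hl3 hm1 hm3
    exact ⟨‖t i₂‖ ^ 2, ‖t i₁‖ ^ 2, ‖t i₃‖ ^ 2, V, D, by ring, hm2, hm1, hm3, hV, hD, h1, h2, h3,
      h4, h5⟩
  · obtain ⟨V, D, hV, hD, h1, h2, h3, h4, h5⟩ := key i₃ i₁ i₂ h13.symm h23.symm h12
      (fun m => by rcases hall m with e | e | e | e <;> simp [e]) h43 h41 h42 q1 q2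
      hl1 hl2 hm1 hm2
    exact ⟨‖t i₃‖ ^ 2, ‖t i₁‖ ^ 2, ‖t i₂‖ ^ 2, V, D, by ring, hm3, hm1, hm2, hV, hD, h1, h2, h3,
      h4, h5⟩

end IsOptimal

end Vale.Agent.Lib.P226
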