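import Vale.Agent.Lib.P226.Table4
import Vale.Agent.Lib.P226.Four

/-!
The concluding numerical chain for four cells.
-/

open MeasureTheory ProbabilityTheory Real Set
open scoped RealInnerProductSpace ENNReal NNReal Pointwise

namespace Vale.Agent.Lib.P226


theorem chk4_0_0 {F p4 a4 O I E : ℝ} (hFL : (35809/100000) < F) (hkey : F ≤ (19948/100000) / 3 * (O + 2 * I) + 4 / 9 * E) (hO : ∀ q : ℝ, 2 * q * O ≤ q ^ 2 + 3 * (3 * F - 4 * p4)) (hI : ∀ q : ℝ, 2 * q * I ≤ q ^ 2 + 3 * (4 * p4 + F))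
    (hE : E + 2 * (F - p4) ≤ (24961/25000) - (59/50) * a4) (hlo : (2/25) ≤ a4) (hhi : a4 ≤ (9/100))
    (hp : p4 ≤ (27813/100000) * a4 + (-(5779/500000))) : False := by
  have h1 := hO (351/200)
  have h2 := hI (221/200)
  linarith only [hFL, hkey, h1, h2, hE, hlo, hhi, hp]

theorem chk4_0_1 {F p4 a4 O I E : ℝ} (hFL : (35809/100000) < F) (hkey : F ≤ (19948/100000) / 3 * (O + 2 * I) + 4 / 9 * E) (hO : ∀ q : ℝ, 2 * q * O ≤ q ^ 2 + 3 * (3 * F - 4 * p4)) (hI : ∀ q : ℝ, 2 * q * I ≤ q ^ 2 + 3 * (4 * p4 + F))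
    (hE : E + 2 * (F - p4) ≤ (24961/25000) - (59/50) * a4) (hlo : (9/100) ≤ a4) (hhi : a4 ≤ (1/10))
    (hp : p4 ≤ (2961/10000) * a4 + (-(527/40000))) : False := by
  have h1 := hO (349/200)
  have h2 := hI (28/25)
  linarith only [hFL, hkey, h1, h2, hE, hlo, hhi, hp]

theorem chk4_0_2 {F p4 a4 O I E : ℝ} (hFL : (35809/100000) < F) (hkey : F ≤ (19948/100000) / 3 * (O + 2 * I) + 4 / 9 * E) (hO : ∀ q : ℝ, 2 * q * O ≤ q ^ 2 + 3 * (3 * F - 4 * p4)) (hI : ∀ q : ℝ, 2 * q * I ≤ q ^ 2 + 3 * (4 * p4 + F))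
    (hE : E + 2 * (F - p4) ≤ (24961/25000) - (59/50) * a4) (hlo : (1/10) ≤ a4) (hhi : a4 ≤ (11/100))
    (hp : p4 ≤ (8167/25000) * a4 + (-(16233/1000000))) : False := by
  have h1 := hO (867/500)
  have h2 := hI (1137/1000)
  linarith only [hFL, hkey, h1, h2, hE, hlo, hhi, hp]

theorem chk4_0_3 {F p4 a4 O I E : ℝ} (hFL : (35809/100000) < F) (hkey : F ≤ (19948/100000) / 3 * (O + 2 * I) + 4 / 9 * E) (hO : ∀ q : ℝ, 2 * q * O ≤ q ^ 2 + 3 * (3 * F - 4 * p4)) (hI : ∀ q : ℝ, 2 * q * I ≤ q ^ 2 + 3 * (4 * p4 + F))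
    (hE : E + 2 * (F - p4) ≤ (24961/25000) - (59/50) * a4) (hlo : (11/100) ≤ a4) (hhi : a4 ≤ (3/25))
    (hp : p4 ≤ (35113/100000) * a4 + (-(18923/1000000))) : False := by
  have h1 := hO (1723/1000)
  have h2 := hI (231/200)
  linarith only [hFL, hkey, h1, h2, hE, hlo, hhi, hp]

theorem chk4_0_4 {F p4 a4 O I E : ℝ} (hFL : (35809/100000) < F) (hkey : F ≤ (19948/100000) / 3 * (O + 2 * I) + 4 / 9 * E) (hO : ∀ q : ℝ, 2 * q * O ≤ q ^ 2 + 3 * (3 * F - 4 * p4)) (hI : ∀ q : ℝ, 2 * q * I ≤ q ^ 2 + 3 * (4 * p4 + F))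
    (hE : E + 2 * (F - p4) ≤ (24961/25000) - (59/50) * a4) (hlo : (3/25) ≤ a4) (hhi : a4 ≤ (13/100))
    (hp : p4 ≤ (9367/25000) * a4 + (-(21749/1000000))) : False := by
  have h1 := hO (171/100)
  have h2 := hI (1173/1000)
  linarith only [hFL, hkey, h1, h2, hE, hlo, hhi, hp]

theorem chk4_0_5 {F p4 a4 O I E : ℝ} (hFL : (35809/100000) < F) (hkey : F ≤ (19948/100000) / 3 * (O + 2 * I) + 4 / 9 * E) (hO : ∀ q : ℝ, 2 * q * O ≤ q ^ 2 + 3 * (3 * F - 4 * p4)) (hI : ∀ q : ℝ, 2 * q * I ≤ q ^ 2 + 3 * (4 * p4 + F))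
    (hE : E + 2 * (F - p4) ≤ (24961/25000) - (59/50) * a4) (hlo : (13/100) ≤ a4) (hhi : a4 ≤ (7/50))
    (hp : p4 ≤ (3971/10000) * a4 + (-(24663/1000000))) : False := by
  have h1 := hO (212/125)
  have h2 := hI (1193/1000)
  linarith only [hFL, hkey, h1, h2, hE, hlo, hhi, hp]

theorem chk4_0_6 {F p4 a4 O I E : ℝ} (hFL : (35809/100000) < F) (hkey : F ≤ (19948/100000) / 3 * (O + 2 * I) + 4 / 9 * E) (hO : ∀ q : ℝ, 2 * q * O ≤ q ^ 2 + 3 * (3 * F - 4 * p4)) (hI : ∀ q : ℝ, 2 * q * I ≤ q ^ 2 + 3 * (4 * p4 + F))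
    (hE : E + 2 * (F - p4) ≤ (24961/25000) - (59/50) * a4) (hlo : (7/50) ≤ a4) (hhi : a4 ≤ (3/20))
    (hp : p4 ≤ (10591/25000) * a4 + (-(28379/1000000))) : False := by
  have h1 := hO (841/500)
  have h2 := hI (1213/1000)
  linarith only [hFL, hkey, h1, h2, hE, hlo, hhi, hp]

theorem chk4_0_7 {F p4 a4 O I E : ℝ} (hFL : (35809/100000) < F) (hkey : F ≤ (19948/100000) / 3 * (O + 2 * I) + 4 / 9 * E) (hO : ∀ q : ℝ, 2 * q * O ≤ q ^ 2 + 3 * (3 * F - 4 * p4)) (hI : ∀ q : ℝ, 2 * q * I ≤ q ^ 2 + 3 * (4 * p4 + F))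
    (hE : E + 2 * (F - p4) ≤ (24961/25000) - (59/50) * a4) (hlo : (3/20) ≤ a4) (hhi : a4 ≤ (4/25))
    (hp : p4 ≤ (42703/100000) * a4 + (-(28887/1000000))) : False := by
  have h1 := hO (833/500)
  have h2 := hI (617/500)
  linarith only [hFL, hkey, h1, h2, hE, hlo, hhi, hp]

theorem chk4_0_8 {F p4 a4 O I E : ℝ} (hFL : (35809/100000) < F) (hkey : F ≤ (19948/100000) / 3 * (O + 2 * I) + 4 / 9 * E) (hO : ∀ q : ℝ, 2 * q * O ≤ q ^ 2 + 3 * (3 * F - 4 * p4)) (hI : ∀ q : ℝ, 2 * q * I ≤ q ^ 2 + 3 * (4 * p4 + F))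
    (hE : E + 2 * (F - p4) ≤ (24961/25000) - (59/50) * a4) (hlo : (4/25) ≤ a4) (hhi : a4 ≤ (9/50))
    (hp : p4 ≤ (47017/100000) * a4 + (-(3579/100000))) : False := by
  have h1 := hO (821/500)
  have h2 := hI (1267/1000)
  linarith only [hFL, hkey, h1, h2, hE, hlo, hhi, hp]

theorem chk4_0_9 {F p4 a4 O I E : ℝ} (hFL : (35809/100000) < F) (hkey : F ≤ (19948/100000) / 3 * (O + 2 * I) + 4 / 9 * E) (hO : ∀ q : ℝ, 2 * q * O ≤ q ^ 2 + 3 * (3 * F - 4 * p4)) (hI : ∀ q : ℝ, 2 * q * I ≤ q ^ 2 + 3 * (4 * p4 + F))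
    (hE : E + 2 * (F - p4) ≤ (24961/25000) - (59/50) * a4) (hlo : (9/50) ≤ a4) (hhi : a4 ≤ (1/5))
    (hp : p4 ≤ (25177/50000) * a4 + (-(41797/1000000))) : False := by
  have h1 := hO (803/500)
  have h2 := hI (164/125)
  linarith only [hFL, hkey, h1, h2, hE, hlo, hhi, hp]

theorem f4I_0 {a1 a2 a3 a4 p1 p2 p3 p4 e1 e2 e3 e4 F O I : ℝ}
    (c1 : Cell4 a1 p1 e1) (c2 : Cell4 a2 p2 e2) (c3 : Cell4 a3 p3 e3) (c4 : Cell4 a4 p4 e4)
    (hFL : (35809/100000) < F) (hFs : p1 + p2 + p3 + p4 = F) (has : a1 + a2 + a3 + a4 = 1)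
    (hkey : F ≤ (19948/100000) / 3 * (O + 2 * I) + 4 / 9 * (e1 + e2 + e3))
    (hO : ∀ q : ℝ, 2 * q * O ≤ q ^ 2 + 3 * (3 * F - 4 * p4))
    (hI : ∀ q : ℝ, 2 * q * I ≤ q ^ 2 + 3 * (4 * p4 + F))
    (h1 : a1 < (1/2)) (h21 : a2 ≤ a1) (h32 : a3 ≤ a2) (h43 : a4 ≤ a3)
    (hz : (9/50) ≤ a3) (hzu : a3 ≤ (1/5)) (hz4 : (2/25) ≤ a4) : False := by
  have E1 := eA4_0 c1 (by linarith only [hz, h32, h21]) h1
  have E2 := eA4_0 c2 (by linarith only [hz, h32]) (by linarith only [h21, h1])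
  have E3 := eB4_0 c3 hz hzu
  have hE : (e1 + e2 + e3) + 2 * (F - p4) ≤ (24961/25000) - (59/50) * a4 := by
    rw [← hFs]
    linarith only [E1, E2, E3, has]
  have hu : a4 ≤ (1/5) := by linarith only [h43, hzu, has, h32, h21, hz]
  rcases lt_or_ge a4 (9/100) with hc | hd0
  · exact chk4_0_0 hFL hkey hO hI hE hz4 hc.le (pl4_0 c4 hz4 hc.le)
  rcases lt_or_ge a4 (1/10) with hc | hd1
  · exact chk4_0_1 hFL hkey hO hI hE hd0 hc.le (pl4_1 c4 hd0 hc.le)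
  rcases lt_or_ge a4 (11/100) with hc | hd2
  · exact chk4_0_2 hFL hkey hO hI hE hd1 hc.le (pl4_2 c4 hd1 hc.le)
  rcases lt_or_ge a4 (3/25) with hc | hd3
  · exact chk4_0_3 hFL hkey hO hI hE hd2 hc.le (pl4_3 c4 hd2 hc.le)
  rcases lt_or_ge a4 (13/100) with hc | hd4
  · exact chk4_0_4 hFL hkey hO hI hE hd3 hc.le (pl4_4 c4 hd3 hc.le)
  rcases lt_or_ge a4 (7/50) with hc | hd5
  · exact chk4_0_5 hFL hkey hO hI hE hd4 hc.le (pl4_5 c4 hd4 hc.le)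
  rcases lt_or_ge a4 (3/20) with hc | hd6
  · exact chk4_0_6 hFL hkey hO hI hE hd5 hc.le (pl4_6 c4 hd5 hc.le)
  rcases lt_or_ge a4 (4/25) with hc | hd7
  · exact chk4_0_7 hFL hkey hO hI hE hd6 hc.le (pl4_7 c4 hd6 hc.le)
  rcases lt_or_ge a4 (9/50) with hc | hd8
  · exact chk4_0_8 hFL hkey hO hI hE hd7 hc.le (pl4_8 c4 hd7 hc.le)
  have hl : a4 ≤ (1/5) := by linarith only [hu]
  exact chk4_0_9 hFL hkey hO hI hE hd8 hl (pl4_9 c4 hd8 hl)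

theorem chk4_1_0 {F p4 a4 O I E : ℝ} (hFL : (35809/100000) < F) (hkey : F ≤ (19948/100000) / 3 * (O + 2 * I) + 4 / 9 * E) (hO : ∀ q : ℝ, 2 * q * O ≤ q ^ 2 + 3 * (3 * F - 4 * p4)) (hI : ∀ q : ℝ, 2 * q * I ≤ q ^ 2 + 3 * (4 * p4 + F))
    (hE : E + (7/10) * (F - p4) ≤ (50921/100000) - (17/25) * a4) (hlo : (2/25) ≤ a4) (hhi : a4 ≤ (9/100))
    (hp : p4 ≤ (27813/100000) * a4 + (-(5779/500000))) : False := by
  have h1 := hO (351/200)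
  have h2 := hI (221/200)
  linarith only [hFL, hkey, h1, h2, hE, hlo, hhi, hp]

theorem chk4_1_1 {F p4 a4 O I E : ℝ} (hFL : (35809/100000) < F) (hkey : F ≤ (19948/100000) / 3 * (O + 2 * I) + 4 / 9 * E) (hO : ∀ q : ℝ, 2 * q * O ≤ q ^ 2 + 3 * (3 * F - 4 * p4)) (hI : ∀ q : ℝ, 2 * q * I ≤ q ^ 2 + 3 * (4 * p4 + F))
    (hE : E + (7/10) * (F - p4) ≤ (50921/100000) - (17/25) * a4) (hlo : (9/100) ≤ a4) (hhi : a4 ≤ (1/10))
    (hp : p4 ≤ (2961/10000) * a4 + (-(527/40000))) : False := by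
  have h1 := hO (349/200)
  have h2 := hI (28/25)
  linarith only [hFL, hkey, h1, h2, hE, hlo, hhi, hp]

theorem chk4_1_2 {F p4 a4 O I E : ℝ} (hFL : (35809/100000) < F) (hkey : F ≤ (19948/100000) / 3 * (O + 2 * I) + 4 / 9 * E) (hO : ∀ q : ℝ, 2 * q * O ≤ q ^ 2 + 3 * (3 * F - 4 * p4)) (hI : ∀ q : ℝ, 2 * q * I ≤ q ^ 2 + 3 * (4 * p4 + F))
    (hE : E + (7/10) * (F - p4) ≤ (50921/100000) - (17/25) * a4) (hlo : (1/10) ≤ a4) (hhi : a4 ≤ (11/100))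
    (hp : p4 ≤ (8167/25000) * a4 + (-(16233/1000000))) : False := by
  have h1 := hO (867/500)
  have h2 := hI (1137/1000)
  linarith only [hFL, hkey, h1, h2, hE, hlo, hhi, hp]

theorem chk4_1_3 {F p4 a4 O I E : ℝ} (hFL : (35809/100000) < F) (hkey : F ≤ (19948/100000) / 3 * (O + 2 * I) + 4 / 9 * E) (hO : ∀ q : ℝ, 2 * q * O ≤ q ^ 2 + 3 * (3 * F - 4 * p4)) (hI : ∀ q : ℝ, 2 * q * I ≤ q ^ 2 + 3 * (4 * p4 + F))
    (hE : E + (7/10) * (F - p4) ≤ (50921/100000) - (17/25) * a4) (hlo : (11/100) ≤ a4) (hhi : a4 ≤ (3/25))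
    (hp : p4 ≤ (35113/100000) * a4 + (-(18923/1000000))) : False := by
  have h1 := hO (1723/1000)
  have h2 := hI (231/200)
  linarith only [hFL, hkey, h1, h2, hE, hlo, hhi, hp]

theorem chk4_1_4 {F p4 a4 O I E : ℝ} (hFL : (35809/100000) < F) (hkey : F ≤ (19948/100000) / 3 * (O + 2 * I) + 4 / 9 * E) (hO : ∀ q : ℝ, 2 * q * O ≤ q ^ 2 + 3 * (3 * F - 4 * p4)) (hI : ∀ q : ℝ, 2 * q * I ≤ q ^ 2 + 3 * (4 * p4 + F))
    (hE : E + (7/10) * (F - p4) ≤ (50921/100000) - (17/25) * a4) (hlo : (3/25) ≤ a4) (hhi : a4 ≤ (13/100))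
    (hp : p4 ≤ (9367/25000) * a4 + (-(21749/1000000))) : False := by
  have h1 := hO (171/100)
  have h2 := hI (1173/1000)
  linarith only [hFL, hkey, h1, h2, hE, hlo, hhi, hp]

theorem chk4_1_5 {F p4 a4 O I E : ℝ} (hFL : (35809/100000) < F) (hkey : F ≤ (19948/100000) / 3 * (O + 2 * I) + 4 / 9 * E) (hO : ∀ q : ℝ, 2 * q * O ≤ q ^ 2 + 3 * (3 * F - 4 * p4)) (hI : ∀ q : ℝ, 2 * q * I ≤ q ^ 2 + 3 * (4 * p4 + F))
    (hE : E + (7/10) * (F - p4) ≤ (50921/100000) - (17/25) * a4) (hlo : (13/100) ≤ a4) (hhi : a4 ≤ (7/50))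
    (hp : p4 ≤ (3971/10000) * a4 + (-(24663/1000000))) : False := by
  have h1 := hO (212/125)
  have h2 := hI (1193/1000)
  linarith only [hFL, hkey, h1, h2, hE, hlo, hhi, hp]

theorem chk4_1_6 {F p4 a4 O I E : ℝ} (hFL : (35809/100000) < F) (hkey : F ≤ (19948/100000) / 3 * (O + 2 * I) + 4 / 9 * E) (hO : ∀ q : ℝ, 2 * q * O ≤ q ^ 2 + 3 * (3 * F - 4 * p4)) (hI : ∀ q : ℝ, 2 * q * I ≤ q ^ 2 + 3 * (4 * p4 + F))
    (hE : E + (7/10) * (F - p4) ≤ (50921/100000) - (17/25) * a4) (hlo : (7/50) ≤ a4) (hhi : a4 ≤ (3/20))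
    (hp : p4 ≤ (10591/25000) * a4 + (-(28379/1000000))) : False := by
  have h1 := hO (841/500)
  have h2 := hI (1213/1000)
  linarith only [hFL, hkey, h1, h2, hE, hlo, hhi, hp]

theorem chk4_1_7 {F p4 a4 O I E : ℝ} (hFL : (35809/100000) < F) (hkey : F ≤ (19948/100000) / 3 * (O + 2 * I) + 4 / 9 * E) (hO : ∀ q : ℝ, 2 * q * O ≤ q ^ 2 + 3 * (3 * F - 4 * p4)) (hI : ∀ q : ℝ, 2 * q * I ≤ q ^ 2 + 3 * (4 * p4 + F))
    (hE : E + (7/10) * (F - p4) ≤ (50921/100000) - (17/25) * a4) (hlo : (3/20) ≤ a4) (hhi : a4 ≤ (4/25))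
    (hp : p4 ≤ (42703/100000) * a4 + (-(28887/1000000))) : False := by
  have h1 := hO (833/500)
  have h2 := hI (617/500)
  linarith only [hFL, hkey, h1, h2, hE, hlo, hhi, hp]

theorem chk4_1_8 {F p4 a4 O I E : ℝ} (hFL : (35809/100000) < F) (hkey : F ≤ (19948/100000) / 3 * (O + 2 * I) + 4 / 9 * E) (hO : ∀ q : ℝ, 2 * q * O ≤ q ^ 2 + 3 * (3 * F - 4 * p4)) (hI : ∀ q : ℝ, 2 * q * I ≤ q ^ 2 + 3 * (4 * p4 + F))
    (hE : E + (7/10) * (F - p4) ≤ (50921/100000) - (17/25) * a4) (hlo : (4/25) ≤ a4) (hhi : a4 ≤ (9/50))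
    (hp : p4 ≤ (47017/100000) * a4 + (-(3579/100000))) : False := by
  have h1 := hO (821/500)
  have h2 := hI (1267/1000)
  linarith only [hFL, hkey, h1, h2, hE, hlo, hhi, hp]

theorem chk4_1_9 {F p4 a4 O I E : ℝ} (hFL : (35809/100000) < F) (hkey : F ≤ (19948/100000) / 3 * (O + 2 * I) + 4 / 9 * E) (hO : ∀ q : ℝ, 2 * q * O ≤ q ^ 2 + 3 * (3 * F - 4 * p4)) (hI : ∀ q : ℝ, 2 * q * I ≤ q ^ 2 + 3 * (4 * p4 + F))
    (hE : E + (7/10) * (F - p4) ≤ (50921/100000) - (17/25) * a4) (hlo : (9/50) ≤ a4) (hhi : a4 ≤ (1/5))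
    (hp : p4 ≤ (25177/50000) * a4 + (-(41797/1000000))) : False := by
  have h1 := hO (803/500)
  have h2 := hI (164/125)
  linarith only [hFL, hkey, h1, h2, hE, hlo, hhi, hp]

theorem chk4_1_10 {F p4 a4 O I E : ℝ} (hFL : (35809/100000) < F) (hkey : F ≤ (19948/100000) / 3 * (O + 2 * I) + 4 / 9 * E) (hO : ∀ q : ℝ, 2 * q * O ≤ q ^ 2 + 3 * (3 * F - 4 * p4)) (hI : ∀ q : ℝ, 2 * q * I ≤ q ^ 2 + 3 * (4 * p4 + F))
    (hE : E + (7/10) * (F - p4) ≤ (50921/100000) - (17/25) * a4) (hlo : (1/5) ≤ a4) (hhi : a4 ≤ (11/50))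
    (hp : p4 ≤ (53431/100000) * a4 + (-(47951/1000000))) : False := by
  have h1 := hO (783/500)
  have h2 := hI (1359/1000)
  linarith only [hFL, hkey, h1, h2, hE, hlo, hhi, hp]

theorem f4I_1 {a1 a2 a3 a4 p1 p2 p3 p4 e1 e2 e3 e4 F O I : ℝ}
    (c1 : Cell4 a1 p1 e1) (c2 : Cell4 a2 p2 e2) (c3 : Cell4 a3 p3 e3) (c4 : Cell4 a4 p4 e4)
    (hFL : (35809/100000) < F) (hFs : p1 + p2 + p3 + p4 = F) (has : a1 + a2 + a3 + a4 = 1)
    (hkey : F ≤ (19948/100000) / 3 * (O + 2 * I) + 4 / 9 * (e1 + e2 + e3))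
    (hO : ∀ q : ℝ, 2 * q * O ≤ q ^ 2 + 3 * (3 * F - 4 * p4))
    (hI : ∀ q : ℝ, 2 * q * I ≤ q ^ 2 + 3 * (4 * p4 + F))
    (h1 : a1 < (1/2)) (h21 : a2 ≤ a1) (h32 : a3 ≤ a2) (h43 : a4 ≤ a3)
    (hz : (1/5) ≤ a3) (hzu : a3 ≤ (11/50)) (hz4 : (2/25) ≤ a4) : False := by
  have E1 := eA4_1 c1 (by linarith only [hz, h32, h21]) h1
  have E2 := eA4_1 c2 (by linarith only [hz, h32]) (by linarith only [h21, h1])
  have E3 := eB4_1 c3 hz hzu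
  have hE : (e1 + e2 + e3) + (7/10) * (F - p4) ≤ (50921/100000) - (17/25) * a4 := by
    rw [← hFs]
    linarith only [E1, E2, E3, has]
  have hu : a4 ≤ (11/50) := by linarith only [h43, hzu, has, h32, h21, hz]
  rcases lt_or_ge a4 (9/100) with hc | hd0
  · exact chk4_1_0 hFL hkey hO hI hE hz4 hc.le (pl4_0 c4 hz4 hc.le)
  rcases lt_or_ge a4 (1/10) with hc | hd1
  · exact chk4_1_1 hFL hkey hO hI hE hd0 hc.le (pl4_1 c4 hd0 hc.le)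
  rcases lt_or_ge a4 (11/100) with hc | hd2
  · exact chk4_1_2 hFL hkey hO hI hE hd1 hc.le (pl4_2 c4 hd1 hc.le)
  rcases lt_or_ge a4 (3/25) with hc | hd3
  · exact chk4_1_3 hFL hkey hO hI hE hd2 hc.le (pl4_3 c4 hd2 hc.le)
  rcases lt_or_ge a4 (13/100) with hc | hd4
  · exact chk4_1_4 hFL hkey hO hI hE hd3 hc.le (pl4_4 c4 hd3 hc.le)
  rcases lt_or_ge a4 (7/50) with hc | hd5
  · exact chk4_1_5 hFL hkey hO hI hE hd4 hc.le (pl4_5 c4 hd4 hc.le)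
  rcases lt_or_ge a4 (3/20) with hc | hd6
  · exact chk4_1_6 hFL hkey hO hI hE hd5 hc.le (pl4_6 c4 hd5 hc.le)
  rcases lt_or_ge a4 (4/25) with hc | hd7
  · exact chk4_1_7 hFL hkey hO hI hE hd6 hc.le (pl4_7 c4 hd6 hc.le)
  rcases lt_or_ge a4 (9/50) with hc | hd8
  · exact chk4_1_8 hFL hkey hO hI hE hd7 hc.le (pl4_8 c4 hd7 hc.le)
  rcases lt_or_ge a4 (1/5) with hc | hd9
  · exact chk4_1_9 hFL hkey hO hI hE hd8 hc.le (pl4_9 c4 hd8 hc.le)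
  have hl : a4 ≤ (11/50) := by linarith only [hu]
  exact chk4_1_10 hFL hkey hO hI hE hd9 hl (pl4_10 c4 hd9 hl)

theorem chk4_2_0 {F p4 a4 O I E : ℝ} (hFL : (35809/100000) < F) (hkey : F ≤ (19948/100000) / 3 * (O + 2 * I) + 4 / 9 * E) (hO : ∀ q : ℝ, 2 * q * O ≤ q ^ 2 + 3 * (3 * F - 4 * p4)) (hI : ∀ q : ℝ, 2 * q * I ≤ q ^ 2 + 3 * (4 * p4 + F))
    (hE : E + (2/5) * (F - p4) ≤ (1579/4000) - (14/25) * a4) (hlo : (2/25) ≤ a4) (hhi : a4 ≤ (9/100))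
    (hp : p4 ≤ (27813/100000) * a4 + (-(5779/500000))) : False := by
  have h1 := hO (351/200)
  have h2 := hI (221/200)
  linarith only [hFL, hkey, h1, h2, hE, hlo, hhi, hp]

theorem chk4_2_1 {F p4 a4 O I E : ℝ} (hFL : (35809/100000) < F) (hkey : F ≤ (19948/100000) / 3 * (O + 2 * I) + 4 / 9 * E) (hO : ∀ q : ℝ, 2 * q * O ≤ q ^ 2 + 3 * (3 * F - 4 * p4)) (hI : ∀ q : ℝ, 2 * q * I ≤ q ^ 2 + 3 * (4 * p4 + F))
    (hE : E + (2/5) * (F - p4) ≤ (1579/4000) - (14/25) * a4) (hlo : (9/100) ≤ a4) (hhi : a4 ≤ (1/10))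
    (hp : p4 ≤ (2961/10000) * a4 + (-(527/40000))) : False := by
  have h1 := hO (349/200)
  have h2 := hI (28/25)
  linarith only [hFL, hkey, h1, h2, hE, hlo, hhi, hp]

theorem chk4_2_2 {F p4 a4 O I E : ℝ} (hFL : (35809/100000) < F) (hkey : F ≤ (19948/100000) / 3 * (O + 2 * I) + 4 / 9 * E) (hO : ∀ q : ℝ, 2 * q * O ≤ q ^ 2 + 3 * (3 * F - 4 * p4)) (hI : ∀ q : ℝ, 2 * q * I ≤ q ^ 2 + 3 * (4 * p4 + F))
    (hE : E + (2/5) * (F - p4) ≤ (1579/4000) - (14/25) * a4) (hlo : (1/10) ≤ a4) (hhi : a4 ≤ (11/100))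
    (hp : p4 ≤ (8167/25000) * a4 + (-(16233/1000000))) : False := by
  have h1 := hO (867/500)
  have h2 := hI (1137/1000)
  linarith only [hFL, hkey, h1, h2, hE, hlo, hhi, hp]

theorem chk4_2_3 {F p4 a4 O I E : ℝ} (hFL : (35809/100000) < F) (hkey : F ≤ (19948/100000) / 3 * (O + 2 * I) + 4 / 9 * E) (hO : ∀ q : ℝ, 2 * q * O ≤ q ^ 2 + 3 * (3 * F - 4 * p4)) (hI : ∀ q : ℝ, 2 * q * I ≤ q ^ 2 + 3 * (4 * p4 + F))
    (hE : E + (2/5) * (F - p4) ≤ (1579/4000) - (14/25) * a4) (hlo : (11/100) ≤ a4) (hhi : a4 ≤ (3/25))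
    (hp : p4 ≤ (35113/100000) * a4 + (-(18923/1000000))) : False := by
  have h1 := hO (1723/1000)
  have h2 := hI (231/200)
  linarith only [hFL, hkey, h1, h2, hE, hlo, hhi, hp]

theorem chk4_2_4 {F p4 a4 O I E : ℝ} (hFL : (35809/100000) < F) (hkey : F ≤ (19948/100000) / 3 * (O + 2 * I) + 4 / 9 * E) (hO : ∀ q : ℝ, 2 * q * O ≤ q ^ 2 + 3 * (3 * F - 4 * p4)) (hI : ∀ q : ℝ, 2 * q * I ≤ q ^ 2 + 3 * (4 * p4 + F))
    (hE : E + (2/5) * (F - p4) ≤ (1579/4000) - (14/25) * a4) (hlo : (3/25) ≤ a4) (hhi : a4 ≤ (13/100))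
    (hp : p4 ≤ (9367/25000) * a4 + (-(21749/1000000))) : False := by
  have h1 := hO (171/100)
  have h2 := hI (1173/1000)
  linarith only [hFL, hkey, h1, h2, hE, hlo, hhi, hp]

theorem chk4_2_5 {F p4 a4 O I E : ℝ} (hFL : (35809/100000) < F) (hkey : F ≤ (19948/100000) / 3 * (O + 2 * I) + 4 / 9 * E) (hO : ∀ q : ℝ, 2 * q * O ≤ q ^ 2 + 3 * (3 * F - 4 * p4)) (hI : ∀ q : ℝ, 2 * q * I ≤ q ^ 2 + 3 * (4 * p4 + F))
    (hE : E + (2/5) * (F - p4) ≤ (1579/4000) - (14/25) * a4) (hlo : (13/100) ≤ a4) (hhi : a4 ≤ (7/50))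
    (hp : p4 ≤ (3971/10000) * a4 + (-(24663/1000000))) : False := by
  have h1 := hO (212/125)
  have h2 := hI (1193/1000)
  linarith only [hFL, hkey, h1, h2, hE, hlo, hhi, hp]

theorem chk4_2_6 {F p4 a4 O I E : ℝ} (hFL : (35809/100000) < F) (hkey : F ≤ (19948/100000) / 3 * (O + 2 * I) + 4 / 9 * E) (hO : ∀ q : ℝ, 2 * q * O ≤ q ^ 2 + 3 * (3 * F - 4 * p4)) (hI : ∀ q : ℝ, 2 * q * I ≤ q ^ 2 + 3 * (4 * p4 + F))
    (hE : E + (2/5) * (F - p4) ≤ (1579/4000) - (14/25) * a4) (hlo : (7/50) ≤ a4) (hhi : a4 ≤ (3/20))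
    (hp : p4 ≤ (10591/25000) * a4 + (-(28379/1000000))) : False := by
  have h1 := hO (841/500)
  have h2 := hI (1213/1000)
  linarith only [hFL, hkey, h1, h2, hE, hlo, hhi, hp]

theorem chk4_2_7 {F p4 a4 O I E : ℝ} (hFL : (35809/100000) < F) (hkey : F ≤ (19948/100000) / 3 * (O + 2 * I) + 4 / 9 * E) (hO : ∀ q : ℝ, 2 * q * O ≤ q ^ 2 + 3 * (3 * F - 4 * p4)) (hI : ∀ q : ℝ, 2 * q * I ≤ q ^ 2 + 3 * (4 * p4 + F))
    (hE : E + (2/5) * (F - p4) ≤ (1579/4000) - (14/25) * a4) (hlo : (3/20) ≤ a4) (hhi : a4 ≤ (4/25))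
    (hp : p4 ≤ (42703/100000) * a4 + (-(28887/1000000))) : False := by
  have h1 := hO (833/500)
  have h2 := hI (617/500)
  linarith only [hFL, hkey, h1, h2, hE, hlo, hhi, hp]

theorem chk4_2_8 {F p4 a4 O I E : ℝ} (hFL : (35809/100000) < F) (hkey : F ≤ (19948/100000) / 3 * (O + 2 * I) + 4 / 9 * E) (hO : ∀ q : ℝ, 2 * q * O ≤ q ^ 2 + 3 * (3 * F - 4 * p4)) (hI : ∀ q : ℝ, 2 * q * I ≤ q ^ 2 + 3 * (4 * p4 + F))
    (hE : E + (2/5) * (F - p4) ≤ (1579/4000) - (14/25) * a4) (hlo : (4/25) ≤ a4) (hhi : a4 ≤ (9/50))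
    (hp : p4 ≤ (47017/100000) * a4 + (-(3579/100000))) : False := by
  have h1 := hO (821/500)
  have h2 := hI (1267/1000)
  linarith only [hFL, hkey, h1, h2, hE, hlo, hhi, hp]

theorem chk4_2_9 {F p4 a4 O I E : ℝ} (hFL : (35809/100000) < F) (hkey : F ≤ (19948/100000) / 3 * (O + 2 * I) + 4 / 9 * E) (hO : ∀ q : ℝ, 2 * q * O ≤ q ^ 2 + 3 * (3 * F - 4 * p4)) (hI : ∀ q : ℝ, 2 * q * I ≤ q ^ 2 + 3 * (4 * p4 + F))
    (hE : E + (2/5) * (F - p4) ≤ (1579/4000) - (14/25) * a4) (hlo : (9/50) ≤ a4) (hhi : a4 ≤ (1/5))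
    (hp : p4 ≤ (25177/50000) * a4 + (-(41797/1000000))) : False := by
  have h1 := hO (803/500)
  have h2 := hI (164/125)
  linarith only [hFL, hkey, h1, h2, hE, hlo, hhi, hp]

theorem chk4_2_10 {F p4 a4 O I E : ℝ} (hFL : (35809/100000) < F) (hkey : F ≤ (19948/100000) / 3 * (O + 2 * I) + 4 / 9 * E) (hO : ∀ q : ℝ, 2 * q * O ≤ q ^ 2 + 3 * (3 * F - 4 * p4)) (hI : ∀ q : ℝ, 2 * q * I ≤ q ^ 2 + 3 * (4 * p4 + F))
    (hE : E + (2/5) * (F - p4) ≤ (1579/4000) - (14/25) * a4) (hlo : (1/5) ≤ a4) (hhi : a4 ≤ (11/50))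
    (hp : p4 ≤ (53431/100000) * a4 + (-(47951/1000000))) : False := by
  have h1 := hO (783/500)
  have h2 := hI (1359/1000)
  linarith only [hFL, hkey, h1, h2, hE, hlo, hhi, hp]

theorem chk4_2_11 {F p4 a4 O I E : ℝ} (hFL : (35809/100000) < F) (hkey : F ≤ (19948/100000) / 3 * (O + 2 * I) + 4 / 9 * E) (hO : ∀ q : ℝ, 2 * q * O ≤ q ^ 2 + 3 * (3 * F - 4 * p4)) (hI : ∀ q : ℝ, 2 * q * I ≤ q ^ 2 + 3 * (4 * p4 + F))
    (hE : E + (2/5) * (F - p4) ≤ (1579/4000) - (14/25) * a4) (hlo : (11/50) ≤ a4) (hhi : a4 ≤ (1/4))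
    (hp : p4 ≤ (28153/50000) * a4 + (-(13569/250000))) : False := by
  have h1 := hO (1513/1000)
  have h2 := hI (1419/1000)
  linarith only [hFL, hkey, h1, h2, hE, hlo, hhi, hp]

theorem f4I_2 {a1 a2 a3 a4 p1 p2 p3 p4 e1 e2 e3 e4 F O I : ℝ}
    (c1 : Cell4 a1 p1 e1) (c2 : Cell4 a2 p2 e2) (c3 : Cell4 a3 p3 e3) (c4 : Cell4 a4 p4 e4)
    (hFL : (35809/100000) < F) (hFs : p1 + p2 + p3 + p4 = F) (has : a1 + a2 + a3 + a4 = 1)
    (hkey : F ≤ (19948/100000) / 3 * (O + 2 * I) + 4 / 9 * (e1 + e2 + e3))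
    (hO : ∀ q : ℝ, 2 * q * O ≤ q ^ 2 + 3 * (3 * F - 4 * p4))
    (hI : ∀ q : ℝ, 2 * q * I ≤ q ^ 2 + 3 * (4 * p4 + F))
    (h1 : a1 < (1/2)) (h21 : a2 ≤ a1) (h32 : a3 ≤ a2) (h43 : a4 ≤ a3)
    (hz : (11/50) ≤ a3) (hzu : a3 ≤ (6/25)) (hz4 : (2/25) ≤ a4) : False := by
  have E1 := eA4_2 c1 (by linarith only [hz, h32, h21]) h1
  have E2 := eA4_2 c2 (by linarith only [hz, h32]) (by linarith only [h21, h1])
  have E3 := eB4_2 c3 hz hzu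
  have hE : (e1 + e2 + e3) + (2/5) * (F - p4) ≤ (1579/4000) - (14/25) * a4 := by
    rw [← hFs]
    linarith only [E1, E2, E3, has]
  have hu : a4 ≤ (6/25) := by linarith only [h43, hzu, has, h32, h21, hz]
  rcases lt_or_ge a4 (9/100) with hc | hd0
  · exact chk4_2_0 hFL hkey hO hI hE hz4 hc.le (pl4_0 c4 hz4 hc.le)
  rcases lt_or_ge a4 (1/10) with hc | hd1
  · exact chk4_2_1 hFL hkey hO hI hE hd0 hc.le (pl4_1 c4 hd0 hc.le)
  rcases lt_or_ge a4 (11/100) with hc | hd2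
  · exact chk4_2_2 hFL hkey hO hI hE hd1 hc.le (pl4_2 c4 hd1 hc.le)
  rcases lt_or_ge a4 (3/25) with hc | hd3
  · exact chk4_2_3 hFL hkey hO hI hE hd2 hc.le (pl4_3 c4 hd2 hc.le)
  rcases lt_or_ge a4 (13/100) with hc | hd4
  · exact chk4_2_4 hFL hkey hO hI hE hd3 hc.le (pl4_4 c4 hd3 hc.le)
  rcases lt_or_ge a4 (7/50) with hc | hd5
  · exact chk4_2_5 hFL hkey hO hI hE hd4 hc.le (pl4_5 c4 hd4 hc.le)
  rcases lt_or_ge a4 (3/20) with hc | hd6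
  · exact chk4_2_6 hFL hkey hO hI hE hd5 hc.le (pl4_6 c4 hd5 hc.le)
  rcases lt_or_ge a4 (4/25) with hc | hd7
  · exact chk4_2_7 hFL hkey hO hI hE hd6 hc.le (pl4_7 c4 hd6 hc.le)
  rcases lt_or_ge a4 (9/50) with hc | hd8
  · exact chk4_2_8 hFL hkey hO hI hE hd7 hc.le (pl4_8 c4 hd7 hc.le)
  rcases lt_or_ge a4 (1/5) with hc | hd9
  · exact chk4_2_9 hFL hkey hO hI hE hd8 hc.le (pl4_9 c4 hd8 hc.le)
  rcases lt_or_ge a4 (11/50) with hc | hd10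
  · exact chk4_2_10 hFL hkey hO hI hE hd9 hc.le (pl4_10 c4 hd9 hc.le)
  have hl : a4 ≤ (1/4) := by linarith only [hu]
  exact chk4_2_11 hFL hkey hO hI hE hd10 hl (pl4_11 c4 hd10 hl)

theorem chk4_3_0 {F p4 a4 O I E : ℝ} (hFL : (35809/100000) < F) (hkey : F ≤ (19948/100000) / 3 * (O + 2 * I) + 4 / 9 * E) (hO : ∀ q : ℝ, 2 * q * O ≤ q ^ 2 + 3 * (3 * F - 4 * p4)) (hI : ∀ q : ℝ, 2 * q * I ≤ q ^ 2 + 3 * (4 * p4 + F))
    (hE : E + (1/4) * (F - p4) ≤ (33929/100000) - (13/25) * a4) (hlo : (2/25) ≤ a4) (hhi : a4 ≤ (9/100))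
    (hp : p4 ≤ (27813/100000) * a4 + (-(5779/500000))) : False := by
  have h1 := hO (351/200)
  have h2 := hI (221/200)
  linarith only [hFL, hkey, h1, h2, hE, hlo, hhi, hp]

theorem chk4_3_1 {F p4 a4 O I E : ℝ} (hFL : (35809/100000) < F) (hkey : F ≤ (19948/100000) / 3 * (O + 2 * I) + 4 / 9 * E) (hO : ∀ q : ℝ, 2 * q * O ≤ q ^ 2 + 3 * (3 * F - 4 * p4)) (hI : ∀ q : ℝ, 2 * q * I ≤ q ^ 2 + 3 * (4 * p4 + F))
    (hE : E + (1/4) * (F - p4) ≤ (33929/100000) - (13/25) * a4) (hlo : (9/100) ≤ a4) (hhi : a4 ≤ (1/10))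
    (hp : p4 ≤ (2961/10000) * a4 + (-(527/40000))) : False := by
  have h1 := hO (349/200)
  have h2 := hI (28/25)
  linarith only [hFL, hkey, h1, h2, hE, hlo, hhi, hp]

theorem chk4_3_2 {F p4 a4 O I E : ℝ} (hFL : (35809/100000) < F) (hkey : F ≤ (19948/100000) / 3 * (O + 2 * I) + 4 / 9 * E) (hO : ∀ q : ℝ, 2 * q * O ≤ q ^ 2 + 3 * (3 * F - 4 * p4)) (hI : ∀ q : ℝ, 2 * q * I ≤ q ^ 2 + 3 * (4 * p4 + F))
    (hE : E + (1/4) * (F - p4) ≤ (33929/100000) - (13/25) * a4) (hlo : (1/10) ≤ a4) (hhi : a4 ≤ (11/100))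
    (hp : p4 ≤ (8167/25000) * a4 + (-(16233/1000000))) : False := by
  have h1 := hO (867/500)
  have h2 := hI (1137/1000)
  linarith only [hFL, hkey, h1, h2, hE, hlo, hhi, hp]

theorem chk4_3_3 {F p4 a4 O I E : ℝ} (hFL : (35809/100000) < F) (hkey : F ≤ (19948/100000) / 3 * (O + 2 * I) + 4 / 9 * E) (hO : ∀ q : ℝ, 2 * q * O ≤ q ^ 2 + 3 * (3 * F - 4 * p4)) (hI : ∀ q : ℝ, 2 * q * I ≤ q ^ 2 + 3 * (4 * p4 + F))
    (hE : E + (1/4) * (F - p4) ≤ (33929/100000) - (13/25) * a4) (hlo : (11/100) ≤ a4) (hhi : a4 ≤ (3/25))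
    (hp : p4 ≤ (35113/100000) * a4 + (-(18923/1000000))) : False := by
  have h1 := hO (1723/1000)
  have h2 := hI (231/200)
  linarith only [hFL, hkey, h1, h2, hE, hlo, hhi, hp]

theorem chk4_3_4 {F p4 a4 O I E : ℝ} (hFL : (35809/100000) < F) (hkey : F ≤ (19948/100000) / 3 * (O + 2 * I) + 4 / 9 * E) (hO : ∀ q : ℝ, 2 * q * O ≤ q ^ 2 + 3 * (3 * F - 4 * p4)) (hI : ∀ q : ℝ, 2 * q * I ≤ q ^ 2 + 3 * (4 * p4 + F))
    (hE : E + (1/4) * (F - p4) ≤ (33929/100000) - (13/25) * a4) (hlo : (3/25) ≤ a4) (hhi : a4 ≤ (13/100))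
    (hp : p4 ≤ (9367/25000) * a4 + (-(21749/1000000))) : False := by
  have h1 := hO (171/100)
  have h2 := hI (1173/1000)
  linarith only [hFL, hkey, h1, h2, hE, hlo, hhi, hp]

theorem chk4_3_5 {F p4 a4 O I E : ℝ} (hFL : (35809/100000) < F) (hkey : F ≤ (19948/100000) / 3 * (O + 2 * I) + 4 / 9 * E) (hO : ∀ q : ℝ, 2 * q * O ≤ q ^ 2 + 3 * (3 * F - 4 * p4)) (hI : ∀ q : ℝ, 2 * q * I ≤ q ^ 2 + 3 * (4 * p4 + F))
    (hE : E + (1/4) * (F - p4) ≤ (33929/100000) - (13/25) * a4) (hlo : (13/100) ≤ a4) (hhi : a4 ≤ (7/50))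
    (hp : p4 ≤ (3971/10000) * a4 + (-(24663/1000000))) : False := by
  have h1 := hO (212/125)
  have h2 := hI (1193/1000)
  linarith only [hFL, hkey, h1, h2, hE, hlo, hhi, hp]

theorem chk4_3_6 {F p4 a4 O I E : ℝ} (hFL : (35809/100000) < F) (hkey : F ≤ (19948/100000) / 3 * (O + 2 * I) + 4 / 9 * E) (hO : ∀ q : ℝ, 2 * q * O ≤ q ^ 2 + 3 * (3 * F - 4 * p4)) (hI : ∀ q : ℝ, 2 * q * I ≤ q ^ 2 + 3 * (4 * p4 + F))
    (hE : E + (1/4) * (F - p4) ≤ (33929/100000) - (13/25) * a4) (hlo : (7/50) ≤ a4) (hhi : a4 ≤ (3/20))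
    (hp : p4 ≤ (10591/25000) * a4 + (-(28379/1000000))) : False := by
  have h1 := hO (841/500)
  have h2 := hI (1213/1000)
  linarith only [hFL, hkey, h1, h2, hE, hlo, hhi, hp]

theorem chk4_3_7 {F p4 a4 O I E : ℝ} (hFL : (35809/100000) < F) (hkey : F ≤ (19948/100000) / 3 * (O + 2 * I) + 4 / 9 * E) (hO : ∀ q : ℝ, 2 * q * O ≤ q ^ 2 + 3 * (3 * F - 4 * p4)) (hI : ∀ q : ℝ, 2 * q * I ≤ q ^ 2 + 3 * (4 * p4 + F))
    (hE : E + (1/4) * (F - p4) ≤ (33929/100000) - (13/25) * a4) (hlo : (3/20) ≤ a4) (hhi : a4 ≤ (4/25))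
    (hp : p4 ≤ (42703/100000) * a4 + (-(28887/1000000))) : False := by
  have h1 := hO (833/500)
  have h2 := hI (617/500)
  linarith only [hFL, hkey, h1, h2, hE, hlo, hhi, hp]

theorem chk4_3_8 {F p4 a4 O I E : ℝ} (hFL : (35809/100000) < F) (hkey : F ≤ (19948/100000) / 3 * (O + 2 * I) + 4 / 9 * E) (hO : ∀ q : ℝ, 2 * q * O ≤ q ^ 2 + 3 * (3 * F - 4 * p4)) (hI : ∀ q : ℝ, 2 * q * I ≤ q ^ 2 + 3 * (4 * p4 + F))
    (hE : E + (1/4) * (F - p4) ≤ (33929/100000) - (13/25) * a4) (hlo : (4/25) ≤ a4) (hhi : a4 ≤ (9/50))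
    (hp : p4 ≤ (47017/100000) * a4 + (-(3579/100000))) : False := by
  have h1 := hO (821/500)
  have h2 := hI (1267/1000)
  linarith only [hFL, hkey, h1, h2, hE, hlo, hhi, hp]

theorem chk4_3_9 {F p4 a4 O I E : ℝ} (hFL : (35809/100000) < F) (hkey : F ≤ (19948/100000) / 3 * (O + 2 * I) + 4 / 9 * E) (hO : ∀ q : ℝ, 2 * q * O ≤ q ^ 2 + 3 * (3 * F - 4 * p4)) (hI : ∀ q : ℝ, 2 * q * I ≤ q ^ 2 + 3 * (4 * p4 + F))
    (hE : E + (1/4) * (F - p4) ≤ (33929/100000) - (13/25) * a4) (hlo : (9/50) ≤ a4) (hhi : a4 ≤ (1/5))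
    (hp : p4 ≤ (25177/50000) * a4 + (-(41797/1000000))) : False := by
  have h1 := hO (803/500)
  have h2 := hI (164/125)
  linarith only [hFL, hkey, h1, h2, hE, hlo, hhi, hp]

theorem chk4_3_10 {F p4 a4 O I E : ℝ} (hFL : (35809/100000) < F) (hkey : F ≤ (19948/100000) / 3 * (O + 2 * I) + 4 / 9 * E) (hO : ∀ q : ℝ, 2 * q * O ≤ q ^ 2 + 3 * (3 * F - 4 * p4)) (hI : ∀ q : ℝ, 2 * q * I ≤ q ^ 2 + 3 * (4 * p4 + F))
    (hE : E + (1/4) * (F - p4) ≤ (33929/100000) - (13/25) * a4) (hlo : (1/5) ≤ a4) (hhi : a4 ≤ (11/50))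
    (hp : p4 ≤ (53431/100000) * a4 + (-(47951/1000000))) : False := by
  have h1 := hO (783/500)
  have h2 := hI (1359/1000)
  linarith only [hFL, hkey, h1, h2, hE, hlo, hhi, hp]

theorem chk4_3_11 {F p4 a4 O I E : ℝ} (hFL : (35809/100000) < F) (hkey : F ≤ (19948/100000) / 3 * (O + 2 * I) + 4 / 9 * E) (hO : ∀ q : ℝ, 2 * q * O ≤ q ^ 2 + 3 * (3 * F - 4 * p4)) (hI : ∀ q : ℝ, 2 * q * I ≤ q ^ 2 + 3 * (4 * p4 + F))
    (hE : E + (1/4) * (F - p4) ≤ (33929/100000) - (13/25) * a4) (hlo : (11/50) ≤ a4) (hhi : a4 ≤ (1/4))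
    (hp : p4 ≤ (28153/50000) * a4 + (-(13569/250000))) : False := by
  have h1 := hO (1513/1000)
  have h2 := hI (1419/1000)
  linarith only [hFL, hkey, h1, h2, hE, hlo, hhi, hp]

theorem f4I_3 {a1 a2 a3 a4 p1 p2 p3 p4 e1 e2 e3 e4 F O I : ℝ}
    (c1 : Cell4 a1 p1 e1) (c2 : Cell4 a2 p2 e2) (c3 : Cell4 a3 p3 e3) (c4 : Cell4 a4 p4 e4)
    (hFL : (35809/100000) < F) (hFs : p1 + p2 + p3 + p4 = F) (has : a1 + a2 + a3 + a4 = 1)
    (hkey : F ≤ (19948/100000) / 3 * (O + 2 * I) + 4 / 9 * (e1 + e2 + e3))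
    (hO : ∀ q : ℝ, 2 * q * O ≤ q ^ 2 + 3 * (3 * F - 4 * p4))
    (hI : ∀ q : ℝ, 2 * q * I ≤ q ^ 2 + 3 * (4 * p4 + F))
    (h1 : a1 < (1/2)) (h21 : a2 ≤ a1) (h32 : a3 ≤ a2) (h43 : a4 ≤ a3)
    (hz : (6/25) ≤ a3) (hzu : a3 ≤ (13/50)) (hz4 : (2/25) ≤ a4) : False := by
  have E1 := eA4_3 c1 (by linarith only [hz, h32, h21]) h1
  have E2 := eA4_3 c2 (by linarith only [hz, h32]) (by linarith only [h21, h1])
  have E3 := eB4_3 c3 hz hzu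
  have hE : (e1 + e2 + e3) + (1/4) * (F - p4) ≤ (33929/100000) - (13/25) * a4 := by
    rw [← hFs]
    linarith only [E1, E2, E3, has]
  have hu : a4 ≤ (1/4) := by linarith only [h43, hzu, has, h32, h21, hz]
  rcases lt_or_ge a4 (9/100) with hc | hd0
  · exact chk4_3_0 hFL hkey hO hI hE hz4 hc.le (pl4_0 c4 hz4 hc.le)
  rcases lt_or_ge a4 (1/10) with hc | hd1
  · exact chk4_3_1 hFL hkey hO hI hE hd0 hc.le (pl4_1 c4 hd0 hc.le)
  rcases lt_or_ge a4 (11/100) with hc | hd2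
  · exact chk4_3_2 hFL hkey hO hI hE hd1 hc.le (pl4_2 c4 hd1 hc.le)
  rcases lt_or_ge a4 (3/25) with hc | hd3
  · exact chk4_3_3 hFL hkey hO hI hE hd2 hc.le (pl4_3 c4 hd2 hc.le)
  rcases lt_or_ge a4 (13/100) with hc | hd4
  · exact chk4_3_4 hFL hkey hO hI hE hd3 hc.le (pl4_4 c4 hd3 hc.le)
  rcases lt_or_ge a4 (7/50) with hc | hd5
  · exact chk4_3_5 hFL hkey hO hI hE hd4 hc.le (pl4_5 c4 hd4 hc.le)
  rcases lt_or_ge a4 (3/20) with hc | hd6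
  · exact chk4_3_6 hFL hkey hO hI hE hd5 hc.le (pl4_6 c4 hd5 hc.le)
  rcases lt_or_ge a4 (4/25) with hc | hd7
  · exact chk4_3_7 hFL hkey hO hI hE hd6 hc.le (pl4_7 c4 hd6 hc.le)
  rcases lt_or_ge a4 (9/50) with hc | hd8
  · exact chk4_3_8 hFL hkey hO hI hE hd7 hc.le (pl4_8 c4 hd7 hc.le)
  rcases lt_or_ge a4 (1/5) with hc | hd9
  · exact chk4_3_9 hFL hkey hO hI hE hd8 hc.le (pl4_9 c4 hd8 hc.le)
  rcases lt_or_ge a4 (11/50) with hc | hd10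
  · exact chk4_3_10 hFL hkey hO hI hE hd9 hc.le (pl4_10 c4 hd9 hc.le)
  have hl : a4 ≤ (1/4) := by linarith only [hu]
  exact chk4_3_11 hFL hkey hO hI hE hd10 hl (pl4_11 c4 hd10 hl)

theorem chk4_4_0 {F p4 a4 O I E : ℝ} (hFL : (35809/100000) < F) (hkey : F ≤ (19948/100000) / 3 * (O + 2 * I) + 4 / 9 * E) (hO : ∀ q : ℝ, 2 * q * O ≤ q ^ 2 + 3 * (3 * F - 4 * p4)) (hI : ∀ q : ℝ, 2 * q * I ≤ q ^ 2 + 3 * (4 * p4 + F))
    (hE : E + (1/4) * (F - p4) ≤ (33879/100000) - (13/25) * a4) (hlo : (2/25) ≤ a4) (hhi : a4 ≤ (9/100))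
    (hp : p4 ≤ (27813/100000) * a4 + (-(5779/500000))) : False := by
  have h1 := hO (351/200)
  have h2 := hI (221/200)
  linarith only [hFL, hkey, h1, h2, hE, hlo, hhi, hp]

theorem chk4_4_1 {F p4 a4 O I E : ℝ} (hFL : (35809/100000) < F) (hkey : F ≤ (19948/100000) / 3 * (O + 2 * I) + 4 / 9 * E) (hO : ∀ q : ℝ, 2 * q * O ≤ q ^ 2 + 3 * (3 * F - 4 * p4)) (hI : ∀ q : ℝ, 2 * q * I ≤ q ^ 2 + 3 * (4 * p4 + F))
    (hE : E + (1/4) * (F - p4) ≤ (33879/100000) - (13/25) * a4) (hlo : (9/100) ≤ a4) (hhi : a4 ≤ (1/10))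
    (hp : p4 ≤ (2961/10000) * a4 + (-(527/40000))) : False := by
  have h1 := hO (349/200)
  have h2 := hI (28/25)
  linarith only [hFL, hkey, h1, h2, hE, hlo, hhi, hp]

theorem chk4_4_2 {F p4 a4 O I E : ℝ} (hFL : (35809/100000) < F) (hkey : F ≤ (19948/100000) / 3 * (O + 2 * I) + 4 / 9 * E) (hO : ∀ q : ℝ, 2 * q * O ≤ q ^ 2 + 3 * (3 * F - 4 * p4)) (hI : ∀ q : ℝ, 2 * q * I ≤ q ^ 2 + 3 * (4 * p4 + F))
    (hE : E + (1/4) * (F - p4) ≤ (33879/100000) - (13/25) * a4) (hlo : (1/10) ≤ a4) (hhi : a4 ≤ (11/100))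
    (hp : p4 ≤ (8167/25000) * a4 + (-(16233/1000000))) : False := by
  have h1 := hO (867/500)
  have h2 := hI (1137/1000)
  linarith only [hFL, hkey, h1, h2, hE, hlo, hhi, hp]

theorem chk4_4_3 {F p4 a4 O I E : ℝ} (hFL : (35809/100000) < F) (hkey : F ≤ (19948/100000) / 3 * (O + 2 * I) + 4 / 9 * E) (hO : ∀ q : ℝ, 2 * q * O ≤ q ^ 2 + 3 * (3 * F - 4 * p4)) (hI : ∀ q : ℝ, 2 * q * I ≤ q ^ 2 + 3 * (4 * p4 + F))
    (hE : E + (1/4) * (F - p4) ≤ (33879/100000) - (13/25) * a4) (hlo : (11/100) ≤ a4) (hhi : a4 ≤ (3/25))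
    (hp : p4 ≤ (35113/100000) * a4 + (-(18923/1000000))) : False := by
  have h1 := hO (1723/1000)
  have h2 := hI (231/200)
  linarith only [hFL, hkey, h1, h2, hE, hlo, hhi, hp]

theorem chk4_4_4 {F p4 a4 O I E : ℝ} (hFL : (35809/100000) < F) (hkey : F ≤ (19948/100000) / 3 * (O + 2 * I) + 4 / 9 * E) (hO : ∀ q : ℝ, 2 * q * O ≤ q ^ 2 + 3 * (3 * F - 4 * p4)) (hI : ∀ q : ℝ, 2 * q * I ≤ q ^ 2 + 3 * (4 * p4 + F))
    (hE : E + (1/4) * (F - p4) ≤ (33879/100000) - (13/25) * a4) (hlo : (3/25) ≤ a4) (hhi : a4 ≤ (13/100))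
    (hp : p4 ≤ (9367/25000) * a4 + (-(21749/1000000))) : False := by
  have h1 := hO (171/100)
  have h2 := hI (1173/1000)
  linarith only [hFL, hkey, h1, h2, hE, hlo, hhi, hp]

theorem chk4_4_5 {F p4 a4 O I E : ℝ} (hFL : (35809/100000) < F) (hkey : F ≤ (19948/100000) / 3 * (O + 2 * I) + 4 / 9 * E) (hO : ∀ q : ℝ, 2 * q * O ≤ q ^ 2 + 3 * (3 * F - 4 * p4)) (hI : ∀ q : ℝ, 2 * q * I ≤ q ^ 2 + 3 * (4 * p4 + F))
    (hE : E + (1/4) * (F - p4) ≤ (33879/100000) - (13/25) * a4) (hlo : (13/100) ≤ a4) (hhi : a4 ≤ (7/50))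
    (hp : p4 ≤ (3971/10000) * a4 + (-(24663/1000000))) : False := by
  have h1 := hO (212/125)
  have h2 := hI (1193/1000)
  linarith only [hFL, hkey, h1, h2, hE, hlo, hhi, hp]

theorem chk4_4_6 {F p4 a4 O I E : ℝ} (hFL : (35809/100000) < F) (hkey : F ≤ (19948/100000) / 3 * (O + 2 * I) + 4 / 9 * E) (hO : ∀ q : ℝ, 2 * q * O ≤ q ^ 2 + 3 * (3 * F - 4 * p4)) (hI : ∀ q : ℝ, 2 * q * I ≤ q ^ 2 + 3 * (4 * p4 + F))
    (hE : E + (1/4) * (F - p4) ≤ (33879/100000) - (13/25) * a4) (hlo : (7/50) ≤ a4) (hhi : a4 ≤ (3/20))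
    (hp : p4 ≤ (10591/25000) * a4 + (-(28379/1000000))) : False := by
  have h1 := hO (841/500)
  have h2 := hI (1213/1000)
  linarith only [hFL, hkey, h1, h2, hE, hlo, hhi, hp]

theorem chk4_4_7 {F p4 a4 O I E : ℝ} (hFL : (35809/100000) < F) (hkey : F ≤ (19948/100000) / 3 * (O + 2 * I) + 4 / 9 * E) (hO : ∀ q : ℝ, 2 * q * O ≤ q ^ 2 + 3 * (3 * F - 4 * p4)) (hI : ∀ q : ℝ, 2 * q * I ≤ q ^ 2 + 3 * (4 * p4 + F))
    (hE : E + (1/4) * (F - p4) ≤ (33879/100000) - (13/25) * a4) (hlo : (3/20) ≤ a4) (hhi : a4 ≤ (4/25))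
    (hp : p4 ≤ (42703/100000) * a4 + (-(28887/1000000))) : False := by
  have h1 := hO (833/500)
  have h2 := hI (617/500)
  linarith only [hFL, hkey, h1, h2, hE, hlo, hhi, hp]

theorem chk4_4_8 {F p4 a4 O I E : ℝ} (hFL : (35809/100000) < F) (hkey : F ≤ (19948/100000) / 3 * (O + 2 * I) + 4 / 9 * E) (hO : ∀ q : ℝ, 2 * q * O ≤ q ^ 2 + 3 * (3 * F - 4 * p4)) (hI : ∀ q : ℝ, 2 * q * I ≤ q ^ 2 + 3 * (4 * p4 + F))
    (hE : E + (1/4) * (F - p4) ≤ (33879/100000) - (13/25) * a4) (hlo : (4/25) ≤ a4) (hhi : a4 ≤ (9/50))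
    (hp : p4 ≤ (47017/100000) * a4 + (-(3579/100000))) : False := by
  have h1 := hO (821/500)
  have h2 := hI (1267/1000)
  linarith only [hFL, hkey, h1, h2, hE, hlo, hhi, hp]

theorem chk4_4_9 {F p4 a4 O I E : ℝ} (hFL : (35809/100000) < F) (hkey : F ≤ (19948/100000) / 3 * (O + 2 * I) + 4 / 9 * E) (hO : ∀ q : ℝ, 2 * q * O ≤ q ^ 2 + 3 * (3 * F - 4 * p4)) (hI : ∀ q : ℝ, 2 * q * I ≤ q ^ 2 + 3 * (4 * p4 + F))
    (hE : E + (1/4) * (F - p4) ≤ (33879/100000) - (13/25) * a4) (hlo : (9/50) ≤ a4) (hhi : a4 ≤ (1/5))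
    (hp : p4 ≤ (25177/50000) * a4 + (-(41797/1000000))) : False := by
  have h1 := hO (803/500)
  have h2 := hI (164/125)
  linarith only [hFL, hkey, h1, h2, hE, hlo, hhi, hp]

theorem chk4_4_10 {F p4 a4 O I E : ℝ} (hFL : (35809/100000) < F) (hkey : F ≤ (19948/100000) / 3 * (O + 2 * I) + 4 / 9 * E) (hO : ∀ q : ℝ, 2 * q * O ≤ q ^ 2 + 3 * (3 * F - 4 * p4)) (hI : ∀ q : ℝ, 2 * q * I ≤ q ^ 2 + 3 * (4 * p4 + F))
    (hE : E + (1/4) * (F - p4) ≤ (33879/100000) - (13/25) * a4) (hlo : (1/5) ≤ a4) (hhi : a4 ≤ (11/50))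
    (hp : p4 ≤ (53431/100000) * a4 + (-(47951/1000000))) : False := by
  have h1 := hO (783/500)
  have h2 := hI (1359/1000)
  linarith only [hFL, hkey, h1, h2, hE, hlo, hhi, hp]

theorem f4I_4 {a1 a2 a3 a4 p1 p2 p3 p4 e1 e2 e3 e4 F O I : ℝ}
    (c1 : Cell4 a1 p1 e1) (c2 : Cell4 a2 p2 e2) (c3 : Cell4 a3 p3 e3) (c4 : Cell4 a4 p4 e4)
    (hFL : (35809/100000) < F) (hFs : p1 + p2 + p3 + p4 = F) (has : a1 + a2 + a3 + a4 = 1)
    (hkey : F ≤ (19948/100000) / 3 * (O + 2 * I) + 4 / 9 * (e1 + e2 + e3))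
    (hO : ∀ q : ℝ, 2 * q * O ≤ q ^ 2 + 3 * (3 * F - 4 * p4))
    (hI : ∀ q : ℝ, 2 * q * I ≤ q ^ 2 + 3 * (4 * p4 + F))
    (h1 : a1 < (1/2)) (h21 : a2 ≤ a1) (h32 : a3 ≤ a2) (h43 : a4 ≤ a3)
    (hz : (13/50) ≤ a3) (hzu : a3 ≤ (7/25)) (hz4 : (2/25) ≤ a4) : False := by
  have E1 := eA4_4 c1 (by linarith only [hz, h32, h21]) h1
  have E2 := eA4_4 c2 (by linarith only [hz, h32]) (by linarith only [h21, h1])
  have E3 := eB4_4 c3 hz hzu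
  have hE : (e1 + e2 + e3) + (1/4) * (F - p4) ≤ (33879/100000) - (13/25) * a4 := by
    rw [← hFs]
    linarith only [E1, E2, E3, has]
  have hu : a4 ≤ (11/50) := by linarith only [h43, hzu, has, h32, h21, hz]
  rcases lt_or_ge a4 (9/100) with hc | hd0
  · exact chk4_4_0 hFL hkey hO hI hE hz4 hc.le (pl4_0 c4 hz4 hc.le)
  rcases lt_or_ge a4 (1/10) with hc | hd1
  · exact chk4_4_1 hFL hkey hO hI hE hd0 hc.le (pl4_1 c4 hd0 hc.le)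
  rcases lt_or_ge a4 (11/100) with hc | hd2
  · exact chk4_4_2 hFL hkey hO hI hE hd1 hc.le (pl4_2 c4 hd1 hc.le)
  rcases lt_or_ge a4 (3/25) with hc | hd3
  · exact chk4_4_3 hFL hkey hO hI hE hd2 hc.le (pl4_3 c4 hd2 hc.le)
  rcases lt_or_ge a4 (13/100) with hc | hd4
  · exact chk4_4_4 hFL hkey hO hI hE hd3 hc.le (pl4_4 c4 hd3 hc.le)
  rcases lt_or_ge a4 (7/50) with hc | hd5
  · exact chk4_4_5 hFL hkey hO hI hE hd4 hc.le (pl4_5 c4 hd4 hc.le)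
  rcases lt_or_ge a4 (3/20) with hc | hd6
  · exact chk4_4_6 hFL hkey hO hI hE hd5 hc.le (pl4_6 c4 hd5 hc.le)
  rcases lt_or_ge a4 (4/25) with hc | hd7
  · exact chk4_4_7 hFL hkey hO hI hE hd6 hc.le (pl4_7 c4 hd6 hc.le)
  rcases lt_or_ge a4 (9/50) with hc | hd8
  · exact chk4_4_8 hFL hkey hO hI hE hd7 hc.le (pl4_8 c4 hd7 hc.le)
  rcases lt_or_ge a4 (1/5) with hc | hd9
  · exact chk4_4_9 hFL hkey hO hI hE hd8 hc.le (pl4_9 c4 hd8 hc.le)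
  have hl : a4 ≤ (11/50) := by linarith only [hu]
  exact chk4_4_10 hFL hkey hO hI hE hd9 hl (pl4_10 c4 hd9 hl)

theorem chk4_5_0 {F p4 a4 O I E : ℝ} (hFL : (35809/100000) < F) (hkey : F ≤ (19948/100000) / 3 * (O + 2 * I) + 4 / 9 * E) (hO : ∀ q : ℝ, 2 * q * O ≤ q ^ 2 + 3 * (3 * F - 4 * p4)) (hI : ∀ q : ℝ, 2 * q * I ≤ q ^ 2 + 3 * (4 * p4 + F))
    (hE : E + (1/5) * (F - p4) ≤ (8023/25000) - (13/25) * a4) (hlo : (2/25) ≤ a4) (hhi : a4 ≤ (9/100))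
    (hp : p4 ≤ (27813/100000) * a4 + (-(5779/500000))) : False := by
  have h1 := hO (351/200)
  have h2 := hI (221/200)
  linarith only [hFL, hkey, h1, h2, hE, hlo, hhi, hp]

theorem chk4_5_1 {F p4 a4 O I E : ℝ} (hFL : (35809/100000) < F) (hkey : F ≤ (19948/100000) / 3 * (O + 2 * I) + 4 / 9 * E) (hO : ∀ q : ℝ, 2 * q * O ≤ q ^ 2 + 3 * (3 * F - 4 * p4)) (hI : ∀ q : ℝ, 2 * q * I ≤ q ^ 2 + 3 * (4 * p4 + F))
    (hE : E + (1/5) * (F - p4) ≤ (8023/25000) - (13/25) * a4) (hlo : (9/100) ≤ a4) (hhi : a4 ≤ (1/10))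
    (hp : p4 ≤ (2961/10000) * a4 + (-(527/40000))) : False := by
  have h1 := hO (349/200)
  have h2 := hI (28/25)
  linarith only [hFL, hkey, h1, h2, hE, hlo, hhi, hp]

theorem chk4_5_2 {F p4 a4 O I E : ℝ} (hFL : (35809/100000) < F) (hkey : F ≤ (19948/100000) / 3 * (O + 2 * I) + 4 / 9 * E) (hO : ∀ q : ℝ, 2 * q * O ≤ q ^ 2 + 3 * (3 * F - 4 * p4)) (hI : ∀ q : ℝ, 2 * q * I ≤ q ^ 2 + 3 * (4 * p4 + F))
    (hE : E + (1/5) * (F - p4) ≤ (8023/25000) - (13/25) * a4) (hlo : (1/10) ≤ a4) (hhi : a4 ≤ (11/100))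
    (hp : p4 ≤ (8167/25000) * a4 + (-(16233/1000000))) : False := by
  have h1 := hO (867/500)
  have h2 := hI (1137/1000)
  linarith only [hFL, hkey, h1, h2, hE, hlo, hhi, hp]

theorem chk4_5_3 {F p4 a4 O I E : ℝ} (hFL : (35809/100000) < F) (hkey : F ≤ (19948/100000) / 3 * (O + 2 * I) + 4 / 9 * E) (hO : ∀ q : ℝ, 2 * q * O ≤ q ^ 2 + 3 * (3 * F - 4 * p4)) (hI : ∀ q : ℝ, 2 * q * I ≤ q ^ 2 + 3 * (4 * p4 + F))
    (hE : E + (1/5) * (F - p4) ≤ (8023/25000) - (13/25) * a4) (hlo : (11/100) ≤ a4) (hhi : a4 ≤ (3/25))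
    (hp : p4 ≤ (35113/100000) * a4 + (-(18923/1000000))) : False := by
  have h1 := hO (1723/1000)
  have h2 := hI (231/200)
  linarith only [hFL, hkey, h1, h2, hE, hlo, hhi, hp]

theorem chk4_5_4 {F p4 a4 O I E : ℝ} (hFL : (35809/100000) < F) (hkey : F ≤ (19948/100000) / 3 * (O + 2 * I) + 4 / 9 * E) (hO : ∀ q : ℝ, 2 * q * O ≤ q ^ 2 + 3 * (3 * F - 4 * p4)) (hI : ∀ q : ℝ, 2 * q * I ≤ q ^ 2 + 3 * (4 * p4 + F))
    (hE : E + (1/5) * (F - p4) ≤ (8023/25000) - (13/25) * a4) (hlo : (3/25) ≤ a4) (hhi : a4 ≤ (13/100))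
    (hp : p4 ≤ (9367/25000) * a4 + (-(21749/1000000))) : False := by
  have h1 := hO (171/100)
  have h2 := hI (1173/1000)
  linarith only [hFL, hkey, h1, h2, hE, hlo, hhi, hp]

theorem chk4_5_5 {F p4 a4 O I E : ℝ} (hFL : (35809/100000) < F) (hkey : F ≤ (19948/100000) / 3 * (O + 2 * I) + 4 / 9 * E) (hO : ∀ q : ℝ, 2 * q * O ≤ q ^ 2 + 3 * (3 * F - 4 * p4)) (hI : ∀ q : ℝ, 2 * q * I ≤ q ^ 2 + 3 * (4 * p4 + F))
    (hE : E + (1/5) * (F - p4) ≤ (8023/25000) - (13/25) * a4) (hlo : (13/100) ≤ a4) (hhi : a4 ≤ (7/50))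
    (hp : p4 ≤ (3971/10000) * a4 + (-(24663/1000000))) : False := by
  have h1 := hO (212/125)
  have h2 := hI (1193/1000)
  linarith only [hFL, hkey, h1, h2, hE, hlo, hhi, hp]

theorem chk4_5_6 {F p4 a4 O I E : ℝ} (hFL : (35809/100000) < F) (hkey : F ≤ (19948/100000) / 3 * (O + 2 * I) + 4 / 9 * E) (hO : ∀ q : ℝ, 2 * q * O ≤ q ^ 2 + 3 * (3 * F - 4 * p4)) (hI : ∀ q : ℝ, 2 * q * I ≤ q ^ 2 + 3 * (4 * p4 + F))
    (hE : E + (1/5) * (F - p4) ≤ (8023/25000) - (13/25) * a4) (hlo : (7/50) ≤ a4) (hhi : a4 ≤ (3/20))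
    (hp : p4 ≤ (10591/25000) * a4 + (-(28379/1000000))) : False := by
  have h1 := hO (841/500)
  have h2 := hI (1213/1000)
  linarith only [hFL, hkey, h1, h2, hE, hlo, hhi, hp]

theorem chk4_5_7 {F p4 a4 O I E : ℝ} (hFL : (35809/100000) < F) (hkey : F ≤ (19948/100000) / 3 * (O + 2 * I) + 4 / 9 * E) (hO : ∀ q : ℝ, 2 * q * O ≤ q ^ 2 + 3 * (3 * F - 4 * p4)) (hI : ∀ q : ℝ, 2 * q * I ≤ q ^ 2 + 3 * (4 * p4 + F))
    (hE : E + (1/5) * (F - p4) ≤ (8023/25000) - (13/25) * a4) (hlo : (3/20) ≤ a4) (hhi : a4 ≤ (4/25))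
    (hp : p4 ≤ (42703/100000) * a4 + (-(28887/1000000))) : False := by
  have h1 := hO (833/500)
  have h2 := hI (617/500)
  linarith only [hFL, hkey, h1, h2, hE, hlo, hhi, hp]

theorem f4I_5 {a1 a2 a3 a4 p1 p2 p3 p4 e1 e2 e3 e4 F O I : ℝ}
    (c1 : Cell4 a1 p1 e1) (c2 : Cell4 a2 p2 e2) (c3 : Cell4 a3 p3 e3) (c4 : Cell4 a4 p4 e4)
    (hFL : (35809/100000) < F) (hFs : p1 + p2 + p3 + p4 = F) (has : a1 + a2 + a3 + a4 = 1)
    (hkey : F ≤ (19948/100000) / 3 * (O + 2 * I) + 4 / 9 * (e1 + e2 + e3))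
    (hO : ∀ q : ℝ, 2 * q * O ≤ q ^ 2 + 3 * (3 * F - 4 * p4))
    (hI : ∀ q : ℝ, 2 * q * I ≤ q ^ 2 + 3 * (4 * p4 + F))
    (h1 : a1 < (1/2)) (h21 : a2 ≤ a1) (h32 : a3 ≤ a2) (h43 : a4 ≤ a3)
    (hz : (7/25) ≤ a3) (hzu : a3 ≤ (3/10)) (hz4 : (2/25) ≤ a4) : False := by
  have E1 := eA4_5 c1 (by linarith only [hz, h32, h21]) h1
  have E2 := eA4_5 c2 (by linarith only [hz, h32]) (by linarith only [h21, h1])
  have E3 := eB4_5 c3 hz hzu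
  have hE : (e1 + e2 + e3) + (1/5) * (F - p4) ≤ (8023/25000) - (13/25) * a4 := by
    rw [← hFs]
    linarith only [E1, E2, E3, has]
  have hu : a4 ≤ (4/25) := by linarith only [h43, hzu, has, h32, h21, hz]
  rcases lt_or_ge a4 (9/100) with hc | hd0
  · exact chk4_5_0 hFL hkey hO hI hE hz4 hc.le (pl4_0 c4 hz4 hc.le)
  rcases lt_or_ge a4 (1/10) with hc | hd1
  · exact chk4_5_1 hFL hkey hO hI hE hd0 hc.le (pl4_1 c4 hd0 hc.le)
  rcases lt_or_ge a4 (11/100) with hc | hd2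
  · exact chk4_5_2 hFL hkey hO hI hE hd1 hc.le (pl4_2 c4 hd1 hc.le)
  rcases lt_or_ge a4 (3/25) with hc | hd3
  · exact chk4_5_3 hFL hkey hO hI hE hd2 hc.le (pl4_3 c4 hd2 hc.le)
  rcases lt_or_ge a4 (13/100) with hc | hd4
  · exact chk4_5_4 hFL hkey hO hI hE hd3 hc.le (pl4_4 c4 hd3 hc.le)
  rcases lt_or_ge a4 (7/50) with hc | hd5
  · exact chk4_5_5 hFL hkey hO hI hE hd4 hc.le (pl4_5 c4 hd4 hc.le)
  rcases lt_or_ge a4 (3/20) with hc | hd6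
  · exact chk4_5_6 hFL hkey hO hI hE hd5 hc.le (pl4_6 c4 hd5 hc.le)
  have hl : a4 ≤ (4/25) := by linarith only [hu]
  exact chk4_5_7 hFL hkey hO hI hE hd6 hl (pl4_7 c4 hd6 hl)

theorem chk4_6_0 {F p4 a4 O I E : ℝ} (hFL : (35809/100000) < F) (hkey : F ≤ (19948/100000) / 3 * (O + 2 * I) + 4 / 9 * E) (hO : ∀ q : ℝ, 2 * q * O ≤ q ^ 2 + 3 * (3 * F - 4 * p4)) (hI : ∀ q : ℝ, 2 * q * I ≤ q ^ 2 + 3 * (4 * p4 + F))
    (hE : E + 0 * (F - p4) ≤ (1233/5000) - (12/25) * a4) (hlo : (2/25) ≤ a4) (hhi : a4 ≤ (9/100))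
    (hp : p4 ≤ (27813/100000) * a4 + (-(5779/500000))) : False := by
  have h1 := hO (351/200)
  have h2 := hI (221/200)
  linarith only [hFL, hkey, h1, h2, hE, hlo, hhi, hp]

theorem chk4_6_1 {F p4 a4 O I E : ℝ} (hFL : (35809/100000) < F) (hkey : F ≤ (19948/100000) / 3 * (O + 2 * I) + 4 / 9 * E) (hO : ∀ q : ℝ, 2 * q * O ≤ q ^ 2 + 3 * (3 * F - 4 * p4)) (hI : ∀ q : ℝ, 2 * q * I ≤ q ^ 2 + 3 * (4 * p4 + F))
    (hE : E + 0 * (F - p4) ≤ (1233/5000) - (12/25) * a4) (hlo : (9/100) ≤ a4) (hhi : a4 ≤ (1/10))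
    (hp : p4 ≤ (2961/10000) * a4 + (-(527/40000))) : False := by
  have h1 := hO (349/200)
  have h2 := hI (28/25)
  linarith only [hFL, hkey, h1, h2, hE, hlo, hhi, hp]

theorem f4I_6 {a1 a2 a3 a4 p1 p2 p3 p4 e1 e2 e3 e4 F O I : ℝ}
    (c1 : Cell4 a1 p1 e1) (c2 : Cell4 a2 p2 e2) (c3 : Cell4 a3 p3 e3) (c4 : Cell4 a4 p4 e4)
    (hFL : (35809/100000) < F) (hFs : p1 + p2 + p3 + p4 = F) (has : a1 + a2 + a3 + a4 = 1)
    (hkey : F ≤ (19948/100000) / 3 * (O + 2 * I) + 4 / 9 * (e1 + e2 + e3))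
    (hO : ∀ q : ℝ, 2 * q * O ≤ q ^ 2 + 3 * (3 * F - 4 * p4))
    (hI : ∀ q : ℝ, 2 * q * I ≤ q ^ 2 + 3 * (4 * p4 + F))
    (h1 : a1 < (1/2)) (h21 : a2 ≤ a1) (h32 : a3 ≤ a2) (h43 : a4 ≤ a3)
    (hz : (3/10) ≤ a3) (hzu : a3 ≤ (1/3)) (hz4 : (2/25) ≤ a4) : False := by
  have E1 := eA4_6 c1 (by linarith only [hz, h32, h21]) h1
  have E2 := eA4_6 c2 (by linarith only [hz, h32]) (by linarith only [h21, h1])
  have E3 := eB4_6 c3 hz hzu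
  have hE : (e1 + e2 + e3) + 0 * (F - p4) ≤ (1233/5000) - (12/25) * a4 := by
    rw [← hFs]
    linarith only [E1, E2, E3, has]
  have hu : a4 ≤ (1/10) := by linarith only [h43, hzu, has, h32, h21, hz]
  rcases lt_or_ge a4 (9/100) with hc | hd0
  · exact chk4_6_0 hFL hkey hO hI hE hz4 hc.le (pl4_0 c4 hz4 hc.le)
  have hl : a4 ≤ (1/10) := by linarith only [hu]
  exact chk4_6_1 hFL hkey hO hI hE hd0 hl (pl4_1 c4 hd0 hl)

theorem Fu4_0 {F p4 a4 O I E : ℝ} (hkey : F ≤ (19948/100000) / 3 * (O + 2 * I) + 4 / 9 * E) (hO : ∀ q : ℝ, 2 * q * O ≤ q ^ 2 + 3 * (3 * F - 4 * p4)) (hI : ∀ q : ℝ, 2 * q * I ≤ q ^ 2 + 3 * (4 * p4 + F))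
    (hE : E + (7/20) * (F - p4) ≤ (37923/100000) - (27/50) * a4) (hlo : 0 ≤ a4) (hsu : p4 ≤ (217/50000)) : F ≤ (3769/10000) := by
  have h1 := hO (1781/1000)
  have h2 := hI (531/500)
  linarith only [hkey, h1, h2, hE, hlo, hsu]

theorem wall4_0_0 {pL pI pJ x F D V c : ℝ} (hx0 : 0 ≤ x) (hsu : x ^ 2 ≤ (217/50000)) (hF : pL + pI + pJ + x ^ 2 = F)
    (hFu : F ≤ (3769/10000)) (hD0 : 0 < D) (hV0 : 0 < V) (hD1 : D ^ 2 ≤ 2 * pI + pJ) (hD2 : D ^ 2 ≤ pI + 2 * pJ)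
    (hD3 : D ^ 2 ≤ pL + pI + pJ) (hy : pI + pJ ≤ 8 * V ^ 2) (hc : c ≤ (313329/500000))
    (hwall : ∀ τ : ℝ, 0 ≤ τ → x ^ 2 < 9 * V ^ 2 → x ^ 2 ≤ τ ^ 2 * (9 * V ^ 2 - x ^ 2) →
      1 / 2 ≤ c * D + (arctan (x / V) + arctan τ) / (2 * π))
    (hc1 : (97/500) ≤ pI + pJ) (hc2 : pI + pJ < (107/500)) : False := by
  have hom : 1 / (2 * π) ≤ ((39789/250000) : ℝ) := om_bound.trans (by norm_num)
  have hV1 : (1557/10000) ≤ V := V_of_y hV0 hy hc1 (by norm_num) (by norm_num)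
  have hDu : D ≤ (2833/5000) := D_of_sq hD1 hD2 hc2 (by norm_num) (by norm_num)
  have hxu : x ^ 2 ≤ ((659/10000) : ℝ) ^ 2 := hsu.trans (by norm_num)
  have hA : arctan (x / V) ≤ (1001/2500) := ang_one hx0 (by norm_num) hxu (by norm_num) hV1 (by norm_num)
  exact cell_contra (c := c) (cb := (313329/500000)) (om := (39789/250000)) (D := D) (Du := (2833/5000)) (V := V) (V1 := (1557/10000))
    (w := x ^ 2) (su := (217/50000)) (τ := (57/400)) (A3 := (177/1250)) (R := (1001/2500)) (AngV := arctan (x / V)) hc hom hDu hD0.le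
    (by norm_num) (by norm_num) hV1 hsu (by norm_num) (by norm_num) (by norm_num)
    (by norm_num) hA (Real.arctan_nonneg.mpr (div_nonneg hx0 hV0.le)) (by norm_num) hwall

theorem wall4_0_1 {pL pI pJ x F D V c : ℝ} (hx0 : 0 ≤ x) (hsu : x ^ 2 ≤ (217/50000)) (hF : pL + pI + pJ + x ^ 2 = F)
    (hFu : F ≤ (3769/10000)) (hD0 : 0 < D) (hV0 : 0 < V) (hD1 : D ^ 2 ≤ 2 * pI + pJ) (hD2 : D ^ 2 ≤ pI + 2 * pJ)
    (hD3 : D ^ 2 ≤ pL + pI + pJ) (hy : pI + pJ ≤ 8 * V ^ 2) (hc : c ≤ (313329/500000))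
    (hwall : ∀ τ : ℝ, 0 ≤ τ → x ^ 2 < 9 * V ^ 2 → x ^ 2 ≤ τ ^ 2 * (9 * V ^ 2 - x ^ 2) →
      1 / 2 ≤ c * D + (arctan (x / V) + arctan τ) / (2 * π))
    (hc1 : (107/500) ≤ pI + pJ) (hc2 : pI + pJ < (117/500)) : False := by
  have hom : 1 / (2 * π) ≤ ((39789/250000) : ℝ) := om_bound.trans (by norm_num)
  have hV1 : (327/2000) ≤ V := V_of_y hV0 hy hc1 (by norm_num) (by norm_num)
  have hDu : D ≤ (237/400) := D_of_sq hD1 hD2 hc2 (by norm_num) (by norm_num)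
  have hxu : x ^ 2 ≤ ((659/10000) : ℝ) ^ 2 := hsu.trans (by norm_num)
  have hA : arctan (x / V) ≤ (479/1250) := ang_one hx0 (by norm_num) hxu (by norm_num) hV1 (by norm_num)
  exact cell_contra (c := c) (cb := (313329/500000)) (om := (39789/250000)) (D := D) (Du := (237/400)) (V := V) (V1 := (327/2000))
    (w := x ^ 2) (su := (217/50000)) (τ := (339/2500)) (A3 := (337/2500)) (R := (479/1250)) (AngV := arctan (x / V)) hc hom hDu hD0.le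
    (by norm_num) (by norm_num) hV1 hsu (by norm_num) (by norm_num) (by norm_num)
    (by norm_num) hA (Real.arctan_nonneg.mpr (div_nonneg hx0 hV0.le)) (by norm_num) hwall

theorem wall4_0_2 {pL pI pJ x F D V c : ℝ} (hx0 : 0 ≤ x) (hsu : x ^ 2 ≤ (217/50000)) (hF : pL + pI + pJ + x ^ 2 = F)
    (hFu : F ≤ (3769/10000)) (hD0 : 0 < D) (hV0 : 0 < V) (hD1 : D ^ 2 ≤ 2 * pI + pJ) (hD2 : D ^ 2 ≤ pI + 2 * pJ)
    (hD3 : D ^ 2 ≤ pL + pI + pJ) (hy : pI + pJ ≤ 8 * V ^ 2) (hc : c ≤ (313329/500000))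
    (hwall : ∀ τ : ℝ, 0 ≤ τ → x ^ 2 < 9 * V ^ 2 → x ^ 2 ≤ τ ^ 2 * (9 * V ^ 2 - x ^ 2) →
      1 / 2 ≤ c * D + (arctan (x / V) + arctan τ) / (2 * π))
    (hc1 : (117/500) ≤ pI + pJ) (hc2 : pI + pJ < (127/500)) : False := by
  have hom : 1 / (2 * π) ≤ ((39789/250000) : ℝ) := om_bound.trans (by norm_num)
  have hV1 : (171/1000) ≤ V := V_of_y hV0 hy hc1 (by norm_num) (by norm_num)
  have hDu : D ≤ (307/500) := le_of_sq_le (by norm_num) (by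
    have h9 := sq_nonneg x
    have h10 : ((3769/10000) : ℝ) ≤ (307/500) ^ 2 := by norm_num
    linarith only [hD3, hF, hFu, h9, h10])
  have hxu : x ^ 2 ≤ ((659/10000) : ℝ) ^ 2 := hsu.trans (by norm_num)
  have hA : arctan (x / V) ≤ (3679/10000) := ang_one hx0 (by norm_num) hxu (by norm_num) hV1 (by norm_num)
  exact cell_contra (c := c) (cb := (313329/500000)) (om := (39789/250000)) (D := D) (Du := (307/500)) (V := V) (V1 := (171/1000))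
    (w := x ^ 2) (su := (217/50000)) (τ := (259/2000)) (A3 := (161/1250)) (R := (3679/10000)) (AngV := arctan (x / V)) hc hom hDu hD0.le
    (by norm_num) (by norm_num) hV1 hsu (by norm_num) (by norm_num) (by norm_num)
    (by norm_num) hA (Real.arctan_nonneg.mpr (div_nonneg hx0 hV0.le)) (by norm_num) hwall

theorem wall4_0_3 {pL pI pJ x F D V c : ℝ} (hx0 : 0 ≤ x) (hsu : x ^ 2 ≤ (217/50000)) (hF : pL + pI + pJ + x ^ 2 = F)
    (hFu : F ≤ (3769/10000)) (hD0 : 0 < D) (hV0 : 0 < V) (hD1 : D ^ 2 ≤ 2 * pI + pJ) (hD2 : D ^ 2 ≤ pI + 2 * pJ)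
    (hD3 : D ^ 2 ≤ pL + pI + pJ) (hy : pI + pJ ≤ 8 * V ^ 2) (hc : c ≤ (313329/500000))
    (hwall : ∀ τ : ℝ, 0 ≤ τ → x ^ 2 < 9 * V ^ 2 → x ^ 2 ≤ τ ^ 2 * (9 * V ^ 2 - x ^ 2) →
      1 / 2 ≤ c * D + (arctan (x / V) + arctan τ) / (2 * π))
    (hc1 : (127/500) ≤ pI + pJ) (hc2 : pI + pJ < (137/500)) : False := by
  have hom : 1 / (2 * π) ≤ ((39789/250000) : ℝ) := om_bound.trans (by norm_num)
  have hV1 : (1781/10000) ≤ V := V_of_y hV0 hy hc1 (by norm_num) (by norm_num)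
  have hDu : D ≤ (307/500) := le_of_sq_le (by norm_num) (by
    have h9 := sq_nonneg x
    have h10 : ((3769/10000) : ℝ) ≤ (307/500) ^ 2 := by norm_num
    linarith only [hD3, hF, hFu, h9, h10])
  have hxu : x ^ 2 ≤ ((659/10000) : ℝ) ^ 2 := hsu.trans (by norm_num)
  have hA : arctan (x / V) ≤ (443/1250) := ang_one hx0 (by norm_num) hxu (by norm_num) hV1 (by norm_num)
  exact cell_contra (c := c) (cb := (313329/500000)) (om := (39789/250000)) (D := D) (Du := (307/500)) (V := V) (V1 := (1781/10000))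
    (w := x ^ 2) (su := (217/50000)) (τ := (1243/10000)) (A3 := (1237/10000)) (R := (443/1250)) (AngV := arctan (x / V)) hc hom hDu hD0.le
    (by norm_num) (by norm_num) hV1 hsu (by norm_num) (by norm_num) (by norm_num)
    (by norm_num) hA (Real.arctan_nonneg.mpr (div_nonneg hx0 hV0.le)) (by norm_num) hwall

theorem wall4_0_4 {pL pI pJ x F D V c : ℝ} (hx0 : 0 ≤ x) (hsu : x ^ 2 ≤ (217/50000)) (hF : pL + pI + pJ + x ^ 2 = F)
    (hFu : F ≤ (3769/10000)) (hD0 : 0 < D) (hV0 : 0 < V) (hD1 : D ^ 2 ≤ 2 * pI + pJ) (hD2 : D ^ 2 ≤ pI + 2 * pJ)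
    (hD3 : D ^ 2 ≤ pL + pI + pJ) (hy : pI + pJ ≤ 8 * V ^ 2) (hc : c ≤ (313329/500000))
    (hwall : ∀ τ : ℝ, 0 ≤ τ → x ^ 2 < 9 * V ^ 2 → x ^ 2 ≤ τ ^ 2 * (9 * V ^ 2 - x ^ 2) →
      1 / 2 ≤ c * D + (arctan (x / V) + arctan τ) / (2 * π))
    (hc1 : (137/500) ≤ pI + pJ) (hc2 : pI + pJ < (147/500)) : False := by
  have hom : 1 / (2 * π) ≤ ((39789/250000) : ℝ) := om_bound.trans (by norm_num)
  have hV1 : (37/200) ≤ V := V_of_y hV0 hy hc1 (by norm_num) (by norm_num)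
  have hDu : D ≤ (307/500) := le_of_sq_le (by norm_num) (by
    have h9 := sq_nonneg x
    have h10 : ((3769/10000) : ℝ) ≤ (307/500) ^ 2 := by norm_num
    linarith only [hD3, hF, hFu, h9, h10])
  have hxu : x ^ 2 ≤ ((659/10000) : ℝ) ^ 2 := hsu.trans (by norm_num)
  have hA : arctan (x / V) ≤ (3423/10000) := ang_one hx0 (by norm_num) hxu (by norm_num) hV1 (by norm_num)
  exact cell_contra (c := c) (cb := (313329/500000)) (om := (39789/250000)) (D := D) (Du := (307/500)) (V := V) (V1 := (37/200))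
    (w := x ^ 2) (su := (217/50000)) (τ := (299/2500)) (A3 := (1191/10000)) (R := (3423/10000)) (AngV := arctan (x / V)) hc hom hDu hD0.le
    (by norm_num) (by norm_num) hV1 hsu (by norm_num) (by norm_num) (by norm_num)
    (by norm_num) hA (Real.arctan_nonneg.mpr (div_nonneg hx0 hV0.le)) (by norm_num) hwall

theorem wall4_0_5 {pL pI pJ x F D V c : ℝ} (hx0 : 0 ≤ x) (hsu : x ^ 2 ≤ (217/50000)) (hF : pL + pI + pJ + x ^ 2 = F)
    (hFu : F ≤ (3769/10000)) (hD0 : 0 < D) (hV0 : 0 < V) (hD1 : D ^ 2 ≤ 2 * pI + pJ) (hD2 : D ^ 2 ≤ pI + 2 * pJ)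
    (hD3 : D ^ 2 ≤ pL + pI + pJ) (hy : pI + pJ ≤ 8 * V ^ 2) (hc : c ≤ (313329/500000))
    (hwall : ∀ τ : ℝ, 0 ≤ τ → x ^ 2 < 9 * V ^ 2 → x ^ 2 ≤ τ ^ 2 * (9 * V ^ 2 - x ^ 2) →
      1 / 2 ≤ c * D + (arctan (x / V) + arctan τ) / (2 * π))
    (hc1 : (147/500) ≤ pI + pJ) (hc2 : pI + pJ < (157/500)) : False := by
  have hom : 1 / (2 * π) ≤ ((39789/250000) : ℝ) := om_bound.trans (by norm_num)
  have hV1 : (1917/10000) ≤ V := V_of_y hV0 hy hc1 (by norm_num) (by norm_num)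
  have hDu : D ≤ (307/500) := le_of_sq_le (by norm_num) (by
    have h9 := sq_nonneg x
    have h10 : ((3769/10000) : ℝ) ≤ (307/500) ^ 2 := by norm_num
    linarith only [hD3, hF, hFu, h9, h10])
  have hxu : x ^ 2 ≤ ((659/10000) : ℝ) ^ 2 := hsu.trans (by norm_num)
  have hA : arctan (x / V) ≤ (207/625) := ang_one hx0 (by norm_num) hxu (by norm_num) hV1 (by norm_num)
  exact cell_contra (c := c) (cb := (313329/500000)) (om := (39789/250000)) (D := D) (Du := (307/500)) (V := V) (V1 := (1917/10000))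
    (w := x ^ 2) (su := (217/50000)) (τ := (577/5000)) (A3 := (1149/10000)) (R := (207/625)) (AngV := arctan (x / V)) hc hom hDu hD0.le
    (by norm_num) (by norm_num) hV1 hsu (by norm_num) (by norm_num) (by norm_num)
    (by norm_num) hA (Real.arctan_nonneg.mpr (div_nonneg hx0 hV0.le)) (by norm_num) hwall

theorem wall4_0_6 {pL pI pJ x F D V c : ℝ} (hx0 : 0 ≤ x) (hsu : x ^ 2 ≤ (217/50000)) (hF : pL + pI + pJ + x ^ 2 = F)
    (hFu : F ≤ (3769/10000)) (hD0 : 0 < D) (hV0 : 0 < V) (hD1 : D ^ 2 ≤ 2 * pI + pJ) (hD2 : D ^ 2 ≤ pI + 2 * pJ)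
    (hD3 : D ^ 2 ≤ pL + pI + pJ) (hy : pI + pJ ≤ 8 * V ^ 2) (hc : c ≤ (313329/500000))
    (hwall : ∀ τ : ℝ, 0 ≤ τ → x ^ 2 < 9 * V ^ 2 → x ^ 2 ≤ τ ^ 2 * (9 * V ^ 2 - x ^ 2) →
      1 / 2 ≤ c * D + (arctan (x / V) + arctan τ) / (2 * π))
    (hc1 : (157/500) ≤ pI + pJ) (hc2 : pI + pJ < (167/500)) : False := by
  have hom : 1 / (2 * π) ≤ ((39789/250000) : ℝ) := om_bound.trans (by norm_num)
  have hV1 : (1981/10000) ≤ V := V_of_y hV0 hy hc1 (by norm_num) (by norm_num)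
  have hDu : D ≤ (307/500) := le_of_sq_le (by norm_num) (by
    have h9 := sq_nonneg x
    have h10 : ((3769/10000) : ℝ) ≤ (307/500) ^ 2 := by norm_num
    linarith only [hD3, hF, hFu, h9, h10])
  have hxu : x ^ 2 ≤ ((659/10000) : ℝ) ^ 2 := hsu.trans (by norm_num)
  have hA : arctan (x / V) ≤ (803/2500) := ang_one hx0 (by norm_num) hxu (by norm_num) hV1 (by norm_num)
  exact cell_contra (c := c) (cb := (313329/500000)) (om := (39789/250000)) (D := D) (Du := (307/500)) (V := V) (V1 := (1981/10000))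
    (w := x ^ 2) (su := (217/50000)) (τ := (279/2500)) (A3 := (139/1250)) (R := (803/2500)) (AngV := arctan (x / V)) hc hom hDu hD0.le
    (by norm_num) (by norm_num) hV1 hsu (by norm_num) (by norm_num) (by norm_num)
    (by norm_num) hA (Real.arctan_nonneg.mpr (div_nonneg hx0 hV0.le)) (by norm_num) hwall

theorem caseW4_0 {pL pI pJ x F D V c : ℝ} (hx0 : 0 ≤ x) (hsu : x ^ 2 ≤ (217/50000)) (hF : pL + pI + pJ + x ^ 2 = F)
    (hFu : F ≤ (3769/10000)) (hD0 : 0 < D) (hV0 : 0 < V) (hD1 : D ^ 2 ≤ 2 * pI + pJ) (hD2 : D ^ 2 ≤ pI + 2 * pJ)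
    (hD3 : D ^ 2 ≤ pL + pI + pJ) (hy : pI + pJ ≤ 8 * V ^ 2) (hc : c ≤ (313329/500000))
    (hwall : ∀ τ : ℝ, 0 ≤ τ → x ^ 2 < 9 * V ^ 2 → x ^ 2 ≤ τ ^ 2 * (9 * V ^ 2 - x ^ 2) →
      1 / 2 ≤ c * D + (arctan (x / V) + arctan τ) / (2 * π))
    (hFL : (35809/100000) < F) (hmL : pL ≤ (159157/1000000)) (hmI : pI ≤ (159157/1000000)) (hmJ : pJ ≤ (159157/1000000)) : False := by
  have hyL : (97/500) ≤ pI + pJ := by linarith only [hF, hFL, hmL, hsu]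
  have hyU : pI + pJ < (167/500) := by linarith only [hmI, hmJ]
  rcases lt_or_ge (pI + pJ) (107/500) with hc2 | hd0
  · exact wall4_0_0 hx0 hsu hF hFu hD0 hV0 hD1 hD2 hD3 hy hc hwall hyL hc2
  rcases lt_or_ge (pI + pJ) (117/500) with hc2 | hd1
  · exact wall4_0_1 hx0 hsu hF hFu hD0 hV0 hD1 hD2 hD3 hy hc hwall hd0 hc2
  rcases lt_or_ge (pI + pJ) (127/500) with hc2 | hd2
  · exact wall4_0_2 hx0 hsu hF hFu hD0 hV0 hD1 hD2 hD3 hy hc hwall hd1 hc2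
  rcases lt_or_ge (pI + pJ) (137/500) with hc2 | hd3
  · exact wall4_0_3 hx0 hsu hF hFu hD0 hV0 hD1 hD2 hD3 hy hc hwall hd2 hc2
  rcases lt_or_ge (pI + pJ) (147/500) with hc2 | hd4
  · exact wall4_0_4 hx0 hsu hF hFu hD0 hV0 hD1 hD2 hD3 hy hc hwall hd3 hc2
  rcases lt_or_ge (pI + pJ) (157/500) with hc2 | hd5
  · exact wall4_0_5 hx0 hsu hF hFu hD0 hV0 hD1 hD2 hD3 hy hc hwall hd4 hc2
  exact wall4_0_6 hx0 hsu hF hFu hD0 hV0 hD1 hD2 hD3 hy hc hwall hd5 hyU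

theorem Fu4_1 {F p4 a4 O I E : ℝ} (hkey : F ≤ (19948/100000) / 3 * (O + 2 * I) + 4 / 9 * E) (hO : ∀ q : ℝ, 2 * q * O ≤ q ^ 2 + 3 * (3 * F - 4 * p4)) (hI : ∀ q : ℝ, 2 * q * I ≤ q ^ 2 + 3 * (4 * p4 + F))
    (hE : E + (7/20) * (F - p4) ≤ (37923/100000) - (27/50) * a4) (hlo : (1/20) ≤ a4) (hsu : p4 ≤ (359/50000)) : F ≤ (1821/5000) := by
  have h1 := hO (443/250)
  have h2 := hI (539/500)
  linarith only [hkey, h1, h2, hE, hlo, hsu]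

theorem wall4_1_0 {pL pI pJ x F D V c : ℝ} (hx0 : 0 ≤ x) (hsu : x ^ 2 ≤ (359/50000)) (hF : pL + pI + pJ + x ^ 2 = F)
    (hFu : F ≤ (1821/5000)) (hD0 : 0 < D) (hV0 : 0 < V) (hD1 : D ^ 2 ≤ 2 * pI + pJ) (hD2 : D ^ 2 ≤ pI + 2 * pJ)
    (hD3 : D ^ 2 ≤ pL + pI + pJ) (hy : pI + pJ ≤ 8 * V ^ 2) (hc : c ≤ (313329/500000))
    (hwall : ∀ τ : ℝ, 0 ≤ τ → x ^ 2 < 9 * V ^ 2 → x ^ 2 ≤ τ ^ 2 * (9 * V ^ 2 - x ^ 2) →
      1 / 2 ≤ c * D + (arctan (x / V) + arctan τ) / (2 * π))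
    (hc1 : (191/1000) ≤ pI + pJ) (hc2 : pI + pJ < (211/1000)) : False := by
  have hom : 1 / (2 * π) ≤ ((39789/250000) : ℝ) := om_bound.trans (by norm_num)
  have hV1 : (309/2000) ≤ V := V_of_y hV0 hy hc1 (by norm_num) (by norm_num)
  have hDu : D ≤ (2813/5000) := D_of_sq hD1 hD2 hc2 (by norm_num) (by norm_num)
  have hxu : x ^ 2 ≤ ((53/625) : ℝ) ^ 2 := hsu.trans (by norm_num)
  have hA : arctan (x / V) ≤ (251/500) := ang_one hx0 (by norm_num) hxu (by norm_num) hV1 (by norm_num)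
  exact cell_contra (c := c) (cb := (313329/500000)) (om := (39789/250000)) (D := D) (Du := (2813/5000)) (V := V) (V1 := (309/2000))
    (w := x ^ 2) (su := (359/50000)) (τ := (93/500)) (A3 := (1839/10000)) (R := (251/500)) (AngV := arctan (x / V)) hc hom hDu hD0.le
    (by norm_num) (by norm_num) hV1 hsu (by norm_num) (by norm_num) (by norm_num)
    (by norm_num) hA (Real.arctan_nonneg.mpr (div_nonneg hx0 hV0.le)) (by norm_num) hwall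

theorem wall4_1_1 {pL pI pJ x F D V c : ℝ} (hx0 : 0 ≤ x) (hsu : x ^ 2 ≤ (359/50000)) (hF : pL + pI + pJ + x ^ 2 = F)
    (hFu : F ≤ (1821/5000)) (hD0 : 0 < D) (hV0 : 0 < V) (hD1 : D ^ 2 ≤ 2 * pI + pJ) (hD2 : D ^ 2 ≤ pI + 2 * pJ)
    (hD3 : D ^ 2 ≤ pL + pI + pJ) (hy : pI + pJ ≤ 8 * V ^ 2) (hc : c ≤ (313329/500000))
    (hwall : ∀ τ : ℝ, 0 ≤ τ → x ^ 2 < 9 * V ^ 2 → x ^ 2 ≤ τ ^ 2 * (9 * V ^ 2 - x ^ 2) →
      1 / 2 ≤ c * D + (arctan (x / V) + arctan τ) / (2 * π))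
    (hc1 : (211/1000) ≤ pI + pJ) (hc2 : pI + pJ < (231/1000)) : False := by
  have hom : 1 / (2 * π) ≤ ((39789/250000) : ℝ) := om_bound.trans (by norm_num)
  have hV1 : (203/1250) ≤ V := V_of_y hV0 hy hc1 (by norm_num) (by norm_num)
  have hDu : D ≤ (5887/10000) := D_of_sq hD1 hD2 hc2 (by norm_num) (by norm_num)
  have hxu : x ^ 2 ≤ ((53/625) : ℝ) ^ 2 := hsu.trans (by norm_num)
  have hA : arctan (x / V) ≤ (4813/10000) := ang_one hx0 (by norm_num) hxu (by norm_num) hV1 (by norm_num)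
  exact cell_contra (c := c) (cb := (313329/500000)) (om := (39789/250000)) (D := D) (Du := (5887/10000)) (V := V) (V1 := (203/1250))
    (w := x ^ 2) (su := (359/50000)) (τ := (1767/10000)) (A3 := (1749/10000)) (R := (4813/10000)) (AngV := arctan (x / V)) hc hom hDu hD0.le
    (by norm_num) (by norm_num) hV1 hsu (by norm_num) (by norm_num) (by norm_num)
    (by norm_num) hA (Real.arctan_nonneg.mpr (div_nonneg hx0 hV0.le)) (by norm_num) hwall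

theorem wall4_1_2 {pL pI pJ x F D V c : ℝ} (hx0 : 0 ≤ x) (hsu : x ^ 2 ≤ (359/50000)) (hF : pL + pI + pJ + x ^ 2 = F)
    (hFu : F ≤ (1821/5000)) (hD0 : 0 < D) (hV0 : 0 < V) (hD1 : D ^ 2 ≤ 2 * pI + pJ) (hD2 : D ^ 2 ≤ pI + 2 * pJ)
    (hD3 : D ^ 2 ≤ pL + pI + pJ) (hy : pI + pJ ≤ 8 * V ^ 2) (hc : c ≤ (313329/500000))
    (hwall : ∀ τ : ℝ, 0 ≤ τ → x ^ 2 < 9 * V ^ 2 → x ^ 2 ≤ τ ^ 2 * (9 * V ^ 2 - x ^ 2) →
      1 / 2 ≤ c * D + (arctan (x / V) + arctan τ) / (2 * π))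
    (hc1 : (231/1000) ≤ pI + pJ) (hc2 : pI + pJ < (251/1000)) : False := by
  have hom : 1 / (2 * π) ≤ ((39789/250000) : ℝ) := om_bound.trans (by norm_num)
  have hV1 : (1699/10000) ≤ V := V_of_y hV0 hy hc1 (by norm_num) (by norm_num)
  have hDu : D ≤ (1207/2000) := le_of_sq_le (by norm_num) (by
    have h9 := sq_nonneg x
    have h10 : ((1821/5000) : ℝ) ≤ (1207/2000) ^ 2 := by norm_num
    linarith only [hD3, hF, hFu, h9, h10])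
  have hxu : x ^ 2 ≤ ((53/625) : ℝ) ^ 2 := hsu.trans (by norm_num)
  have hA : arctan (x / V) ≤ (463/1000) := ang_one hx0 (by norm_num) hxu (by norm_num) hV1 (by norm_num)
  exact cell_contra (c := c) (cb := (313329/500000)) (om := (39789/250000)) (D := D) (Du := (1207/2000)) (V := V) (V1 := (1699/10000))
    (w := x ^ 2) (su := (359/50000)) (τ := (843/5000)) (A3 := (1671/10000)) (R := (463/1000)) (AngV := arctan (x / V)) hc hom hDu hD0.le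
    (by norm_num) (by norm_num) hV1 hsu (by norm_num) (by norm_num) (by norm_num)
    (by norm_num) hA (Real.arctan_nonneg.mpr (div_nonneg hx0 hV0.le)) (by norm_num) hwall

theorem wall4_1_3 {pL pI pJ x F D V c : ℝ} (hx0 : 0 ≤ x) (hsu : x ^ 2 ≤ (359/50000)) (hF : pL + pI + pJ + x ^ 2 = F)
    (hFu : F ≤ (1821/5000)) (hD0 : 0 < D) (hV0 : 0 < V) (hD1 : D ^ 2 ≤ 2 * pI + pJ) (hD2 : D ^ 2 ≤ pI + 2 * pJ)
    (hD3 : D ^ 2 ≤ pL + pI + pJ) (hy : pI + pJ ≤ 8 * V ^ 2) (hc : c ≤ (313329/500000))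
    (hwall : ∀ τ : ℝ, 0 ≤ τ → x ^ 2 < 9 * V ^ 2 → x ^ 2 ≤ τ ^ 2 * (9 * V ^ 2 - x ^ 2) →
      1 / 2 ≤ c * D + (arctan (x / V) + arctan τ) / (2 * π))
    (hc1 : (251/1000) ≤ pI + pJ) (hc2 : pI + pJ < (271/1000)) : False := by
  have hom : 1 / (2 * π) ≤ ((39789/250000) : ℝ) := om_bound.trans (by norm_num)
  have hV1 : (1771/10000) ≤ V := V_of_y hV0 hy hc1 (by norm_num) (by norm_num)
  have hDu : D ≤ (1207/2000) := le_of_sq_le (by norm_num) (by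
    have h9 := sq_nonneg x
    have h10 : ((1821/5000) : ℝ) ≤ (1207/2000) ^ 2 := by norm_num
    linarith only [hD3, hF, hFu, h9, h10])
  have hxu : x ^ 2 ≤ ((53/625) : ℝ) ^ 2 := hsu.trans (by norm_num)
  have hA : arctan (x / V) ≤ (2233/5000) := ang_one hx0 (by norm_num) hxu (by norm_num) hV1 (by norm_num)
  exact cell_contra (c := c) (cb := (313329/500000)) (om := (39789/250000)) (D := D) (Du := (1207/2000)) (V := V) (V1 := (1771/10000))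
    (w := x ^ 2) (su := (359/50000)) (τ := (101/625)) (A3 := (1603/10000)) (R := (2233/5000)) (AngV := arctan (x / V)) hc hom hDu hD0.le
    (by norm_num) (by norm_num) hV1 hsu (by norm_num) (by norm_num) (by norm_num)
    (by norm_num) hA (Real.arctan_nonneg.mpr (div_nonneg hx0 hV0.le)) (by norm_num) hwall

theorem wall4_1_4 {pL pI pJ x F D V c : ℝ} (hx0 : 0 ≤ x) (hsu : x ^ 2 ≤ (359/50000)) (hF : pL + pI + pJ + x ^ 2 = F)
    (hFu : F ≤ (1821/5000)) (hD0 : 0 < D) (hV0 : 0 < V) (hD1 : D ^ 2 ≤ 2 * pI + pJ) (hD2 : D ^ 2 ≤ pI + 2 * pJ)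
    (hD3 : D ^ 2 ≤ pL + pI + pJ) (hy : pI + pJ ≤ 8 * V ^ 2) (hc : c ≤ (313329/500000))
    (hwall : ∀ τ : ℝ, 0 ≤ τ → x ^ 2 < 9 * V ^ 2 → x ^ 2 ≤ τ ^ 2 * (9 * V ^ 2 - x ^ 2) →
      1 / 2 ≤ c * D + (arctan (x / V) + arctan τ) / (2 * π))
    (hc1 : (271/1000) ≤ pI + pJ) (hc2 : pI + pJ < (291/1000)) : False := by
  have hom : 1 / (2 * π) ≤ ((39789/250000) : ℝ) := om_bound.trans (by norm_num)
  have hV1 : (23/125) ≤ V := V_of_y hV0 hy hc1 (by norm_num) (by norm_num)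
  have hDu : D ≤ (1207/2000) := le_of_sq_le (by norm_num) (by
    have h9 := sq_nonneg x
    have h10 : ((1821/5000) : ℝ) ≤ (1207/2000) ^ 2 := by norm_num
    linarith only [hD3, hF, hFu, h9, h10])
  have hxu : x ^ 2 ≤ ((53/625) : ℝ) ^ 2 := hsu.trans (by norm_num)
  have hA : arctan (x / V) ≤ (4319/10000) := ang_one hx0 (by norm_num) hxu (by norm_num) hV1 (by norm_num)
  exact cell_contra (c := c) (cb := (313329/500000)) (om := (39789/250000)) (D := D) (Du := (1207/2000)) (V := V) (V1 := (23/125))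
    (w := x ^ 2) (su := (359/50000)) (τ := (777/5000)) (A3 := (771/5000)) (R := (4319/10000)) (AngV := arctan (x / V)) hc hom hDu hD0.le
    (by norm_num) (by norm_num) hV1 hsu (by norm_num) (by norm_num) (by norm_num)
    (by norm_num) hA (Real.arctan_nonneg.mpr (div_nonneg hx0 hV0.le)) (by norm_num) hwall

theorem wall4_1_5 {pL pI pJ x F D V c : ℝ} (hx0 : 0 ≤ x) (hsu : x ^ 2 ≤ (359/50000)) (hF : pL + pI + pJ + x ^ 2 = F)
    (hFu : F ≤ (1821/5000)) (hD0 : 0 < D) (hV0 : 0 < V) (hD1 : D ^ 2 ≤ 2 * pI + pJ) (hD2 : D ^ 2 ≤ pI + 2 * pJ)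
    (hD3 : D ^ 2 ≤ pL + pI + pJ) (hy : pI + pJ ≤ 8 * V ^ 2) (hc : c ≤ (313329/500000))
    (hwall : ∀ τ : ℝ, 0 ≤ τ → x ^ 2 < 9 * V ^ 2 → x ^ 2 ≤ τ ^ 2 * (9 * V ^ 2 - x ^ 2) →
      1 / 2 ≤ c * D + (arctan (x / V) + arctan τ) / (2 * π))
    (hc1 : (291/1000) ≤ pI + pJ) (hc2 : pI + pJ < (311/1000)) : False := by
  have hom : 1 / (2 * π) ≤ ((39789/250000) : ℝ) := om_bound.trans (by norm_num)
  have hV1 : (1907/10000) ≤ V := V_of_y hV0 hy hc1 (by norm_num) (by norm_num)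
  have hDu : D ≤ (1207/2000) := le_of_sq_le (by norm_num) (by
    have h9 := sq_nonneg x
    have h10 : ((1821/5000) : ℝ) ≤ (1207/2000) ^ 2 := by norm_num
    linarith only [hD3, hF, hFu, h9, h10])
  have hxu : x ^ 2 ≤ ((53/625) : ℝ) ^ 2 := hsu.trans (by norm_num)
  have hA : arctan (x / V) ≤ (837/2000) := ang_one hx0 (by norm_num) hxu (by norm_num) hV1 (by norm_num)
  exact cell_contra (c := c) (cb := (313329/500000)) (om := (39789/250000)) (D := D) (Du := (1207/2000)) (V := V) (V1 := (1907/10000))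
    (w := x ^ 2) (su := (359/50000)) (τ := (749/5000)) (A3 := (1487/10000)) (R := (837/2000)) (AngV := arctan (x / V)) hc hom hDu hD0.le
    (by norm_num) (by norm_num) hV1 hsu (by norm_num) (by norm_num) (by norm_num)
    (by norm_num) hA (Real.arctan_nonneg.mpr (div_nonneg hx0 hV0.le)) (by norm_num) hwall

theorem wall4_1_6 {pL pI pJ x F D V c : ℝ} (hx0 : 0 ≤ x) (hsu : x ^ 2 ≤ (359/50000)) (hF : pL + pI + pJ + x ^ 2 = F)
    (hFu : F ≤ (1821/5000)) (hD0 : 0 < D) (hV0 : 0 < V) (hD1 : D ^ 2 ≤ 2 * pI + pJ) (hD2 : D ^ 2 ≤ pI + 2 * pJ)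
    (hD3 : D ^ 2 ≤ pL + pI + pJ) (hy : pI + pJ ≤ 8 * V ^ 2) (hc : c ≤ (313329/500000))
    (hwall : ∀ τ : ℝ, 0 ≤ τ → x ^ 2 < 9 * V ^ 2 → x ^ 2 ≤ τ ^ 2 * (9 * V ^ 2 - x ^ 2) →
      1 / 2 ≤ c * D + (arctan (x / V) + arctan τ) / (2 * π))
    (hc1 : (311/1000) ≤ pI + pJ) (hc2 : pI + pJ < (331/1000)) : False := by
  have hom : 1 / (2 * π) ≤ ((39789/250000) : ℝ) := om_bound.trans (by norm_num)
  have hV1 : (1971/10000) ≤ V := V_of_y hV0 hy hc1 (by norm_num) (by norm_num)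
  have hDu : D ≤ (1207/2000) := le_of_sq_le (by norm_num) (by
    have h9 := sq_nonneg x
    have h10 : ((1821/5000) : ℝ) ≤ (1207/2000) ^ 2 := by norm_num
    linarith only [hD3, hF, hFu, h9, h10])
  have hxu : x ^ 2 ≤ ((53/625) : ℝ) ^ 2 := hsu.trans (by norm_num)
  have hA : arctan (x / V) ≤ (4063/10000) := ang_one hx0 (by norm_num) hxu (by norm_num) hV1 (by norm_num)
  exact cell_contra (c := c) (cb := (313329/500000)) (om := (39789/250000)) (D := D) (Du := (1207/2000)) (V := V) (V1 := (1971/10000))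
    (w := x ^ 2) (su := (359/50000)) (τ := (181/1250)) (A3 := (1439/10000)) (R := (4063/10000)) (AngV := arctan (x / V)) hc hom hDu hD0.le
    (by norm_num) (by norm_num) hV1 hsu (by norm_num) (by norm_num) (by norm_num)
    (by norm_num) hA (Real.arctan_nonneg.mpr (div_nonneg hx0 hV0.le)) (by norm_num) hwall

theorem caseW4_1 {pL pI pJ x F D V c : ℝ} (hx0 : 0 ≤ x) (hsu : x ^ 2 ≤ (359/50000)) (hF : pL + pI + pJ + x ^ 2 = F)
    (hFu : F ≤ (1821/5000)) (hD0 : 0 < D) (hV0 : 0 < V) (hD1 : D ^ 2 ≤ 2 * pI + pJ) (hD2 : D ^ 2 ≤ pI + 2 * pJ)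
    (hD3 : D ^ 2 ≤ pL + pI + pJ) (hy : pI + pJ ≤ 8 * V ^ 2) (hc : c ≤ (313329/500000))
    (hwall : ∀ τ : ℝ, 0 ≤ τ → x ^ 2 < 9 * V ^ 2 → x ^ 2 ≤ τ ^ 2 * (9 * V ^ 2 - x ^ 2) →
      1 / 2 ≤ c * D + (arctan (x / V) + arctan τ) / (2 * π))
    (hFL : (35809/100000) < F) (hmL : pL ≤ (159157/1000000)) (hmI : pI ≤ (159157/1000000)) (hmJ : pJ ≤ (159157/1000000)) : False := by
  have hyL : (191/1000) ≤ pI + pJ := by linarith only [hF, hFL, hmL, hsu]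
  have hyU : pI + pJ < (331/1000) := by linarith only [hmI, hmJ]
  rcases lt_or_ge (pI + pJ) (211/1000) with hc2 | hd0
  · exact wall4_1_0 hx0 hsu hF hFu hD0 hV0 hD1 hD2 hD3 hy hc hwall hyL hc2
  rcases lt_or_ge (pI + pJ) (231/1000) with hc2 | hd1
  · exact wall4_1_1 hx0 hsu hF hFu hD0 hV0 hD1 hD2 hD3 hy hc hwall hd0 hc2
  rcases lt_or_ge (pI + pJ) (251/1000) with hc2 | hd2
  · exact wall4_1_2 hx0 hsu hF hFu hD0 hV0 hD1 hD2 hD3 hy hc hwall hd1 hc2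
  rcases lt_or_ge (pI + pJ) (271/1000) with hc2 | hd3
  · exact wall4_1_3 hx0 hsu hF hFu hD0 hV0 hD1 hD2 hD3 hy hc hwall hd2 hc2
  rcases lt_or_ge (pI + pJ) (291/1000) with hc2 | hd4
  · exact wall4_1_4 hx0 hsu hF hFu hD0 hV0 hD1 hD2 hD3 hy hc hwall hd3 hc2
  rcases lt_or_ge (pI + pJ) (311/1000) with hc2 | hd5
  · exact wall4_1_5 hx0 hsu hF hFu hD0 hV0 hD1 hD2 hD3 hy hc hwall hd4 hc2
  exact wall4_1_6 hx0 hsu hF hFu hD0 hV0 hD1 hD2 hD3 hy hc hwall hd5 hyU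

theorem Fu4_2 {F p4 a4 O I E : ℝ} (hkey : F ≤ (19948/100000) / 3 * (O + 2 * I) + 4 / 9 * E) (hO : ∀ q : ℝ, 2 * q * O ≤ q ^ 2 + 3 * (3 * F - 4 * p4)) (hI : ∀ q : ℝ, 2 * q * I ≤ q ^ 2 + 3 * (4 * p4 + F))
    (hE : E + (7/20) * (F - p4) ≤ (37923/100000) - (27/50) * a4) (hlo : (13/200) ≤ a4) (hsu : p4 ≤ (107/10000)) : F ≤ (3627/10000) := by
  have h1 := hO (44/25)
  have h2 := hI (1097/1000)
  linarith only [hkey, h1, h2, hE, hlo, hsu]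

theorem wall4_2_0 {pL pI pJ x F D V c : ℝ} (hx0 : 0 ≤ x) (hsu : x ^ 2 ≤ (107/10000)) (hF : pL + pI + pJ + x ^ 2 = F)
    (hFu : F ≤ (3627/10000)) (hD0 : 0 < D) (hV0 : 0 < V) (hD1 : D ^ 2 ≤ 2 * pI + pJ) (hD2 : D ^ 2 ≤ pI + 2 * pJ)
    (hD3 : D ^ 2 ≤ pL + pI + pJ) (hy : pI + pJ ≤ 8 * V ^ 2) (hc : c ≤ (313329/500000))
    (hwall : ∀ τ : ℝ, 0 ≤ τ → x ^ 2 < 9 * V ^ 2 → x ^ 2 ≤ τ ^ 2 * (9 * V ^ 2 - x ^ 2) →
      1 / 2 ≤ c * D + (arctan (x / V) + arctan τ) / (2 * π))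
    (hc1 : (47/250) ≤ pI + pJ) (hc2 : pI + pJ < (26/125)) : False := by
  have hom : 1 / (2 * π) ≤ ((39789/250000) : ℝ) := om_bound.trans (by norm_num)
  have hV1 : (383/2500) ≤ V := V_of_y hV0 hy hc1 (by norm_num) (by norm_num)
  have hDu : D ≤ (2793/5000) := D_of_sq hD1 hD2 hc2 (by norm_num) (by norm_num)
  have hxu : x ^ 2 ≤ ((207/2000) : ℝ) ^ 2 := hsu.trans (by norm_num)
  have hA : arctan (x / V) ≤ (2971/5000) := ang_one hx0 (by norm_num) hxu (by norm_num) hV1 (by norm_num)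
  exact cell_contra (c := c) (cb := (313329/500000)) (om := (39789/250000)) (D := D) (Du := (2793/5000)) (V := V) (V1 := (383/2500))
    (w := x ^ 2) (su := (107/10000)) (τ := (231/1000)) (A3 := (2271/10000)) (R := (2971/5000)) (AngV := arctan (x / V)) hc hom hDu hD0.le
    (by norm_num) (by norm_num) hV1 hsu (by norm_num) (by norm_num) (by norm_num)
    (by norm_num) hA (Real.arctan_nonneg.mpr (div_nonneg hx0 hV0.le)) (by norm_num) hwall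

theorem wall4_2_1 {pL pI pJ x F D V c : ℝ} (hx0 : 0 ≤ x) (hsu : x ^ 2 ≤ (107/10000)) (hF : pL + pI + pJ + x ^ 2 = F)
    (hFu : F ≤ (3627/10000)) (hD0 : 0 < D) (hV0 : 0 < V) (hD1 : D ^ 2 ≤ 2 * pI + pJ) (hD2 : D ^ 2 ≤ pI + 2 * pJ)
    (hD3 : D ^ 2 ≤ pL + pI + pJ) (hy : pI + pJ ≤ 8 * V ^ 2) (hc : c ≤ (313329/500000))
    (hwall : ∀ τ : ℝ, 0 ≤ τ → x ^ 2 < 9 * V ^ 2 → x ^ 2 ≤ τ ^ 2 * (9 * V ^ 2 - x ^ 2) →
      1 / 2 ≤ c * D + (arctan (x / V) + arctan τ) / (2 * π))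
    (hc1 : (26/125) ≤ pI + pJ) (hc2 : pI + pJ < (57/250)) : False := by
  have hom : 1 / (2 * π) ≤ ((39789/250000) : ℝ) := om_bound.trans (by norm_num)
  have hV1 : (403/2500) ≤ V := V_of_y hV0 hy hc1 (by norm_num) (by norm_num)
  have hDu : D ≤ (5849/10000) := D_of_sq hD1 hD2 hc2 (by norm_num) (by norm_num)
  have hxu : x ^ 2 ≤ ((207/2000) : ℝ) ^ 2 := hsu.trans (by norm_num)
  have hA : arctan (x / V) ≤ (1427/2500) := ang_one hx0 (by norm_num) hxu (by norm_num) hV1 (by norm_num)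
  exact cell_contra (c := c) (cb := (313329/500000)) (om := (39789/250000)) (D := D) (Du := (5849/10000)) (V := V) (V1 := (403/2500))
    (w := x ^ 2) (su := (107/10000)) (τ := (219/1000)) (A3 := (539/2500)) (R := (1427/2500)) (AngV := arctan (x / V)) hc hom hDu hD0.le
    (by norm_num) (by norm_num) hV1 hsu (by norm_num) (by norm_num) (by norm_num)
    (by norm_num) hA (Real.arctan_nonneg.mpr (div_nonneg hx0 hV0.le)) (by norm_num) hwall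

theorem wall4_2_2 {pL pI pJ x F D V c : ℝ} (hx0 : 0 ≤ x) (hsu : x ^ 2 ≤ (107/10000)) (hF : pL + pI + pJ + x ^ 2 = F)
    (hFu : F ≤ (3627/10000)) (hD0 : 0 < D) (hV0 : 0 < V) (hD1 : D ^ 2 ≤ 2 * pI + pJ) (hD2 : D ^ 2 ≤ pI + 2 * pJ)
    (hD3 : D ^ 2 ≤ pL + pI + pJ) (hy : pI + pJ ≤ 8 * V ^ 2) (hc : c ≤ (313329/500000))
    (hwall : ∀ τ : ℝ, 0 ≤ τ → x ^ 2 < 9 * V ^ 2 → x ^ 2 ≤ τ ^ 2 * (9 * V ^ 2 - x ^ 2) →
      1 / 2 ≤ c * D + (arctan (x / V) + arctan τ) / (2 * π))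
    (hc1 : (57/250) ≤ pI + pJ) (hc2 : pI + pJ < (31/125)) : False := by
  have hom : 1 / (2 * π) ≤ ((39789/250000) : ℝ) := om_bound.trans (by norm_num)
  have hV1 : (211/1250) ≤ V := V_of_y hV0 hy hc1 (by norm_num) (by norm_num)
  have hDu : D ≤ (6023/10000) := le_of_sq_le (by norm_num) (by
    have h9 := sq_nonneg x
    have h10 : ((3627/10000) : ℝ) ≤ (6023/10000) ^ 2 := by norm_num
    linarith only [hD3, hF, hFu, h9, h10])
  have hxu : x ^ 2 ≤ ((207/2000) : ℝ) ^ 2 := hsu.trans (by norm_num)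
  have hA : arctan (x / V) ≤ (5501/10000) := ang_one hx0 (by norm_num) hxu (by norm_num) hV1 (by norm_num)
  exact cell_contra (c := c) (cb := (313329/500000)) (om := (39789/250000)) (D := D) (Du := (6023/10000)) (V := V) (V1 := (211/1250))
    (w := x ^ 2) (su := (107/10000)) (τ := (2087/10000)) (A3 := (1029/5000)) (R := (5501/10000)) (AngV := arctan (x / V)) hc hom hDu hD0.le
    (by norm_num) (by norm_num) hV1 hsu (by norm_num) (by norm_num) (by norm_num)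
    (by norm_num) hA (Real.arctan_nonneg.mpr (div_nonneg hx0 hV0.le)) (by norm_num) hwall

theorem wall4_2_3 {pL pI pJ x F D V c : ℝ} (hx0 : 0 ≤ x) (hsu : x ^ 2 ≤ (107/10000)) (hF : pL + pI + pJ + x ^ 2 = F)
    (hFu : F ≤ (3627/10000)) (hD0 : 0 < D) (hV0 : 0 < V) (hD1 : D ^ 2 ≤ 2 * pI + pJ) (hD2 : D ^ 2 ≤ pI + 2 * pJ)
    (hD3 : D ^ 2 ≤ pL + pI + pJ) (hy : pI + pJ ≤ 8 * V ^ 2) (hc : c ≤ (313329/500000))
    (hwall : ∀ τ : ℝ, 0 ≤ τ → x ^ 2 < 9 * V ^ 2 → x ^ 2 ≤ τ ^ 2 * (9 * V ^ 2 - x ^ 2) →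
      1 / 2 ≤ c * D + (arctan (x / V) + arctan τ) / (2 * π))
    (hc1 : (31/125) ≤ pI + pJ) (hc2 : pI + pJ < (67/250)) : False := by
  have hom : 1 / (2 * π) ≤ ((39789/250000) : ℝ) := om_bound.trans (by norm_num)
  have hV1 : (22/125) ≤ V := V_of_y hV0 hy hc1 (by norm_num) (by norm_num)
  have hDu : D ≤ (6023/10000) := le_of_sq_le (by norm_num) (by
    have h9 := sq_nonneg x
    have h10 : ((3627/10000) : ℝ) ≤ (6023/10000) ^ 2 := by norm_num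
    linarith only [hD3, hF, hFu, h9, h10])
  have hxu : x ^ 2 ≤ ((207/2000) : ℝ) ^ 2 := hsu.trans (by norm_num)
  have hA : arctan (x / V) ≤ (5317/10000) := ang_one hx0 (by norm_num) hxu (by norm_num) hV1 (by norm_num)
  exact cell_contra (c := c) (cb := (313329/500000)) (om := (39789/250000)) (D := D) (Du := (6023/10000)) (V := V) (V1 := (22/125))
    (w := x ^ 2) (su := (107/10000)) (τ := (999/5000)) (A3 := (1973/10000)) (R := (5317/10000)) (AngV := arctan (x / V)) hc hom hDu hD0.le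
    (by norm_num) (by norm_num) hV1 hsu (by norm_num) (by norm_num) (by norm_num)
    (by norm_num) hA (Real.arctan_nonneg.mpr (div_nonneg hx0 hV0.le)) (by norm_num) hwall

theorem wall4_2_4 {pL pI pJ x F D V c : ℝ} (hx0 : 0 ≤ x) (hsu : x ^ 2 ≤ (107/10000)) (hF : pL + pI + pJ + x ^ 2 = F)
    (hFu : F ≤ (3627/10000)) (hD0 : 0 < D) (hV0 : 0 < V) (hD1 : D ^ 2 ≤ 2 * pI + pJ) (hD2 : D ^ 2 ≤ pI + 2 * pJ)
    (hD3 : D ^ 2 ≤ pL + pI + pJ) (hy : pI + pJ ≤ 8 * V ^ 2) (hc : c ≤ (313329/500000))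
    (hwall : ∀ τ : ℝ, 0 ≤ τ → x ^ 2 < 9 * V ^ 2 → x ^ 2 ≤ τ ^ 2 * (9 * V ^ 2 - x ^ 2) →
      1 / 2 ≤ c * D + (arctan (x / V) + arctan τ) / (2 * π))
    (hc1 : (67/250) ≤ pI + pJ) (hc2 : pI + pJ < (36/125)) : False := by
  have hom : 1 / (2 * π) ≤ ((39789/250000) : ℝ) := om_bound.trans (by norm_num)
  have hV1 : (183/1000) ≤ V := V_of_y hV0 hy hc1 (by norm_num) (by norm_num)
  have hDu : D ≤ (6023/10000) := le_of_sq_le (by norm_num) (by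
    have h9 := sq_nonneg x
    have h10 : ((3627/10000) : ℝ) ≤ (6023/10000) ^ 2 := by norm_num
    linarith only [hD3, hF, hFu, h9, h10])
  have hxu : x ^ 2 ≤ ((207/2000) : ℝ) ^ 2 := hsu.trans (by norm_num)
  have hA : arctan (x / V) ≤ (1287/2500) := ang_one hx0 (by norm_num) hxu (by norm_num) hV1 (by norm_num)
  exact cell_contra (c := c) (cb := (313329/500000)) (om := (39789/250000)) (D := D) (Du := (6023/10000)) (V := V) (V1 := (183/1000))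
    (w := x ^ 2) (su := (107/10000)) (τ := (1919/10000)) (A3 := (237/1250)) (R := (1287/2500)) (AngV := arctan (x / V)) hc hom hDu hD0.le
    (by norm_num) (by norm_num) hV1 hsu (by norm_num) (by norm_num) (by norm_num)
    (by norm_num) hA (Real.arctan_nonneg.mpr (div_nonneg hx0 hV0.le)) (by norm_num) hwall

theorem wall4_2_5 {pL pI pJ x F D V c : ℝ} (hx0 : 0 ≤ x) (hsu : x ^ 2 ≤ (107/10000)) (hF : pL + pI + pJ + x ^ 2 = F)
    (hFu : F ≤ (3627/10000)) (hD0 : 0 < D) (hV0 : 0 < V) (hD1 : D ^ 2 ≤ 2 * pI + pJ) (hD2 : D ^ 2 ≤ pI + 2 * pJ)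
    (hD3 : D ^ 2 ≤ pL + pI + pJ) (hy : pI + pJ ≤ 8 * V ^ 2) (hc : c ≤ (313329/500000))
    (hwall : ∀ τ : ℝ, 0 ≤ τ → x ^ 2 < 9 * V ^ 2 → x ^ 2 ≤ τ ^ 2 * (9 * V ^ 2 - x ^ 2) →
      1 / 2 ≤ c * D + (arctan (x / V) + arctan τ) / (2 * π))
    (hc1 : (36/125) ≤ pI + pJ) (hc2 : pI + pJ < (77/250)) : False := by
  have hom : 1 / (2 * π) ≤ ((39789/250000) : ℝ) := om_bound.trans (by norm_num)
  have hV1 : (1897/10000) ≤ V := V_of_y hV0 hy hc1 (by norm_num) (by norm_num)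
  have hDu : D ≤ (6023/10000) := le_of_sq_le (by norm_num) (by
    have h9 := sq_nonneg x
    have h10 : ((3627/10000) : ℝ) ≤ (6023/10000) ^ 2 := by norm_num
    linarith only [hD3, hF, hFu, h9, h10])
  have hxu : x ^ 2 ≤ ((207/2000) : ℝ) ^ 2 := hsu.trans (by norm_num)
  have hA : arctan (x / V) ≤ (999/2000) := ang_one hx0 (by norm_num) hxu (by norm_num) hV1 (by norm_num)
  exact cell_contra (c := c) (cb := (313329/500000)) (om := (39789/250000)) (D := D) (Du := (6023/10000)) (V := V) (V1 := (1897/10000))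
    (w := x ^ 2) (su := (107/10000)) (τ := (1849/10000)) (A3 := (1829/10000)) (R := (999/2000)) (AngV := arctan (x / V)) hc hom hDu hD0.le
    (by norm_num) (by norm_num) hV1 hsu (by norm_num) (by norm_num) (by norm_num)
    (by norm_num) hA (Real.arctan_nonneg.mpr (div_nonneg hx0 hV0.le)) (by norm_num) hwall

theorem wall4_2_6 {pL pI pJ x F D V c : ℝ} (hx0 : 0 ≤ x) (hsu : x ^ 2 ≤ (107/10000)) (hF : pL + pI + pJ + x ^ 2 = F)
    (hFu : F ≤ (3627/10000)) (hD0 : 0 < D) (hV0 : 0 < V) (hD1 : D ^ 2 ≤ 2 * pI + pJ) (hD2 : D ^ 2 ≤ pI + 2 * pJ)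
    (hD3 : D ^ 2 ≤ pL + pI + pJ) (hy : pI + pJ ≤ 8 * V ^ 2) (hc : c ≤ (313329/500000))
    (hwall : ∀ τ : ℝ, 0 ≤ τ → x ^ 2 < 9 * V ^ 2 → x ^ 2 ≤ τ ^ 2 * (9 * V ^ 2 - x ^ 2) →
      1 / 2 ≤ c * D + (arctan (x / V) + arctan τ) / (2 * π))
    (hc1 : (77/250) ≤ pI + pJ) (hc2 : pI + pJ < (41/125)) : False := by
  have hom : 1 / (2 * π) ≤ ((39789/250000) : ℝ) := om_bound.trans (by norm_num)
  have hV1 : (981/5000) ≤ V := V_of_y hV0 hy hc1 (by norm_num) (by norm_num)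
  have hDu : D ≤ (6023/10000) := le_of_sq_le (by norm_num) (by
    have h9 := sq_nonneg x
    have h10 : ((3627/10000) : ℝ) ≤ (6023/10000) ^ 2 := by norm_num
    linarith only [hD3, hF, hFu, h9, h10])
  have hxu : x ^ 2 ≤ ((207/2000) : ℝ) ^ 2 := hsu.trans (by norm_num)
  have hA : arctan (x / V) ≤ (971/2000) := ang_one hx0 (by norm_num) hxu (by norm_num) hV1 (by norm_num)
  exact cell_contra (c := c) (cb := (313329/500000)) (om := (39789/250000)) (D := D) (Du := (6023/10000)) (V := V) (V1 := (981/5000))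
    (w := x ^ 2) (su := (107/10000)) (τ := (893/5000)) (A3 := (221/1250)) (R := (971/2000)) (AngV := arctan (x / V)) hc hom hDu hD0.le
    (by norm_num) (by norm_num) hV1 hsu (by norm_num) (by norm_num) (by norm_num)
    (by norm_num) hA (Real.arctan_nonneg.mpr (div_nonneg hx0 hV0.le)) (by norm_num) hwall

theorem caseW4_2 {pL pI pJ x F D V c : ℝ} (hx0 : 0 ≤ x) (hsu : x ^ 2 ≤ (107/10000)) (hF : pL + pI + pJ + x ^ 2 = F)
    (hFu : F ≤ (3627/10000)) (hD0 : 0 < D) (hV0 : 0 < V) (hD1 : D ^ 2 ≤ 2 * pI + pJ) (hD2 : D ^ 2 ≤ pI + 2 * pJ)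
    (hD3 : D ^ 2 ≤ pL + pI + pJ) (hy : pI + pJ ≤ 8 * V ^ 2) (hc : c ≤ (313329/500000))
    (hwall : ∀ τ : ℝ, 0 ≤ τ → x ^ 2 < 9 * V ^ 2 → x ^ 2 ≤ τ ^ 2 * (9 * V ^ 2 - x ^ 2) →
      1 / 2 ≤ c * D + (arctan (x / V) + arctan τ) / (2 * π))
    (hFL : (35809/100000) < F) (hmL : pL ≤ (159157/1000000)) (hmI : pI ≤ (159157/1000000)) (hmJ : pJ ≤ (159157/1000000)) : False := by
  have hyL : (47/250) ≤ pI + pJ := by linarith only [hF, hFL, hmL, hsu]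
  have hyU : pI + pJ < (41/125) := by linarith only [hmI, hmJ]
  rcases lt_or_ge (pI + pJ) (26/125) with hc2 | hd0
  · exact wall4_2_0 hx0 hsu hF hFu hD0 hV0 hD1 hD2 hD3 hy hc hwall hyL hc2
  rcases lt_or_ge (pI + pJ) (57/250) with hc2 | hd1
  · exact wall4_2_1 hx0 hsu hF hFu hD0 hV0 hD1 hD2 hD3 hy hc hwall hd0 hc2
  rcases lt_or_ge (pI + pJ) (31/125) with hc2 | hd2
  · exact wall4_2_2 hx0 hsu hF hFu hD0 hV0 hD1 hD2 hD3 hy hc hwall hd1 hc2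
  rcases lt_or_ge (pI + pJ) (67/250) with hc2 | hd3
  · exact wall4_2_3 hx0 hsu hF hFu hD0 hV0 hD1 hD2 hD3 hy hc hwall hd2 hc2
  rcases lt_or_ge (pI + pJ) (36/125) with hc2 | hd4
  · exact wall4_2_4 hx0 hsu hF hFu hD0 hV0 hD1 hD2 hD3 hy hc hwall hd3 hc2
  rcases lt_or_ge (pI + pJ) (77/250) with hc2 | hd5
  · exact wall4_2_5 hx0 hsu hF hFu hD0 hV0 hD1 hD2 hD3 hy hc hwall hd4 hc2
  exact wall4_2_6 hx0 hsu hF hFu hD0 hV0 hD1 hD2 hD3 hy hc hwall hd5 hyU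

theorem chain4 {E : Type*} [NormedAddCommGroup E]
    [InnerProductSpace ℝ E] [FiniteDimensional ℝ E] [MeasurableSpace E] [BorelSpace E]
    {t : Fin 4 → E} {A : Fin 4 → Set E} (h : IsOptimal t A) (hneg : ∀ i j, i ≠ j → ⟪t i, t j⟫ < 0)
    (hd : ∀ i j, i ≠ j → t i ≠ t j)
    (a e : Fin 4 → ℝ) (hsum : ∑ m, a m = 1)
    (hcell : ∀ m, Cell4 (a m) (‖t m‖ ^ 2) (e m))
    (hgap : ∀ l x y z : Fin 4, x ≠ l → y ≠ l → z ≠ l → (∀ m, m = l ∨ m = x ∨ m = y ∨ m = z) →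
      ∑ i, ‖t i‖ ^ 2 ≤ (‖t x - t y‖ + ‖t y - t z‖ + ‖t z - t x‖) / (2 * √(2 * π)) + 4 / 3 * e l)
    (hF : (35809/100000) < ∑ m, ‖t m‖ ^ 2) : False := by
  obtain ⟨i₁, i₂, i₃, h12, h13, h23, ha12, ha23, hord2, hord3⟩ := top_three a (by simp)
  obtain ⟨i₄, h41, h42, h43, hall⟩ := fin4_last h12 h13 h23
  have hz3 : (9/50) ≤ a i₃ := third_ge (p := fun m => ‖t m‖ ^ 2) (z := (9/50)) (s := (135667/500000)) (b := (10587/250000))
    (FL := (35809/100000)) h12 hsum hord3 (fun m hm => line4_L3h (hcell m) hm) (line4_L3o (hcell i₁))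
    (line4_L3o (hcell i₂)) hF (by norm_num)
  have hz2 : (9/50) ≤ a i₂ := hz3.trans ha23
  have hz1 : (9/50) ≤ a i₁ := hz2.trans ha12
  have ha43 : a i₄ ≤ a i₃ := hord3 i₄ h41 h42
  have hsa := sum_four a h12 h13 h23 h41 h42 h43 hall
  have hsp := sum_four (fun m => ‖t m‖ ^ 2) h12 h13 h23 h41 h42 h43 hall
  have hst := sum_four t h12 h13 h23 h41 h42 h43 hall
  rw [hsum] at hsa
  rw [h.sum_eq_zero] at hst
  obtain ⟨F, hFdef⟩ : ∃ F, F = ∑ m, ‖t m‖ ^ 2 := ⟨_, rfl⟩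
  rw [← hFdef] at hF hsp
  have hFL := hF
  have hposa : 0 < a i₄ := cell4_pos (hcell i₄)
  have ha1 : a i₁ < (1/2) := by
    by_contra hcon
    push Not at hcon
    have l1 := line4_pm (hcell i₁)
    have l2 := line4_mid (hcell i₂) hz2
    have l3 := line4_mid (hcell i₃) hz3
    have l4 := line4_hom (hcell i₄)
    linarith only [l1, l2, l3, l4, hcon, hsa, hsp, hF, hposa]
  have g1 := hgap i₁ i₂ i₃ i₄ h12.symm h13.symm h41 (fun m => by rcases hall m with e | e | e | e <;> simp [e])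
  have g2 := hgap i₂ i₁ i₃ i₄ h12 h23.symm h42 (fun m => by rcases hall m with e | e | e | e <;> simp [e])
  have g3 := hgap i₃ i₁ i₂ i₄ h13 h23 h43 (fun m => by rcases hall m with e | e | e | e <;> simp [e])
  rw [← hFdef, norm_sub_rev (t i₃) (t i₄)] at g1 g2
  rw [← hFdef, norm_sub_rev (t i₂) (t i₄)] at g3
  have hkey := key_combine (la := ‖t i₁ - t i₂‖) (lb := ‖t i₁ - t i₃‖) (lc := ‖t i₂ - t i₃‖)
    (m1 := ‖t i₄ - t i₁‖) (m2 := ‖t i₄ - t i₂‖) (m3 := ‖t i₄ - t i₃‖) sqrt_two_pi_bounds.1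
    (norm_nonneg _) (norm_nonneg _) (norm_nonneg _) (norm_nonneg _) (norm_nonneg _) (norm_nonneg _)
    g1 g2 g3
  have hin := four_inner hst.symm
  have hou := four_outer hst.symm
  rw [← hsp] at hin hou
  have hO : ∀ q : ℝ, 2 * q * (‖t i₁ - t i₂‖ + ‖t i₁ - t i₃‖ + ‖t i₂ - t i₃‖)
      ≤ q ^ 2 + 3 * (3 * F - 4 * ‖t i₄‖ ^ 2) := fun q => sum_three_tangent hou
  have hI : ∀ q : ℝ, 2 * q * (‖t i₄ - t i₁‖ + ‖t i₄ - t i₂‖ + ‖t i₄ - t i₃‖)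
      ≤ q ^ 2 + 3 * (4 * ‖t i₄‖ ^ 2 + F) := fun q => sum_three_tangent hin
  rcases lt_or_ge (a i₄) (2/25) with hwall0 | hb
  · have E1 := eG4 (hcell i₁) hz1 ha1
    have E2 := eG4 (hcell i₂) hz2 (by linarith only [ha12, ha1])
    have E3 := eG4 (hcell i₃) hz3 (by linarith only [ha12, ha23, ha1])
    have hEG : (e i₁ + e i₂ + e i₃) + (7/20) * (F - ‖t i₄‖ ^ 2) ≤ (37923/100000) - (27/50) * a i₄ := by
      rw [hsp]
      linarith only [E1, E2, E3, hsa]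
    have hlow1 : (27833/500000) ≤ ‖t i₁‖ ^ 2 := by
      have l2 := line4_low (hcell i₂)
      have l3 := line4_low (hcell i₃)
      have l4 := line4_lowh (hcell i₄) hwall0.le
      linarith only [l2, l3, l4, hz1, hsa, hsp, hF]
    have hlow2 : (27833/500000) ≤ ‖t i₂‖ ^ 2 := by
      have l2 := line4_low (hcell i₁)
      have l3 := line4_low (hcell i₃)
      have l4 := line4_lowh (hcell i₄) hwall0.le
      linarith only [l2, l3, l4, hz2, hsa, hsp, hF]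
    have hlow3 : (27833/500000) ≤ ‖t i₃‖ ^ 2 := by
      have l2 := line4_low (hcell i₁)
      have l3 := line4_low (hcell i₂)
      have l4 := line4_lowh (hcell i₄) hwall0.le
      linarith only [l2, l3, l4, hz3, hsa, hsp, hF]
    obtain ⟨pL, pI, pJ, V, D, hs, hmL, hmI, hmJ, hVp, hDp, hD1, hD2, hD3, hy, hwall⟩ :=
      h.wall_select hneg hd (by simp) h12 h13 h23 h41 h42 h43 hall (low := (27833/500000)) (PM := (159157/1000000))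
        (by norm_num) hlow1 hlow2 hlow3 (line4_pm (hcell i₁)) (line4_pm (hcell i₂)) (line4_pm (hcell i₃))
    have hsF : pL + pI + pJ + ‖t i₄‖ ^ 2 = F := by linarith only [hs, hsp]
    have hcb : √(2 * π) / 4 ≤ ((313329/500000) : ℝ) := by
      have := sqrt_two_pi_bounds.2
      linarith only [this]
    rcases lt_or_ge (a i₄) (1/20) with hw0 | hx0
    · have hsu := line4_su0 (hcell i₄) hw0.le
      have hFu := Fu4_0 hkey hO hI hEG (by linarith only [hposa]) hsu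
      exact caseW4_0 (x := ‖t i₄‖) (norm_nonneg _) hsu hsF hFu hDp hVp hD1 hD2 hD3 hy hcb hwall hFL hmL hmI hmJ
    rcases lt_or_ge (a i₄) (13/200) with hw1 | hx1
    · have hsu := line4_su1 (hcell i₄) hw1.le
      have hFu := Fu4_1 hkey hO hI hEG hx0 hsu
      exact caseW4_1 (x := ‖t i₄‖) (norm_nonneg _) hsu hsF hFu hDp hVp hD1 hD2 hD3 hy hcb hwall hFL hmL hmI hmJ
    have hw2 : a i₄ < (2/25) := hwall0
    have hsu := line4_su2 (hcell i₄) hw2.le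
    have hFu := Fu4_2 hkey hO hI hEG hx1 hsu
    exact caseW4_2 (x := ‖t i₄‖) (norm_nonneg _) hsu hsF hFu hDp hVp hD1 hD2 hD3 hy hcb hwall hFL hmL hmI hmJ
  ·
    rcases lt_or_ge (a i₃) (1/5) with hc0 | hy0
    · exact f4I_0 (hcell i₁) (hcell i₂) (hcell i₃) (hcell i₄) hFL (by linarith only [hsp]) (by linarith only [hsa]) hkey hO hI ha1 ha12 ha23 ha43 hz3 hc0.le hb
    rcases lt_or_ge (a i₃) (11/50) with hc1 | hy1
    · exact f4I_1 (hcell i₁) (hcell i₂) (hcell i₃) (hcell i₄) hFL (by linarith only [hsp]) (by linarith only [hsa]) hkey hO hI ha1 ha12 ha23 ha43 hy0 hc1.le hb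
    rcases lt_or_ge (a i₃) (6/25) with hc2 | hy2
    · exact f4I_2 (hcell i₁) (hcell i₂) (hcell i₃) (hcell i₄) hFL (by linarith only [hsp]) (by linarith only [hsa]) hkey hO hI ha1 ha12 ha23 ha43 hy1 hc2.le hb
    rcases lt_or_ge (a i₃) (13/50) with hc3 | hy3
    · exact f4I_3 (hcell i₁) (hcell i₂) (hcell i₃) (hcell i₄) hFL (by linarith only [hsp]) (by linarith only [hsa]) hkey hO hI ha1 ha12 ha23 ha43 hy2 hc3.le hb
    rcases lt_or_ge (a i₃) (7/25) with hc4 | hy4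
    · exact f4I_4 (hcell i₁) (hcell i₂) (hcell i₃) (hcell i₄) hFL (by linarith only [hsp]) (by linarith only [hsa]) hkey hO hI ha1 ha12 ha23 ha43 hy3 hc4.le hb
    rcases lt_or_ge (a i₃) (3/10) with hc5 | hy5
    · exact f4I_5 (hcell i₁) (hcell i₂) (hcell i₃) (hcell i₄) hFL (by linarith only [hsp]) (by linarith only [hsa]) hkey hO hI ha1 ha12 ha23 ha43 hy4 hc5.le hb
    have hc6 : a i₃ ≤ (1/3) := by linarith only [hsa, ha12, ha23, hposa]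
    exact f4I_6 (hcell i₁) (hcell i₂) (hcell i₃) (hcell i₄) hFL (by linarith only [hsp]) (by linarith only [hsa]) hkey hO hI ha1 ha12 ha23 ha43 hy5 hc6 hb

/-- The propeller bound for four cells. -/
theorem four_cells {E : Type*} [NormedAddCommGroup E]
    [InnerProductSpace ℝ E] [FiniteDimensional ℝ E] [MeasurableSpace E] [BorelSpace E]
    (A : Fin 4 → Set E) (hA : IsMeasPartition A) : momentEnergy A ≤ 9 / (8 * π) := by
  by_contra hcon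
  push Not at hcon
  obtain ⟨t, C, hC1, hC2, hC3, hC4⟩ := exists_optimal (ι := Fin 4) (E := E)
  have h : IsOptimal t C := ⟨hC1, hC2, hC3, hC4⟩
  have hF : 9 / (8 * π) < ∑ m, ‖t m‖ ^ 2 := hcon.trans_le (hC4 A hA)
  obtain ⟨hFL, hFU⟩ := F0_bounds
  have hF₀ : ∀ l : Fin 4, ∀ B : {m // m ≠ l} → Set E, IsMeasPartition B →
      momentEnergy B ≤ 9 / (8 * π) := by
    intro l B hB
    refine energy_le_of_card bound_three ?_ B hB
    rw [Fintype.card_subtype_compl, Fintype.card_fin]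
    simp
  have hneg : ∀ i j, i ≠ j → ⟪t i, t j⟫ < 0 := fun i j hij => h.inner_neg hij (hF₀ j) hF
  have hd : ∀ i j, i ≠ j → t i ≠ t j := by
    intro i j hij e
    have h1 := hneg i j hij
    rw [e, real_inner_self_eq_norm_sq] at h1
    nlinarith [sq_nonneg ‖t j‖]
  have hF₀pos : (0 : ℝ) < 9 / (8 * π) := by positivity
  have hF₀num : (35 / 100 : ℝ) ≤ 9 / (8 * π) := by linarith
  have hc4 : Fintype.card (Fin 4) = 4 := Fintype.card_fin 4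
  choose α hα1 hα2 hα3 using (fun m : Fin 4 => h.cell_facts4 hneg hd hF₀pos hF₀num hF₀ hF hc4 m)
  refine chain4 h hneg hd (fun m => (stdGaussian E).real (C m)) (fun m => eF (α m))
    h.part.sum_real (fun m => ?_) (fun l x y z hx hy hz hall => ?_) (hFL.trans hF)
  · have h8 := cell4_of hF₀pos hFU (hα2 m) (hα3 m)
    rwa [hα1 m] at h8
  · exact h.gap_triple hneg hd hc4 hx hy hz hall (hα1 l)

/-- The propeller conjecture. -/
theorem propeller_bound {E : Type*} [NormedAddCommGroup E]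
    [InnerProductSpace ℝ E] [FiniteDimensional ℝ E] [MeasurableSpace E] [BorelSpace E]
    (k : ℕ) (A : Fin k → Set E) (hA : IsMeasPartition A) : momentEnergy A ≤ 9 / (8 * π) :=
  bound_all four_cells k A hA

end Vale.Agent.Lib.P226
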