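import Vale.Agent.Lib.P226.Table5
import Vale.Agent.Lib.P226.ChainLib

/-!
The concluding numerical chain for table 5.
-/

open MeasureTheory ProbabilityTheory Real Set
open scoped RealInnerProductSpace ENNReal NNReal Pointwise

namespace Vale.Agent.Lib.P226


theorem final5_C0_j3_c0 {pL pI pJ tL tI tJ X sg w F D V AngV c : ℝ}
    (hFL : (35809/100000) < F) (hF : pL + pI + pJ + sg = F) (hτ : tL + tI + tJ + X = (3/5) - F)
    (htl : (1/16) ≤ tL) (hti : (1/16) ≤ tI) (htj : (11801/200000) ≤ tJ)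
    (hkl : pL ≤ (63271/500000) + (13/10) * (tL - (1/16))) (hki : pI ≤ (63271/500000) + (13/10) * (tI - (1/16)))
    (hX : 0 ≤ X) (hsg0 : 0 ≤ sg) (hsg : sg ≤ (7969/10000) * X) (hw : w ≤ sg)
    (hD0 : 0 < D) (hV0 : 0 < V) (hD1 : D ^ 2 ≤ 2 * pI + pJ) (hD2 : D ^ 2 ≤ pI + 2 * pJ)
    (hD3 : D ^ 2 ≤ pL + pI + pJ) (hy : pI + pJ ≤ 8 * V ^ 2)
    (hp3 : pJ ≤ (29569/500000))
    (hAng : ∀ V1 : ℝ, 0 < V1 → V1 ≤ V → V1 ≤ (4/25) → AngV ≤ (4/25) / V1 * ((15989/1000) * X))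
    (hAng0 : 0 ≤ AngV) (hc : c ≤ (250663/500000))
    (hwall : ∀ τ : ℝ, 0 ≤ τ → w < 9 * V ^ 2 → w ≤ τ ^ 2 * (9 * V ^ 2 - w) →
      1 / 2 ≤ c * D + (AngV + arctan τ) / (2 * π))
    (hc1 : (312543/2000000) ≤ pI + pJ) (hc2 : pI + pJ < (332543/2000000)) : False := by
  have hom : 1 / (2 * π) ≤ ((39789/250000) : ℝ) := om_bound.trans (by norm_num)
  have hXu : X ≤ (497/25000) := by linarith only [hFL, hF, hτ, htl, hti, htj, hkl, hsg, hc2]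
  have hV1 : (1397/10000) ≤ V := V_of_y hV0 hy hc1 (by norm_num) (by norm_num)
  have hDu : D ≤ (999/2000) := D_of_sq hD1 hD2 hc2 (by norm_num) (by norm_num)
  have hA := hAng (1397/10000) (by norm_num) hV1 (by norm_num)
  have hA' : AngV ≤ (18313/1000) * X := by linarith only [hA, hX]
  exact cell_contra (c := c) (cb := (250663/500000)) (om := (39789/250000)) (D := D) (Du := (999/2000)) (V := V) (V1 := (1397/10000))
    (w := w) (su := (159/10000)) (τ := (79/250)) (A3 := (1913/6250)) (R := (18313/1000) * X) (AngV := AngV) hc hom hDu hD0.le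
    (by norm_num) (by norm_num) hV1 (by linarith only [hw, hsg, hXu]) (by norm_num) (by norm_num) (by norm_num)
    (by norm_num) hA' hAng0 (by linarith only [hXu]) hwall

theorem final5_C0_j3_c1 {pL pI pJ tL tI tJ X sg w F D V AngV c : ℝ}
    (hFL : (35809/100000) < F) (hF : pL + pI + pJ + sg = F) (hτ : tL + tI + tJ + X = (3/5) - F)
    (htl : (1/16) ≤ tL) (hti : (1/16) ≤ tI) (htj : (11801/200000) ≤ tJ)
    (hkl : pL ≤ (63271/500000) + (13/10) * (tL - (1/16))) (hki : pI ≤ (63271/500000) + (13/10) * (tI - (1/16)))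
    (hX : 0 ≤ X) (hsg0 : 0 ≤ sg) (hsg : sg ≤ (7969/10000) * X) (hw : w ≤ sg)
    (hD0 : 0 < D) (hV0 : 0 < V) (hD1 : D ^ 2 ≤ 2 * pI + pJ) (hD2 : D ^ 2 ≤ pI + 2 * pJ)
    (hD3 : D ^ 2 ≤ pL + pI + pJ) (hy : pI + pJ ≤ 8 * V ^ 2)
    (hp3 : pJ ≤ (29569/500000))
    (hAng : ∀ V1 : ℝ, 0 < V1 → V1 ≤ V → V1 ≤ (4/25) → AngV ≤ (4/25) / V1 * ((15989/1000) * X))
    (hAng0 : 0 ≤ AngV) (hc : c ≤ (250663/500000))
    (hwall : ∀ τ : ℝ, 0 ≤ τ → w < 9 * V ^ 2 → w ≤ τ ^ 2 * (9 * V ^ 2 - w) →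
      1 / 2 ≤ c * D + (AngV + arctan τ) / (2 * π))
    (hc1 : (332543/2000000) ≤ pI + pJ) (hc2 : pI + pJ < (352543/2000000)) : False := by
  have hom : 1 / (2 * π) ≤ ((39789/250000) : ℝ) := om_bound.trans (by norm_num)
  have hXu : X ≤ (497/12500) := by linarith only [hFL, hF, hτ, htl, hti, htj, hkl, hsg, hc2]
  have hV1 : (1441/10000) ≤ V := V_of_y hV0 hy hc1 (by norm_num) (by norm_num)
  have hDu : D ≤ (5143/10000) := D_of_sq hD1 hD2 hc2 (by norm_num) (by norm_num)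
  have hA := hAng (1441/10000) (by norm_num) hV1 (by norm_num)
  have hA' : AngV ≤ (8877/500) * X := by linarith only [hA, hX]
  exact cell_contra (c := c) (cb := (250663/500000)) (om := (39789/250000)) (D := D) (Du := (5143/10000)) (V := V) (V1 := (1441/10000))
    (w := w) (su := (317/10000)) (τ := (113/250)) (A3 := (10613/25000)) (R := (8877/500) * X) (AngV := AngV) hc hom hDu hD0.le
    (by norm_num) (by norm_num) hV1 (by linarith only [hw, hsg, hXu]) (by norm_num) (by norm_num) (by norm_num)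
    (by norm_num) hA' hAng0 (by linarith only [hXu]) hwall

theorem final5_C0_j3_c2 {pL pI pJ tL tI tJ X sg w F D V AngV c : ℝ}
    (hFL : (35809/100000) < F) (hF : pL + pI + pJ + sg = F) (hτ : tL + tI + tJ + X = (3/5) - F)
    (htl : (1/16) ≤ tL) (hti : (1/16) ≤ tI) (htj : (11801/200000) ≤ tJ)
    (hkl : pL ≤ (63271/500000) + (13/10) * (tL - (1/16))) (hki : pI ≤ (63271/500000) + (13/10) * (tI - (1/16)))
    (hX : 0 ≤ X) (hsg0 : 0 ≤ sg) (hsg : sg ≤ (7969/10000) * X) (hw : w ≤ sg)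
    (hD0 : 0 < D) (hV0 : 0 < V) (hD1 : D ^ 2 ≤ 2 * pI + pJ) (hD2 : D ^ 2 ≤ pI + 2 * pJ)
    (hD3 : D ^ 2 ≤ pL + pI + pJ) (hy : pI + pJ ≤ 8 * V ^ 2)
    (hp3 : pJ ≤ (29569/500000))
    (hAng : ∀ V1 : ℝ, 0 < V1 → V1 ≤ V → V1 ≤ (4/25) → AngV ≤ (4/25) / V1 * ((15989/1000) * X))
    (hAng0 : 0 ≤ AngV) (hc : c ≤ (250663/500000))
    (hwall : ∀ τ : ℝ, 0 ≤ τ → w < 9 * V ^ 2 → w ≤ τ ^ 2 * (9 * V ^ 2 - w) →
      1 / 2 ≤ c * D + (AngV + arctan τ) / (2 * π))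
    (hc1 : (352543/2000000) ≤ pI + pJ) (hc2 : pI + pJ < (372543/2000000)) : False := by
  have hom : 1 / (2 * π) ≤ ((39789/250000) : ℝ) := om_bound.trans (by norm_num)
  have hXu : X ≤ (5791/100000) := by linarith only [hFL, hF, hτ, htl, hti, htj, hkl, hsg, hc2]
  have hV1 : (371/2500) ≤ V := V_of_y hV0 hy hc1 (by norm_num) (by norm_num)
  have hQ : D ^ 2 ≤ ((63271/500000) + 2 * (29569/500000)) + (13/10) * (tI - (1/16)) := by linarith only [hD2, hki, hp3]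
  have hDu : D ≤ ((54427/110000) + (130/99) * (tI - (1/16))) := D_line hQ (D0 := (99/200)) (by norm_num) (by norm_num) (by norm_num)
  have hA := hAng (371/2500) (by norm_num) hV1 (by norm_num)
  have hA' : AngV ≤ (17239/1000) * X := by linarith only [hA, hX]
  exact cell_contra (c := c) (cb := (250663/500000)) (om := (39789/250000)) (D := D) (Du := ((54427/110000) + (130/99) * (tI - (1/16)))) (V := V) (V1 := (371/2500))
    (w := w) (su := (231/5000)) (τ := (69/125)) (A3 := (25219/50000)) (R := (17239/1000) * X) (AngV := AngV) hc hom hDu hD0.le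
    (by norm_num) (by norm_num) hV1 (by linarith only [hw, hsg, hXu]) (by norm_num) (by norm_num) (by norm_num)
    (by norm_num) hA' hAng0 (by linarith only [hXu, hτ, htl, htj, hFL, hX, hti]) hwall

theorem final5_C0_j3_c3 {pL pI pJ tL tI tJ X sg w F D V AngV c : ℝ}
    (hFL : (35809/100000) < F) (hF : pL + pI + pJ + sg = F) (hτ : tL + tI + tJ + X = (3/5) - F)
    (htl : (1/16) ≤ tL) (hti : (1/16) ≤ tI) (htj : (11801/200000) ≤ tJ)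
    (hkl : pL ≤ (63271/500000) + (13/10) * (tL - (1/16))) (hki : pI ≤ (63271/500000) + (13/10) * (tI - (1/16)))
    (hX : 0 ≤ X) (hsg0 : 0 ≤ sg) (hsg : sg ≤ (7969/10000) * X) (hw : w ≤ sg)
    (hD0 : 0 < D) (hV0 : 0 < V) (hD1 : D ^ 2 ≤ 2 * pI + pJ) (hD2 : D ^ 2 ≤ pI + 2 * pJ)
    (hD3 : D ^ 2 ≤ pL + pI + pJ) (hy : pI + pJ ≤ 8 * V ^ 2)
    (hp3 : pJ ≤ (29569/500000))
    (hAng : ∀ V1 : ℝ, 0 < V1 → V1 ≤ V → V1 ≤ (4/25) → AngV ≤ (4/25) / V1 * ((15989/1000) * X))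
    (hAng0 : 0 ≤ AngV) (hc : c ≤ (250663/500000))
    (hwall : ∀ τ : ℝ, 0 ≤ τ → w < 9 * V ^ 2 → w ≤ τ ^ 2 * (9 * V ^ 2 - w) →
      1 / 2 ≤ c * D + (AngV + arctan τ) / (2 * π))
    (hc1 : (372543/2000000) ≤ pI + pJ) (hc2 : pI + pJ < (392543/2000000)) : False := by
  have hom : 1 / (2 * π) ≤ ((39789/250000) : ℝ) := om_bound.trans (by norm_num)
  have hXu : X ≤ (5791/100000) := by linarith only [hFL, hF, hτ, htl, hti, htj, hkl, hsg, hc2]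
  have hV1 : (61/400) ≤ V := V_of_y hV0 hy hc1 (by norm_num) (by norm_num)
  have hQ : D ^ 2 ≤ ((63271/500000) + 2 * (29569/500000)) + (13/10) * (tI - (1/16)) := by linarith only [hD2, hki, hp3]
  have hDu : D ≤ ((54427/110000) + (130/99) * (tI - (1/16))) := D_line hQ (D0 := (99/200)) (by norm_num) (by norm_num) (by norm_num)
  have hA := hAng (61/400) (by norm_num) hV1 (by norm_num)
  have hA' : AngV ≤ (2097/125) * X := by linarith only [hA, hX]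
  exact cell_contra (c := c) (cb := (250663/500000)) (om := (39789/250000)) (D := D) (Du := ((54427/110000) + (130/99) * (tI - (1/16)))) (V := V) (V1 := (61/400))
    (w := w) (su := (231/5000)) (τ := (533/1000)) (A3 := (4897/10000)) (R := (2097/125) * X) (AngV := AngV) hc hom hDu hD0.le
    (by norm_num) (by norm_num) hV1 (by linarith only [hw, hsg, hXu]) (by norm_num) (by norm_num) (by norm_num)
    (by norm_num) hA' hAng0 (by linarith only [hXu, hτ, htl, htj, hFL, hX, hti]) hwall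

theorem final5_C0_j3_c4 {pL pI pJ tL tI tJ X sg w F D V AngV c : ℝ}
    (hFL : (35809/100000) < F) (hF : pL + pI + pJ + sg = F) (hτ : tL + tI + tJ + X = (3/5) - F)
    (htl : (1/16) ≤ tL) (hti : (1/16) ≤ tI) (htj : (11801/200000) ≤ tJ)
    (hkl : pL ≤ (63271/500000) + (13/10) * (tL - (1/16))) (hki : pI ≤ (63271/500000) + (13/10) * (tI - (1/16)))
    (hX : 0 ≤ X) (hsg0 : 0 ≤ sg) (hsg : sg ≤ (7969/10000) * X) (hw : w ≤ sg)
    (hD0 : 0 < D) (hV0 : 0 < V) (hD1 : D ^ 2 ≤ 2 * pI + pJ) (hD2 : D ^ 2 ≤ pI + 2 * pJ)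
    (hD3 : D ^ 2 ≤ pL + pI + pJ) (hy : pI + pJ ≤ 8 * V ^ 2)
    (hp3 : pJ ≤ (29569/500000))
    (hAng : ∀ V1 : ℝ, 0 < V1 → V1 ≤ V → V1 ≤ (4/25) → AngV ≤ (4/25) / V1 * ((15989/1000) * X))
    (hAng0 : 0 ≤ AngV) (hc : c ≤ (250663/500000))
    (hwall : ∀ τ : ℝ, 0 ≤ τ → w < 9 * V ^ 2 → w ≤ τ ^ 2 * (9 * V ^ 2 - w) →
      1 / 2 ≤ c * D + (AngV + arctan τ) / (2 * π))
    (hc1 : (392543/2000000) ≤ pI + pJ) (hc2 : pI + pJ < (128/625)) : False := by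
  have hom : 1 / (2 * π) ≤ ((39789/250000) : ℝ) := om_bound.trans (by norm_num)
  have hXu : X ≤ (5791/100000) := by linarith only [hFL, hF, hτ, htl, hti, htj, hkl, hsg, hc2]
  have hV1 : (783/5000) ≤ V := V_of_y hV0 hy hc1 (by norm_num) (by norm_num)
  have hQ : D ^ 2 ≤ ((63271/500000) + 2 * (29569/500000)) + (13/10) * (tI - (1/16)) := by linarith only [hD2, hki, hp3]
  have hDu : D ≤ ((54427/110000) + (130/99) * (tI - (1/16))) := D_line hQ (D0 := (99/200)) (by norm_num) (by norm_num) (by norm_num)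
  have hA := hAng (783/5000) (by norm_num) hV1 (by norm_num)
  have hA' : AngV ≤ (16337/1000) * X := by linarith only [hA, hX]
  exact cell_contra (c := c) (cb := (250663/500000)) (om := (39789/250000)) (D := D) (Du := ((54427/110000) + (130/99) * (tI - (1/16)))) (V := V) (V1 := (783/5000))
    (w := w) (su := (231/5000)) (τ := (103/200)) (A3 := (23779/50000)) (R := (16337/1000) * X) (AngV := AngV) hc hom hDu hD0.le
    (by norm_num) (by norm_num) hV1 (by linarith only [hw, hsg, hXu]) (by norm_num) (by norm_num) (by norm_num)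
    (by norm_num) hA' hAng0 (by linarith only [hXu, hτ, htl, htj, hFL, hX, hti]) hwall

theorem final5_C0_j3_t0 {pL pI pJ tL tI tJ X sg w F D V AngV c : ℝ}
    (hFL : (35809/100000) < F) (hF : pL + pI + pJ + sg = F) (hτ : tL + tI + tJ + X = (3/5) - F)
    (htl : (1/16) ≤ tL) (hti : (1/16) ≤ tI) (htj : (11801/200000) ≤ tJ)
    (hkl : pL ≤ (63271/500000) + (13/10) * (tL - (1/16))) (hki : pI ≤ (63271/500000) + (13/10) * (tI - (1/16)))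
    (hX : 0 ≤ X) (hsg0 : 0 ≤ sg) (hsg : sg ≤ (7969/10000) * X) (hw : w ≤ sg)
    (hD0 : 0 < D) (hV0 : 0 < V) (hD1 : D ^ 2 ≤ 2 * pI + pJ) (hD2 : D ^ 2 ≤ pI + 2 * pJ)
    (hD3 : D ^ 2 ≤ pL + pI + pJ) (hy : pI + pJ ≤ 8 * V ^ 2)
    (hp3 : pJ ≤ (29569/500000))
    (hAng : ∀ V1 : ℝ, 0 < V1 → V1 ≤ V → V1 ≤ (4/25) → AngV ≤ (4/25) / V1 * ((15989/1000) * X))
    (hAng0 : 0 ≤ AngV) (hc : c ≤ (250663/500000))
    (hwall : ∀ τ : ℝ, 0 ≤ τ → w < 9 * V ^ 2 → w ≤ τ ^ 2 * (9 * V ^ 2 - w) →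
      1 / 2 ≤ c * D + (AngV + arctan τ) / (2 * π))
    (hc1 : (128/625) ≤ pI + pJ) : False := by
  have hom : 1 / (2 * π) ≤ ((39789/250000) : ℝ) := om_bound.trans (by norm_num)
  have hVb : (4/25) ≤ V := V_of_y hV0 hy hc1 (by norm_num) (by norm_num)
  have hA := hAng (4/25) (by norm_num) hVb (by norm_num)
  have hA' : AngV ≤ (15989/1000) * X := by linarith only [hA, hX]
  have hQ : D ^ 2 ≤ ((63271/500000) + 2 * (29569/500000)) + (13/10) * (tI - (1/16)) := by linarith only [hD2, hki, hp3]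
  have hDu : D ≤ ((54427/110000) + (130/99) * (tI - (1/16))) := D_line hQ (D0 := (99/200)) (by norm_num) (by norm_num) (by norm_num)
  exact cell_contra (c := c) (cb := (250663/500000)) (om := (39789/250000)) (D := D) (Du := ((54427/110000) + (130/99) * (tI - (1/16)))) (V := V) (V1 := (4/25))
    (w := w) (su := (231/5000)) (τ := (501/1000)) (A3 := (9289/20000)) (R := (15989/1000) * X) (AngV := AngV) hc hom hDu hD0.le
    (by norm_num) (by norm_num) hVb (by linarith only [hw, hsg, hτ, htl, hti, htj, hFL]) (by norm_num) (by norm_num) (by norm_num)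
    (by norm_num) hA' hAng0 (by linarith only [hX, hτ, htl, htj, hFL, hti]) hwall

theorem final5_C0_j3 {pL pI pJ tL tI tJ X sg w F D V AngV c : ℝ}
    (hFL : (35809/100000) < F) (hF : pL + pI + pJ + sg = F) (hτ : tL + tI + tJ + X = (3/5) - F)
    (htl : (1/16) ≤ tL) (hti : (1/16) ≤ tI) (htj : (11801/200000) ≤ tJ)
    (hkl : pL ≤ (63271/500000) + (13/10) * (tL - (1/16))) (hki : pI ≤ (63271/500000) + (13/10) * (tI - (1/16)))
    (hX : 0 ≤ X) (hsg0 : 0 ≤ sg) (hsg : sg ≤ (7969/10000) * X) (hw : w ≤ sg)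
    (hD0 : 0 < D) (hV0 : 0 < V) (hD1 : D ^ 2 ≤ 2 * pI + pJ) (hD2 : D ^ 2 ≤ pI + 2 * pJ)
    (hD3 : D ^ 2 ≤ pL + pI + pJ) (hy : pI + pJ ≤ 8 * V ^ 2)
    (hp3 : pJ ≤ (29569/500000))
    (hAng : ∀ V1 : ℝ, 0 < V1 → V1 ≤ V → V1 ≤ (4/25) → AngV ≤ (4/25) / V1 * ((15989/1000) * X))
    (hAng0 : 0 ≤ AngV) (hc : c ≤ (250663/500000))
    (hwall : ∀ τ : ℝ, 0 ≤ τ → w < 9 * V ^ 2 → w ≤ τ ^ 2 * (9 * V ^ 2 - w) →
      1 / 2 ≤ c * D + (AngV + arctan τ) / (2 * π)) : False := by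
  have hc0 : (312543/2000000) ≤ pI + pJ := by
    by_contra hcon
    push Not at hcon
    linarith only [hFL, hF, hτ, hti, htj, hkl, hsg, hX, hcon]
  rcases lt_or_ge (pI + pJ) (332543/2000000) with h0a | h0b
  · exact final5_C0_j3_c0 hFL hF hτ htl hti htj hkl hki hX hsg0 hsg hw hD0 hV0 hD1 hD2 hD3 hy hp3 hAng hAng0 hc hwall hc0 h0a
  rcases lt_or_ge (pI + pJ) (352543/2000000) with h1a | h1b
  · exact final5_C0_j3_c1 hFL hF hτ htl hti htj hkl hki hX hsg0 hsg hw hD0 hV0 hD1 hD2 hD3 hy hp3 hAng hAng0 hc hwall h0b h1a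
  rcases lt_or_ge (pI + pJ) (372543/2000000) with h2a | h2b
  · exact final5_C0_j3_c2 hFL hF hτ htl hti htj hkl hki hX hsg0 hsg hw hD0 hV0 hD1 hD2 hD3 hy hp3 hAng hAng0 hc hwall h1b h2a
  rcases lt_or_ge (pI + pJ) (392543/2000000) with h3a | h3b
  · exact final5_C0_j3_c3 hFL hF hτ htl hti htj hkl hki hX hsg0 hsg hw hD0 hV0 hD1 hD2 hD3 hy hp3 hAng hAng0 hc hwall h2b h3a
  rcases lt_or_ge (pI + pJ) (128/625) with h4a | h4b
  · exact final5_C0_j3_c4 hFL hF hτ htl hti htj hkl hki hX hsg0 hsg hw hD0 hV0 hD1 hD2 hD3 hy hp3 hAng hAng0 hc hwall h3b h4a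
  exact final5_C0_j3_t0 hFL hF hτ htl hti htj hkl hki hX hsg0 hsg hw hD0 hV0 hD1 hD2 hD3 hy hp3 hAng hAng0 hc hwall h4b

theorem final5_C1_j3_c0 {pL pI pJ tL tI tJ X sg w F D V AngV c : ℝ}
    (hFL : (35809/100000) < F) (hF : pL + pI + pJ + sg = F) (hτ : tL + tI + tJ + X = (3/5) - F)
    (htl : (1/16) ≤ tL) (hti : (1/16) ≤ tI) (htj : (60861/1000000) ≤ tJ)
    (hkl : pL ≤ (63271/500000) + (13/10) * (tL - (1/16))) (hki : pI ≤ (63271/500000) + (13/10) * (tI - (1/16)))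
    (hX : 0 ≤ X) (hsg0 : 0 ≤ sg) (hsg : sg ≤ (3501/5000) * X) (hw : w ≤ sg)
    (hD0 : 0 < D) (hV0 : 0 < V) (hD1 : D ^ 2 ≤ 2 * pI + pJ) (hD2 : D ^ 2 ≤ pI + 2 * pJ)
    (hD3 : D ^ 2 ≤ pL + pI + pJ) (hy : pI + pJ ≤ 8 * V ^ 2)
    (hp3 : pJ ≤ (75499/1000000))
    (hAng : ∀ V1 : ℝ, 0 < V1 → V1 ≤ V → V1 ≤ (4/25) → AngV ≤ (4/25) / V1 * ((15989/1000) * X))
    (hAng0 : 0 ≤ AngV) (hc : c ≤ (250663/500000))
    (hwall : ∀ τ : ℝ, 0 ≤ τ → w < 9 * V ^ 2 → w ≤ τ ^ 2 * (9 * V ^ 2 - w) →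
      1 / 2 ≤ c * D + (AngV + arctan τ) / (2 * π))
    (hc1 : (1586843/10000000) ≤ pI + pJ) (hc2 : pI + pJ < (1686843/10000000)) : False := by
  have hom : 1 / (2 * π) ≤ ((39789/250000) : ℝ) := om_bound.trans (by norm_num)
  have hXu : X ≤ (417/25000) := by linarith only [hFL, hF, hτ, htl, hti, htj, hkl, hsg, hc2]
  have hV1 : (88/625) ≤ V := V_of_y hV0 hy hc1 (by norm_num) (by norm_num)
  have hDu : D ≤ (5031/10000) := D_of_sq hD1 hD2 hc2 (by norm_num) (by norm_num)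
  have hA := hAng (88/625) (by norm_num) hV1 (by norm_num)
  have hA' : AngV ≤ (1817/100) * X := by linarith only [hA, hX]
  exact cell_contra (c := c) (cb := (250663/500000)) (om := (39789/250000)) (D := D) (Du := (5031/10000)) (V := V) (V1 := (88/625))
    (w := w) (su := (117/10000)) (τ := (53/200)) (A3 := (5181/20000)) (R := (1817/100) * X) (AngV := AngV) hc hom hDu hD0.le
    (by norm_num) (by norm_num) hV1 (by linarith only [hw, hsg, hXu]) (by norm_num) (by norm_num) (by norm_num)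
    (by norm_num) hA' hAng0 (by linarith only [hXu]) hwall

theorem final5_C1_j3_c1 {pL pI pJ tL tI tJ X sg w F D V AngV c : ℝ}
    (hFL : (35809/100000) < F) (hF : pL + pI + pJ + sg = F) (hτ : tL + tI + tJ + X = (3/5) - F)
    (htl : (1/16) ≤ tL) (hti : (1/16) ≤ tI) (htj : (60861/1000000) ≤ tJ)
    (hkl : pL ≤ (63271/500000) + (13/10) * (tL - (1/16))) (hki : pI ≤ (63271/500000) + (13/10) * (tI - (1/16)))
    (hX : 0 ≤ X) (hsg0 : 0 ≤ sg) (hsg : sg ≤ (3501/5000) * X) (hw : w ≤ sg)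
    (hD0 : 0 < D) (hV0 : 0 < V) (hD1 : D ^ 2 ≤ 2 * pI + pJ) (hD2 : D ^ 2 ≤ pI + 2 * pJ)
    (hD3 : D ^ 2 ≤ pL + pI + pJ) (hy : pI + pJ ≤ 8 * V ^ 2)
    (hp3 : pJ ≤ (75499/1000000))
    (hAng : ∀ V1 : ℝ, 0 < V1 → V1 ≤ V → V1 ≤ (4/25) → AngV ≤ (4/25) / V1 * ((15989/1000) * X))
    (hAng0 : 0 ≤ AngV) (hc : c ≤ (250663/500000))
    (hwall : ∀ τ : ℝ, 0 ≤ τ → w < 9 * V ^ 2 → w ≤ τ ^ 2 * (9 * V ^ 2 - w) →
      1 / 2 ≤ c * D + (AngV + arctan τ) / (2 * π))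
    (hc1 : (1686843/10000000) ≤ pI + pJ) (hc2 : pI + pJ < (1786843/10000000)) : False := by
  have hom : 1 / (2 * π) ≤ ((39789/250000) : ℝ) := om_bound.trans (by norm_num)
  have hXu : X ≤ (667/20000) := by linarith only [hFL, hF, hτ, htl, hti, htj, hkl, hsg, hc2]
  have hV1 : (363/2500) ≤ V := V_of_y hV0 hy hc1 (by norm_num) (by norm_num)
  have hDu : D ≤ (2589/5000) := D_of_sq hD1 hD2 hc2 (by norm_num) (by norm_num)
  have hA := hAng (363/2500) (by norm_num) hV1 (by norm_num)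
  have hA' : AngV ≤ (17619/1000) * X := by linarith only [hA, hX]
  exact cell_contra (c := c) (cb := (250663/500000)) (om := (39789/250000)) (D := D) (Du := (2589/5000)) (V := V) (V1 := (363/2500))
    (w := w) (su := (117/5000)) (τ := (47/125)) (A3 := (7193/20000)) (R := (17619/1000) * X) (AngV := AngV) hc hom hDu hD0.le
    (by norm_num) (by norm_num) hV1 (by linarith only [hw, hsg, hXu]) (by norm_num) (by norm_num) (by norm_num)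
    (by norm_num) hA' hAng0 (by linarith only [hXu]) hwall

theorem final5_C1_j3_c2 {pL pI pJ tL tI tJ X sg w F D V AngV c : ℝ}
    (hFL : (35809/100000) < F) (hF : pL + pI + pJ + sg = F) (hτ : tL + tI + tJ + X = (3/5) - F)
    (htl : (1/16) ≤ tL) (hti : (1/16) ≤ tI) (htj : (60861/1000000) ≤ tJ)
    (hkl : pL ≤ (63271/500000) + (13/10) * (tL - (1/16))) (hki : pI ≤ (63271/500000) + (13/10) * (tI - (1/16)))
    (hX : 0 ≤ X) (hsg0 : 0 ≤ sg) (hsg : sg ≤ (3501/5000) * X) (hw : w ≤ sg)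
    (hD0 : 0 < D) (hV0 : 0 < V) (hD1 : D ^ 2 ≤ 2 * pI + pJ) (hD2 : D ^ 2 ≤ pI + 2 * pJ)
    (hD3 : D ^ 2 ≤ pL + pI + pJ) (hy : pI + pJ ≤ 8 * V ^ 2)
    (hp3 : pJ ≤ (75499/1000000))
    (hAng : ∀ V1 : ℝ, 0 < V1 → V1 ≤ V → V1 ≤ (4/25) → AngV ≤ (4/25) / V1 * ((15989/1000) * X))
    (hAng0 : 0 ≤ AngV) (hc : c ≤ (250663/500000))
    (hwall : ∀ τ : ℝ, 0 ≤ τ → w < 9 * V ^ 2 → w ≤ τ ^ 2 * (9 * V ^ 2 - w) →
      1 / 2 ≤ c * D + (AngV + arctan τ) / (2 * π))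
    (hc1 : (1786843/10000000) ≤ pI + pJ) (hc2 : pI + pJ < (1886843/10000000)) : False := by
  have hom : 1 / (2 * π) ≤ ((39789/250000) : ℝ) := om_bound.trans (by norm_num)
  have hXu : X ≤ (2501/50000) := by linarith only [hFL, hF, hτ, htl, hti, htj, hkl, hsg, hc2]
  have hV1 : (747/5000) ≤ V := V_of_y hV0 hy hc1 (by norm_num) (by norm_num)
  have hDu : D ≤ (5321/10000) := D_of_sq hD1 hD2 hc2 (by norm_num) (by norm_num)
  have hA := hAng (747/5000) (by norm_num) hV1 (by norm_num)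
  have hA' : AngV ≤ (4281/250) * X := by linarith only [hA, hX]
  exact cell_contra (c := c) (cb := (250663/500000)) (om := (39789/250000)) (D := D) (Du := (5321/10000)) (V := V) (V1 := (747/5000))
    (w := w) (su := (351/10000)) (τ := (461/1000)) (A3 := (43197/100000)) (R := (4281/250) * X) (AngV := AngV) hc hom hDu hD0.le
    (by norm_num) (by norm_num) hV1 (by linarith only [hw, hsg, hXu]) (by norm_num) (by norm_num) (by norm_num)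
    (by norm_num) hA' hAng0 (by linarith only [hXu]) hwall

theorem final5_C1_j3_c3 {pL pI pJ tL tI tJ X sg w F D V AngV c : ℝ}
    (hFL : (35809/100000) < F) (hF : pL + pI + pJ + sg = F) (hτ : tL + tI + tJ + X = (3/5) - F)
    (htl : (1/16) ≤ tL) (hti : (1/16) ≤ tI) (htj : (60861/1000000) ≤ tJ)
    (hkl : pL ≤ (63271/500000) + (13/10) * (tL - (1/16))) (hki : pI ≤ (63271/500000) + (13/10) * (tI - (1/16)))
    (hX : 0 ≤ X) (hsg0 : 0 ≤ sg) (hsg : sg ≤ (3501/5000) * X) (hw : w ≤ sg)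
    (hD0 : 0 < D) (hV0 : 0 < V) (hD1 : D ^ 2 ≤ 2 * pI + pJ) (hD2 : D ^ 2 ≤ pI + 2 * pJ)
    (hD3 : D ^ 2 ≤ pL + pI + pJ) (hy : pI + pJ ≤ 8 * V ^ 2)
    (hp3 : pJ ≤ (75499/1000000))
    (hAng : ∀ V1 : ℝ, 0 < V1 → V1 ≤ V → V1 ≤ (4/25) → AngV ≤ (4/25) / V1 * ((15989/1000) * X))
    (hAng0 : 0 ≤ AngV) (hc : c ≤ (250663/500000))
    (hwall : ∀ τ : ℝ, 0 ≤ τ → w < 9 * V ^ 2 → w ≤ τ ^ 2 * (9 * V ^ 2 - w) →
      1 / 2 ≤ c * D + (AngV + arctan τ) / (2 * π))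
    (hc1 : (1886843/10000000) ≤ pI + pJ) (hc2 : pI + pJ < (1986843/10000000)) : False := by
  have hom : 1 / (2 * π) ≤ ((39789/250000) : ℝ) := om_bound.trans (by norm_num)
  have hXu : X ≤ (1121/20000) := by linarith only [hFL, hF, hτ, htl, hti, htj, hkl, hsg, hc2]
  have hV1 : (307/2000) ≤ V := V_of_y hV0 hy hc1 (by norm_num) (by norm_num)
  have hQ : D ^ 2 ≤ ((63271/500000) + 2 * (75499/1000000)) + (13/10) * (tI - (1/16)) := by linarith only [hD2, hki, hp3]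
  have hDu : D ≤ ((555269/1054000) + (650/527) * (tI - (1/16))) := D_line hQ (D0 := (527/1000)) (by norm_num) (by norm_num) (by norm_num)
  have hA := hAng (307/2000) (by norm_num) hV1 (by norm_num)
  have hA' : AngV ≤ (16667/1000) * X := by linarith only [hA, hX]
  exact cell_contra (c := c) (cb := (250663/500000)) (om := (39789/250000)) (D := D) (Du := ((555269/1054000) + (650/527) * (tI - (1/16)))) (V := V) (V1 := (307/2000))
    (w := w) (su := (393/10000)) (τ := (477/1000)) (A3 := (11127/25000)) (R := (16667/1000) * X) (AngV := AngV) hc hom hDu hD0.le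
    (by norm_num) (by norm_num) hV1 (by linarith only [hw, hsg, hXu]) (by norm_num) (by norm_num) (by norm_num)
    (by norm_num) hA' hAng0 (by linarith only [hXu, hτ, htl, htj, hFL, hX, hti]) hwall

theorem final5_C1_j3_c4 {pL pI pJ tL tI tJ X sg w F D V AngV c : ℝ}
    (hFL : (35809/100000) < F) (hF : pL + pI + pJ + sg = F) (hτ : tL + tI + tJ + X = (3/5) - F)
    (htl : (1/16) ≤ tL) (hti : (1/16) ≤ tI) (htj : (60861/1000000) ≤ tJ)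
    (hkl : pL ≤ (63271/500000) + (13/10) * (tL - (1/16))) (hki : pI ≤ (63271/500000) + (13/10) * (tI - (1/16)))
    (hX : 0 ≤ X) (hsg0 : 0 ≤ sg) (hsg : sg ≤ (3501/5000) * X) (hw : w ≤ sg)
    (hD0 : 0 < D) (hV0 : 0 < V) (hD1 : D ^ 2 ≤ 2 * pI + pJ) (hD2 : D ^ 2 ≤ pI + 2 * pJ)
    (hD3 : D ^ 2 ≤ pL + pI + pJ) (hy : pI + pJ ≤ 8 * V ^ 2)
    (hp3 : pJ ≤ (75499/1000000))
    (hAng : ∀ V1 : ℝ, 0 < V1 → V1 ≤ V → V1 ≤ (4/25) → AngV ≤ (4/25) / V1 * ((15989/1000) * X))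
    (hAng0 : 0 ≤ AngV) (hc : c ≤ (250663/500000))
    (hwall : ∀ τ : ℝ, 0 ≤ τ → w < 9 * V ^ 2 → w ≤ τ ^ 2 * (9 * V ^ 2 - w) →
      1 / 2 ≤ c * D + (AngV + arctan τ) / (2 * π))
    (hc1 : (1986843/10000000) ≤ pI + pJ) (hc2 : pI + pJ < (128/625)) : False := by
  have hom : 1 / (2 * π) ≤ ((39789/250000) : ℝ) := om_bound.trans (by norm_num)
  have hXu : X ≤ (1121/20000) := by linarith only [hFL, hF, hτ, htl, hti, htj, hkl, hsg, hc2]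
  have hV1 : (63/400) ≤ V := V_of_y hV0 hy hc1 (by norm_num) (by norm_num)
  have hQ : D ^ 2 ≤ ((63271/500000) + 2 * (75499/1000000)) + (13/10) * (tI - (1/16)) := by linarith only [hD2, hki, hp3]
  have hDu : D ≤ ((555269/1054000) + (650/527) * (tI - (1/16))) := D_line hQ (D0 := (527/1000)) (by norm_num) (by norm_num) (by norm_num)
  have hA := hAng (63/400) (by norm_num) hV1 (by norm_num)
  have hA' : AngV ≤ (16243/1000) * X := by linarith only [hA, hX]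
  exact cell_contra (c := c) (cb := (250663/500000)) (om := (39789/250000)) (D := D) (Du := ((555269/1054000) + (650/527) * (tI - (1/16)))) (V := V) (V1 := (63/400))
    (w := w) (su := (393/10000)) (τ := (463/1000)) (A3 := (21681/50000)) (R := (16243/1000) * X) (AngV := AngV) hc hom hDu hD0.le
    (by norm_num) (by norm_num) hV1 (by linarith only [hw, hsg, hXu]) (by norm_num) (by norm_num) (by norm_num)
    (by norm_num) hA' hAng0 (by linarith only [hXu, hτ, htl, htj, hFL, hX, hti]) hwall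

theorem final5_C1_j3_t0 {pL pI pJ tL tI tJ X sg w F D V AngV c : ℝ}
    (hFL : (35809/100000) < F) (hF : pL + pI + pJ + sg = F) (hτ : tL + tI + tJ + X = (3/5) - F)
    (htl : (1/16) ≤ tL) (hti : (1/16) ≤ tI) (htj : (60861/1000000) ≤ tJ)
    (hkl : pL ≤ (63271/500000) + (13/10) * (tL - (1/16))) (hki : pI ≤ (63271/500000) + (13/10) * (tI - (1/16)))
    (hX : 0 ≤ X) (hsg0 : 0 ≤ sg) (hsg : sg ≤ (3501/5000) * X) (hw : w ≤ sg)
    (hD0 : 0 < D) (hV0 : 0 < V) (hD1 : D ^ 2 ≤ 2 * pI + pJ) (hD2 : D ^ 2 ≤ pI + 2 * pJ)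
    (hD3 : D ^ 2 ≤ pL + pI + pJ) (hy : pI + pJ ≤ 8 * V ^ 2)
    (hp3 : pJ ≤ (75499/1000000))
    (hAng : ∀ V1 : ℝ, 0 < V1 → V1 ≤ V → V1 ≤ (4/25) → AngV ≤ (4/25) / V1 * ((15989/1000) * X))
    (hAng0 : 0 ≤ AngV) (hc : c ≤ (250663/500000))
    (hwall : ∀ τ : ℝ, 0 ≤ τ → w < 9 * V ^ 2 → w ≤ τ ^ 2 * (9 * V ^ 2 - w) →
      1 / 2 ≤ c * D + (AngV + arctan τ) / (2 * π))
    (hc1 : (128/625) ≤ pI + pJ) : False := by
  have hom : 1 / (2 * π) ≤ ((39789/250000) : ℝ) := om_bound.trans (by norm_num)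
  have hVb : (4/25) ≤ V := V_of_y hV0 hy hc1 (by norm_num) (by norm_num)
  have hA := hAng (4/25) (by norm_num) hVb (by norm_num)
  have hA' : AngV ≤ (15989/1000) * X := by linarith only [hA, hX]
  have hQ : D ^ 2 ≤ ((63271/500000) + 2 * (75499/1000000)) + (13/10) * (tI - (1/16)) := by linarith only [hD2, hki, hp3]
  have hDu : D ≤ ((555269/1054000) + (650/527) * (tI - (1/16))) := D_line hQ (D0 := (527/1000)) (by norm_num) (by norm_num) (by norm_num)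
  exact cell_contra (c := c) (cb := (250663/500000)) (om := (39789/250000)) (D := D) (Du := ((555269/1054000) + (650/527) * (tI - (1/16)))) (V := V) (V1 := (4/25))
    (w := w) (su := (393/10000)) (τ := (227/500)) (A3 := (21309/50000)) (R := (15989/1000) * X) (AngV := AngV) hc hom hDu hD0.le
    (by norm_num) (by norm_num) hVb (by linarith only [hw, hsg, hτ, htl, hti, htj, hFL]) (by norm_num) (by norm_num) (by norm_num)
    (by norm_num) hA' hAng0 (by linarith only [hX, hτ, htl, htj, hFL, hti]) hwall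

theorem final5_C1_j3 {pL pI pJ tL tI tJ X sg w F D V AngV c : ℝ}
    (hFL : (35809/100000) < F) (hF : pL + pI + pJ + sg = F) (hτ : tL + tI + tJ + X = (3/5) - F)
    (htl : (1/16) ≤ tL) (hti : (1/16) ≤ tI) (htj : (60861/1000000) ≤ tJ)
    (hkl : pL ≤ (63271/500000) + (13/10) * (tL - (1/16))) (hki : pI ≤ (63271/500000) + (13/10) * (tI - (1/16)))
    (hX : 0 ≤ X) (hsg0 : 0 ≤ sg) (hsg : sg ≤ (3501/5000) * X) (hw : w ≤ sg)
    (hD0 : 0 < D) (hV0 : 0 < V) (hD1 : D ^ 2 ≤ 2 * pI + pJ) (hD2 : D ^ 2 ≤ pI + 2 * pJ)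
    (hD3 : D ^ 2 ≤ pL + pI + pJ) (hy : pI + pJ ≤ 8 * V ^ 2)
    (hp3 : pJ ≤ (75499/1000000))
    (hAng : ∀ V1 : ℝ, 0 < V1 → V1 ≤ V → V1 ≤ (4/25) → AngV ≤ (4/25) / V1 * ((15989/1000) * X))
    (hAng0 : 0 ≤ AngV) (hc : c ≤ (250663/500000))
    (hwall : ∀ τ : ℝ, 0 ≤ τ → w < 9 * V ^ 2 → w ≤ τ ^ 2 * (9 * V ^ 2 - w) →
      1 / 2 ≤ c * D + (AngV + arctan τ) / (2 * π)) : False := by
  have hc0 : (1586843/10000000) ≤ pI + pJ := by
    by_contra hcon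
    push Not at hcon
    linarith only [hFL, hF, hτ, hti, htj, hkl, hsg, hX, hcon]
  rcases lt_or_ge (pI + pJ) (1686843/10000000) with h0a | h0b
  · exact final5_C1_j3_c0 hFL hF hτ htl hti htj hkl hki hX hsg0 hsg hw hD0 hV0 hD1 hD2 hD3 hy hp3 hAng hAng0 hc hwall hc0 h0a
  rcases lt_or_ge (pI + pJ) (1786843/10000000) with h1a | h1b
  · exact final5_C1_j3_c1 hFL hF hτ htl hti htj hkl hki hX hsg0 hsg hw hD0 hV0 hD1 hD2 hD3 hy hp3 hAng hAng0 hc hwall h0b h1a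
  rcases lt_or_ge (pI + pJ) (1886843/10000000) with h2a | h2b
  · exact final5_C1_j3_c2 hFL hF hτ htl hti htj hkl hki hX hsg0 hsg hw hD0 hV0 hD1 hD2 hD3 hy hp3 hAng hAng0 hc hwall h1b h2a
  rcases lt_or_ge (pI + pJ) (1986843/10000000) with h3a | h3b
  · exact final5_C1_j3_c3 hFL hF hτ htl hti htj hkl hki hX hsg0 hsg hw hD0 hV0 hD1 hD2 hD3 hy hp3 hAng hAng0 hc hwall h2b h3a
  rcases lt_or_ge (pI + pJ) (128/625) with h4a | h4b
  · exact final5_C1_j3_c4 hFL hF hτ htl hti htj hkl hki hX hsg0 hsg hw hD0 hV0 hD1 hD2 hD3 hy hp3 hAng hAng0 hc hwall h3b h4a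
  exact final5_C1_j3_t0 hFL hF hτ htl hti htj hkl hki hX hsg0 hsg hw hD0 hV0 hD1 hD2 hD3 hy hp3 hAng hAng0 hc hwall h4b

theorem final5_A_sym_c0 {pL pI pJ tL tI tJ X sg w F D V AngV c : ℝ}
    (hFL : (35809/100000) < F) (hF : pL + pI + pJ + sg = F) (hτ : tL + tI + tJ + X = (3/5) - F)
    (htl : (1/16) ≤ tL) (hti : (1/16) ≤ tI) (htj : (1/16) ≤ tJ)
    (hkl : pL ≤ (63271/500000) + (13/10) * (tL - (1/16))) (hki : pI ≤ (63271/500000) + (13/10) * (tI - (1/16)))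
    (hX : 0 ≤ X) (hsg0 : 0 ≤ sg) (hsg : sg ≤ (6437/10000) * X) (hw : w ≤ sg)
    (hD0 : 0 < D) (hV0 : 0 < V) (hD1 : D ^ 2 ≤ 2 * pI + pJ) (hD2 : D ^ 2 ≤ pI + 2 * pJ)
    (hD3 : D ^ 2 ≤ pL + pI + pJ) (hy : pI + pJ ≤ 8 * V ^ 2)
    (hAng : ∀ V1 : ℝ, 0 < V1 → V1 ≤ V → V1 ≤ (4/25) → AngV ≤ (4/25) / V1 * ((15989/1000) * X))
    (hAng0 : 0 ≤ AngV) (hc : c ≤ (250663/500000))
    (hwall : ∀ τ : ℝ, 0 ≤ τ → w < 9 * V ^ 2 → w ≤ τ ^ 2 * (9 * V ^ 2 - w) →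
      1 / 2 ≤ c * D + (AngV + arctan τ) / (2 * π))
    (hc1 : (32163/200000) ≤ pI + pJ) (hc2 : pI + pJ < (34163/200000)) : False := by
  have hom : 1 / (2 * π) ≤ ((39789/250000) : ℝ) := om_bound.trans (by norm_num)
  have hXu : X ≤ (381/25000) := by linarith only [hFL, hF, hτ, htl, hti, htj, hkl, hsg, hc2]
  have hV1 : (1417/10000) ≤ V := V_of_y hV0 hy hc1 (by norm_num) (by norm_num)
  have hDu : D ≤ (2531/5000) := D_of_sq hD1 hD2 hc2 (by norm_num) (by norm_num)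
  have hA := hAng (1417/10000) (by norm_num) hV1 (by norm_num)
  have hA' : AngV ≤ (9027/500) * X := by linarith only [hA, hX]
  exact cell_contra (c := c) (cb := (250663/500000)) (om := (39789/250000)) (D := D) (Du := (2531/5000)) (V := V) (V1 := (1417/10000))
    (w := w) (su := (99/10000)) (τ := (241/1000)) (A3 := (473/2000)) (R := (9027/500) * X) (AngV := AngV) hc hom hDu hD0.le
    (by norm_num) (by norm_num) hV1 (by linarith only [hw, hsg, hXu]) (by norm_num) (by norm_num) (by norm_num)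
    (by norm_num) hA' hAng0 (by linarith only [hXu]) hwall

theorem final5_A_sym_c1 {pL pI pJ tL tI tJ X sg w F D V AngV c : ℝ}
    (hFL : (35809/100000) < F) (hF : pL + pI + pJ + sg = F) (hτ : tL + tI + tJ + X = (3/5) - F)
    (htl : (1/16) ≤ tL) (hti : (1/16) ≤ tI) (htj : (1/16) ≤ tJ)
    (hkl : pL ≤ (63271/500000) + (13/10) * (tL - (1/16))) (hki : pI ≤ (63271/500000) + (13/10) * (tI - (1/16)))
    (hX : 0 ≤ X) (hsg0 : 0 ≤ sg) (hsg : sg ≤ (6437/10000) * X) (hw : w ≤ sg)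
    (hD0 : 0 < D) (hV0 : 0 < V) (hD1 : D ^ 2 ≤ 2 * pI + pJ) (hD2 : D ^ 2 ≤ pI + 2 * pJ)
    (hD3 : D ^ 2 ≤ pL + pI + pJ) (hy : pI + pJ ≤ 8 * V ^ 2)
    (hAng : ∀ V1 : ℝ, 0 < V1 → V1 ≤ V → V1 ≤ (4/25) → AngV ≤ (4/25) / V1 * ((15989/1000) * X))
    (hAng0 : 0 ≤ AngV) (hc : c ≤ (250663/500000))
    (hwall : ∀ τ : ℝ, 0 ≤ τ → w < 9 * V ^ 2 → w ≤ τ ^ 2 * (9 * V ^ 2 - w) →
      1 / 2 ≤ c * D + (AngV + arctan τ) / (2 * π))
    (hc1 : (34163/200000) ≤ pI + pJ) (hc2 : pI + pJ < (36163/200000)) : False := by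
  have hom : 1 / (2 * π) ≤ ((39789/250000) : ℝ) := om_bound.trans (by norm_num)
  have hXu : X ≤ (381/12500) := by linarith only [hFL, hF, hτ, htl, hti, htj, hkl, hsg, hc2]
  have hV1 : (1461/10000) ≤ V := V_of_y hV0 hy hc1 (by norm_num) (by norm_num)
  have hDu : D ≤ (651/1250) := D_of_sq hD1 hD2 hc2 (by norm_num) (by norm_num)
  have hA := hAng (1461/10000) (by norm_num) hV1 (by norm_num)
  have hA' : AngV ≤ (17511/1000) * X := by linarith only [hA, hX]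
  exact cell_contra (c := c) (cb := (250663/500000)) (om := (39789/250000)) (D := D) (Du := (651/1250)) (V := V) (V1 := (1461/10000))
    (w := w) (su := (197/10000)) (τ := (339/1000)) (A3 := (6537/20000)) (R := (17511/1000) * X) (AngV := AngV) hc hom hDu hD0.le
    (by norm_num) (by norm_num) hV1 (by linarith only [hw, hsg, hXu]) (by norm_num) (by norm_num) (by norm_num)
    (by norm_num) hA' hAng0 (by linarith only [hXu]) hwall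

theorem final5_A_sym_c2 {pL pI pJ tL tI tJ X sg w F D V AngV c : ℝ}
    (hFL : (35809/100000) < F) (hF : pL + pI + pJ + sg = F) (hτ : tL + tI + tJ + X = (3/5) - F)
    (htl : (1/16) ≤ tL) (hti : (1/16) ≤ tI) (htj : (1/16) ≤ tJ)
    (hkl : pL ≤ (63271/500000) + (13/10) * (tL - (1/16))) (hki : pI ≤ (63271/500000) + (13/10) * (tI - (1/16)))
    (hX : 0 ≤ X) (hsg0 : 0 ≤ sg) (hsg : sg ≤ (6437/10000) * X) (hw : w ≤ sg)
    (hD0 : 0 < D) (hV0 : 0 < V) (hD1 : D ^ 2 ≤ 2 * pI + pJ) (hD2 : D ^ 2 ≤ pI + 2 * pJ)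
    (hD3 : D ^ 2 ≤ pL + pI + pJ) (hy : pI + pJ ≤ 8 * V ^ 2)
    (hAng : ∀ V1 : ℝ, 0 < V1 → V1 ≤ V → V1 ≤ (4/25) → AngV ≤ (4/25) / V1 * ((15989/1000) * X))
    (hAng0 : 0 ≤ AngV) (hc : c ≤ (250663/500000))
    (hwall : ∀ τ : ℝ, 0 ≤ τ → w < 9 * V ^ 2 → w ≤ τ ^ 2 * (9 * V ^ 2 - w) →
      1 / 2 ≤ c * D + (AngV + arctan τ) / (2 * π))
    (hc1 : (36163/200000) ≤ pI + pJ) (hc2 : pI + pJ < (38163/200000)) : False := by
  have hom : 1 / (2 * π) ≤ ((39789/250000) : ℝ) := om_bound.trans (by norm_num)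
  have hXu : X ≤ (1143/25000) := by linarith only [hFL, hF, hτ, htl, hti, htj, hkl, hsg, hc2]
  have hV1 : (1503/10000) ≤ V := V_of_y hV0 hy hc1 (by norm_num) (by norm_num)
  have hDu : D ≤ (107/200) := D_of_sq hD1 hD2 hc2 (by norm_num) (by norm_num)
  have hA := hAng (1503/10000) (by norm_num) hV1 (by norm_num)
  have hA' : AngV ≤ (17021/1000) * X := by linarith only [hA, hX]
  exact cell_contra (c := c) (cb := (250663/500000)) (om := (39789/250000)) (D := D) (Du := (107/200)) (V := V) (V1 := (1503/10000))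
    (w := w) (su := (59/2000)) (τ := (103/250)) (A3 := (39081/100000)) (R := (17021/1000) * X) (AngV := AngV) hc hom hDu hD0.le
    (by norm_num) (by norm_num) hV1 (by linarith only [hw, hsg, hXu]) (by norm_num) (by norm_num) (by norm_num)
    (by norm_num) hA' hAng0 (by linarith only [hXu]) hwall

theorem final5_A_sym_c3 {pL pI pJ tL tI tJ X sg w F D V AngV c : ℝ}
    (hFL : (35809/100000) < F) (hF : pL + pI + pJ + sg = F) (hτ : tL + tI + tJ + X = (3/5) - F)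
    (htl : (1/16) ≤ tL) (hti : (1/16) ≤ tI) (htj : (1/16) ≤ tJ)
    (hkl : pL ≤ (63271/500000) + (13/10) * (tL - (1/16))) (hki : pI ≤ (63271/500000) + (13/10) * (tI - (1/16)))
    (hX : 0 ≤ X) (hsg0 : 0 ≤ sg) (hsg : sg ≤ (6437/10000) * X) (hw : w ≤ sg)
    (hD0 : 0 < D) (hV0 : 0 < V) (hD1 : D ^ 2 ≤ 2 * pI + pJ) (hD2 : D ^ 2 ≤ pI + 2 * pJ)
    (hD3 : D ^ 2 ≤ pL + pI + pJ) (hy : pI + pJ ≤ 8 * V ^ 2)
    (hAng : ∀ V1 : ℝ, 0 < V1 → V1 ≤ V → V1 ≤ (4/25) → AngV ≤ (4/25) / V1 * ((15989/1000) * X))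
    (hAng0 : 0 ≤ AngV) (hc : c ≤ (250663/500000))
    (hwall : ∀ τ : ℝ, 0 ≤ τ → w < 9 * V ^ 2 → w ≤ τ ^ 2 * (9 * V ^ 2 - w) →
      1 / 2 ≤ c * D + (AngV + arctan τ) / (2 * π))
    (hc1 : (38163/200000) ≤ pI + pJ) (hc2 : pI + pJ < (40163/200000)) : False := by
  have hom : 1 / (2 * π) ≤ ((39789/250000) : ℝ) := om_bound.trans (by norm_num)
  have hXu : X ≤ (5441/100000) := by linarith only [hFL, hF, hτ, htl, hti, htj, hkl, hsg, hc2]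
  have hV1 : (193/1250) ≤ V := V_of_y hV0 hy hc1 (by norm_num) (by norm_num)
  have hDu : D ≤ (5489/10000) := D_of_sq hD1 hD2 hc2 (by norm_num) (by norm_num)
  have hA := hAng (193/1250) (by norm_num) hV1 (by norm_num)
  have hA' : AngV ≤ (16569/1000) * X := by linarith only [hA, hX]
  exact cell_contra (c := c) (cb := (250663/500000)) (om := (39789/250000)) (D := D) (Du := (5489/10000)) (V := V) (V1 := (193/1250))
    (w := w) (su := (351/10000)) (τ := (443/1000)) (A3 := (20851/50000)) (R := (16569/1000) * X) (AngV := AngV) hc hom hDu hD0.le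
    (by norm_num) (by norm_num) hV1 (by linarith only [hw, hsg, hXu]) (by norm_num) (by norm_num) (by norm_num)
    (by norm_num) hA' hAng0 (by linarith only [hXu]) hwall

theorem final5_A_sym_c4 {pL pI pJ tL tI tJ X sg w F D V AngV c : ℝ}
    (hFL : (35809/100000) < F) (hF : pL + pI + pJ + sg = F) (hτ : tL + tI + tJ + X = (3/5) - F)
    (htl : (1/16) ≤ tL) (hti : (1/16) ≤ tI) (htj : (1/16) ≤ tJ)
    (hkl : pL ≤ (63271/500000) + (13/10) * (tL - (1/16))) (hki : pI ≤ (63271/500000) + (13/10) * (tI - (1/16)))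
    (hX : 0 ≤ X) (hsg0 : 0 ≤ sg) (hsg : sg ≤ (6437/10000) * X) (hw : w ≤ sg)
    (hD0 : 0 < D) (hV0 : 0 < V) (hD1 : D ^ 2 ≤ 2 * pI + pJ) (hD2 : D ^ 2 ≤ pI + 2 * pJ)
    (hD3 : D ^ 2 ≤ pL + pI + pJ) (hy : pI + pJ ≤ 8 * V ^ 2)
    (hAng : ∀ V1 : ℝ, 0 < V1 → V1 ≤ V → V1 ≤ (4/25) → AngV ≤ (4/25) / V1 * ((15989/1000) * X))
    (hAng0 : 0 ≤ AngV) (hc : c ≤ (250663/500000))
    (hwall : ∀ τ : ℝ, 0 ≤ τ → w < 9 * V ^ 2 → w ≤ τ ^ 2 * (9 * V ^ 2 - w) →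
      1 / 2 ≤ c * D + (AngV + arctan τ) / (2 * π))
    (hc1 : (40163/200000) ≤ pI + pJ) (hc2 : pI + pJ < (128/625)) : False := by
  have hom : 1 / (2 * π) ≤ ((39789/250000) : ℝ) := om_bound.trans (by norm_num)
  have hXu : X ≤ (5441/100000) := by linarith only [hFL, hF, hτ, htl, hti, htj, hkl, hsg, hc2]
  have hV1 : (99/625) ≤ V := V_of_y hV0 hy hc1 (by norm_num) (by norm_num)
  have hDu : D ≤ (5543/10000) := D_of_sq hD1 hD2 hc2 (by norm_num) (by norm_num)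
  have hA := hAng (99/625) (by norm_num) hV1 (by norm_num)
  have hA' : AngV ≤ (16151/1000) * X := by linarith only [hA, hX]
  exact cell_contra (c := c) (cb := (250663/500000)) (om := (39789/250000)) (D := D) (Du := (5543/10000)) (V := V) (V1 := (99/625))
    (w := w) (su := (351/10000)) (τ := (43/100)) (A3 := (4061/10000)) (R := (16151/1000) * X) (AngV := AngV) hc hom hDu hD0.le
    (by norm_num) (by norm_num) hV1 (by linarith only [hw, hsg, hXu]) (by norm_num) (by norm_num) (by norm_num)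
    (by norm_num) hA' hAng0 (by linarith only [hXu]) hwall

theorem final5_A_sym_t0 {pL pI pJ tL tI tJ X sg w F D V AngV c : ℝ}
    (hFL : (35809/100000) < F) (hF : pL + pI + pJ + sg = F) (hτ : tL + tI + tJ + X = (3/5) - F)
    (htl : (1/16) ≤ tL) (hti : (1/16) ≤ tI) (htj : (1/16) ≤ tJ)
    (hkl : pL ≤ (63271/500000) + (13/10) * (tL - (1/16))) (hki : pI ≤ (63271/500000) + (13/10) * (tI - (1/16)))
    (hX : 0 ≤ X) (hsg0 : 0 ≤ sg) (hsg : sg ≤ (6437/10000) * X) (hw : w ≤ sg)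
    (hD0 : 0 < D) (hV0 : 0 < V) (hD1 : D ^ 2 ≤ 2 * pI + pJ) (hD2 : D ^ 2 ≤ pI + 2 * pJ)
    (hD3 : D ^ 2 ≤ pL + pI + pJ) (hy : pI + pJ ≤ 8 * V ^ 2)
    (hAng : ∀ V1 : ℝ, 0 < V1 → V1 ≤ V → V1 ≤ (4/25) → AngV ≤ (4/25) / V1 * ((15989/1000) * X))
    (hAng0 : 0 ≤ AngV) (hc : c ≤ (250663/500000))
    (hwall : ∀ τ : ℝ, 0 ≤ τ → w < 9 * V ^ 2 → w ≤ τ ^ 2 * (9 * V ^ 2 - w) →
      1 / 2 ≤ c * D + (AngV + arctan τ) / (2 * π))
    (hc1 : (128/625) ≤ pI + pJ)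
    (hs1 : 0 ≤ sg) (hs2 : sg < (1/100)) : False := by
  have hom : 1 / (2 * π) ≤ ((39789/250000) : ℝ) := om_bound.trans (by norm_num)
  have hVb : (4/25) ≤ V := V_of_y hV0 hy hc1 (by norm_num) (by norm_num)
  have hA := hAng (4/25) (by norm_num) hVb (by norm_num)
  have hA' : AngV ≤ (15989/1000) * X := by linarith only [hA, hX]
  have hQ : D ^ 2 ≤ (33/80) + (-1) * X := by linarith only [hD3, hF, hτ, htl, hti, htj, hs1]
  have hDu' : D ≤ (2897/4480) + (-(7/8)) * X := D_line hQ (D0 := (4/7)) (by norm_num) (by norm_num) (by norm_num)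
  have hDu : D ≤ ((2897/4480) - (7/8) * X) := by linarith only [hDu']
  exact cell_contra (c := c) (cb := (250663/500000)) (om := (39789/250000)) (D := D) (Du := ((2897/4480) - (7/8) * X)) (V := V) (V1 := (4/25))
    (w := w) (su := (1/100)) (τ := (107/500)) (A3 := (21083/100000)) (R := (15989/1000) * X) (AngV := AngV) hc hom hDu hD0.le
    (by norm_num) (by norm_num) hVb (by linarith only [hw, hsg, hτ, htl, hti, htj, hFL, hs2]) (by norm_num) (by norm_num) (by norm_num)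
    (by norm_num) hA' hAng0 (by linarith only [hX, hτ, htl, hti, htj, hFL]) hwall

theorem final5_A_sym_t1 {pL pI pJ tL tI tJ X sg w F D V AngV c : ℝ}
    (hFL : (35809/100000) < F) (hF : pL + pI + pJ + sg = F) (hτ : tL + tI + tJ + X = (3/5) - F)
    (htl : (1/16) ≤ tL) (hti : (1/16) ≤ tI) (htj : (1/16) ≤ tJ)
    (hkl : pL ≤ (63271/500000) + (13/10) * (tL - (1/16))) (hki : pI ≤ (63271/500000) + (13/10) * (tI - (1/16)))
    (hX : 0 ≤ X) (hsg0 : 0 ≤ sg) (hsg : sg ≤ (6437/10000) * X) (hw : w ≤ sg)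
    (hD0 : 0 < D) (hV0 : 0 < V) (hD1 : D ^ 2 ≤ 2 * pI + pJ) (hD2 : D ^ 2 ≤ pI + 2 * pJ)
    (hD3 : D ^ 2 ≤ pL + pI + pJ) (hy : pI + pJ ≤ 8 * V ^ 2)
    (hAng : ∀ V1 : ℝ, 0 < V1 → V1 ≤ V → V1 ≤ (4/25) → AngV ≤ (4/25) / V1 * ((15989/1000) * X))
    (hAng0 : 0 ≤ AngV) (hc : c ≤ (250663/500000))
    (hwall : ∀ τ : ℝ, 0 ≤ τ → w < 9 * V ^ 2 → w ≤ τ ^ 2 * (9 * V ^ 2 - w) →
      1 / 2 ≤ c * D + (AngV + arctan τ) / (2 * π))
    (hc1 : (128/625) ≤ pI + pJ)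
    (hs1 : (1/100) ≤ sg) (hs2 : sg < (1/50)) : False := by
  have hom : 1 / (2 * π) ≤ ((39789/250000) : ℝ) := om_bound.trans (by norm_num)
  have hVb : (4/25) ≤ V := V_of_y hV0 hy hc1 (by norm_num) (by norm_num)
  have hA := hAng (4/25) (by norm_num) hVb (by norm_num)
  have hA' : AngV ≤ (15989/1000) * X := by linarith only [hA, hX]
  have hQ : D ^ 2 ≤ (161/400) + (-1) * X := by linarith only [hD3, hF, hτ, htl, hti, htj, hs1]
  have hDu' : D ≤ (14289/22400) + (-(7/8)) * X := D_line hQ (D0 := (4/7)) (by norm_num) (by norm_num) (by norm_num)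
  have hDu : D ≤ ((14289/22400) - (7/8) * X) := by linarith only [hDu']
  exact cell_contra (c := c) (cb := (250663/500000)) (om := (39789/250000)) (D := D) (Du := ((14289/22400) - (7/8) * X)) (V := V) (V1 := (4/25))
    (w := w) (su := (1/50)) (τ := (309/1000)) (A3 := (2997/10000)) (R := (15989/1000) * X) (AngV := AngV) hc hom hDu hD0.le
    (by norm_num) (by norm_num) hVb (by linarith only [hw, hsg, hτ, htl, hti, htj, hFL, hs2]) (by norm_num) (by norm_num) (by norm_num)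
    (by norm_num) hA' hAng0 (by linarith only [hX, hτ, htl, hti, htj, hFL]) hwall

theorem final5_A_sym_t2 {pL pI pJ tL tI tJ X sg w F D V AngV c : ℝ}
    (hFL : (35809/100000) < F) (hF : pL + pI + pJ + sg = F) (hτ : tL + tI + tJ + X = (3/5) - F)
    (htl : (1/16) ≤ tL) (hti : (1/16) ≤ tI) (htj : (1/16) ≤ tJ)
    (hkl : pL ≤ (63271/500000) + (13/10) * (tL - (1/16))) (hki : pI ≤ (63271/500000) + (13/10) * (tI - (1/16)))
    (hX : 0 ≤ X) (hsg0 : 0 ≤ sg) (hsg : sg ≤ (6437/10000) * X) (hw : w ≤ sg)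
    (hD0 : 0 < D) (hV0 : 0 < V) (hD1 : D ^ 2 ≤ 2 * pI + pJ) (hD2 : D ^ 2 ≤ pI + 2 * pJ)
    (hD3 : D ^ 2 ≤ pL + pI + pJ) (hy : pI + pJ ≤ 8 * V ^ 2)
    (hAng : ∀ V1 : ℝ, 0 < V1 → V1 ≤ V → V1 ≤ (4/25) → AngV ≤ (4/25) / V1 * ((15989/1000) * X))
    (hAng0 : 0 ≤ AngV) (hc : c ≤ (250663/500000))
    (hwall : ∀ τ : ℝ, 0 ≤ τ → w < 9 * V ^ 2 → w ≤ τ ^ 2 * (9 * V ^ 2 - w) →
      1 / 2 ≤ c * D + (AngV + arctan τ) / (2 * π))
    (hc1 : (128/625) ≤ pI + pJ)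
    (hs1 : (1/50) ≤ sg) (hs2 : sg < (3/100)) : False := by
  have hom : 1 / (2 * π) ≤ ((39789/250000) : ℝ) := om_bound.trans (by norm_num)
  have hVb : (4/25) ≤ V := V_of_y hV0 hy hc1 (by norm_num) (by norm_num)
  have hA := hAng (4/25) (by norm_num) hVb (by norm_num)
  have hA' : AngV ≤ (15989/1000) * X := by linarith only [hA, hX]
  have hQ : D ^ 2 ≤ (157/400) + (-1) * X := by linarith only [hD3, hF, hτ, htl, hti, htj, hs1]
  have hDu' : D ≤ (14093/22400) + (-(7/8)) * X := D_line hQ (D0 := (4/7)) (by norm_num) (by norm_num) (by norm_num)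
  have hDu : D ≤ ((14093/22400) - (7/8) * X) := by linarith only [hDu']
  exact cell_contra (c := c) (cb := (250663/500000)) (om := (39789/250000)) (D := D) (Du := ((14093/22400) - (7/8) * X)) (V := V) (V1 := (4/25))
    (w := w) (su := (3/100)) (τ := (387/1000)) (A3 := (1477/4000)) (R := (15989/1000) * X) (AngV := AngV) hc hom hDu hD0.le
    (by norm_num) (by norm_num) hVb (by linarith only [hw, hsg, hτ, htl, hti, htj, hFL, hs2]) (by norm_num) (by norm_num) (by norm_num)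
    (by norm_num) hA' hAng0 (by linarith only [hX, hτ, htl, hti, htj, hFL]) hwall

theorem final5_A_sym_t3 {pL pI pJ tL tI tJ X sg w F D V AngV c : ℝ}
    (hFL : (35809/100000) < F) (hF : pL + pI + pJ + sg = F) (hτ : tL + tI + tJ + X = (3/5) - F)
    (htl : (1/16) ≤ tL) (hti : (1/16) ≤ tI) (htj : (1/16) ≤ tJ)
    (hkl : pL ≤ (63271/500000) + (13/10) * (tL - (1/16))) (hki : pI ≤ (63271/500000) + (13/10) * (tI - (1/16)))
    (hX : 0 ≤ X) (hsg0 : 0 ≤ sg) (hsg : sg ≤ (6437/10000) * X) (hw : w ≤ sg)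
    (hD0 : 0 < D) (hV0 : 0 < V) (hD1 : D ^ 2 ≤ 2 * pI + pJ) (hD2 : D ^ 2 ≤ pI + 2 * pJ)
    (hD3 : D ^ 2 ≤ pL + pI + pJ) (hy : pI + pJ ≤ 8 * V ^ 2)
    (hAng : ∀ V1 : ℝ, 0 < V1 → V1 ≤ V → V1 ≤ (4/25) → AngV ≤ (4/25) / V1 * ((15989/1000) * X))
    (hAng0 : 0 ≤ AngV) (hc : c ≤ (250663/500000))
    (hwall : ∀ τ : ℝ, 0 ≤ τ → w < 9 * V ^ 2 → w ≤ τ ^ 2 * (9 * V ^ 2 - w) →
      1 / 2 ≤ c * D + (AngV + arctan τ) / (2 * π))
    (hc1 : (128/625) ≤ pI + pJ)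
    (hs1 : (3/100) ≤ sg) : False := by
  have hom : 1 / (2 * π) ≤ ((39789/250000) : ℝ) := om_bound.trans (by norm_num)
  have hVb : (4/25) ≤ V := V_of_y hV0 hy hc1 (by norm_num) (by norm_num)
  have hA := hAng (4/25) (by norm_num) hVb (by norm_num)
  have hA' : AngV ≤ (15989/1000) * X := by linarith only [hA, hX]
  have hQ : D ^ 2 ≤ (153/400) + (-1) * X := by linarith only [hD3, hF, hτ, htl, hti, htj, hs1]
  have hDu' : D ≤ (13897/22400) + (-(7/8)) * X := D_line hQ (D0 := (4/7)) (by norm_num) (by norm_num) (by norm_num)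
  have hDu : D ≤ ((13897/22400) - (7/8) * X) := by linarith only [hDu']
  exact cell_contra (c := c) (cb := (250663/500000)) (om := (39789/250000)) (D := D) (Du := ((13897/22400) - (7/8) * X)) (V := V) (V1 := (4/25))
    (w := w) (su := (351/10000)) (τ := (53/125)) (A3 := (40103/100000)) (R := (15989/1000) * X) (AngV := AngV) hc hom hDu hD0.le
    (by norm_num) (by norm_num) hVb (by linarith only [hw, hsg, hτ, htl, hti, htj, hFL]) (by norm_num) (by norm_num) (by norm_num)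
    (by norm_num) hA' hAng0 (by linarith only [hX, hτ, htl, hti, htj, hFL]) hwall

theorem final5_A_sym {pL pI pJ tL tI tJ X sg w F D V AngV c : ℝ}
    (hFL : (35809/100000) < F) (hF : pL + pI + pJ + sg = F) (hτ : tL + tI + tJ + X = (3/5) - F)
    (htl : (1/16) ≤ tL) (hti : (1/16) ≤ tI) (htj : (1/16) ≤ tJ)
    (hkl : pL ≤ (63271/500000) + (13/10) * (tL - (1/16))) (hki : pI ≤ (63271/500000) + (13/10) * (tI - (1/16)))
    (hX : 0 ≤ X) (hsg0 : 0 ≤ sg) (hsg : sg ≤ (6437/10000) * X) (hw : w ≤ sg)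
    (hD0 : 0 < D) (hV0 : 0 < V) (hD1 : D ^ 2 ≤ 2 * pI + pJ) (hD2 : D ^ 2 ≤ pI + 2 * pJ)
    (hD3 : D ^ 2 ≤ pL + pI + pJ) (hy : pI + pJ ≤ 8 * V ^ 2)
    (hAng : ∀ V1 : ℝ, 0 < V1 → V1 ≤ V → V1 ≤ (4/25) → AngV ≤ (4/25) / V1 * ((15989/1000) * X))
    (hAng0 : 0 ≤ AngV) (hc : c ≤ (250663/500000))
    (hwall : ∀ τ : ℝ, 0 ≤ τ → w < 9 * V ^ 2 → w ≤ τ ^ 2 * (9 * V ^ 2 - w) →
      1 / 2 ≤ c * D + (AngV + arctan τ) / (2 * π)) : False := by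
  have hc0 : (32163/200000) ≤ pI + pJ := by
    by_contra hcon
    push Not at hcon
    linarith only [hFL, hF, hτ, hti, htj, hkl, hsg, hX, hcon]
  rcases lt_or_ge (pI + pJ) (34163/200000) with h0a | h0b
  · exact final5_A_sym_c0 hFL hF hτ htl hti htj hkl hki hX hsg0 hsg hw hD0 hV0 hD1 hD2 hD3 hy hAng hAng0 hc hwall hc0 h0a
  rcases lt_or_ge (pI + pJ) (36163/200000) with h1a | h1b
  · exact final5_A_sym_c1 hFL hF hτ htl hti htj hkl hki hX hsg0 hsg hw hD0 hV0 hD1 hD2 hD3 hy hAng hAng0 hc hwall h0b h1a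
  rcases lt_or_ge (pI + pJ) (38163/200000) with h2a | h2b
  · exact final5_A_sym_c2 hFL hF hτ htl hti htj hkl hki hX hsg0 hsg hw hD0 hV0 hD1 hD2 hD3 hy hAng hAng0 hc hwall h1b h2a
  rcases lt_or_ge (pI + pJ) (40163/200000) with h3a | h3b
  · exact final5_A_sym_c3 hFL hF hτ htl hti htj hkl hki hX hsg0 hsg hw hD0 hV0 hD1 hD2 hD3 hy hAng hAng0 hc hwall h2b h3a
  rcases lt_or_ge (pI + pJ) (128/625) with h4a | h4b
  · exact final5_A_sym_c4 hFL hF hτ htl hti htj hkl hki hX hsg0 hsg hw hD0 hV0 hD1 hD2 hD3 hy hAng hAng0 hc hwall h3b h4a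
  rcases lt_or_ge sg (1/100) with s0a | s0b
  · exact final5_A_sym_t0 hFL hF hτ htl hti htj hkl hki hX hsg0 hsg hw hD0 hV0 hD1 hD2 hD3 hy hAng hAng0 hc hwall h4b hsg0 s0a
  rcases lt_or_ge sg (1/50) with s1a | s1b
  · exact final5_A_sym_t1 hFL hF hτ htl hti htj hkl hki hX hsg0 hsg hw hD0 hV0 hD1 hD2 hD3 hy hAng hAng0 hc hwall h4b s0b s1a
  rcases lt_or_ge sg (3/100) with s2a | s2b
  · exact final5_A_sym_t2 hFL hF hτ htl hti htj hkl hki hX hsg0 hsg hw hD0 hV0 hD1 hD2 hD3 hy hAng hAng0 hc hwall h4b s1b s2a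
  exact final5_A_sym_t3 hFL hF hτ htl hti htj hkl hki hX hsg0 hsg hw hD0 hV0 hD1 hD2 hD3 hy hAng hAng0 hc hwall h4b s2b

theorem close5_C0_j3 {ι : Type*} [Fintype ι] [DecidableEq ι] {E : Type*} [NormedAddCommGroup E]
    [InnerProductSpace ℝ E] [FiniteDimensional ℝ E] [MeasurableSpace E] [BorelSpace E]
    {t : ι → E} {A : ι → Set E} (h : IsOptimal t A) (hneg : ∀ i j, i ≠ j → ⟪t i, t j⟫ < 0)
    (hd : ∀ i j, i ≠ j → t i ≠ t j)
    (hcard : √(2 * π) / (Fintype.card ι : ℝ) ≤ (250663/500000))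
    (a : ι → ℝ) {S : Finset ι} {F sg X : ℝ} (hF : (35809/100000) < F) (hX0 : 0 ≤ X) (hsg0 : 0 ≤ sg)
    (hsgr : sg ≤ (7969/10000) * X) (hw : ‖∑ m ∈ S, t m‖ ^ 2 ≤ sg)
    (hstar : ∑ m ∈ S, arctan (‖t m‖ / (4/25)) ≤ (15989/1000) * X)
    {l i j : ι} (hli : l ≠ i) (hlj : l ≠ j) (hij : i ≠ j) (hS' : ∀ m, m ∈ S ↔ m ≠ l ∧ m ≠ i ∧ m ≠ j)
    (hsi : ‖t i‖ ^ 2 + ⟪t i, ∑ m ∈ S, t m⟫ ≤ ‖t l‖ ^ 2 + ⟪t l, ∑ m ∈ S, t m⟫)
    (hsj : ‖t j‖ ^ 2 + ⟪t j, ∑ m ∈ S, t m⟫ ≤ ‖t l‖ ^ 2 + ⟪t l, ∑ m ∈ S, t m⟫)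
    (htl : (1/16) ≤ (3/5) * a l - ‖t l‖ ^ 2) (hti : (1/16) ≤ (3/5) * a i - ‖t i‖ ^ 2)
    (htj : (11801/200000) ≤ (3/5) * a j - ‖t j‖ ^ 2)
    (hkl : ‖t l‖ ^ 2 ≤ (63271/500000) + (13/10) * (((3/5) * a l - ‖t l‖ ^ 2) - (1/16)))
    (hki : ‖t i‖ ^ 2 ≤ (63271/500000) + (13/10) * (((3/5) * a i - ‖t i‖ ^ 2) - (1/16)))
    (hmi : (643621/12500000) ≤ ‖t i‖ ^ 2) (hmj : (643621/12500000) ≤ ‖t j‖ ^ 2)
    (hMi : ‖t i‖ ^ 2 ≤ (3979/25000)) (hMj : ‖t j‖ ^ 2 ≤ (3979/25000)) (hp3 : ‖t j‖ ^ 2 ≤ (29569/500000)) 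
    (hFF : ‖t l‖ ^ 2 + ‖t i‖ ^ 2 + ‖t j‖ ^ 2 + sg = F)
    (hTT' : ((3/5) * a l - ‖t l‖ ^ 2) + ((3/5) * a i - ‖t i‖ ^ 2) + ((3/5) * a j - ‖t j‖ ^ 2) + X = (3/5) - F) :
    False := by
  obtain ⟨V, D, hV, hD, hD1, hD2, hD3, hy, hwall⟩ :=
    h.pair_numbers hneg hd hli hlj hij S hS' hsi hsj (by linarith only [hMi, hmj]) (by linarith only [hMj, hmi])
  refine final5_C0_j3 (pL := ‖t l‖ ^ 2) (pI := ‖t i‖ ^ 2) (pJ := ‖t j‖ ^ 2)
    (tL := (3/5) * a l - ‖t l‖ ^ 2) (tI := (3/5) * a i - ‖t i‖ ^ 2) (tJ := (3/5) * a j - ‖t j‖ ^ 2)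
    (X := X) (sg := sg) (w := ‖∑ m ∈ S, t m‖ ^ 2) (F := F) (D := D) (V := V)
    (AngV := ∑ m ∈ S, arctan (‖t m‖ / V)) (c := √(2 * π) / (Fintype.card ι : ℝ))
    hF hFF hTT' htl hti htj hkl hki hX0 hsg0 hsgr hw hD hV hD1 hD2 hD3 hy hp3
    (fun V1 h1 h2 h4 => ang_le (x := fun m => ‖t m‖) (fun m => norm_nonneg _) h1 h2 h4 hstar)
    (Finset.sum_nonneg (fun m _ => Real.arctan_nonneg.mpr (by positivity))) hcard
    (fun τ h5 h6 h7 => ?_)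
  have h8 := hwall τ h5 h6 h7
  have e : √(2 * π) * D / (Fintype.card ι : ℝ) = √(2 * π) / (Fintype.card ι : ℝ) * D := by ring
  rw [e] at h8
  exact h8

theorem close5_C1_j3 {ι : Type*} [Fintype ι] [DecidableEq ι] {E : Type*} [NormedAddCommGroup E]
    [InnerProductSpace ℝ E] [FiniteDimensional ℝ E] [MeasurableSpace E] [BorelSpace E]
    {t : ι → E} {A : ι → Set E} (h : IsOptimal t A) (hneg : ∀ i j, i ≠ j → ⟪t i, t j⟫ < 0)
    (hd : ∀ i j, i ≠ j → t i ≠ t j)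
    (hcard : √(2 * π) / (Fintype.card ι : ℝ) ≤ (250663/500000))
    (a : ι → ℝ) {S : Finset ι} {F sg X : ℝ} (hF : (35809/100000) < F) (hX0 : 0 ≤ X) (hsg0 : 0 ≤ sg)
    (hsgr : sg ≤ (3501/5000) * X) (hw : ‖∑ m ∈ S, t m‖ ^ 2 ≤ sg)
    (hstar : ∑ m ∈ S, arctan (‖t m‖ / (4/25)) ≤ (15989/1000) * X)
    {l i j : ι} (hli : l ≠ i) (hlj : l ≠ j) (hij : i ≠ j) (hS' : ∀ m, m ∈ S ↔ m ≠ l ∧ m ≠ i ∧ m ≠ j)
    (hsi : ‖t i‖ ^ 2 + ⟪t i, ∑ m ∈ S, t m⟫ ≤ ‖t l‖ ^ 2 + ⟪t l, ∑ m ∈ S, t m⟫)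
    (hsj : ‖t j‖ ^ 2 + ⟪t j, ∑ m ∈ S, t m⟫ ≤ ‖t l‖ ^ 2 + ⟪t l, ∑ m ∈ S, t m⟫)
    (htl : (1/16) ≤ (3/5) * a l - ‖t l‖ ^ 2) (hti : (1/16) ≤ (3/5) * a i - ‖t i‖ ^ 2)
    (htj : (60861/1000000) ≤ (3/5) * a j - ‖t j‖ ^ 2)
    (hkl : ‖t l‖ ^ 2 ≤ (63271/500000) + (13/10) * (((3/5) * a l - ‖t l‖ ^ 2) - (1/16)))
    (hki : ‖t i‖ ^ 2 ≤ (63271/500000) + (13/10) * (((3/5) * a i - ‖t i‖ ^ 2) - (1/16)))
    (hmi : (144941/2500000) ≤ ‖t i‖ ^ 2) (hmj : (144941/2500000) ≤ ‖t j‖ ^ 2)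
    (hMi : ‖t i‖ ^ 2 ≤ (3979/25000)) (hMj : ‖t j‖ ^ 2 ≤ (3979/25000)) (hp3 : ‖t j‖ ^ 2 ≤ (75499/1000000)) 
    (hFF : ‖t l‖ ^ 2 + ‖t i‖ ^ 2 + ‖t j‖ ^ 2 + sg = F)
    (hTT' : ((3/5) * a l - ‖t l‖ ^ 2) + ((3/5) * a i - ‖t i‖ ^ 2) + ((3/5) * a j - ‖t j‖ ^ 2) + X = (3/5) - F) :
    False := by
  obtain ⟨V, D, hV, hD, hD1, hD2, hD3, hy, hwall⟩ :=
    h.pair_numbers hneg hd hli hlj hij S hS' hsi hsj (by linarith only [hMi, hmj]) (by linarith only [hMj, hmi])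
  refine final5_C1_j3 (pL := ‖t l‖ ^ 2) (pI := ‖t i‖ ^ 2) (pJ := ‖t j‖ ^ 2)
    (tL := (3/5) * a l - ‖t l‖ ^ 2) (tI := (3/5) * a i - ‖t i‖ ^ 2) (tJ := (3/5) * a j - ‖t j‖ ^ 2)
    (X := X) (sg := sg) (w := ‖∑ m ∈ S, t m‖ ^ 2) (F := F) (D := D) (V := V)
    (AngV := ∑ m ∈ S, arctan (‖t m‖ / V)) (c := √(2 * π) / (Fintype.card ι : ℝ))
    hF hFF hTT' htl hti htj hkl hki hX0 hsg0 hsgr hw hD hV hD1 hD2 hD3 hy hp3
    (fun V1 h1 h2 h4 => ang_le (x := fun m => ‖t m‖) (fun m => norm_nonneg _) h1 h2 h4 hstar)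
    (Finset.sum_nonneg (fun m _ => Real.arctan_nonneg.mpr (by positivity))) hcard
    (fun τ h5 h6 h7 => ?_)
  have h8 := hwall τ h5 h6 h7
  have e : √(2 * π) * D / (Fintype.card ι : ℝ) = √(2 * π) / (Fintype.card ι : ℝ) * D := by ring
  rw [e] at h8
  exact h8

theorem close5_A_sym {ι : Type*} [Fintype ι] [DecidableEq ι] {E : Type*} [NormedAddCommGroup E]
    [InnerProductSpace ℝ E] [FiniteDimensional ℝ E] [MeasurableSpace E] [BorelSpace E]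
    {t : ι → E} {A : ι → Set E} (h : IsOptimal t A) (hneg : ∀ i j, i ≠ j → ⟪t i, t j⟫ < 0)
    (hd : ∀ i j, i ≠ j → t i ≠ t j)
    (hcard : √(2 * π) / (Fintype.card ι : ℝ) ≤ (250663/500000))
    (a : ι → ℝ) {S : Finset ι} {F sg X : ℝ} (hF : (35809/100000) < F) (hX0 : 0 ≤ X) (hsg0 : 0 ≤ sg)
    (hsgr : sg ≤ (6437/10000) * X) (hw : ‖∑ m ∈ S, t m‖ ^ 2 ≤ sg)
    (hstar : ∑ m ∈ S, arctan (‖t m‖ / (4/25)) ≤ (15989/1000) * X)
    {l i j : ι} (hli : l ≠ i) (hlj : l ≠ j) (hij : i ≠ j) (hS' : ∀ m, m ∈ S ↔ m ≠ l ∧ m ≠ i ∧ m ≠ j)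
    (hsi : ‖t i‖ ^ 2 + ⟪t i, ∑ m ∈ S, t m⟫ ≤ ‖t l‖ ^ 2 + ⟪t l, ∑ m ∈ S, t m⟫)
    (hsj : ‖t j‖ ^ 2 + ⟪t j, ∑ m ∈ S, t m⟫ ≤ ‖t l‖ ^ 2 + ⟪t l, ∑ m ∈ S, t m⟫)
    (htl : (1/16) ≤ (3/5) * a l - ‖t l‖ ^ 2) (hti : (1/16) ≤ (3/5) * a i - ‖t i‖ ^ 2)
    (htj : (1/16) ≤ (3/5) * a j - ‖t j‖ ^ 2)
    (hkl : ‖t l‖ ^ 2 ≤ (63271/500000) + (13/10) * (((3/5) * a l - ‖t l‖ ^ 2) - (1/16)))
    (hki : ‖t i‖ ^ 2 ≤ (63271/500000) + (13/10) * (((3/5) * a i - ‖t i‖ ^ 2) - (1/16)))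
    (hmi : (6568803/100000000) ≤ ‖t i‖ ^ 2) (hmj : (6568803/100000000) ≤ ‖t j‖ ^ 2)
    (hMi : ‖t i‖ ^ 2 ≤ (3979/25000)) (hMj : ‖t j‖ ^ 2 ≤ (3979/25000)) 
    (hFF : ‖t l‖ ^ 2 + ‖t i‖ ^ 2 + ‖t j‖ ^ 2 + sg = F)
    (hTT' : ((3/5) * a l - ‖t l‖ ^ 2) + ((3/5) * a i - ‖t i‖ ^ 2) + ((3/5) * a j - ‖t j‖ ^ 2) + X = (3/5) - F) :
    False := by
  obtain ⟨V, D, hV, hD, hD1, hD2, hD3, hy, hwall⟩ :=
    h.pair_numbers hneg hd hli hlj hij S hS' hsi hsj (by linarith only [hMi, hmj]) (by linarith only [hMj, hmi])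
  refine final5_A_sym (pL := ‖t l‖ ^ 2) (pI := ‖t i‖ ^ 2) (pJ := ‖t j‖ ^ 2)
    (tL := (3/5) * a l - ‖t l‖ ^ 2) (tI := (3/5) * a i - ‖t i‖ ^ 2) (tJ := (3/5) * a j - ‖t j‖ ^ 2)
    (X := X) (sg := sg) (w := ‖∑ m ∈ S, t m‖ ^ 2) (F := F) (D := D) (V := V)
    (AngV := ∑ m ∈ S, arctan (‖t m‖ / V)) (c := √(2 * π) / (Fintype.card ι : ℝ))
    hF hFF hTT' htl hti htj hkl hki hX0 hsg0 hsgr hw hD hV hD1 hD2 hD3 hy
    (fun V1 h1 h2 h4 => ang_le (x := fun m => ‖t m‖) (fun m => norm_nonneg _) h1 h2 h4 hstar)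
    (Finset.sum_nonneg (fun m _ => Real.arctan_nonneg.mpr (by positivity))) hcard
    (fun τ h5 h6 h7 => ?_)
  have h8 := hwall τ h5 h6 h7
  have e : √(2 * π) * D / (Fintype.card ι : ℝ) = √(2 * π) / (Fintype.card ι : ℝ) * D := by ring
  rw [e] at h8
  exact h8

theorem case5_C0 {ι : Type*} [Fintype ι] [DecidableEq ι] {E : Type*} [NormedAddCommGroup E]
    [InnerProductSpace ℝ E] [FiniteDimensional ℝ E] [MeasurableSpace E] [BorelSpace E]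
    {t : ι → E} {A : ι → Set E} (h : IsOptimal t A) (hneg : ∀ i j, i ≠ j → ⟪t i, t j⟫ < 0)
    (hd : ∀ i j, i ≠ j → t i ≠ t j)
    (hcard : √(2 * π) / (Fintype.card ι : ℝ) ≤ (250663/500000))
    (a : ι → ℝ) (hcell : ∀ m, Cell5 (a m) (‖t m‖ ^ 2))
    {i₁ i₂ i₃ : ι} (h12 : i₁ ≠ i₂) (h13 : i₁ ≠ i₃) (h23 : i₂ ≠ i₃)
    {S : Finset ι} (hS : ∀ m, m ∈ S ↔ m ≠ i₁ ∧ m ≠ i₂ ∧ m ≠ i₃)
    {F sg aS X : ℝ} (hF : (35809/100000) < F)
    (hsgdef : sg = ∑ m ∈ S, ‖t m‖ ^ 2) (haSdef : aS = ∑ m ∈ S, a m)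
    (hXdef : X = ∑ m ∈ S, ((3/5) * a m - ‖t m‖ ^ 2)) (hXeq : X = (3/5) * aS - sg)
    (hsplitp : F = ‖t i₁‖ ^ 2 + ‖t i₂‖ ^ 2 + ‖t i₃‖ ^ 2 + sg) (hsplita : 1 = a i₁ + a i₂ + a i₃ + aS)
    (hX0 : 0 ≤ X) (hτX : ∀ m ∈ S, (3/5) * a m - ‖t m‖ ^ 2 ≤ X) (hsg0 : 0 ≤ sg)
    (hw : ‖∑ m ∈ S, t m‖ ^ 2 ≤ sg) (hSord : ∀ m ∈ S, a m ≤ a i₃)
    (hz1 : (23/100) ≤ a i₁) (hz2 : (23/100) ≤ a i₂) (hzl : (9/50) ≤ a i₃) (hzu : a i₃ ≤ (1/5)) : False := by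
  have hτ3 : (11801/200000) ≤ (3/5) * a i₃ - ‖t i₃‖ ^ 2 := by
    have := line5_Tz0 (hcell i₃) hzl hzu
    linarith only [this]
  have hp33 : ‖t i₃‖ ^ 2 ≤ (29569/500000) := line5_p30 (hcell i₃) hzl hzu
  have hτ1 : (1/16) ≤ (3/5) * a i₁ - ‖t i₁‖ ^ 2 := by
    have := line5_mu (hcell i₁) hz1
    linarith only [this]
  have hτ2 : (1/16) ≤ (3/5) * a i₂ - ‖t i₂‖ ^ 2 := by
    have := line5_mu (hcell i₂) hz2
    linarith only [this]
  have hTT : ((3/5) * a i₁ - ‖t i₁‖ ^ 2) + ((3/5) * a i₂ - ‖t i₂‖ ^ 2) + ((3/5) * a i₃ - ‖t i₃‖ ^ 2) + X = (3/5) - F := by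
    rw [hXeq]
    linarith only [hsplitp, hsplita]
  have hXX : X ≤ (11581/200000) := by linarith only [hτ1, hτ2, hτ3, hTT, hF]
  have hSA : ∀ m ∈ S, a m ≤ (7/40) := fun m hm => by
    by_contra hcon
    push Not at hcon
    have h5 := line5_Am0 (hcell m) hcon.le ((hSord m hm).trans hzu)
    have h6 := hτX m hm
    linarith only [h5, h6, hXX]
  have hsgr : sg ≤ (7969/10000) * X := by
    rw [hsgdef, hXdef, Finset.mul_sum]
    refine Finset.sum_le_sum (fun m hm => ?_)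
    have := line5_r20 (hcell m) (hSA m hm)
    linarith only [this]
  have hsgl : sg ≤ (66519/250000) * aS := by
    rw [hsgdef, haSdef, Finset.mul_sum]
    refine Finset.sum_le_sum (fun m hm => ?_)
    exact line5_lowh0 (hcell m) (hSA m hm)
  have hlow1 : (643621/12500000) ≤ ‖t i₁‖ ^ 2 := by
    have h5 := line5_lowo0 (hcell i₂)
    have h6 := line5_lowo0 (hcell i₃)
    have h7 : (9/50) ≤ a i₁ := by linarith only [hz1]
    linarith only [h5, h6, h7, hsgl, hsplitp, hsplita, hF]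
  have hlow2 : (643621/12500000) ≤ ‖t i₂‖ ^ 2 := by
    have h5 := line5_lowo0 (hcell i₁)
    have h6 := line5_lowo0 (hcell i₃)
    have h7 : (9/50) ≤ a i₂ := by linarith only [hz2]
    linarith only [h5, h6, h7, hsgl, hsplitp, hsplita, hF]
  have hlow3 : (643621/12500000) ≤ ‖t i₃‖ ^ 2 := by
    have h5 := line5_lowo0 (hcell i₁)
    have h6 := line5_lowo0 (hcell i₂)
    have h7 : (9/50) ≤ a i₃ := by linarith only [hzl]
    linarith only [h5, h6, h7, hsgl, hsplitp, hsplita, hF]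
  have hmax1 : ‖t i₁‖ ^ 2 ≤ (3979/25000) := line5_pmax (hcell i₁)
  have hmax2 : ‖t i₂‖ ^ 2 ≤ (3979/25000) := line5_pmax (hcell i₂)
  have hmax3 : ‖t i₃‖ ^ 2 ≤ (3979/25000) := line5_pmax (hcell i₃)
  have hk1 : ‖t i₁‖ ^ 2 ≤ (63271/500000) + (13/10) * (((3/5) * a i₁ - ‖t i₁‖ ^ 2) - (1/16)) := by
    have := line5_kink (hcell i₁)
    linarith only [this]
  have hk2 : ‖t i₂‖ ^ 2 ≤ (63271/500000) + (13/10) * (((3/5) * a i₂ - ‖t i₂‖ ^ 2) - (1/16)) := by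
    have := line5_kink (hcell i₂)
    linarith only [this]
  have hk3 : ‖t i₃‖ ^ 2 ≤ (63271/500000) + (13/10) * (((3/5) * a i₃ - ‖t i₃‖ ^ 2) - (1/16)) := by
    have := line5_kink (hcell i₃)
    linarith only [this]
  have hstar : ∑ m ∈ S, arctan (‖t m‖ / (4/25)) ≤ (15989/1000) * X := by
    rw [hXdef, Finset.mul_sum]
    refine Finset.sum_le_sum (fun m hm => ?_)
    exact star5 (hcell m) (norm_nonneg _) ((hSA m hm).trans (by norm_num))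
  have hS2 : ∀ m, m ∈ S ↔ m ≠ i₂ ∧ m ≠ i₁ ∧ m ≠ i₃ := fun m => by
    rw [hS m]
    tauto
  have hS3 : ∀ m, m ∈ S ↔ m ≠ i₃ ∧ m ≠ i₁ ∧ m ≠ i₂ := fun m => by
    rw [hS m]
    tauto
  rcases exists_selection (fun m => ‖t m‖ ^ 2 + ⟪t m, ∑ s ∈ S, t s⟫) i₁ i₂ i₃ with ⟨q1, q2⟩ | ⟨q1, q2⟩ | ⟨q1, q2⟩
  · exact close5_C0_j3 h hneg hd hcard a hF hX0 hsg0 hsgr hw hstar h12 h13 h23 hS q1 q2 hτ1 hτ2 hτ3 hk1 hk2 hlow2 hlow3 hmax2 hmax3 hp33 (by linarith only [hsplitp]) (by linarith only [hTT])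
  · exact close5_C0_j3 h hneg hd hcard a hF hX0 hsg0 hsgr hw hstar h12.symm h23 h13 hS2 q1 q2 hτ2 hτ1 hτ3 hk2 hk1 hlow1 hlow3 hmax1 hmax3 hp33 (by linarith only [hsplitp]) (by linarith only [hTT])
  · have hn3 : ⟪t i₃, ∑ m ∈ S, t m⟫ ≤ 0 := IsOptimal.inner_sum_nonpos hneg (fun hm => ((hS i₃).mp hm).2.2 rfl)
    have hwe := IsOptimal.norm_sum_eq h h12 h13 h23 S hS
    linarith only [q1, q2, hn3, hwe, hw, hp33, hsgr, hXX, hF, hsplitp]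

theorem case5_C1 {ι : Type*} [Fintype ι] [DecidableEq ι] {E : Type*} [NormedAddCommGroup E]
    [InnerProductSpace ℝ E] [FiniteDimensional ℝ E] [MeasurableSpace E] [BorelSpace E]
    {t : ι → E} {A : ι → Set E} (h : IsOptimal t A) (hneg : ∀ i j, i ≠ j → ⟪t i, t j⟫ < 0)
    (hd : ∀ i j, i ≠ j → t i ≠ t j)
    (hcard : √(2 * π) / (Fintype.card ι : ℝ) ≤ (250663/500000))
    (a : ι → ℝ) (hcell : ∀ m, Cell5 (a m) (‖t m‖ ^ 2))
    {i₁ i₂ i₃ : ι} (h12 : i₁ ≠ i₂) (h13 : i₁ ≠ i₃) (h23 : i₂ ≠ i₃)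
    {S : Finset ι} (hS : ∀ m, m ∈ S ↔ m ≠ i₁ ∧ m ≠ i₂ ∧ m ≠ i₃)
    {F sg aS X : ℝ} (hF : (35809/100000) < F)
    (hsgdef : sg = ∑ m ∈ S, ‖t m‖ ^ 2) (haSdef : aS = ∑ m ∈ S, a m)
    (hXdef : X = ∑ m ∈ S, ((3/5) * a m - ‖t m‖ ^ 2)) (hXeq : X = (3/5) * aS - sg)
    (hsplitp : F = ‖t i₁‖ ^ 2 + ‖t i₂‖ ^ 2 + ‖t i₃‖ ^ 2 + sg) (hsplita : 1 = a i₁ + a i₂ + a i₃ + aS)
    (hX0 : 0 ≤ X) (hτX : ∀ m ∈ S, (3/5) * a m - ‖t m‖ ^ 2 ≤ X) (hsg0 : 0 ≤ sg)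
    (hw : ‖∑ m ∈ S, t m‖ ^ 2 ≤ sg) (hSord : ∀ m ∈ S, a m ≤ a i₃)
    (hz1 : (23/100) ≤ a i₁) (hz2 : (23/100) ≤ a i₂) (hzl : (1/5) ≤ a i₃) (hzu : a i₃ ≤ (23/100)) : False := by
  have hτ3 : (60861/1000000) ≤ (3/5) * a i₃ - ‖t i₃‖ ^ 2 := by
    have := line5_Tz1 (hcell i₃) hzl hzu
    linarith only [this]
  have hp33 : ‖t i₃‖ ^ 2 ≤ (75499/1000000) := line5_p31 (hcell i₃) hzl hzu
  have hτ1 : (1/16) ≤ (3/5) * a i₁ - ‖t i₁‖ ^ 2 := by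
    have := line5_mu (hcell i₁) hz1
    linarith only [this]
  have hτ2 : (1/16) ≤ (3/5) * a i₂ - ‖t i₂‖ ^ 2 := by
    have := line5_mu (hcell i₂) hz2
    linarith only [this]
  have hTT : ((3/5) * a i₁ - ‖t i₁‖ ^ 2) + ((3/5) * a i₂ - ‖t i₂‖ ^ 2) + ((3/5) * a i₃ - ‖t i₃‖ ^ 2) + X = (3/5) - F := by
    rw [hXeq]
    linarith only [hsplitp, hsplita]
  have hXX : X ≤ (56049/1000000) := by linarith only [hτ1, hτ2, hτ3, hTT, hF]
  have hSA : ∀ m ∈ S, a m ≤ (4/25) := fun m hm => by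
    by_contra hcon
    push Not at hcon
    have h5 := line5_Am1 (hcell m) hcon.le ((hSord m hm).trans hzu)
    have h6 := hτX m hm
    linarith only [h5, h6, hXX]
  have hsgr : sg ≤ (3501/5000) * X := by
    rw [hsgdef, hXdef, Finset.mul_sum]
    refine Finset.sum_le_sum (fun m hm => ?_)
    have := line5_r21 (hcell m) (hSA m hm)
    linarith only [this]
  have hsgl : sg ≤ (61773/250000) * aS := by
    rw [hsgdef, haSdef, Finset.mul_sum]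
    refine Finset.sum_le_sum (fun m hm => ?_)
    exact line5_lowh1 (hcell m) (hSA m hm)
  have hlow1 : (144941/2500000) ≤ ‖t i₁‖ ^ 2 := by
    have h5 := line5_lowo1 (hcell i₂)
    have h6 := line5_lowo1 (hcell i₃)
    have h7 : (1/5) ≤ a i₁ := by linarith only [hz1]
    linarith only [h5, h6, h7, hsgl, hsplitp, hsplita, hF]
  have hlow2 : (144941/2500000) ≤ ‖t i₂‖ ^ 2 := by
    have h5 := line5_lowo1 (hcell i₁)
    have h6 := line5_lowo1 (hcell i₃)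
    have h7 : (1/5) ≤ a i₂ := by linarith only [hz2]
    linarith only [h5, h6, h7, hsgl, hsplitp, hsplita, hF]
  have hlow3 : (144941/2500000) ≤ ‖t i₃‖ ^ 2 := by
    have h5 := line5_lowo1 (hcell i₁)
    have h6 := line5_lowo1 (hcell i₂)
    have h7 : (1/5) ≤ a i₃ := by linarith only [hzl]
    linarith only [h5, h6, h7, hsgl, hsplitp, hsplita, hF]
  have hmax1 : ‖t i₁‖ ^ 2 ≤ (3979/25000) := line5_pmax (hcell i₁)
  have hmax2 : ‖t i₂‖ ^ 2 ≤ (3979/25000) := line5_pmax (hcell i₂)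
  have hmax3 : ‖t i₃‖ ^ 2 ≤ (3979/25000) := line5_pmax (hcell i₃)
  have hk1 : ‖t i₁‖ ^ 2 ≤ (63271/500000) + (13/10) * (((3/5) * a i₁ - ‖t i₁‖ ^ 2) - (1/16)) := by
    have := line5_kink (hcell i₁)
    linarith only [this]
  have hk2 : ‖t i₂‖ ^ 2 ≤ (63271/500000) + (13/10) * (((3/5) * a i₂ - ‖t i₂‖ ^ 2) - (1/16)) := by
    have := line5_kink (hcell i₂)
    linarith only [this]
  have hk3 : ‖t i₃‖ ^ 2 ≤ (63271/500000) + (13/10) * (((3/5) * a i₃ - ‖t i₃‖ ^ 2) - (1/16)) := by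
    have := line5_kink (hcell i₃)
    linarith only [this]
  have hstar : ∑ m ∈ S, arctan (‖t m‖ / (4/25)) ≤ (15989/1000) * X := by
    rw [hXdef, Finset.mul_sum]
    refine Finset.sum_le_sum (fun m hm => ?_)
    exact star5 (hcell m) (norm_nonneg _) ((hSA m hm).trans (by norm_num))
  have hS2 : ∀ m, m ∈ S ↔ m ≠ i₂ ∧ m ≠ i₁ ∧ m ≠ i₃ := fun m => by
    rw [hS m]
    tauto
  have hS3 : ∀ m, m ∈ S ↔ m ≠ i₃ ∧ m ≠ i₁ ∧ m ≠ i₂ := fun m => by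
    rw [hS m]
    tauto
  rcases exists_selection (fun m => ‖t m‖ ^ 2 + ⟪t m, ∑ s ∈ S, t s⟫) i₁ i₂ i₃ with ⟨q1, q2⟩ | ⟨q1, q2⟩ | ⟨q1, q2⟩
  · exact close5_C1_j3 h hneg hd hcard a hF hX0 hsg0 hsgr hw hstar h12 h13 h23 hS q1 q2 hτ1 hτ2 hτ3 hk1 hk2 hlow2 hlow3 hmax2 hmax3 hp33 (by linarith only [hsplitp]) (by linarith only [hTT])
  · exact close5_C1_j3 h hneg hd hcard a hF hX0 hsg0 hsgr hw hstar h12.symm h23 h13 hS2 q1 q2 hτ2 hτ1 hτ3 hk2 hk1 hlow1 hlow3 hmax1 hmax3 hp33 (by linarith only [hsplitp]) (by linarith only [hTT])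
  · have hn3 : ⟪t i₃, ∑ m ∈ S, t m⟫ ≤ 0 := IsOptimal.inner_sum_nonpos hneg (fun hm => ((hS i₃).mp hm).2.2 rfl)
    have hwe := IsOptimal.norm_sum_eq h h12 h13 h23 S hS
    linarith only [q1, q2, hn3, hwe, hw, hp33, hsgr, hXX, hF, hsplitp]

theorem case5_A {ι : Type*} [Fintype ι] [DecidableEq ι] {E : Type*} [NormedAddCommGroup E]
    [InnerProductSpace ℝ E] [FiniteDimensional ℝ E] [MeasurableSpace E] [BorelSpace E]
    {t : ι → E} {A : ι → Set E} (h : IsOptimal t A) (hneg : ∀ i j, i ≠ j → ⟪t i, t j⟫ < 0)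
    (hd : ∀ i j, i ≠ j → t i ≠ t j)
    (hcard : √(2 * π) / (Fintype.card ι : ℝ) ≤ (250663/500000))
    (a : ι → ℝ) (hcell : ∀ m, Cell5 (a m) (‖t m‖ ^ 2))
    {i₁ i₂ i₃ : ι} (h12 : i₁ ≠ i₂) (h13 : i₁ ≠ i₃) (h23 : i₂ ≠ i₃)
    {S : Finset ι} (hS : ∀ m, m ∈ S ↔ m ≠ i₁ ∧ m ≠ i₂ ∧ m ≠ i₃)
    {F sg aS X : ℝ} (hF : (35809/100000) < F)
    (hsgdef : sg = ∑ m ∈ S, ‖t m‖ ^ 2) (haSdef : aS = ∑ m ∈ S, a m)
    (hXdef : X = ∑ m ∈ S, ((3/5) * a m - ‖t m‖ ^ 2)) (hXeq : X = (3/5) * aS - sg)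
    (hsplitp : F = ‖t i₁‖ ^ 2 + ‖t i₂‖ ^ 2 + ‖t i₃‖ ^ 2 + sg) (hsplita : 1 = a i₁ + a i₂ + a i₃ + aS)
    (hX0 : 0 ≤ X) (hτX : ∀ m ∈ S, (3/5) * a m - ‖t m‖ ^ 2 ≤ X) (hsg0 : 0 ≤ sg)
    (hw : ‖∑ m ∈ S, t m‖ ^ 2 ≤ sg) (hSord : ∀ m ∈ S, a m ≤ a i₃)
    (hz1 : (23/100) ≤ a i₁) (hz2 : (23/100) ≤ a i₂) (hzl : (23/100) ≤ a i₃) : False := by
  have hτ3 : (1/16) ≤ (3/5) * a i₃ - ‖t i₃‖ ^ 2 := by
    have := line5_mu (hcell i₃) hzl
    linarith only [this]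
  have hτ1 : (1/16) ≤ (3/5) * a i₁ - ‖t i₁‖ ^ 2 := by
    have := line5_mu (hcell i₁) hz1
    linarith only [this]
  have hτ2 : (1/16) ≤ (3/5) * a i₂ - ‖t i₂‖ ^ 2 := by
    have := line5_mu (hcell i₂) hz2
    linarith only [this]
  have hTT : ((3/5) * a i₁ - ‖t i₁‖ ^ 2) + ((3/5) * a i₂ - ‖t i₂‖ ^ 2) + ((3/5) * a i₃ - ‖t i₃‖ ^ 2) + X = (3/5) - F := by
    rw [hXeq]
    linarith only [hsplitp, hsplita]
  have hXX : X ≤ (5441/100000) := by linarith only [hτ1, hτ2, hτ3, hTT, hF]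
  have hSA : ∀ m ∈ S, a m ≤ (3/20) := fun m hm => by
    by_contra hcon
    push Not at hcon
    have h5 := line5_Am2 (hcell m) hcon.le
    have h6 := hτX m hm
    linarith only [h5, h6, hXX]
  have hsgr : sg ≤ (6437/10000) * X := by
    rw [hsgdef, hXdef, Finset.mul_sum]
    refine Finset.sum_le_sum (fun m hm => ?_)
    have := line5_r22 (hcell m) (hSA m hm)
    linarith only [this]
  have hsgl : sg ≤ (234961/1000000) * aS := by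
    rw [hsgdef, haSdef, Finset.mul_sum]
    refine Finset.sum_le_sum (fun m hm => ?_)
    exact line5_lowh2 (hcell m) (hSA m hm)
  have hlow1 : (6568803/100000000) ≤ ‖t i₁‖ ^ 2 := by
    have h5 := line5_lowo2 (hcell i₂)
    have h6 := line5_lowo2 (hcell i₃)
    have h7 : (23/100) ≤ a i₁ := by linarith only [hz1]
    linarith only [h5, h6, h7, hsgl, hsplitp, hsplita, hF]
  have hlow2 : (6568803/100000000) ≤ ‖t i₂‖ ^ 2 := by
    have h5 := line5_lowo2 (hcell i₁)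
    have h6 := line5_lowo2 (hcell i₃)
    have h7 : (23/100) ≤ a i₂ := by linarith only [hz2]
    linarith only [h5, h6, h7, hsgl, hsplitp, hsplita, hF]
  have hlow3 : (6568803/100000000) ≤ ‖t i₃‖ ^ 2 := by
    have h5 := line5_lowo2 (hcell i₁)
    have h6 := line5_lowo2 (hcell i₂)
    have h7 : (23/100) ≤ a i₃ := by linarith only [hzl]
    linarith only [h5, h6, h7, hsgl, hsplitp, hsplita, hF]
  have hmax1 : ‖t i₁‖ ^ 2 ≤ (3979/25000) := line5_pmax (hcell i₁)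
  have hmax2 : ‖t i₂‖ ^ 2 ≤ (3979/25000) := line5_pmax (hcell i₂)
  have hmax3 : ‖t i₃‖ ^ 2 ≤ (3979/25000) := line5_pmax (hcell i₃)
  have hk1 : ‖t i₁‖ ^ 2 ≤ (63271/500000) + (13/10) * (((3/5) * a i₁ - ‖t i₁‖ ^ 2) - (1/16)) := by
    have := line5_kink (hcell i₁)
    linarith only [this]
  have hk2 : ‖t i₂‖ ^ 2 ≤ (63271/500000) + (13/10) * (((3/5) * a i₂ - ‖t i₂‖ ^ 2) - (1/16)) := by
    have := line5_kink (hcell i₂)
    linarith only [this]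
  have hk3 : ‖t i₃‖ ^ 2 ≤ (63271/500000) + (13/10) * (((3/5) * a i₃ - ‖t i₃‖ ^ 2) - (1/16)) := by
    have := line5_kink (hcell i₃)
    linarith only [this]
  have hstar : ∑ m ∈ S, arctan (‖t m‖ / (4/25)) ≤ (15989/1000) * X := by
    rw [hXdef, Finset.mul_sum]
    refine Finset.sum_le_sum (fun m hm => ?_)
    exact star5 (hcell m) (norm_nonneg _) ((hSA m hm).trans (by norm_num))
  have hS2 : ∀ m, m ∈ S ↔ m ≠ i₂ ∧ m ≠ i₁ ∧ m ≠ i₃ := fun m => by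
    rw [hS m]
    tauto
  have hS3 : ∀ m, m ∈ S ↔ m ≠ i₃ ∧ m ≠ i₁ ∧ m ≠ i₂ := fun m => by
    rw [hS m]
    tauto
  rcases exists_selection (fun m => ‖t m‖ ^ 2 + ⟪t m, ∑ s ∈ S, t s⟫) i₁ i₂ i₃ with ⟨q1, q2⟩ | ⟨q1, q2⟩ | ⟨q1, q2⟩
  · exact close5_A_sym h hneg hd hcard a hF hX0 hsg0 hsgr hw hstar h12 h13 h23 hS q1 q2 hτ1 hτ2 hτ3 hk1 hk2 hlow2 hlow3 hmax2 hmax3 (by linarith only [hsplitp]) (by linarith only [hTT])
  · exact close5_A_sym h hneg hd hcard a hF hX0 hsg0 hsgr hw hstar h12.symm h23 h13 hS2 q1 q2 hτ2 hτ1 hτ3 hk2 hk1 hlow1 hlow3 hmax1 hmax3 (by linarith only [hsplitp]) (by linarith only [hTT])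
  · exact close5_A_sym h hneg hd hcard a hF hX0 hsg0 hsgr hw hstar h13.symm h23.symm h12 hS3 q1 q2 hτ3 hτ1 hτ2 hk3 hk1 hlow1 hlow2 hmax1 hmax2 (by linarith only [hsplitp]) (by linarith only [hTT])

theorem chain5 {ι : Type*} [Fintype ι] [DecidableEq ι] {E : Type*} [NormedAddCommGroup E]
    [InnerProductSpace ℝ E] [FiniteDimensional ℝ E] [MeasurableSpace E] [BorelSpace E]
    {t : ι → E} {A : ι → Set E} (h : IsOptimal t A) (hneg : ∀ i j, i ≠ j → ⟪t i, t j⟫ < 0)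
    (hd : ∀ i j, i ≠ j → t i ≠ t j)
    (hcard : √(2 * π) / (Fintype.card ι : ℝ) ≤ (250663/500000)) (h3 : 3 ≤ Fintype.card ι)
    (a : ι → ℝ) (hsum : ∑ m, a m = 1)
    (hcell : ∀ m, Cell5 (a m) (‖t m‖ ^ 2))
    (hF : (35809/100000) < ∑ m, ‖t m‖ ^ 2) : False := by
  obtain ⟨i₁, i₂, i₃, h12, h13, h23, ha12, ha23, hord2, hord3⟩ := top_three a h3
  have hz2 : (23/100) ≤ a i₂ := second_ge (p := fun m => ‖t m‖ ^ 2) (z := (23/100)) (s := (5129/15625)) (b := (5781/250000))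
    (FL := (35809/100000)) hsum hord2 (fun m hm => line5_L2h (hcell m) hm) (line5_L2o (hcell i₁)) hF (by norm_num)
  have hz3 : (9/50) ≤ a i₃ := third_ge (p := fun m => ‖t m‖ ^ 2) (z := (9/50)) (s := (272187/1000000)) (b := (21023/500000))
    (FL := (35809/100000)) h12 hsum hord3 (fun m hm => line5_L3h (hcell m) hm) (line5_L3o (hcell i₁))
    (line5_L3o (hcell i₂)) hF (by norm_num)
  have hz1 : (23/100) ≤ a i₁ := hz2.trans ha12
  obtain ⟨S, hS⟩ : ∃ S : Finset ι, ∀ m, m ∈ S ↔ m ≠ i₁ ∧ m ≠ i₂ ∧ m ≠ i₃ :=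
    ⟨Finset.univ.filter (fun m => m ≠ i₁ ∧ m ≠ i₂ ∧ m ≠ i₃), fun m => by simp⟩
  have hsplitp := sum_split (fun m => ‖t m‖ ^ 2) h12 h13 h23 S hS
  have hsplita := sum_split a h12 h13 h23 S hS
  obtain ⟨F, hFdef⟩ : ∃ F, F = ∑ m, ‖t m‖ ^ 2 := ⟨_, rfl⟩
  obtain ⟨sg, hsgdef⟩ : ∃ sg, sg = ∑ m ∈ S, ‖t m‖ ^ 2 := ⟨_, rfl⟩
  obtain ⟨aS, haSdef⟩ : ∃ aS, aS = ∑ m ∈ S, a m := ⟨_, rfl⟩
  obtain ⟨X, hXdef⟩ : ∃ X, X = ∑ m ∈ S, ((3/5) * a m - ‖t m‖ ^ 2) := ⟨_, rfl⟩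
  have hXeq : X = (3/5) * aS - sg := by
    rw [hXdef, Finset.sum_sub_distrib, ← Finset.mul_sum, ← haSdef, ← hsgdef]
  rw [← hFdef, ← hsgdef] at hsplitp
  rw [hsum, ← haSdef] at hsplita
  rw [← hFdef] at hF
  have hτ0 : ∀ m, 0 ≤ (3/5) * a m - ‖t m‖ ^ 2 := fun m => by
    have := line5_T0 (hcell m)
    linarith only [this]
  have hX0 : 0 ≤ X := by
    rw [hXdef]
    exact Finset.sum_nonneg (fun m _ => hτ0 m)
  have hτX : ∀ m ∈ S, (3/5) * a m - ‖t m‖ ^ 2 ≤ X := fun m hm => by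
    rw [hXdef]
    exact Finset.single_le_sum (f := fun m => (3/5) * a m - ‖t m‖ ^ 2) (fun m _ => hτ0 m) hm
  have hsg0 : 0 ≤ sg := by
    rw [hsgdef]
    exact Finset.sum_nonneg (fun m _ => by positivity)
  have hw : ‖∑ m ∈ S, t m‖ ^ 2 ≤ sg := by
    rw [hsgdef]
    exact IsOptimal.norm_sum_sq_le hneg S
  have hSord : ∀ m ∈ S, a m ≤ a i₃ := fun m hm => by
    have := (hS m).mp hm
    exact hord3 m this.1 this.2.1
  rcases lt_or_ge (a i₃) (1/5) with hzc0 | hzd0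
  · exact case5_C0 h hneg hd hcard a hcell h12 h13 h23 hS hF hsgdef haSdef hXdef hXeq hsplitp hsplita hX0 hτX hsg0 hw hSord hz1 hz2 hz3 hzc0.le
  rcases lt_or_ge (a i₃) (23/100) with hzc1 | hzd1
  · exact case5_C1 h hneg hd hcard a hcell h12 h13 h23 hS hF hsgdef haSdef hXdef hXeq hsplitp hsplita hX0 hτX hsg0 hw hSord hz1 hz2 hzd0 hzc1.le
  exact case5_A h hneg hd hcard a hcell h12 h13 h23 hS hF hsgdef haSdef hXdef hXeq hsplitp hsplita hX0 hτX hsg0 hw hSord hz1 hz2 hzd1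

end Vale.Agent.Lib.P226
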