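import Vale.Agent.Lib.P226.Structure

/-!
Finite reduction of the propeller problem: an optimal configuration of value at least `9/(8π)`
has at most `2^28` nonzero moment vectors.
-/

open MeasureTheory ProbabilityTheory Real Set
open scoped RealInnerProductSpace ENNReal NNReal

namespace Vale.Agent.Lib.P226

variable {E : Type*} [NormedAddCommGroup E] [InnerProductSpace ℝ E] [FiniteDimensional ℝ E]
  [MeasurableSpace E] [BorelSpace E]

variable {ι : Type*} [Fintype ι]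

lemma log_two_bounds : (0.69 : ℝ) < Real.log 2 ∧ Real.log 2 < 0.7 := by
  have h1 := Real.log_two_gt_d9
  have h2 := Real.log_two_lt_d9
  constructor <;> norm_num at * <;> linarith

lemma log_inv_two_pow (n : ℕ) : Real.log (((1:ℝ) / 2) ^ n)⁻¹ = n * Real.log 2 := by
  rw [one_div, inv_pow, inv_inv, Real.log_pow]

namespace IsOptimal

variable {t : ι → E} {A : ι → Set E}

/-- There is a large moment vector and a second one far from the line of the first. -/
lemma exists_big_pair [Nonempty ι] (h : IsOptimal t A)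
    (hF : 9 / (8 * π) ≤ ∑ i, ‖t i‖ ^ 2) :
    ∃ j₁ j₂, j₁ ≠ j₂ ∧ t j₁ ≠ 0 ∧ 1 / 8 < ‖t j₁‖ ∧
      1 / 128 < ‖t j₂ - ⟪‖t j₁‖⁻¹ • t j₁, t j₂⟫ • (‖t j₁‖⁻¹ • t j₁)‖ := by
  obtain ⟨hl1, hl2⟩ := log_two_bounds
  have hpi := Real.pi_gt_d2
  have hpi2 := Real.pi_lt_d2
  have hlog16 : Real.log ((1 : ℝ) / 16)⁻¹ = 4 * Real.log 2 := by
    have := log_inv_two_pow 4
    norm_num at this ⊢
    linarith
  have hlog512 : Real.log ((1 : ℝ) / 512)⁻¹ = 9 * Real.log 2 := by
    have := log_inv_two_pow 9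
    norm_num at this ⊢
    linarith
  -- a large vector
  have hbig : ∃ j, 1 / 8 < ‖t j‖ := by
    by_contra hne
    push Not at hne
    have h1 := sum_sq_le_of_le (A := A) h.part (ρ := fun i => ‖t i‖) (fun i => norm_nonneg _)
      (fun i => by rw [h.moment i]) (η := 1 / 8) (ms := 1 / 16) (Θ := 0.35) hne
      (by norm_num) (by rw [hlog16]; linarith) (by norm_num) (by rw [hlog16]; linarith)
    have h2 : (0.35 : ℝ) < 9 / (8 * π) := by
      rw [lt_div_iff₀ (by positivity)]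
      nlinarith
    linarith
  obtain ⟨j₁, hj₁⟩ := hbig
  have hj₁0 : t j₁ ≠ 0 := by
    intro h0
    rw [h0, norm_zero] at hj₁
    norm_num at hj₁
  have hn : 0 < ‖t j₁‖ := norm_pos_iff.mpr hj₁0
  set u : E := ‖t j₁‖⁻¹ • t j₁ with hu
  have hun : ‖u‖ = 1 := by
    rw [hu, norm_smul, norm_inv, norm_norm, inv_mul_cancel₀ hn.ne']
  set b : ι → E := fun i => t i - ⟪u, t i⟫ • u with hb
  have hbnorm : ∀ i, ‖b i‖ ^ 2 = ‖t i‖ ^ 2 - ⟪u, t i⟫ ^ 2 := by
    intro i
    simp only [hb]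
    rw [norm_sub_sq_real, real_inner_smul_right, norm_smul, hun, real_inner_comm]
    simp only [Real.norm_eq_abs, mul_one, sq_abs]
    ring
  have hbt : ∀ i, ‖b i‖ ≤ ‖t i‖ := by
    intro i
    have h1 := hbnorm i
    have h2 := sq_nonneg ⟪u, t i⟫
    exact abs_le_of_sq_le_sq' (by linarith) (norm_nonneg _) |>.2
  have hone := sum_inner_sq_le (A := A) h.part hun
  simp only [h.moment] at hone
  have hsumb : 1 / (8 * π) ≤ ∑ i, ‖b i‖ ^ 2 := by
    simp only [hbnorm]
    rw [Finset.sum_sub_distrib]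
    have : 9 / (8 * π) - 1 / π = 1 / (8 * π) := by
      field_simp
      norm_num
    linarith
  have hoff : ∃ j, 1 / 128 < ‖b j‖ := by
    by_contra hne
    push Not at hne
    have h1 := sum_sq_le_of_le (A := A) h.part (ρ := fun i => ‖b i‖) (fun i => norm_nonneg _)
      (fun i => by rw [h.moment i]; exact hbt i) (η := 1 / 128) (ms := 1 / 512) (Θ := 1 / 32) hne
      (by norm_num) (by rw [hlog512]; linarith) (by norm_num) (by rw [hlog512]; linarith)
    have h2 : (1 / 32 : ℝ) < 1 / (8 * π) := by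
      rw [div_lt_div_iff₀ (by norm_num) (by positivity)]
      nlinarith
    linarith
  obtain ⟨j₂, hj₂⟩ := hoff
  refine ⟨j₁, j₂, ?_, hj₁0, hj₁, hj₂⟩
  intro hjj
  have hb0 : b j₁ = 0 := by
    simp only [hb]
    have h1 : ⟪u, t j₁⟫ = ‖t j₁‖ := by
      rw [hu, real_inner_smul_left, real_inner_self_eq_norm_sq]
      field_simp
    rw [h1, hu, smul_smul, mul_inv_cancel₀ hn.ne', one_smul, sub_self]
  rw [← hjj, hb0, norm_zero] at hj₂
  norm_num at hj₂

/-- Every cell with a nonzero moment has Gaussian measure at least `2^(-28)`. -/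
lemma real_cell_ge [Nonempty ι] (h : IsOptimal t A)
    (hF : 9 / (8 * π) ≤ ∑ i, ‖t i‖ ^ 2) {i : ι} (hi : t i ≠ 0) :
    ((1:ℝ) / 2) ^ 28 ≤ (stdGaussian E).real (A i) := by
  obtain ⟨j₁, j₂, hj, hj₁0, hP, hQ⟩ := h.exists_big_pair hF
  obtain ⟨hl1, hl2⟩ := log_two_bounds
  have hpi := Real.pi_gt_d2
  set m := (stdGaussian E).real (A i) with hm
  have hm0 : 0 ≤ m := measureReal_nonneg
  have hmpos : 0 < m := by
    refine lt_of_le_of_ne hm0 (fun h0 => hi ?_)
    rw [← h.moment i]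
    exact gaussMoment_of_real_eq_zero h0.symm
  by_contra hlt
  push Not at hlt
  have hm1 : m < 1 := lt_of_lt_of_le hlt (by norm_num)
  set l := Real.log m⁻¹ with hl
  have hlpos : 0 < l := Real.log_pos ((one_lt_inv₀ hmpos).mpr hm1)
  have h1 : ‖t i‖ ^ 2 ≤ 2 * m ^ 2 * l := by
    rw [← h.moment i]
    exact norm_sq_moment_le hmpos
  set a : ℝ := 20 * m * l with ha
  have hapos : 0 < a := by positivity
  have h2 := h.real_cell_le i hj hapos
  set P := ‖t j₁‖ with hPdef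
  set Q := ‖t j₂ - ⟪‖t j₁‖⁻¹ • t j₁, t j₂⟫ • (‖t j₁‖⁻¹ • t j₁)‖ with hQdef
  have hQpos : 0 < Q := lt_trans (by norm_num) hQ
  have hPpos : 0 < P := lt_trans (by norm_num) hP
  have h3 := real_box_le (E := E) hj₁0 hQdef hQpos hapos.le
  have hPQ : 1 / 1024 < P * Q := by
    have : (1:ℝ) / 8 * (1 / 128) < P * Q := mul_lt_mul'' hP hQ (by norm_num) (by norm_num)
    calc (1:ℝ) / 1024 = 1 / 8 * (1 / 128) := by norm_num
      _ < P * Q := this
  have h4 : 5 * ‖t i‖ ^ 2 / a ≤ m / 2 := by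
    rw [div_le_iff₀ hapos, ha]
    nlinarith [mul_pos hmpos hmpos]
  have h5 : 2 * a ^ 2 / (π * (P * Q)) ≤ 2 * a ^ 2 * 1024 / π := by
    rw [div_le_div_iff₀ (by positivity) Real.pi_pos]
    have h6 : 0 ≤ 2 * a ^ 2 * π := by positivity
    nlinarith
  have h7 : m / 2 ≤ 2 * a ^ 2 * 1024 / π := by linarith
  have h8 : π ≤ 1638400 * (m * l ^ 2) := by
    rw [le_div_iff₀ Real.pi_pos, ha] at h7
    have h9 : m * π ≤ m * (1638400 * (m * l ^ 2)) := by nlinarith
    exact le_of_mul_le_mul_left h9 hmpos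
  -- now bound `m * l ^ 2`
  set ν := √m with hν
  have hνpos : 0 < ν := Real.sqrt_pos.mpr hmpos
  have hνsq : ν ^ 2 = m := Real.sq_sqrt hm0
  have hνle : ν ≤ ((1:ℝ) / 2) ^ 14 := by
    have : ν ^ 2 ≤ (((1:ℝ) / 2) ^ 14) ^ 2 := by
      rw [hνsq, ← pow_mul]
      exact hlt.le
    exact abs_le_of_sq_le_sq' this (by positivity) |>.2
  have hlogs : Real.log (((1:ℝ) / 2) ^ 14)⁻¹ = 14 * Real.log 2 := by
    have := log_inv_two_pow 14
    simpa using this
  have h10 := mul_log_inv_le hνpos hνle (by rw [hlogs]; linarith)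
  rw [hlogs] at h10
  have hlν : l = 2 * Real.log ν⁻¹ := by
    rw [hl, ← hνsq, ← inv_pow, Real.log_pow]
    norm_num
  have hνlog0 : 0 ≤ ν * Real.log ν⁻¹ :=
    mul_nonneg hνpos.le (by
      have : 0 < l := hlpos
      rw [hlν] at this
      linarith)
  have h11 : m * l ^ 2 = 4 * (ν * Real.log ν⁻¹) ^ 2 := by
    rw [hlν, ← hνsq]
    ring
  have h12 : (ν * Real.log ν⁻¹) ^ 2 ≤ (((1:ℝ) / 2) ^ 14 * (14 * Real.log 2)) ^ 2 :=
    pow_le_pow_left₀ hνlog0 h10 2
  have h13 : ((1:ℝ) / 2) ^ 14 * (14 * Real.log 2) ≤ ((1:ℝ) / 2) ^ 14 * (14 * 0.7) := by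
    gcongr
  have h14 : (((1:ℝ) / 2) ^ 14 * (14 * Real.log 2)) ^ 2 ≤ (((1:ℝ) / 2) ^ 14 * (14 * 0.7)) ^ 2 :=
    pow_le_pow_left₀ (by positivity) h13 2
  have h15 : 1638400 * (m * l ^ 2) ≤ 3 := by
    rw [h11]
    have h16 : (((1:ℝ) / 2) ^ 14 * (14 * 0.7)) ^ 2 ≤ 3 / (1638400 * 4) := by norm_num
    nlinarith
  linarith

/-- The number of nonzero moment vectors of an optimal configuration of large value. -/
lemma card_nonzero_le [Nonempty ι] [DecidablePred fun i => t i ≠ 0] (h : IsOptimal t A)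
    (hF : 9 / (8 * π) ≤ ∑ i, ‖t i‖ ^ 2) :
    (Finset.univ.filter (fun i => t i ≠ 0)).card ≤ 2 ^ 28 := by
  set N := Finset.univ.filter (fun i => t i ≠ 0) with hN
  have h1 : N.card • (((1:ℝ) / 2) ^ 28) ≤ ∑ i ∈ N, (stdGaussian E).real (A i) :=
    Finset.card_nsmul_le_sum N _ _ (fun i hi => h.real_cell_ge hF (by simpa [hN] using hi))
  have h2 : ∑ i ∈ N, (stdGaussian E).real (A i) ≤ ∑ i, (stdGaussian E).real (A i) :=
    Finset.sum_le_sum_of_subset_of_nonneg (Finset.subset_univ _)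
      (fun _ _ _ => measureReal_nonneg)
  rw [h.part.sum_real, nsmul_eq_mul] at *
  have h3 : ((N.card : ℝ)) ≤ 2 ^ 28 := by
    have h4 : (N.card : ℝ) * ((1:ℝ) / 2) ^ 28 ≤ 1 := h1.trans h2
    have h5 : ((1:ℝ) / 2) ^ 28 * 2 ^ 28 = 1 := by norm_num
    have h6 : (0:ℝ) < 2 ^ 28 := by positivity
    calc (N.card : ℝ) = (N.card : ℝ) * (((1:ℝ) / 2) ^ 28 * 2 ^ 28) := by rw [h5, mul_one]
      _ = ((N.card : ℝ) * ((1:ℝ) / 2) ^ 28) * 2 ^ 28 := by ring
      _ ≤ 1 * 2 ^ 28 := by gcongr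
      _ = 2 ^ 28 := one_mul _
  exact_mod_cast h3

end IsOptimal

/-- Finite reduction: a partition with `F ≥ 9/(8π)` can be replaced by one with at most
`K` cells, for any `K ≥ 2^28`, without decreasing `F`. -/
theorem exists_partition_ge [LinearOrder ι] [Nonempty ι] {K : ℕ} (hK : 2 ^ 28 ≤ K) {A : ι → Set E}
    (hA : IsMeasPartition A) (hF : 9 / (8 * π) ≤ momentEnergy A) :
    ∃ B : Fin K → Set E, IsMeasPartition B ∧ momentEnergy A ≤ momentEnergy B := by
  classical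
  obtain ⟨t, C, hC1, hC2, hC3, hC4⟩ := exists_optimal (ι := ι) (E := E)
  have hopt : IsOptimal t C := ⟨hC1, hC2, hC3, hC4⟩
  have hAle := hC4 A hA
  have hF2 : 9 / (8 * π) ≤ ∑ i, ‖t i‖ ^ 2 := hF.trans hAle
  have hcard := hopt.card_nonzero_le hF2
  set N := Finset.univ.filter (fun i => t i ≠ 0) with hN
  have hKpos : 0 < K := lt_of_lt_of_le (by positivity) hK
  have hcard2 : Fintype.card {i // i ∈ N} ≤ Fintype.card (Fin K) := by
    simp only [Fintype.card_coe, Fintype.card_fin]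
    exact hcard.trans hK
  obtain ⟨e⟩ := Function.Embedding.nonempty_of_card_le hcard2
  set f : ι → Fin K := fun i => if h : i ∈ N then e ⟨i, h⟩ else ⟨0, hKpos⟩ with hf
  have hfinj : ∀ i i', t i ≠ 0 → t i' ≠ 0 → f i = f i' → i = i' := by
    intro i i' hi hi' hii
    have hiN : i ∈ N := by simp [hN, hi]
    have hiN' : i' ∈ N := by simp [hN, hi']
    simp only [hf, hiN, hiN', dif_pos] at hii
    have := e.injective hii
    exact congrArg Subtype.val this
  refine ⟨coarsen f C, hC1.coarsen f, hAle.trans (le_of_eq ?_)⟩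
  have hmom : ∀ j, gaussMoment (coarsen f C j) = ∑ i with f i = j, t i := by
    intro j
    rw [gaussMoment_coarsen hC1 f j]
    exact Finset.sum_congr rfl (fun m _ => hC2 m)
  have hfib : ∀ j, ‖∑ i with f i = j, t i‖ ^ 2 = ∑ i with f i = j, ‖t i‖ ^ 2 := by
    intro j
    by_cases hex : ∃ i₀, f i₀ = j ∧ t i₀ ≠ 0
    · obtain ⟨i₀, hi₀, hti₀⟩ := hex
      have hz : ∀ i, f i = j → i ≠ i₀ → t i = 0 := by
        intro i hi hne
        by_contra hti
        exact hne (hfinj i i₀ hti hti₀ (hi.trans hi₀.symm))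
      have hmem : i₀ ∈ Finset.univ.filter (fun i => f i = j) := by simp [hi₀]
      rw [Finset.sum_eq_single i₀, Finset.sum_eq_single i₀]
      · intro i hi hne
        have hi2 : f i = j := by simpa using hi
        simp [hz i hi2 hne]
      · intro hnot; exact absurd hmem hnot
      · intro i hi hne
        have hi2 : f i = j := by simpa using hi
        exact hz i hi2 hne
      · intro hnot; exact absurd hmem hnot
    · push Not at hex
      have h0 : ∀ i ∈ Finset.univ.filter (fun i => f i = j), t i = 0 := by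
        intro i hi
        exact hex i (by simpa using hi)
      rw [Finset.sum_eq_zero h0, Finset.sum_eq_zero (fun i hi => by rw [h0 i hi]; simp)]
      simp
  unfold momentEnergy
  simp_rw [hmom, hfib]
  exact (Finset.sum_fiberwise Finset.univ f (fun i => ‖t i‖ ^ 2)).symm

end Vale.Agent.Lib.P226
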