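import Vale.Agent.Lib.P226.Ehr

/-!
The gap integral of a cell and the deletion inequality.
-/

open MeasureTheory ProbabilityTheory Real Set
open scoped RealInnerProductSpace ENNReal NNReal Pointwise

namespace Vale.Agent.Lib.P226

variable {E : Type*} [NormedAddCommGroup E] [InnerProductSpace ℝ E] [FiniteDimensional ℝ E]
  [MeasurableSpace E] [BorelSpace E]

variable {ι : Type*} [Fintype ι]

/-- Cauchy-Schwarz for `Φ` against the energy bound. -/
lemma Phi_sq_le {κ : Type*} [Fintype κ] [Nonempty κ] {F₀ : ℝ}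
    (hF₀ : ∀ B : κ → Set E, IsMeasPartition B → momentEnergy B ≤ F₀) (s : κ → E) :
    (Phi s) ^ 2 ≤ F₀ * ∑ m, ‖s m‖ ^ 2 := by
  classical
  let _ : LinearOrder κ := LinearOrder.lift' (Fintype.equivFin κ) (Equiv.injective _)
  set B := cell s with hB
  have hBp : IsMeasPartition B := isMeasPartition_cell s
  set z : κ → E := fun m => gaussMoment (B m) with hz
  have hPhi : Phi s = ∑ m, ⟪s m, z m⟫ := by
    rw [Phi, ← hBp.sum_setIntegral (integrable_phi s)]
    refine Finset.sum_congr rfl (fun m _ => ?_)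
    rw [hz, inner_gaussMoment]
    exact setIntegral_congr_fun (measurableSet_cell s m) (fun x hx => phi_eq_of_mem_cell hx)
  have hE : ∑ m, ‖z m‖ ^ 2 ≤ F₀ := hF₀ B hBp
  have h1 : (∑ m, ‖s m‖ * ‖z m‖) ^ 2 ≤ (∑ m, ‖s m‖ ^ 2) * ∑ m, ‖z m‖ ^ 2 :=
    Finset.sum_mul_sq_le_sq_mul_sq _ _ _
  have h2 : |∑ m, ⟪s m, z m⟫| ≤ ∑ m, ‖s m‖ * ‖z m‖ := by
    refine (Finset.abs_sum_le_sum_abs _ _).trans (Finset.sum_le_sum (fun m _ => ?_))
    exact abs_real_inner_le_norm _ _
  have h3 : (∑ m, ⟪s m, z m⟫) ^ 2 ≤ (∑ m, ‖s m‖ * ‖z m‖) ^ 2 := by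
    rw [← sq_abs]
    exact pow_le_pow_left₀ (abs_nonneg _) h2 2
  rw [hPhi]
  have h4 : 0 ≤ ∑ m, ‖s m‖ ^ 2 := Finset.sum_nonneg (fun m _ => by positivity)
  calc (∑ m, ⟪s m, z m⟫) ^ 2 ≤ (∑ m, ‖s m‖ ^ 2) * ∑ m, ‖z m‖ ^ 2 := h3.trans h1
    _ ≤ (∑ m, ‖s m‖ ^ 2) * F₀ := by gcongr
    _ = F₀ * ∑ m, ‖s m‖ ^ 2 := mul_comm _ _

lemma sum_subtype_ne [DecidableEq ι] (l : ι) (g : ι → ℝ) :
    ∑ m : {m // m ≠ l}, g m = ∑ m, g m - g l := by
  rw [Fintype.sum_eq_add_sum_subtype_ne g l]
  ring

namespace IsOptimal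

variable {t : ι → E} {A : ι → Set E}

lemma Phi_eq [Nonempty ι] (h : IsOptimal t A) : Phi t = ∑ i, ‖t i‖ ^ 2 := by
  rw [Phi, ← h.part.sum_setIntegral (integrable_phi t)]
  refine Finset.sum_congr rfl (fun m _ => ?_)
  have h1 : ∫ x in A m, phi t x ∂(stdGaussian E) = ∫ x in A m, ⟪t m, x⟫ ∂(stdGaussian E) := by
    refine setIntegral_congr_fun (h.part.1 m) (fun x hx => ?_)
    exact le_antisymm (phi_le t x (fun j => h.max_on m j x hx)) (inner_le_phi t x m)
  rw [h1, ← inner_gaussMoment, h.moment, real_inner_self_eq_norm_sq]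

/-- The upper bound for translates of a closed cell. -/
lemma translate_le (h : IsOptimal t A) (hd : ∀ i j, i ≠ j → t i ≠ t j) (l : ι) (v : E) :
    (stdGaussian E).real {x | x + v ∈ ccell t l}
      ≤ (stdGaussian E).real (A l) + ⟪v, t l⟫ + ‖v‖ ^ 2 / 2 := by
  rw [real_preimage_add v (measurableSet_ccell t l), h.setIntegral_ccell hd l]
  set D : E → ℝ := shiftDens v with hD
  set c : ℝ := 1 - ‖v‖ ^ 2 / 2 with hc
  set L : E → ℝ := fun y => c + ⟪v, y⟫ with hL
  have hLint : Integrable L (stdGaussian E) := (integrable_const c).add (integrable_inner_std v)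
  have hDint : Integrable D (stdGaussian E) := integrable_shiftDens v
  have hLD : ∀ y, L y ≤ D y := by
    intro y
    have := Real.add_one_le_exp (⟪v, y⟫ - ‖v‖ ^ 2 / 2)
    simp only [hL, hD, shiftDens, hc]
    linarith
  have h1 : ∫ y in A l, (D y - L y) ∂(stdGaussian E) ≤ ∫ y, (D y - L y) ∂(stdGaussian E) :=
    setIntegral_le_integral (hDint.sub hLint)
      (Filter.Eventually.of_forall (fun y => by
        have := hLD y
        simp only [Pi.zero_apply]
        linarith))
  have h2' : ∫ y, L y ∂(stdGaussian E) = c := by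
    simp only [hL]
    rw [integral_add (integrable_const c) (integrable_inner_std v), integral_inner_std]
    simp
  have h2 : ∫ y, (D y - L y) ∂(stdGaussian E) = ‖v‖ ^ 2 / 2 := by
    rw [integral_sub hDint hLint, integral_shiftDens v, h2', hc]
    ring
  have hval : ∫ y in A l, L y ∂(stdGaussian E)
      = (stdGaussian E).real (A l) * c + ⟪v, t l⟫ := by
    simp only [hL]
    rw [integral_add (integrable_const c).integrableOn (integrable_inner_std v).integrableOn,
      ← inner_gaussMoment, h.moment, setIntegral_const]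
    simp [measureReal_def]
  rw [integral_sub hDint.integrableOn hLint.integrableOn, h2, hval, hc] at h1
  have hnn : 0 ≤ (stdGaussian E).real (A l) * (‖v‖ ^ 2 / 2) := by positivity
  nlinarith

/-- The gap function of a cell. -/
lemma gap_integral_le (h : IsOptimal t A) (hneg : ∀ i j, i ≠ j → ⟪t i, t j⟫ < 0)
    (hd : ∀ i j, i ≠ j → t i ≠ t j) [DecidableEq ι] (l : ι) [Nonempty {m // m ≠ l}] {α : ℝ}
    (hα : ncdf α = (stdGaussian E).real (A l)) :
    ∑ i, ‖t i‖ ^ 2 - Phi (fun m : {m // m ≠ l} => t m)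
      ≤ npdf α * ngrand α / (1 - 1 / (Fintype.card ι : ℝ)) := by
  have : Nonempty ι := ⟨l⟩
  set t' : {m // m ≠ l} → E := fun m => t m with ht'
  set k : ℝ := (Fintype.card ι : ℝ) with hk
  have hk2 : 2 ≤ k := by
    obtain ⟨⟨m, hm⟩⟩ := (inferInstance : Nonempty {m // m ≠ l})
    have : 1 < Fintype.card ι := Fintype.one_lt_card_iff.mpr ⟨m, l, hm⟩
    rw [hk]
    exact_mod_cast this
  set K : ℝ := 1 - 1 / k with hK
  have hKpos : 0 < K := by
    rw [hK]
    have : 1 / k ≤ 1 / 2 := one_div_le_one_div_of_le (by norm_num) hk2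
    linarith
  obtain ⟨u, hu⟩ := exists_dual h.sum_eq_zero hneg l
  set C := ccell t l with hC
  have hCreal : ncdf α = (stdGaussian E).real C := by
    rw [hα, h.real_ccell hd l]
  have hup : ∀ s : ℝ, 0 < s → (stdGaussian E).real {x | x + (-(s • u)) ∈ C}
      ≤ ncdf α - s * K + (‖u‖ ^ 2 / 2) * s ^ 2 := by
    intro s hs
    have h1 := h.translate_le hd l (-(s • u))
    have h2 : ⟪-(s • u), t l⟫ = -(s * K) := by
      rw [inner_neg_left, real_inner_smul_left, real_inner_comm, hu]
      simp only [if_true, hK, hk]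
    have h3 : ‖-(s • u)‖ ^ 2 = s ^ 2 * ‖u‖ ^ 2 := by
      rw [norm_neg, norm_smul, Real.norm_of_nonneg hs.le]
      ring
    rw [h2, h3, ← hα] at h1
    linarith
  have htan : ∀ s : ℝ, 0 < s → (stdGaussian E).real {x | x + (-(s • u)) ∈ C}
      ≤ ncdf (α - s * (K / npdf α)) := fun s hs =>
    tangent_of_ehrhard (isClosed_ccell t l) (convex_ccell t l)
      (u := u) hCreal hup (s₁ := s) hs
  set f : E → ℝ := fun x => phi t x - phi t' x with hf
  have hf0 : ∀ x, 0 ≤ f x := by
    intro x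
    simp only [hf, sub_nonneg]
    exact phi_le t' x (fun m => inner_le_phi t x m.1)
  have hfint : Integrable f (stdGaussian E) := (integrable_phi t).sub (integrable_phi t')
  have hsub : ∀ τ : ℝ, 0 < τ → {x | τ < f x} ⊆ {x | x + (-(τ • u)) ∈ C} := by
    intro τ hτ x hx
    simp only [Set.mem_ofPred_eq, hf] at hx
    obtain ⟨j, hj⟩ := exists_phi_eq t x
    have hjl : j = l := by
      by_contra hne
      have := inner_le_phi t' x ⟨j, hne⟩
      simp only [ht'] at this
      linarith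
    subst hjl
    simp only [Set.mem_ofPred_eq, hC, mem_ccell, inner_add_right, inner_neg_right,
      inner_smul_right, hu]
    intro m
    by_cases hm : m = j
    · subst hm
      simp
    · have h1 := inner_le_phi t' x ⟨m, hm⟩
      simp only [ht'] at h1
      simp only [hm, if_false, if_true]
      nlinarith
  have hc : 0 < K / npdf α := div_pos hKpos (npdf_pos α)
  have hmain := integral_le_of_level hfint hf0 hc hsub htan
  have hint : ∫ x, f x ∂(stdGaussian E) = ∑ i, ‖t i‖ ^ 2 - Phi t' := by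
    simp only [hf]
    rw [integral_sub (integrable_phi t) (integrable_phi t')]
    have := h.Phi_eq
    rw [Phi] at this
    rw [this]
    rfl
  rw [hint] at hmain
  refine hmain.trans_eq ?_
  have := (npdf_pos α).ne'
  field_simp

/-- The bathtub bound. -/
lemma norm_le_npdf (h : IsOptimal t A) (l : ι) {α : ℝ}
    (hα : ncdf α = (stdGaussian E).real (A l)) : ‖t l‖ ≤ npdf α := by
  by_cases h0 : t l = 0
  · rw [h0, norm_zero]
    exact (npdf_pos α).le
  have hn : 0 < ‖t l‖ := norm_pos_iff.mpr h0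
  set n : E := ‖t l‖⁻¹ • t l with hndef
  have hnn : ‖n‖ = 1 := by
    rw [hndef, norm_smul, norm_inv, norm_norm, inv_mul_cancel₀ hn.ne']
  have h1 := setIntegral_inner_le_npdf (h.part.1 l) hnn hα
  rw [← inner_gaussMoment, h.moment, hndef, real_inner_smul_left, real_inner_self_eq_norm_sq] at h1
  have h2 : ‖t l‖⁻¹ * ‖t l‖ ^ 2 = ‖t l‖ := by
    field_simp
  rwa [h2] at h1

/-- The deletion inequality. -/
lemma deletion (h : IsOptimal t A) [DecidableEq ι] (l : ι) [Nonempty {m // m ≠ l}] {F₀ : ℝ}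
    (hF₀ : ∀ B : {m // m ≠ l} → Set E, IsMeasPartition B → momentEnergy B ≤ F₀) :
    (Phi (fun m : {m // m ≠ l} => t m)) ^ 2
      ≤ F₀ * (∑ i, ‖t i‖ ^ 2 - ‖t l‖ ^ 2 / (1 - 1 / (Fintype.card ι : ℝ))) := by
  set t' : {m // m ≠ l} → E := fun m => t m with ht'
  have hne : Nonempty ι := ⟨l⟩
  set k : ℝ := (Fintype.card ι : ℝ) with hk
  have hk2 : 2 ≤ k := by
    obtain ⟨⟨m, hm⟩⟩ := (inferInstance : Nonempty {m // m ≠ l})
    have : 1 < Fintype.card ι := Fintype.one_lt_card_iff.mpr ⟨m, l, hm⟩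
    rw [hk]
    exact_mod_cast this
  set c : ℝ := 1 / (k - 1) with hc
  have hk1 : k - 1 ≠ 0 := by
    have : 0 < k - 1 := by linarith
    exact this.ne'
  set y : {m // m ≠ l} → E := fun m => t m + c • t l with hy
  have hphi : ∀ x, phi y x = phi t' x + c * ⟪t l, x⟫ := by
    intro x
    apply le_antisymm
    · apply phi_le
      intro m
      simp only [hy, inner_add_left, real_inner_smul_left]
      have := inner_le_phi t' x m
      simp only [ht'] at this
      linarith
    · obtain ⟨m, hm⟩ := exists_phi_eq t' x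
      rw [hm]
      have := inner_le_phi y x m
      simp only [hy, inner_add_left, real_inner_smul_left] at this
      simp only [ht']
      linarith
  have hPhi : Phi y = Phi t' := by
    unfold Phi
    have e : (fun x => phi y x) = fun x => phi t' x + c * ⟪t l, x⟫ := funext hphi
    rw [e, integral_add (integrable_phi t') ((integrable_inner_std (t l)).const_mul c),
      integral_const_mul, integral_inner_std]
    simp
  have hsum : ∑ m, ‖y m‖ ^ 2 = ∑ i, ‖t i‖ ^ 2 - ‖t l‖ ^ 2 / (1 - 1 / k) := by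
    have h1 : ∀ m : {m // m ≠ l}, ‖y m‖ ^ 2
        = ‖t m‖ ^ 2 + 2 * c * ⟪t m, t l⟫ + c ^ 2 * ‖t l‖ ^ 2 := by
      intro m
      simp only [hy]
      rw [norm_add_sq_real, real_inner_smul_right, norm_smul, Real.norm_eq_abs, mul_pow, sq_abs]
      ring
    simp_rw [h1]
    rw [Finset.sum_add_distrib, Finset.sum_add_distrib]
    have h2 := sum_subtype_ne l (fun m => ‖t m‖ ^ 2)
    have h3 := sum_subtype_ne l (fun m => 2 * c * ⟪t m, t l⟫)
    have h4 := sum_subtype_ne l (fun _ => c ^ 2 * ‖t l‖ ^ 2)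
    rw [h2, h3, h4, ← Finset.mul_sum, ← sum_inner, h.sum_eq_zero, inner_zero_left,
      real_inner_self_eq_norm_sq, Finset.sum_const, Finset.card_univ, nsmul_eq_mul, ← hk]
    have h5 : 1 - 1 / k = (k - 1) / k := by
      have : k ≠ 0 := by linarith
      field_simp
    rw [h5, hc]
    have : k ≠ 0 := by linarith
    field_simp
    ring
  rw [← hPhi, ← hsum]
  exact Phi_sq_le hF₀ y

end IsOptimal

end Vale.Agent.Lib.P226
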