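import Mathlib

/-!
Basic facts on the standard Gaussian measure of a Euclidean space.
-/

open MeasureTheory ProbabilityTheory Real Set
open scoped RealInnerProductSpace ENNReal NNReal

namespace Vale.Agent.Lib.P226

variable {E : Type*} [NormedAddCommGroup E] [InnerProductSpace ℝ E] [FiniteDimensional ℝ E]
  [MeasurableSpace E] [BorelSpace E]

lemma integrable_id_std : Integrable (fun x : E => x) (stdGaussian E) := IsGaussian.integrable_id

lemma integrable_inner_std (v : E) : Integrable (fun x : E => ⟪v, x⟫) (stdGaussian E) :=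
  (integrable_id_std).const_inner v

lemma integrable_norm_std : Integrable (fun x : E => ‖x‖) (stdGaussian E) :=
  (integrable_id_std).norm

lemma map_inner_std (v : E) :
    (stdGaussian E).map (fun x => ⟪v, x⟫) = gaussianReal 0 (‖v‖ ^ 2).toNNReal := by
  have h := IsGaussian.map_eq_gaussianReal (μ := stdGaussian E) (innerSL ℝ v)
  have h1 : (⇑(innerSL ℝ v) : E → ℝ) = fun x => ⟪v, x⟫ := by
    ext x; simp
  rw [h1] at h
  rw [h]
  congr 1
  · simpa using integral_strongDual_stdGaussian (E := E) (innerSL ℝ v)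
  · have h2 := variance_dual_stdGaussian (E := E) (innerSL ℝ v)
    rw [h1] at h2
    rw [h2]
    simp

lemma measurable_inner_const (v : E) : Measurable (fun x : E => ⟪v, x⟫) :=
  (continuous_const.inner continuous_id).measurable

lemma integral_inner_std (v : E) : ∫ x, ⟪v, x⟫ ∂(stdGaussian E) = 0 := by
  rw [integral_inner integrable_id_std v]
  simp

lemma integrable_exp_inner_std (v : E) :
    Integrable (fun x : E => rexp ⟪v, x⟫) (stdGaussian E) := by
  have h := integrable_exp_mul_gaussianReal (μ := 0) (v := (‖v‖ ^ 2).toNNReal) 1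
  rw [← map_inner_std v] at h
  have h2 := (integrable_map_measure (by fun_prop) (measurable_inner_const v).aemeasurable).1 h
  simpa [Function.comp_def] using h2

lemma integral_exp_inner_std (v : E) :
    ∫ x, rexp ⟪v, x⟫ ∂(stdGaussian E) = rexp (‖v‖ ^ 2 / 2) := by
  have h := mgf_gaussianReal (p := stdGaussian E) (map_inner_std v) 1
  simp only [mgf, one_mul, zero_add, one_pow, mul_one] at h
  rw [h, Real.coe_toNNReal _ (by positivity)]

/-- The positive part of a standard real Gaussian has mean `1/√(2π)`. -/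
lemma integral_max_gaussianReal : ∫ y, max y 0 ∂(gaussianReal 0 1) = 1 / √(2 * π) := by
  rw [integral_gaussianReal_eq_integral_smul (by simp)]
  have h1 : (fun x : ℝ => gaussianPDFReal 0 1 x • max x 0)
      = fun x => (Ioi (0:ℝ)).indicator (fun x => x * ((√(2 * π))⁻¹ * rexp (-x ^ 2 / 2))) x := by
    ext x
    by_cases hx : 0 < x
    · simp [indicator_of_mem, hx, gaussianPDFReal, max_eq_left hx.le]
      ring
    · simp only [indicator_of_notMem, mem_Ioi, hx, not_false_eq_true]
      simp [max_eq_right (not_lt.mp hx)]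
  rw [h1, integral_indicator measurableSet_Ioi]
  have hderiv : ∀ x ∈ Set.Ici (0:ℝ), HasDerivAt
      (fun x : ℝ => -((√(2 * π))⁻¹ * rexp (-x ^ 2 / 2)))
      (x * ((√(2 * π))⁻¹ * rexp (-x ^ 2 / 2))) x := by
    intro x _
    have h0 : HasDerivAt (fun x : ℝ => -x ^ 2 / 2) (-x) x := by
      have h : HasDerivAt (fun x : ℝ => x ^ 2) (2 * x) x := by
        simpa using hasDerivAt_pow 2 x
      have h2 := (h.neg).div_const 2
      have e : -(2 * x) / 2 = -x := by ring
      rw [e] at h2
      exact h2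
    have h2 := ((h0.exp).const_mul ((√(2 * π))⁻¹)).neg
    have e : -((√(2 * π))⁻¹ * (rexp (-x ^ 2 / 2) * -x))
        = x * ((√(2 * π))⁻¹ * rexp (-x ^ 2 / 2)) := by ring
    rw [e] at h2
    exact h2
  have hint : IntegrableOn (fun x : ℝ => x * ((√(2 * π))⁻¹ * rexp (-x ^ 2 / 2))) (Ioi 0) := by
    have h3 := integrable_mul_exp_neg_mul_sq (b := 1/2) (by norm_num)
    have h4 := (h3.const_mul ((√(2 * π))⁻¹)).integrableOn (s := Ioi 0)
    refine h4.congr_fun (fun x _ => ?_) measurableSet_Ioi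
    have : -(1 / 2 : ℝ) * x ^ 2 = -x ^ 2 / 2 := by ring
    simp only [this]
    ring
  have htend : Filter.Tendsto (fun x : ℝ => -((√(2 * π))⁻¹ * rexp (-x ^ 2 / 2)))
      Filter.atTop (nhds 0) := by
    have h5 : Filter.Tendsto (fun x : ℝ => rexp (-x ^ 2 / 2)) Filter.atTop (nhds 0) := by
      apply Real.tendsto_exp_atBot.comp
      have : (fun x : ℝ => -x ^ 2 / 2) = fun x : ℝ => -(1 / 2 : ℝ) * x ^ 2 := by
        ext x; ring
      rw [this]
      exact (Filter.tendsto_pow_atTop (two_ne_zero)).const_mul_atTop_of_neg (by norm_num)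
    have h6 := (h5.const_mul ((√(2 * π))⁻¹)).neg
    simpa using h6
  have := integral_Ioi_of_hasDerivAt_of_tendsto' hderiv hint htend
  rw [this]
  simp [one_div]

lemma integral_max_inner_unit {u : E} (hu : ‖u‖ = 1) :
    ∫ x, max ⟪u, x⟫ 0 ∂(stdGaussian E) = 1 / √(2 * π) := by
  have h := map_inner_std u
  rw [hu] at h
  simp only [one_pow, Real.toNNReal_one] at h
  rw [← integral_max_gaussianReal, ← h,
    integral_map (measurable_inner_const u).aemeasurable (by fun_prop)]

/-- `E (⟨v,x⟩)₊ = ‖v‖ / √(2π)` -/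
lemma integral_max_inner (v : E) :
    ∫ x, max ⟪v, x⟫ 0 ∂(stdGaussian E) = ‖v‖ / √(2 * π) := by
  by_cases hv : v = 0
  · simp [hv]
  have hn : ‖v‖ ≠ 0 := norm_ne_zero_iff.mpr hv
  have hu : ‖(‖v‖⁻¹ • v : E)‖ = 1 := by
    rw [norm_smul, norm_inv, norm_norm, inv_mul_cancel₀ hn]
  have h := integral_max_inner_unit hu
  have h2 : ∀ x : E, max ⟪v, x⟫ 0 = ‖v‖ * max ⟪(‖v‖⁻¹ • v : E), x⟫ 0 := by
    intro x
    rw [inner_smul_left]
    have hpos : 0 < ‖v‖ := norm_pos_iff.mpr hv
    rw [mul_max_of_nonneg _ _ hpos.le]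
    simp [mul_inv_cancel_left₀ hn]
  simp_rw [h2]
  rw [integral_const_mul, h]
  ring

lemma integrable_max_inner (v : E) :
    Integrable (fun x : E => max ⟪v, x⟫ 0) (stdGaussian E) :=
  (integrable_inner_std v).sup (integrable_zero _ _ _)

lemma integrable_abs_inner (v : E) :
    Integrable (fun x : E => |⟪v, x⟫|) (stdGaussian E) :=
  (integrable_inner_std v).abs

lemma integral_abs_inner (v : E) :
    ∫ x, |⟪v, x⟫| ∂(stdGaussian E) = 2 * ‖v‖ / √(2 * π) := by
  have h1 : ∀ x : E, |⟪v, x⟫| = max ⟪v, x⟫ 0 + max ⟪-v, x⟫ 0 := by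
    intro x
    rw [inner_neg_left]
    rcases le_total 0 ⟪v, x⟫ with h | h
    · rw [abs_of_nonneg h, max_eq_left h, max_eq_right (by linarith)]
      ring
    · rw [abs_of_nonpos h, max_eq_right h, max_eq_left (by linarith)]
      ring
  simp_rw [h1]
  rw [integral_add (integrable_max_inner v) (integrable_max_inner (-v)),
    integral_max_inner, integral_max_inner, norm_neg]
  ring

/-- Level-one (entropy) inequality: for measurable `A` of measure `μ > 0`,
`⟨v, z(A)⟩ ≤ μ log (1/μ) + μ ‖v‖²/2`. -/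
lemma setIntegral_inner_le (v : E) {A : Set E}
    (hμ : 0 < (stdGaussian E).real A) :
    ∫ x in A, ⟪v, x⟫ ∂(stdGaussian E) ≤
      (stdGaussian E).real A * Real.log ((stdGaussian E).real A)⁻¹
        + (stdGaussian E).real A * (‖v‖ ^ 2 / 2) := by
  set μ := (stdGaussian E).real A with hμdef
  set c : ℝ := ‖v‖ ^ 2 / 2 + Real.log μ⁻¹ with hc
  have hpt : ∀ x : E, ⟪v, x⟫ ≤ rexp (-c) * rexp ⟪v, x⟫ + (c - 1) := by
    intro x
    have := Real.add_one_le_exp (⟪v, x⟫ - c)
    rw [sub_eq_add_neg, Real.exp_add, mul_comm] at this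
    linarith
  have hint1 : IntegrableOn (fun x : E => ⟪v, x⟫) A (stdGaussian E) :=
    (integrable_inner_std v).integrableOn
  have hint2 : Integrable (fun x : E => rexp (-c) * rexp ⟪v, x⟫ + (c - 1)) (stdGaussian E) :=
    ((integrable_exp_inner_std v).const_mul _).add (integrable_const _)
  have h1 : ∫ x in A, ⟪v, x⟫ ∂(stdGaussian E) ≤
      ∫ x in A, (rexp (-c) * rexp ⟪v, x⟫ + (c - 1)) ∂(stdGaussian E) :=
    setIntegral_mono hint1 hint2.integrableOn hpt
  have h2 : ∫ x in A, (rexp (-c) * rexp ⟪v, x⟫ + (c - 1)) ∂(stdGaussian E)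
      = rexp (-c) * ∫ x in A, rexp ⟪v, x⟫ ∂(stdGaussian E) + (c - 1) * μ := by
    rw [integral_add ((integrable_exp_inner_std v).const_mul _).integrableOn
      (integrable_const _).integrableOn, integral_const_mul, setIntegral_const]
    simp [hμdef, measureReal_def, mul_comm]
  have h3 : ∫ x in A, rexp ⟪v, x⟫ ∂(stdGaussian E) ≤ rexp (‖v‖ ^ 2 / 2) := by
    rw [← integral_exp_inner_std v]
    exact setIntegral_le_integral (integrable_exp_inner_std v)
      (Filter.Eventually.of_forall (fun x => (Real.exp_pos _).le))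
  have h4 : rexp (-c) * rexp (‖v‖ ^ 2 / 2) = μ := by
    rw [← Real.exp_add, hc]
    have : -(‖v‖ ^ 2 / 2 + Real.log μ⁻¹) + ‖v‖ ^ 2 / 2 = Real.log μ := by
      rw [Real.log_inv]; ring
    rw [this, Real.exp_log hμ]
  have h5 : rexp (-c) * ∫ x in A, rexp ⟪v, x⟫ ∂(stdGaussian E) ≤ μ := by
    rw [← h4]
    exact mul_le_mul_of_nonneg_left h3 (Real.exp_pos _).le
  calc ∫ x in A, ⟪v, x⟫ ∂(stdGaussian E)
      ≤ rexp (-c) * ∫ x in A, rexp ⟪v, x⟫ ∂(stdGaussian E) + (c - 1) * μ := h1.trans_eq h2
    _ ≤ μ + (c - 1) * μ := by linarith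
    _ = μ * Real.log μ⁻¹ + μ * (‖v‖ ^ 2 / 2) := by rw [hc]; ring

/-- Interval bound for the standard real Gaussian. -/
lemma gaussianReal_Icc_le (a b : ℝ) :
    gaussianReal 0 1 (Icc a b) ≤ ENNReal.ofReal ((b - a) / √(2 * π)) := by
  rw [gaussianReal_apply _ (by simp)]
  have h : ∀ x ∈ Icc a b, gaussianPDF 0 1 x ≤ ENNReal.ofReal (1 / √(2 * π)) := by
    intro x _
    rw [gaussianPDF]
    apply ENNReal.ofReal_le_ofReal
    rw [gaussianPDFReal]
    simp only [NNReal.coe_one, mul_one, sub_zero, one_div]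
    have : rexp (-x ^ 2 / 2) ≤ 1 := by
      rw [Real.exp_le_one_iff]
      have := sq_nonneg x
      linarith
    have h2 : 0 ≤ (√(2 * π))⁻¹ := by positivity
    nlinarith
  calc ∫⁻ x in Icc a b, gaussianPDF 0 1 x
      ≤ ∫⁻ _ in Icc a b, ENNReal.ofReal (1 / √(2 * π)) :=
        setLIntegral_mono measurable_const h
    _ = ENNReal.ofReal (1 / √(2 * π)) * volume (Icc a b) := by
        rw [setLIntegral_const]
    _ = ENNReal.ofReal (1 / √(2 * π)) * ENNReal.ofReal (b - a) := by
        rw [Real.volume_Icc]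
    _ = ENNReal.ofReal ((b - a) / √(2 * π)) := by
        rw [← ENNReal.ofReal_mul (by positivity)]
        congr 1
        ring

/-- Two orthonormal coordinates of the standard Gaussian are independent standard Gaussians. -/
lemma map_prod_inner_std {u w : E} (hu : ‖u‖ = 1) (hw : ‖w‖ = 1) (huw : ⟪u, w⟫ = 0) :
    (stdGaussian E).map (fun x => (⟪u, x⟫, ⟪w, x⟫))
      = (gaussianReal 0 1).prod (gaussianReal 0 1) := by
  have hL : HasGaussianLaw (fun x : E => (⟪u, x⟫, ⟪w, x⟫)) (stdGaussian E) := by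
    have h0 : HasGaussianLaw (id : E → E) (stdGaussian E) := IsGaussian.hasGaussianLaw_id
    have := h0.map_fun ((innerSL ℝ u).prod (innerSL ℝ w))
    simpa using this
  have hcov : cov[fun x : E => ⟪u, x⟫, fun x : E => ⟪w, x⟫; stdGaussian E] = 0 := by
    have h1 := covarianceBilin_apply_eq_cov (μ := stdGaussian E) IsGaussian.memLp_two_id u w
    rw [covarianceBilin_stdGaussian] at h1
    rw [← h1, innerSL_apply_apply]
    exact huw
  have hind := hL.indepFun_of_covariance_eq_zero hcov
  have h2 := (indepFun_iff_map_prod_eq_prod_map_map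
    (measurable_inner_const u).aemeasurable (measurable_inner_const w).aemeasurable).1 hind
  rw [h2, map_inner_std u, map_inner_std w, hu, hw]
  simp

/-- Small ball estimate in two orthonormal coordinates, with a shear. -/
lemma small_ball_two {u w : E} (hu : ‖u‖ = 1) (hw : ‖w‖ = 1) (huw : ⟪u, w⟫ = 0)
    {P Q a : ℝ} (α : ℝ) (hP : 0 < P) (hQ : 0 < Q) (ha : 0 ≤ a) :
    (stdGaussian E).real {x | |P * ⟪u, x⟫| ≤ a ∧ |α * ⟪u, x⟫ + Q * ⟪w, x⟫| ≤ a}
      ≤ 2 * a ^ 2 / (π * (P * Q)) := by
  set S : Set (ℝ × ℝ) := {p | |P * p.1| ≤ a ∧ |α * p.1 + Q * p.2| ≤ a} with hS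
  have hSm : MeasurableSet S := by
    have hS2 : S = {p : ℝ × ℝ | |P * p.1| ≤ a} ∩ {p : ℝ × ℝ | |α * p.1 + Q * p.2| ≤ a} := rfl
    rw [hS2]
    exact ((isClosed_le (by fun_prop) continuous_const).inter
      (isClosed_le (by fun_prop) continuous_const)).measurableSet
  have hmeas : Measurable (fun x : E => (⟪u, x⟫, ⟪w, x⟫)) :=
    (measurable_inner_const u).prodMk (measurable_inner_const w)
  have hpre : {x : E | |P * ⟪u, x⟫| ≤ a ∧ |α * ⟪u, x⟫ + Q * ⟪w, x⟫| ≤ a}
      = (fun x : E => (⟪u, x⟫, ⟪w, x⟫)) ⁻¹' S := rfl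
  have hval : (stdGaussian E) {x | |P * ⟪u, x⟫| ≤ a ∧ |α * ⟪u, x⟫ + Q * ⟪w, x⟫| ≤ a}
      = ((gaussianReal 0 1).prod (gaussianReal 0 1)) S := by
    rw [hpre, ← map_prod_inner_std hu hw huw, Measure.map_apply hmeas hSm]
  -- bound the product measure
  have hbound : ((gaussianReal 0 1).prod (gaussianReal 0 1)) S
      ≤ ENNReal.ofReal ((2 * a / P) / √(2 * π)) *
          ENNReal.ofReal ((2 * a / Q) / √(2 * π)) := by
    rw [Measure.prod_apply hSm]
    have hsec : ∀ c : ℝ, (gaussianReal 0 1) (Prod.mk c ⁻¹' S)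
        ≤ (Icc (-(a / P)) (a / P)).indicator
            (fun _ => ENNReal.ofReal ((2 * a / Q) / √(2 * π))) c := by
      intro c
      by_cases hc : c ∈ Icc (-(a / P)) (a / P)
      · rw [indicator_of_mem hc]
        have hsub : Prod.mk c ⁻¹' S ⊆ Icc ((-a - α * c) / Q) ((a - α * c) / Q) := by
          intro y hy
          have h2 : |α * c + Q * y| ≤ a := hy.2
          rw [abs_le] at h2
          constructor
          · rw [div_le_iff₀ hQ]; nlinarith [h2.1]
          · rw [le_div_iff₀ hQ]; nlinarith [h2.2]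
        calc (gaussianReal 0 1) (Prod.mk c ⁻¹' S)
            ≤ (gaussianReal 0 1) (Icc ((-a - α * c) / Q) ((a - α * c) / Q)) :=
              measure_mono hsub
          _ ≤ ENNReal.ofReal ((((a - α * c) / Q) - ((-a - α * c) / Q)) / √(2 * π)) :=
              gaussianReal_Icc_le _ _
          _ = ENNReal.ofReal ((2 * a / Q) / √(2 * π)) := by
              congr 2
              field_simp
              ring
      · rw [indicator_of_notMem hc]
        have hemp : Prod.mk c ⁻¹' S = ∅ := by
          ext y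
          simp only [mem_preimage, mem_empty_iff_false, iff_false]
          intro hy
          apply hc
          have h1 : |P * c| ≤ a := hy.1
          rw [abs_le] at h1
          constructor
          · have h3 : -(a / P) = (-a) / P := by ring
            rw [h3, div_le_iff₀ hP]; nlinarith [h1.1]
          · rw [le_div_iff₀ hP]; nlinarith [h1.2]
        rw [hemp]
        simp
    calc ∫⁻ c, (gaussianReal 0 1) (Prod.mk c ⁻¹' S) ∂(gaussianReal 0 1)
        ≤ ∫⁻ c, (Icc (-(a / P)) (a / P)).indicator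
            (fun _ => ENNReal.ofReal ((2 * a / Q) / √(2 * π))) c ∂(gaussianReal 0 1) :=
          lintegral_mono hsec
      _ = ENNReal.ofReal ((2 * a / Q) / √(2 * π)) * (gaussianReal 0 1) (Icc (-(a / P)) (a / P)) := by
          rw [lintegral_indicator measurableSet_Icc, setLIntegral_const]
      _ ≤ ENNReal.ofReal ((2 * a / Q) / √(2 * π)) *
            ENNReal.ofReal ((2 * a / P) / √(2 * π)) := by
          gcongr
          refine (gaussianReal_Icc_le _ _).trans_eq ?_
          congr 2
          ring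
      _ = _ := mul_comm _ _
  have hfin : ((gaussianReal 0 1).prod (gaussianReal 0 1)) S ≤
      ENNReal.ofReal (2 * a ^ 2 / (π * (P * Q))) := by
    refine hbound.trans (le_of_eq ?_)
    rw [← ENNReal.ofReal_mul (by positivity)]
    congr 1
    have hsq : √(2 * π) * √(2 * π) = 2 * π := Real.mul_self_sqrt (by positivity)
    have hs0 : √(2 * π) ≠ 0 := by positivity
    have hpi : π ≠ 0 := Real.pi_ne_zero
    field_simp
    rw [sq (√(2 * π))] at *
    nlinarith [hsq]
  rw [measureReal_def, hval]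
  exact ENNReal.toReal_le_of_le_ofReal (by positivity) hfin

end Vale.Agent.Lib.P226
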