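import Vale.Agent.Lib.P226.Quant

/-!
The one dimensional heat flow of a continuous compactly supported function.
-/

open MeasureTheory ProbabilityTheory Real Set Filter Topology Metric
open scoped NNReal

namespace Vale.Agent.Lib.P226

/-- The Gauss kernel. -/
noncomputable def kern (T u : ℝ) : ℝ := (√(2 * π * T))⁻¹ * rexp (-u ^ 2 / (2 * T))

/-- The first derivative of the Gauss kernel up to sign. -/
noncomputable def kern1 (T u : ℝ) : ℝ := u / T * kern T u

/-- The second derivative of the Gauss kernel. -/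
noncomputable def kern2 (T u : ℝ) : ℝ := (u ^ 2 / T ^ 2 - 1 / T) * kern T u

lemma sqrt_two_pi_mul_pos {T : ℝ} (hT : 0 < T) : 0 < √(2 * π * T) :=
  Real.sqrt_pos.mpr (by positivity)

lemma kern_pos {T : ℝ} (hT : 0 < T) (u : ℝ) : 0 < kern T u := by
  unfold kern
  have := sqrt_two_pi_mul_pos hT
  positivity

lemma kern_le {T : ℝ} (hT : 0 < T) (u : ℝ) : kern T u ≤ (√(2 * π * T))⁻¹ := by
  unfold kern
  have h0 := sqrt_two_pi_mul_pos hT
  have h1 : rexp (-u ^ 2 / (2 * T)) ≤ 1 := by
    rw [Real.exp_le_one_iff]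
    apply div_nonpos_of_nonpos_of_nonneg
    · nlinarith [sq_nonneg u]
    · positivity
  have h2 : 0 ≤ (√(2 * π * T))⁻¹ := by positivity
  nlinarith

lemma kern_le_of_le {T T₁ : ℝ} (hT₁ : 0 < T₁) (hT : T₁ ≤ T) (u : ℝ) :
    kern T u ≤ (√(2 * π * T₁))⁻¹ := by
  have hT0 : 0 < T := lt_of_lt_of_le hT₁ hT
  refine (kern_le hT0 u).trans ?_
  apply inv_anti₀ (sqrt_two_pi_mul_pos hT₁)
  apply Real.sqrt_le_sqrt
  have : 0 < 2 * π := by positivity
  nlinarith

lemma continuous_kern (T : ℝ) : Continuous (kern T) := by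
  unfold kern
  fun_prop

lemma continuous_kern1 (T : ℝ) : Continuous (kern1 T) := by
  unfold kern1
  exact ((continuous_id.div_const T)).mul (continuous_kern T)

lemma continuous_kern2 (T : ℝ) : Continuous (kern2 T) := by
  unfold kern2
  refine Continuous.mul ?_ (continuous_kern T)
  fun_prop

lemma hasDerivAt_kern_u (T u : ℝ) : HasDerivAt (kern T) (-(u / T) * kern T u) u := by
  unfold kern
  have h1 : HasDerivAt (fun u : ℝ => -u ^ 2 / (2 * T)) (-(u / T)) u := by
    by_cases hT : T = 0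
    · subst hT
      simp only [mul_zero, div_zero]
      simpa using hasDerivAt_const u (0:ℝ)
    have h2 : HasDerivAt (fun u : ℝ => u ^ 2) (2 * u) u := by
      simpa using hasDerivAt_pow 2 u
    have h3 := (h2.neg).div_const (2 * T)
    refine h3.congr_deriv ?_
    field_simp
  have h4 := (h1.exp).const_mul (√(2 * π * T))⁻¹
  refine h4.congr_deriv ?_
  ring

lemma hasDerivAt_kern_y (T x y : ℝ) :
    HasDerivAt (fun y => kern T (x - y)) (kern1 T (x - y)) y := by
  have h1 := hasDerivAt_kern_u T (x - y)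
  have h2 : HasDerivAt (fun y : ℝ => x - y) (-1) y := by
    simpa using (hasDerivAt_id y).const_sub x
  have h3 := h1.comp y h2
  refine h3.congr_deriv ?_
  unfold kern1
  ring

lemma hasDerivAt_kern1_y {T : ℝ} (hT : T ≠ 0) (x y : ℝ) :
    HasDerivAt (fun y => kern1 T (x - y)) (kern2 T (x - y)) y := by
  have h1 := hasDerivAt_kern_y T x y
  have h2 : HasDerivAt (fun y : ℝ => (x - y) / T) (-(1 / T)) y := by
    have := ((hasDerivAt_id y).const_sub x).div_const T
    refine this.congr_deriv ?_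
    ring
  have h3 := h2.mul h1
  refine h3.congr_deriv ?_
  unfold kern1 kern2
  field_simp
  ring

lemma hasDerivAt_kern_T {T : ℝ} (hT : 0 < T) (u : ℝ) :
    HasDerivAt (fun T => kern T u) (kern2 T u / 2) T := by
  have hS := sqrt_two_pi_mul_pos hT
  have hS2 : √(2 * π * T) ^ 2 = 2 * π * T := Real.sq_sqrt (by positivity)
  have h1 : HasDerivAt (fun T : ℝ => 2 * π * T) (2 * π) T := by
    simpa using (hasDerivAt_id T).const_mul (2 * π)
  have h2 : HasDerivAt (fun T : ℝ => √(2 * π * T)) (2 * π / (2 * √(2 * π * T))) T :=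
    h1.sqrt (by positivity)
  have h3 := h2.fun_inv hS.ne'
  have h4 : HasDerivAt (fun T : ℝ => -u ^ 2 / (2 * T)) (u ^ 2 / (2 * T ^ 2)) T := by
    have h5 : HasDerivAt (fun T : ℝ => 2 * T) 2 T := by
      simpa using (hasDerivAt_id T).const_mul (2 : ℝ)
    have h6 := (hasDerivAt_const T (-u ^ 2)).div h5 (by positivity)
    refine h6.congr_deriv ?_
    field_simp
    ring
  have h7 := h3.fun_mul (h4.exp)
  refine h7.congr_deriv ?_
  unfold kern2 kern
  have hpi : (π : ℝ) ≠ 0 := Real.pi_ne_zero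
  have e : 2 * π / (2 * √(2 * π * T)) / √(2 * π * T) ^ 2 = (√(2 * π * T))⁻¹ * (1 / (2 * T)) := by
    rw [hS2]
    field_simp
  rw [neg_div, e]
  field_simp
  ring

lemma abs_kern1_le {T U : ℝ} (hT : 0 < T) {u : ℝ} (hu : |u| ≤ U) :
    |kern1 T u| ≤ U / T * (√(2 * π * T))⁻¹ := by
  unfold kern1
  rw [abs_mul, abs_div, abs_of_pos hT, abs_of_pos (kern_pos hT u)]
  have h0 := kern_pos hT u
  have h1 := kern_le hT u
  have h2 : |u| / T ≤ U / T := by gcongr
  exact mul_le_mul h2 h1 h0.le (le_trans (by positivity) h2)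

lemma abs_kern2_le {T T₁ U : ℝ} (hT₁ : 0 < T₁) (hT : T₁ ≤ T) {u : ℝ} (hu : |u| ≤ U) :
    |kern2 T u| ≤ (U ^ 2 / T₁ ^ 2 + 1 / T₁) * (√(2 * π * T₁))⁻¹ := by
  have hT0 : 0 < T := lt_of_lt_of_le hT₁ hT
  unfold kern2
  rw [abs_mul, abs_of_pos (kern_pos hT0 u)]
  have h0 := kern_pos hT0 u
  have h1 := kern_le_of_le hT₁ hT u
  have h2 : |u ^ 2 / T ^ 2 - 1 / T| ≤ U ^ 2 / T₁ ^ 2 + 1 / T₁ := by
    have h3 : u ^ 2 ≤ U ^ 2 := by
      rw [← sq_abs u]
      exact pow_le_pow_left₀ (abs_nonneg u) hu 2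
    have h4 : u ^ 2 / T ^ 2 ≤ U ^ 2 / T₁ ^ 2 := by
      have : (0:ℝ) ≤ U ^ 2 := by positivity
      have h5 : T₁ ^ 2 ≤ T ^ 2 := pow_le_pow_left₀ hT₁.le hT 2
      exact div_le_div₀ this h3 (by positivity) h5
    have h6 : 1 / T ≤ 1 / T₁ := one_div_le_one_div_of_le hT₁ hT
    have h7 : 0 ≤ u ^ 2 / T ^ 2 := by positivity
    have h8 : 0 ≤ 1 / T := by positivity
    rw [abs_le]
    constructor <;> linarith
  exact mul_le_mul h2 h1 h0.le (le_trans (abs_nonneg _) h2)

/-- Differentiation of a parametric integral against a continuous compactly supported weight. -/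
lemma hasDerivAt_int_param {f : ℝ → ℝ} (hf : Continuous f) (hfc : HasCompactSupport f)
    {G G' : ℝ → ℝ → ℝ} {s₀ δ C : ℝ} (hδ : 0 < δ)
    (hG : ∀ s ∈ ball s₀ δ, Continuous (G s)) (hG' : Continuous (G' s₀))
    (hd : ∀ x, ∀ s ∈ ball s₀ δ, HasDerivAt (fun s => G s x) (G' s x) s)
    (hb : ∀ s ∈ ball s₀ δ, ∀ x, f x ≠ 0 → |G' s x| ≤ C) :
    HasDerivAt (fun s => ∫ x, f x * G s x) (∫ x, f x * G' s₀ x) s₀ := by
  have hs0 : s₀ ∈ ball s₀ δ := mem_ball_self hδ
  refine (hasDerivAt_integral_of_dominated_loc_of_deriv_le (μ := volume)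
    (F := fun s x => f x * G s x) (F' := fun s x => f x * G' s x) (bound := fun x => C * |f x|)
    (s := ball s₀ δ) (ball_mem_nhds _ hδ) ?_ ?_ ?_ ?_ ?_ ?_).2
  · filter_upwards [ball_mem_nhds s₀ hδ] with s hs
    exact (hf.mul (hG s hs)).aestronglyMeasurable
  · exact (hf.mul (hG s₀ hs0)).integrable_of_hasCompactSupport hfc.mul_right
  · exact (hf.mul hG').aestronglyMeasurable
  · refine ae_of_all _ (fun x s hs => ?_)
    by_cases hx : f x = 0
    · simp [hx]
    · rw [Real.norm_eq_abs, abs_mul, mul_comm]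
      exact mul_le_mul_of_nonneg_right (hb s hs x hx) (abs_nonneg _)
  · exact ((hf.integrable_of_hasCompactSupport hfc).abs).const_mul C
  · exact ae_of_all _ (fun x s hs => (hd x s hs).const_mul (f x))

/-- The heat flow of a function. -/
noncomputable def heat (f : ℝ → ℝ) (T y : ℝ) : ℝ := ∫ z, f (y + √T * z) ∂(gaussianReal 0 1)

/-- The first space derivative of the heat flow. -/
noncomputable def heatD1 (f : ℝ → ℝ) (T y : ℝ) : ℝ := ∫ x, f x * kern1 T (x - y)

/-- The second space derivative of the heat flow. -/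
noncomputable def heatD2 (f : ℝ → ℝ) (T y : ℝ) : ℝ := ∫ x, f x * kern2 T (x - y)

lemma heat_zero (f : ℝ → ℝ) (y : ℝ) : heat f 0 y = f y := by
  simp [heat]

lemma heat_one (f : ℝ → ℝ) : heat f 1 0 = ∫ z, f z ∂(gaussianReal 0 1) := by
  simp [heat]

/-- The kernel form of the heat flow. -/
lemma heat_eq {f : ℝ → ℝ} (hf : Continuous f) {T : ℝ} (hT : 0 < T) (y : ℝ) :
    heat f T y = ∫ x, f x * kern T (x - y) := by
  have h1 : (gaussianReal 0 1).map (fun z => y + √T * z)
      = gaussianReal (√T * 0 + y) (.mk (√T ^ 2) (sq_nonneg _) * 1) := by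
    have e : (fun z : ℝ => y + √T * z) = (y + ·) ∘ (√T * ·) := rfl
    rw [e, ← Measure.map_map (by fun_prop) (by fun_prop), gaussianReal_map_const_mul,
      gaussianReal_map_const_add]
  have hv0 : ((.mk (√T ^ 2) (sq_nonneg _) * 1 : ℝ≥0) : ℝ) = T := by
    simp [Real.sq_sqrt hT.le]
  have hv : (.mk (√T ^ 2) (sq_nonneg _) * 1 : ℝ≥0) ≠ 0 := by
    intro h
    rw [h] at hv0
    simp at hv0
    exact hT.ne hv0
  have h2 : heat f T y = ∫ x, f x ∂((gaussianReal 0 1).map (fun z => y + √T * z)) := by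
    rw [integral_map (by fun_prop) hf.aestronglyMeasurable]
    rfl
  rw [h2, h1, integral_gaussianReal_eq_integral_smul hv]
  refine integral_congr_ae (ae_of_all _ (fun x => ?_))
  simp only [smul_eq_mul, gaussianPDFReal, hv0, kern]
  simp only [mul_zero, zero_add]
  ring

lemma exists_bound_of_compact {f : ℝ → ℝ} (hfc : HasCompactSupport f) :
    ∃ R : ℝ, 0 < R ∧ ∀ x, f x ≠ 0 → |x| ≤ R := by
  obtain ⟨r, hr⟩ := (hfc.isCompact.isBounded).subset_closedBall (0 : ℝ)
  refine ⟨max r 1, by positivity, fun x hx => ?_⟩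
  have h1 : x ∈ tsupport f := subset_tsupport f hx
  have h2 := hr h1
  rw [mem_closedBall, dist_zero_right, Real.norm_eq_abs] at h2
  exact h2.trans (le_max_left _ _)

lemma hasDerivAt_heat_y {f : ℝ → ℝ} (hf : Continuous f) (hfc : HasCompactSupport f) {T : ℝ}
    (hT : 0 < T) (y : ℝ) : HasDerivAt (heat f T) (heatD1 f T y) y := by
  obtain ⟨R, hR, hx⟩ := exists_bound_of_compact hfc
  have h1 : HasDerivAt (fun y => ∫ x, f x * kern T (x - y)) (heatD1 f T y) y := by
    refine hasDerivAt_int_param (G := fun y x => kern T (x - y)) (G' := fun y x => kern1 T (x - y))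
      (C := (R + |y| + 1) / T * (√(2 * π * T))⁻¹) hf hfc one_pos ?_ ?_ ?_ ?_
    · exact fun s _ => (continuous_kern T).comp (continuous_id.sub continuous_const)
    · exact (continuous_kern1 T).comp (continuous_id.sub continuous_const)
    · exact fun x s _ => hasDerivAt_kern_y T x s
    · intro s hs x hfx
      apply abs_kern1_le hT
      have h2 := hx x hfx
      rw [mem_ball, Real.dist_eq] at hs
      have h3 : |s| ≤ |y| + 1 := by
        have := abs_add_le (s - y) y
        rw [sub_add_cancel] at this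
        linarith
      calc |x - s| ≤ |x| + |s| := abs_sub _ _
        _ ≤ R + |y| + 1 := by linarith
  have h2 : heat f T = fun y => ∫ x, f x * kern T (x - y) := funext (heat_eq hf hT)
  rw [h2]
  exact h1

lemma hasDerivAt_heatD1 {f : ℝ → ℝ} (hf : Continuous f) (hfc : HasCompactSupport f) {T : ℝ}
    (hT : 0 < T) (y : ℝ) : HasDerivAt (heatD1 f T) (heatD2 f T y) y := by
  obtain ⟨R, hR, hx⟩ := exists_bound_of_compact hfc
  refine hasDerivAt_int_param (G := fun y x => kern1 T (x - y)) (G' := fun y x => kern2 T (x - y))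
    (C := ((R + |y| + 1) ^ 2 / T ^ 2 + 1 / T) * (√(2 * π * T))⁻¹) hf hfc one_pos ?_ ?_ ?_ ?_
  · exact fun s _ => (continuous_kern1 T).comp (continuous_id.sub continuous_const)
  · exact (continuous_kern2 T).comp (continuous_id.sub continuous_const)
  · exact fun x s _ => hasDerivAt_kern1_y hT.ne' x s
  · intro s hs x hfx
    apply abs_kern2_le hT le_rfl
    have h2 := hx x hfx
    rw [mem_ball, Real.dist_eq] at hs
    have h3 : |s| ≤ |y| + 1 := by
      have := abs_add_le (s - y) y
      rw [sub_add_cancel] at this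
      linarith
    calc |x - s| ≤ |x| + |s| := abs_sub _ _
      _ ≤ R + |y| + 1 := by linarith

lemma hasDerivAt_heat_T {f : ℝ → ℝ} (hf : Continuous f) (hfc : HasCompactSupport f) {T : ℝ}
    (hT : 0 < T) (y : ℝ) : HasDerivAt (fun T => heat f T y) (heatD2 f T y / 2) T := by
  obtain ⟨R, hR, hx⟩ := exists_bound_of_compact hfc
  have hT2 : 0 < T / 2 := by positivity
  have h1 : HasDerivAt (fun T => ∫ x, f x * kern T (x - y)) (∫ x, f x * (kern2 T (x - y) / 2)) T := by
    refine hasDerivAt_int_param (G := fun T x => kern T (x - y))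
      (G' := fun T x => kern2 T (x - y) / 2)
      (C := ((R + |y|) ^ 2 / (T / 2) ^ 2 + 1 / (T / 2)) * (√(2 * π * (T / 2)))⁻¹) hf hfc hT2
      ?_ ?_ ?_ ?_
    · exact fun s _ => (continuous_kern s).comp (continuous_id.sub continuous_const)
    · exact ((continuous_kern2 T).comp (continuous_id.sub continuous_const)).div_const 2
    · intro x s hs
      rw [mem_ball, Real.dist_eq, abs_lt] at hs
      exact hasDerivAt_kern_T (by linarith [hs.1]) (x - y)
    · intro s hs x hfx
      rw [mem_ball, Real.dist_eq, abs_lt] at hs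
      have h3 : |x - y| ≤ R + |y| := by
        calc |x - y| ≤ |x| + |y| := abs_sub _ _
          _ ≤ R + |y| := by linarith [hx x hfx]
      have h4 := abs_kern2_le (T := s) (T₁ := T / 2) hT2 (by linarith [hs.1]) h3
      rw [abs_div, abs_of_pos (show (0:ℝ) < 2 by norm_num)]
      have h5 := abs_nonneg (kern2 s (x - y))
      linarith
  have h2 : (fun T => heat f T y) =ᶠ[𝓝 T] fun T => ∫ x, f x * kern T (x - y) := by
    filter_upwards [Ioi_mem_nhds hT] with s hs
    exact heat_eq hf hs y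
  refine (h1.congr_of_eventuallyEq h2).congr_deriv ?_
  rw [heatD2, ← integral_div]
  refine integral_congr_ae (ae_of_all _ (fun x => ?_))
  ring

lemma heat_continuous {f : ℝ → ℝ} (hf : Continuous f) {C : ℝ} (hC : ∀ x, |f x| ≤ C) :
    Continuous (fun p : ℝ × ℝ => heat f p.1 p.2) := by
  unfold heat
  refine continuous_of_dominated (bound := fun _ => C) ?_ ?_ (integrable_const C) ?_
  · intro p
    exact (hf.comp (by fun_prop)).aestronglyMeasurable
  · exact fun p => ae_of_all _ (fun z => hC _)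
  · refine ae_of_all _ (fun z => hf.comp ?_)
    fun_prop

lemma heat_integrable {f : ℝ → ℝ} (hf : Continuous f) {C : ℝ} (hC : ∀ x, |f x| ≤ C) (T y : ℝ) :
    Integrable (fun z => f (y + √T * z)) (gaussianReal 0 1) := by
  refine Integrable.of_bound (hf.comp (by fun_prop)).aestronglyMeasurable C ?_
  exact ae_of_all _ (fun z => hC _)

lemma heat_nonneg {f : ℝ → ℝ} (hf0 : ∀ x, 0 ≤ f x) (T y : ℝ) : 0 ≤ heat f T y :=
  integral_nonneg (fun z => hf0 _)

lemma heat_le {f : ℝ → ℝ} (hf : Continuous f) {C : ℝ} (hC0 : ∀ x, |f x| ≤ |C|)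
    (hC : ∀ x, f x ≤ C) (T y : ℝ) : heat f T y ≤ C := by
  have h1 : heat f T y ≤ ∫ _z, C ∂(gaussianReal 0 1) :=
    integral_mono (heat_integrable hf hC0 T y) (integrable_const C) (fun z => hC _)
  simpa using h1

lemma heat_pos {f : ℝ → ℝ} (hf : Continuous f) (hfc : HasCompactSupport f) (hf0 : ∀ x, 0 ≤ f x)
    {x₀ : ℝ} (hx₀ : 0 < f x₀) {T : ℝ} (hT : 0 < T) (y : ℝ) : 0 < heat f T y := by
  rw [heat_eq hf hT]
  have hint : Integrable (fun x => f x * kern T (x - y)) :=
    (hf.mul ((continuous_kern T).comp (continuous_id.sub continuous_const))).integrable_of_hasCompactSupport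
      hfc.mul_right
  refine (integral_pos_iff_support_of_nonneg
    (fun x => mul_nonneg (hf0 x) (kern_pos hT _).le) hint).mpr ?_
  have hopen : IsOpen (Function.support (fun x => f x * kern T (x - y))) :=
    (hf.mul ((continuous_kern T).comp (continuous_id.sub continuous_const))).isOpen_support
  refine hopen.measure_pos _ ⟨x₀, ?_⟩
  simp only [Function.mem_support]
  exact (mul_pos hx₀ (kern_pos hT _)).ne'

/-- Bounding the heat flow by the measure of a set. -/
lemma heat_le_measure {f : ℝ → ℝ} (hf : Continuous f) (hf0 : ∀ x, 0 ≤ f x) (hf1 : ∀ x, f x ≤ 1)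
    (T y : ℝ) {S : Set ℝ} (hS : MeasurableSet S) (h : ∀ z, f (y + √T * z) ≠ 0 → z ∈ S) :
    heat f T y ≤ (gaussianReal 0 1).real S := by
  have hC : ∀ x, |f x| ≤ 1 := fun x => by
    rw [abs_of_nonneg (hf0 x)]
    exact hf1 x
  have h1 : heat f T y ≤ ∫ z, S.indicator (fun _ => (1:ℝ)) z ∂(gaussianReal 0 1) := by
    refine integral_mono (heat_integrable hf hC T y) ?_ (fun z => ?_)
    · exact (integrable_const (1:ℝ)).indicator hS
    · by_cases hz : z ∈ S
      · rw [indicator_of_mem hz]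
        exact hf1 _
      · rw [indicator_of_notMem hz]
        by_contra hne
        push Not at hne
        have : f (y + √T * z) ≠ 0 := by linarith
        exact hz (h z this)
  rw [integral_indicator_const _ hS] at h1
  simpa using h1

/-- Smallness of the heat flow far from the support. -/
lemma heat_small {f : ℝ → ℝ} (hf : Continuous f) (hfc : HasCompactSupport f) (hf0 : ∀ x, 0 ≤ f x)
    (hf1 : ∀ x, f x ≤ 1) {ε : ℝ} (hε : 0 < ε) :
    ∃ R₁ : ℝ, 0 < R₁ ∧ ∀ T y, 0 ≤ T → T ≤ 1 → R₁ ≤ |y| → heat f T y < ε := by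
  obtain ⟨R, hR, hx⟩ := exists_bound_of_compact hfc
  obtain ⟨L, hL, hL0⟩ : ∃ L, ncdf L < ε ∧ L ≤ 0 := by
    have h1 := (tendsto_ncdf_atBot.eventually (gt_mem_nhds hε)).and (eventually_le_atBot (0:ℝ))
    exact h1.exists
  refine ⟨R + 1 + (1 - L), by linarith, fun T y hT0 hT1 hy => ?_⟩
  have hsqrt : √T ≤ 1 := Real.sqrt_le_iff.mpr ⟨by norm_num, by simpa using hT1⟩
  have hsq0 : 0 ≤ √T := Real.sqrt_nonneg T
  rcases le_total 0 y with hy0 | hy0
  · -- the positive side
    rw [abs_of_nonneg hy0] at hy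
    have h1 : ∀ z, f (y + √T * z) ≠ 0 → z ∈ Iic (-(y - R)) := by
      intro z hz
      have h2 := (abs_le.mp (hx _ hz)).2
      have h3 : √T * z ≤ -(y - R) := by linarith
      have h4 : z < 0 := by
        by_contra hcon
        push Not at hcon
        have : 0 ≤ √T * z := mul_nonneg hsq0 hcon
        linarith
      have h5 : z ≤ √T * z := by nlinarith
      exact mem_Iic.mpr (h5.trans h3)
    have h6 := heat_le_measure hf hf0 hf1 T y measurableSet_Iic h1
    have h7 : ncdf (-(y - R)) ≤ ncdf L := strictMono_ncdf.monotone (by linarith)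
    have h8 : heat f T y ≤ ncdf (-(y - R)) := h6
    linarith
  · -- the negative side
    rw [abs_of_nonpos hy0] at hy
    have h1 : ∀ z, f (y + √T * z) ≠ 0 → z ∈ Ioi (-y - R - 1) := by
      intro z hz
      have h2 := (abs_le.mp (hx _ hz)).1
      have h3 : -y - R ≤ √T * z := by linarith
      have h4 : 0 < z := by
        by_contra hcon
        push Not at hcon
        have : √T * z ≤ 0 := mul_nonpos_of_nonneg_of_nonpos hsq0 hcon
        linarith
      have h5 : √T * z ≤ z := by nlinarith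
      exact mem_Ioi.mpr (by linarith)
    have h6 := heat_le_measure hf hf0 hf1 T y measurableSet_Ioi h1
    have h7 : (gaussianReal 0 1).real (Ioi (-y - R - 1)) = ncdf (-(-y - R - 1)) := by
      rw [ncdf_neg, ← compl_Iic, measureReal_compl measurableSet_Iic]
      simp [ncdf]
    rw [h7] at h6
    have h8 : ncdf (-(-y - R - 1)) ≤ ncdf L := strictMono_ncdf.monotone (by linarith)
    linarith

end Vale.Agent.Lib.P226
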