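import Vale.Agent.Lib.P226.K4Num

/-!
From the rigidity equations of a tetrahedron to the finite system.
-/

open Real

namespace Vale.Agent.Lib.P226

/-- The numerical theorem with explicit unknowns. -/
theorem noSol6 {w0 w1 w2 w3 d01 d02 d03 d12 d13 d23 : ℝ}
    (p0 : 0 < w0) (p1 : 0 < w1) (p2 : 0 < w2) (p3 : 0 < w3)
    (m01 : d01 ∈ Set.Ioo 0 π) (m02 : d02 ∈ Set.Ioo 0 π) (m03 : d03 ∈ Set.Ioo 0 π)
    (m12 : d12 ∈ Set.Ioo 0 π) (m13 : d13 ∈ Set.Ioo 0 π) (m23 : d23 ∈ Set.Ioo 0 π)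
    (G01 : w0 * w1 = GG d01) (G02 : w0 * w2 = GG d02) (G03 : w0 * w3 = GG d03)
    (G12 : w1 * w2 = GG d12) (G13 : w1 * w3 = GG d13) (G23 : w2 * w3 = GG d23)
    (K0 : w0 ^ 2 = KK d01 + KK d02 + KK d03) (K1 : w1 ^ 2 = KK d01 + KK d12 + KK d13)
    (K2 : w2 ^ 2 = KK d02 + KK d12 + KK d23) (K3 : w3 ^ 2 = KK d03 + KK d13 + KK d23) :
    d01 ^ 2 + d02 ^ 2 + d03 ^ 2 + d12 ^ 2 + d13 ^ 2 + d23 ^ 2 ≤ 222 / 10 := by
  set w : Fin 4 → ℝ := ![w0, w1, w2, w3] with hw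
  set d : Fin 4 → Fin 4 → ℝ :=
    ![![0, d01, d02, d03], ![d01, 0, d12, d13], ![d02, d12, 0, d23], ![d03, d13, d23, 0]] with hd
  have key := noSol w d
    (by
      intro a
      fin_cases a <;> simp [hw, p0, p1, p2, p3])
    (by
      intro a b
      fin_cases a <;> fin_cases b <;> rfl)
    (by
      intro a b hab
      fin_cases a <;> fin_cases b <;> first | exact absurd rfl hab | simp [hd, m01, m02, m03, m12, m13, m23])
    (by
      intro a b hab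
      fin_cases a <;> fin_cases b <;>
        first
        | exact absurd rfl hab
        | (simp [hw, hd]; first | assumption | (rw [mul_comm]; assumption)))
    (by
      intro a
      fin_cases a
      · simp [hw, hd, Fin.sum_univ_four, K0]
      · simp [hw, hd, Fin.sum_univ_four, K1]
      · simp [hw, hd, Fin.sum_univ_four, K2]
      · simp [hw, hd, Fin.sum_univ_four, K3])
  simp [hd, Fin.sum_univ_four] at key
  linarith

/-- The angle attached to one pair. -/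
lemma pair_theta {Qa Qb N s c D θ : ℝ} (hQa : 0 < Qa) (hQb : 0 < Qb) (hs : 0 < s) (hc : 0 < c)
    (hD : 0 < D) (hN : N ^ 2 + s ^ 2 * D ^ 2 = Qa * Qb)
    (hθ : θ = π - arccos (N / (√Qa * √Qb))) (hr : D = c * θ) :
    θ ∈ Set.Ioo 0 π ∧ √Qa * √Qb = (s * c) * GG θ ∧ N = (s * c) * KK θ := by
  have hA : 0 < √Qa := Real.sqrt_pos.mpr hQa
  have hB : 0 < √Qb := Real.sqrt_pos.mpr hQb
  have hAB : 0 < √Qa * √Qb := by positivity
  have hAB2 : (√Qa * √Qb) ^ 2 = Qa * Qb := by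
    rw [mul_pow, Real.sq_sqrt hQa.le, Real.sq_sqrt hQb.le]
  set z : ℝ := N / (√Qa * √Qb) with hz
  have hN' : N = z * (√Qa * √Qb) := by
    rw [hz]
    field_simp
  have hpos : 0 < s ^ 2 * D ^ 2 := by positivity
  have hz2 : z ^ 2 < 1 := by
    have h1 : z ^ 2 * (√Qa * √Qb) ^ 2 = N ^ 2 := by
      rw [hN']
      ring
    rw [hAB2] at h1
    by_contra hcon
    push Not at hcon
    have : 1 * (Qa * Qb) ≤ z ^ 2 * (Qa * Qb) :=
      mul_le_mul_of_nonneg_right hcon (by positivity)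
    linarith
  have hz1 : |z| < 1 := by
    rw [← sq_lt_one_iff_abs_lt_one]
    exact hz2
  have hz3 := abs_lt.mp hz1
  have hy0 : 0 < arccos z := Real.arccos_pos.mpr hz3.2
  have hy1 : arccos z < π := by
    refine lt_of_le_of_ne (Real.arccos_le_pi _) (fun h => ?_)
    have := Real.arccos_eq_pi.mp h
    linarith [hz3.1]
  have hθ0 : 0 < θ := by rw [hθ]; linarith
  have hθ1 : θ < π := by rw [hθ]; linarith
  have hcos : cos θ = -z := by
    rw [hθ, Real.cos_pi_sub, Real.cos_arccos hz3.1.le hz3.2.le]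
  have hsin : sin θ = s * D / (√Qa * √Qb) := by
    have h1 : sin θ = √(1 - z ^ 2) := by
      rw [hθ, Real.sin_pi_sub, Real.sin_arccos]
    rw [h1]
    have h2 : 1 - z ^ 2 = (s * D / (√Qa * √Qb)) ^ 2 := by
      have hz4 : z ^ 2 = N ^ 2 / (Qa * Qb) := by rw [hz, div_pow, hAB2]
      have h5 : (s * D / (√Qa * √Qb)) ^ 2 = s ^ 2 * D ^ 2 / (Qa * Qb) := by
        rw [div_pow, hAB2, mul_pow]
      have hQQ : Qa * Qb ≠ 0 := by positivity
      rw [hz4, h5]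
      field_simp
      linarith
    rw [h2, Real.sqrt_sq (by positivity)]
  have hsinpos : 0 < sin θ := by
    rw [hsin]
    positivity
  refine ⟨⟨hθ0, hθ1⟩, ?_, ?_⟩
  · unfold GG
    rw [hsin, hr]
    field_simp
  · unfold KK
    rw [hcos, hsin, hr, hN']
    field_simp

/-- The finite system for a tetrahedron whose edges are proportional to its exterior angles. -/
theorem assemble {Q0 Q1 Q2 Q3 N01 N02 N03 N12 N13 N23 s c D01 D02 D03 D12 D13 D23 : ℝ}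
    (hQ0 : 0 < Q0) (hQ1 : 0 < Q1) (hQ2 : 0 < Q2) (hQ3 : 0 < Q3) (hs : 0 < s) (hc : 0 < c)
    (hD01 : 0 < D01) (hD02 : 0 < D02) (hD03 : 0 < D03) (hD12 : 0 < D12) (hD13 : 0 < D13)
    (hD23 : 0 < D23)
    (n01 : N01 ^ 2 + s ^ 2 * D23 ^ 2 = Q0 * Q1) (n02 : N02 ^ 2 + s ^ 2 * D13 ^ 2 = Q0 * Q2)
    (n03 : N03 ^ 2 + s ^ 2 * D12 ^ 2 = Q0 * Q3) (n12 : N12 ^ 2 + s ^ 2 * D03 ^ 2 = Q1 * Q2)
    (n13 : N13 ^ 2 + s ^ 2 * D02 ^ 2 = Q1 * Q3) (n23 : N23 ^ 2 + s ^ 2 * D01 ^ 2 = Q2 * Q3)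
    (c0 : Q0 = N01 + N02 + N03) (c1 : Q1 = N01 + N12 + N13)
    (c2 : Q2 = N02 + N12 + N23) (c3 : Q3 = N03 + N13 + N23)
    (r01 : D23 = c * (π - arccos (N01 / (√Q0 * √Q1))))
    (r02 : D13 = c * (π - arccos (N02 / (√Q0 * √Q2))))
    (r03 : D12 = c * (π - arccos (N03 / (√Q0 * √Q3))))
    (r12 : D03 = c * (π - arccos (N12 / (√Q1 * √Q2))))
    (r13 : D02 = c * (π - arccos (N13 / (√Q1 * √Q3))))
    (r23 : D01 = c * (π - arccos (N23 / (√Q2 * √Q3)))) :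
    D01 ^ 2 + D02 ^ 2 + D03 ^ 2 + D12 ^ 2 + D13 ^ 2 + D23 ^ 2 ≤ c ^ 2 * (222 / 10) := by
  obtain ⟨m01, g01, k01⟩ := pair_theta hQ0 hQ1 hs hc hD23 n01 rfl r01
  obtain ⟨m02, g02, k02⟩ := pair_theta hQ0 hQ2 hs hc hD13 n02 rfl r02
  obtain ⟨m03, g03, k03⟩ := pair_theta hQ0 hQ3 hs hc hD12 n03 rfl r03
  obtain ⟨m12, g12, k12⟩ := pair_theta hQ1 hQ2 hs hc hD03 n12 rfl r12
  obtain ⟨m13, g13, k13⟩ := pair_theta hQ1 hQ3 hs hc hD02 n13 rfl r13
  obtain ⟨m23, g23, k23⟩ := pair_theta hQ2 hQ3 hs hc hD01 n23 rfl r23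
  set t01 := π - arccos (N01 / (√Q0 * √Q1))
  set t02 := π - arccos (N02 / (√Q0 * √Q2))
  set t03 := π - arccos (N03 / (√Q0 * √Q3))
  set t12 := π - arccos (N12 / (√Q1 * √Q2))
  set t13 := π - arccos (N13 / (√Q1 * √Q3))
  set t23 := π - arccos (N23 / (√Q2 * √Q3))
  have hμ : 0 < s * c := by positivity
  set r : ℝ := √(s * c) with hr
  have hrpos : 0 < r := Real.sqrt_pos.mpr hμ
  have hr2 : r * r = s * c := Real.mul_self_sqrt hμ.le
  have hpair : ∀ {Qa Qb g : ℝ}, √Qa * √Qb = (s * c) * g → (√Qa / r) * (√Qb / r) = g := by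
    intro Qa Qb g h
    rw [div_mul_div_comm, h, hr2]
    field_simp
  have hsq : ∀ {Qa : ℝ}, 0 < Qa → (√Qa / r) ^ 2 = Qa / (s * c) := by
    intro Qa hQa
    rw [div_pow, Real.sq_sqrt hQa.le, sq, hr2]
  have hK : ∀ {N k : ℝ}, N = (s * c) * k → k = N / (s * c) := by
    intro N k h
    rw [h]
    field_simp
  have key := noSol6 (w0 := √Q0 / r) (w1 := √Q1 / r) (w2 := √Q2 / r) (w3 := √Q3 / r)
    (d01 := t01) (d02 := t02) (d03 := t03) (d12 := t12) (d13 := t13) (d23 := t23)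
    (div_pos (Real.sqrt_pos.mpr hQ0) hrpos) (div_pos (Real.sqrt_pos.mpr hQ1) hrpos)
    (div_pos (Real.sqrt_pos.mpr hQ2) hrpos) (div_pos (Real.sqrt_pos.mpr hQ3) hrpos)
    m01 m02 m03 m12 m13 m23
    (hpair g01) (hpair g02) (hpair g03) (hpair g12) (hpair g13) (hpair g23)
    (by
      rw [hsq hQ0, hK k01, hK k02, hK k03, c0]
      ring)
    (by
      rw [hsq hQ1, hK k01, hK k12, hK k13, c1]
      ring)
    (by
      rw [hsq hQ2, hK k02, hK k12, hK k23, c2]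
      ring)
    (by
      rw [hsq hQ3, hK k03, hK k13, hK k23, c3]
      ring)
  have h1 : D01 ^ 2 + D02 ^ 2 + D03 ^ 2 + D12 ^ 2 + D13 ^ 2 + D23 ^ 2
      = c ^ 2 * (t23 ^ 2 + t13 ^ 2 + t12 ^ 2 + t03 ^ 2 + t02 ^ 2 + t01 ^ 2) := by
    rw [r01, r02, r03, r12, r13, r23]
    ring
  rw [h1]
  have hc2 : 0 ≤ c ^ 2 := by positivity
  apply mul_le_mul_of_nonneg_left _ hc2
  linarith

end Vale.Agent.Lib.P226
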