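import Vale.Agent.Lib.P226.K4Taylor

/-!
A verified branch and bound checker for the finite system of the four cell case.

All arithmetic is on natural numbers.  A weight `W` stands for `W / 2^16`; products of two
weights, and the values of `G`, `K` and `d²`, are scaled by `2^32`; the values of `K`
are moreover shifted by `2^32` to make them natural numbers.
-/

open Real

namespace Vale.Agent.Lib.P226

/-- The scale `2^32` as a natural number. -/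
def sc2 : ℕ := 4294967296

/-- One line of the table. -/
structure Ent where
  /-- The point `δ = a / 2^16`. -/
  a : ℕ
  /-- A strict lower bound of `G δ` (scaled). -/
  P : ℕ
  /-- A strict upper bound of `G δ` (scaled). -/
  Q : ℕ
  /-- An upper bound of `K δ` (scaled and shifted). -/
  Ku : ℕ
  /-- A lower bound of `K δ` (scaled and shifted). -/
  Kl : ℕ
  /-- An upper bound of `δ²` (scaled). -/
  Del : ℕ

/-- Binary search trees of lines. -/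
inductive BT where
  | nil : BT
  | node (l : BT) (e : Ent) (r : BT) : BT

/-- The meaning of a line. -/
def EntOK (e : Ent) : Prop :=
  (∀ d ∈ Set.Ioo 0 π, (sc2 : ℝ) * GG d ≤ e.P →
      (sc2 : ℝ) * KK d + sc2 ≤ e.Ku ∧ (sc2 : ℝ) * d ^ 2 ≤ e.Del) ∧
  (∀ d ∈ Set.Ioo 0 π, (e.Q : ℝ) ≤ (sc2 : ℝ) * GG d → (e.Kl : ℝ) ≤ (sc2 : ℝ) * KK d + sc2)

/-- The default line. -/
def dflt : Ent := ⟨0, 0, 0, 0, 0, 0⟩

lemma dflt_ok : EntOK dflt := by
  have hs : (0 : ℝ) < (sc2 : ℝ) := by norm_num [sc2]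
  refine ⟨fun d hd h => ?_, fun d hd _ => ?_⟩
  · exfalso
    have h1 := one_lt_GG hd
    have h2 : (0 : ℝ) < (sc2 : ℝ) * GG d := by positivity
    simp only [dflt, Nat.cast_zero] at h
    linarith
  · have h1 := neg_one_le_KK hd
    simp only [dflt, Nat.cast_zero]
    nlinarith

/-- All lines of a tree are correct. -/
def TreeOK : BT → Prop
  | BT.nil => True
  | BT.node l e r => TreeOK l ∧ EntOK e ∧ TreeOK r

/-- Find the line with the smallest `P` above `p`. -/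
def upFind : BT → ℕ → Ent → Ent
  | BT.nil, _, best => best
  | BT.node l e r, p, best => if p ≤ e.P then upFind l p e else upFind r p best

/-- Find the line with the largest `Q` below `p`. -/
def lowFind : BT → ℕ → Ent → Ent
  | BT.nil, _, best => best
  | BT.node l e r, p, best => if e.Q ≤ p then lowFind r p e else lowFind l p best

lemma upFind_ok {t : BT} (ht : TreeOK t) (p : ℕ) {b : Ent} (hb : EntOK b) :
    EntOK (upFind t p b) := by
  induction t generalizing b with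
  | nil => exact hb
  | node l e r ihl ihr =>
    obtain ⟨h1, h2, h3⟩ := ht
    simp only [upFind]
    split_ifs
    · exact ihl h1 h2
    · exact ihr h3 hb

lemma lowFind_ok {t : BT} (ht : TreeOK t) (p : ℕ) {b : Ent} (hb : EntOK b) :
    EntOK (lowFind t p b) := by
  induction t generalizing b with
  | nil => exact hb
  | node l e r ihl ihr =>
    obtain ⟨h1, h2, h3⟩ := ht
    simp only [lowFind]
    split_ifs
    · exact ihr h3 h2
    · exact ihl h1 hb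

/-- The rational partial sums of the sine series. -/
def qS : ℕ → ℚ → ℚ
  | 0, _ => 0
  | n + 1, x => qS n x + (-1) ^ n * x ^ (2 * n + 1) / ((2 * n + 1).factorial : ℚ)

/-- The rational partial sums of the cosine series. -/
def qC : ℕ → ℚ → ℚ
  | 0, _ => 0
  | n + 1, x => qC n x + (-1) ^ n * x ^ (2 * n) / ((2 * n).factorial : ℚ)

lemma qS_cast (n : ℕ) (x : ℚ) : ((qS n x : ℚ) : ℝ) = rS n (x : ℝ) := by
  induction n with
  | zero => simp [qS, rS]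
  | succ n ih =>
    rw [rS_succ]
    simp only [qS]
    push_cast
    rw [ih]

lemma qC_cast (n : ℕ) (x : ℚ) : ((qC n x : ℚ) : ℝ) = rC n (x : ℝ) := by
  induction n with
  | zero => simp [qC, rC]
  | succ n ih =>
    rw [rC_succ]
    simp only [qC]
    push_cast
    rw [ih]

/-- The check of one line. -/
def entChk (e : Ent) : Bool :=
  let x : ℚ := (e.a : ℚ) / 65536
  let sU := qS 13 x
  let sL := qS 12 x
  let cU := qC 13 x
  let cL := qC 12 x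
  let S : ℚ := 4294967296
  decide (0 < x) && decide (x ≤ 314 / 100) && decide (0 < sL) &&
  decide ((e.P : ℚ) * sU < x * S) && decide (x * S < (e.Q : ℚ) * sL) &&
  decide (-(x * cL * S) ≤ ((e.Ku : ℚ) - S) * sL) && decide (-(x * cL * S) ≤ ((e.Ku : ℚ) - S) * sU) &&
  decide (((e.Kl : ℚ) - S) * sL ≤ -(x * cU * S)) && decide (((e.Kl : ℚ) - S) * sU ≤ -(x * cU * S)) &&
  decide (x ^ 2 * S ≤ (e.Del : ℚ))

lemma entChk_ok {e : Ent} (h : entChk e = true) : EntOK e := by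
  simp only [entChk, Bool.and_eq_true, decide_eq_true_eq] at h
  obtain ⟨⟨⟨⟨⟨⟨⟨⟨⟨hx0, hx1⟩, hsL⟩, hP⟩, hQ⟩, hKu1⟩, hKu2⟩, hKl1⟩, hKl2⟩, hDel⟩ := h
  set q : ℚ := (e.a : ℚ) / 65536 with hq
  set δ : ℝ := (q : ℝ) with hδ
  have hδ0 : 0 < δ := by
    rw [hδ]
    exact_mod_cast hx0
  have hδ1 : δ ≤ 314 / 100 := by
    have : ((q : ℚ) : ℝ) ≤ ((314 / 100 : ℚ) : ℝ) := by exact_mod_cast hx1
    simpa [hδ] using this
  have hδπ : δ < π := by
    have := Real.pi_gt_d2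
    linarith
  have hδm : δ ∈ Set.Ioo 0 π := ⟨hδ0, hδπ⟩
  have hS : (sc2 : ℝ) = 4294967296 := by norm_num [sc2]
  have hSpos : (0 : ℝ) < (sc2 : ℝ) := by rw [hS]; norm_num
  -- the bounds for sine and cosine
  have hs := sin_pos_of_Ioo hδm
  have hsU : sin δ ≤ ((qS 13 q : ℚ) : ℝ) := by
    rw [qS_cast]
    exact sin_le_rS 6 hδ0.le
  have hsL' : ((qS 12 q : ℚ) : ℝ) ≤ sin δ := by
    rw [qS_cast]
    exact rS_le_sin 5 hδ0.le
  have hcU : cos δ ≤ ((qC 13 q : ℚ) : ℝ) := by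
    rw [qC_cast]
    exact cos_le_rC 6 hδ0.le
  have hcL : ((qC 12 q : ℚ) : ℝ) ≤ cos δ := by
    rw [qC_cast]
    exact rC_le_cos 5 hδ0.le
  set sU : ℝ := ((qS 13 q : ℚ) : ℝ) with hsUd
  set sL : ℝ := ((qS 12 q : ℚ) : ℝ) with hsLd
  set cU : ℝ := ((qC 13 q : ℚ) : ℝ) with hcUd
  set cL : ℝ := ((qC 12 q : ℚ) : ℝ) with hcLd
  have hsLpos : 0 < sL := by
    rw [hsLd]
    exact_mod_cast hsL
  have hP' : (e.P : ℝ) * sU < δ * sc2 := by
    rw [hS]
    have : (((e.P : ℚ) * qS 13 q : ℚ) : ℝ) < ((q * 4294967296 : ℚ) : ℝ) := by exact_mod_cast hP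
    push_cast at this
    exact this
  have hQ' : δ * sc2 < (e.Q : ℝ) * sL := by
    rw [hS]
    have : ((q * 4294967296 : ℚ) : ℝ) < (((e.Q : ℚ) * qS 12 q : ℚ) : ℝ) := by exact_mod_cast hQ
    push_cast at this
    exact this
  have hKu1' : -(δ * cL * sc2) ≤ ((e.Ku : ℝ) - sc2) * sL := by
    rw [hS]
    have : ((-(q * qC 12 q * 4294967296) : ℚ) : ℝ) ≤ ((((e.Ku : ℚ) - 4294967296) * qS 12 q : ℚ) : ℝ) := by
      exact_mod_cast hKu1
    push_cast at this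
    exact this
  have hKu2' : -(δ * cL * sc2) ≤ ((e.Ku : ℝ) - sc2) * sU := by
    rw [hS]
    have : ((-(q * qC 12 q * 4294967296) : ℚ) : ℝ) ≤ ((((e.Ku : ℚ) - 4294967296) * qS 13 q : ℚ) : ℝ) := by
      exact_mod_cast hKu2
    push_cast at this
    exact this
  have hKl1' : ((e.Kl : ℝ) - sc2) * sL ≤ -(δ * cU * sc2) := by
    rw [hS]
    have : ((((e.Kl : ℚ) - 4294967296) * qS 12 q : ℚ) : ℝ) ≤ ((-(q * qC 13 q * 4294967296) : ℚ) : ℝ) := by
      exact_mod_cast hKl1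
    push_cast at this
    exact this
  have hKl2' : ((e.Kl : ℝ) - sc2) * sU ≤ -(δ * cU * sc2) := by
    rw [hS]
    have : ((((e.Kl : ℚ) - 4294967296) * qS 13 q : ℚ) : ℝ) ≤ ((-(q * qC 13 q * 4294967296) : ℚ) : ℝ) := by
      exact_mod_cast hKl2
    push_cast at this
    exact this
  have hDel' : δ ^ 2 * sc2 ≤ (e.Del : ℝ) := by
    rw [hS]
    have : ((q ^ 2 * 4294967296 : ℚ) : ℝ) ≤ ((e.Del : ℚ) : ℝ) := by exact_mod_cast hDel
    push_cast at this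
    exact this
  have hPn : (0 : ℝ) ≤ (e.P : ℝ) := Nat.cast_nonneg _
  have hQn : (0 : ℝ) ≤ (e.Q : ℝ) := Nat.cast_nonneg _
  -- values at the point
  have hGδ1 : (e.P : ℝ) < (sc2 : ℝ) * GG δ := by
    unfold GG
    rw [show (sc2 : ℝ) * (δ / sin δ) = (δ * sc2) / sin δ by ring, lt_div_iff₀ hs]
    have : (e.P : ℝ) * sin δ ≤ (e.P : ℝ) * sU := mul_le_mul_of_nonneg_left hsU hPn
    linarith
  have hGδ2 : (sc2 : ℝ) * GG δ < (e.Q : ℝ) := by
    unfold GG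
    rw [show (sc2 : ℝ) * (δ / sin δ) = (δ * sc2) / sin δ by ring, div_lt_iff₀ hs]
    have : (e.Q : ℝ) * sL ≤ (e.Q : ℝ) * sin δ := mul_le_mul_of_nonneg_left hsL' hQn
    linarith
  have hKδ1 : (sc2 : ℝ) * KK δ + sc2 ≤ (e.Ku : ℝ) := by
    have h0 : (sc2 : ℝ) * KK δ = -(δ * cos δ * sc2) / sin δ := by
      unfold KK
      ring
    have h1 : -(δ * cos δ * sc2) ≤ ((e.Ku : ℝ) - sc2) * sin δ := by
      have h2 : -(δ * cos δ * sc2) ≤ -(δ * cL * sc2) := by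
        have : δ * cL * sc2 ≤ δ * cos δ * sc2 := by
          apply mul_le_mul_of_nonneg_right _ hSpos.le
          exact mul_le_mul_of_nonneg_left hcL hδ0.le
        linarith
      rcases le_or_gt 0 ((e.Ku : ℝ) - sc2) with h3 | h3
      · have := mul_le_mul_of_nonneg_left hsL' h3
        linarith
      · have := mul_le_mul_of_nonpos_left hsU h3.le
        linarith
    rw [h0]
    have h4 : -(δ * cos δ * sc2) / sin δ ≤ (e.Ku : ℝ) - sc2 := by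
      rw [div_le_iff₀ hs]
      exact h1
    linarith
  have hKδ2 : (e.Kl : ℝ) ≤ (sc2 : ℝ) * KK δ + sc2 := by
    have h0 : (sc2 : ℝ) * KK δ = -(δ * cos δ * sc2) / sin δ := by
      unfold KK
      ring
    have h1 : ((e.Kl : ℝ) - sc2) * sin δ ≤ -(δ * cos δ * sc2) := by
      have h2 : -(δ * cU * sc2) ≤ -(δ * cos δ * sc2) := by
        have : δ * cos δ * sc2 ≤ δ * cU * sc2 := by
          apply mul_le_mul_of_nonneg_right _ hSpos.le
          exact mul_le_mul_of_nonneg_left hcU hδ0.le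
        linarith
      rcases le_or_gt 0 ((e.Kl : ℝ) - sc2) with h3 | h3
      · have := mul_le_mul_of_nonneg_left hsU h3
        linarith
      · have := mul_le_mul_of_nonpos_left hsL' h3.le
        linarith
    rw [h0]
    have h4 : (e.Kl : ℝ) - sc2 ≤ -(δ * cos δ * sc2) / sin δ := by
      rw [le_div_iff₀ hs]
      exact h1
    linarith
  refine ⟨fun d hd h => ?_, fun d hd h => ?_⟩
  · -- `d < δ`
    have hlt : d ≤ δ := by
      by_contra hcon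
      push Not at hcon
      have h1 := monotoneOn_GG hδm hd hcon.le
      have h2 : (sc2 : ℝ) * GG δ ≤ (sc2 : ℝ) * GG d := mul_le_mul_of_nonneg_left h1 hSpos.le
      linarith
    have hK := monotoneOn_KK hd hδm hlt
    have h2 : (sc2 : ℝ) * KK d ≤ (sc2 : ℝ) * KK δ := mul_le_mul_of_nonneg_left hK hSpos.le
    refine ⟨by linarith, ?_⟩
    have h3 : d ^ 2 ≤ δ ^ 2 := pow_le_pow_left₀ hd.1.le hlt 2
    have h4 : d ^ 2 * (sc2 : ℝ) ≤ δ ^ 2 * (sc2 : ℝ) := mul_le_mul_of_nonneg_right h3 hSpos.le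
    linarith
  · have hlt : δ ≤ d := by
      by_contra hcon
      push Not at hcon
      have h1 := monotoneOn_GG hd hδm hcon.le
      have h2 : (sc2 : ℝ) * GG d ≤ (sc2 : ℝ) * GG δ := mul_le_mul_of_nonneg_left h1 hSpos.le
      linarith
    have hK := monotoneOn_KK hδm hd hlt
    have h2 : (sc2 : ℝ) * KK δ ≤ (sc2 : ℝ) * KK d := mul_le_mul_of_nonneg_left hK hSpos.le
    linarith

/-- Check all lines of a tree. -/
def allChk : BT → Bool
  | BT.nil => true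
  | BT.node l e r => allChk l && entChk e && allChk r

lemma allChk_ok {t : BT} (h : allChk t = true) : TreeOK t := by
  induction t with
  | nil => trivial
  | node l e r ihl ihr =>
    simp only [allChk, Bool.and_eq_true] at h
    exact ⟨ihl h.1.1, entChk_ok h.1.2, ihr h.2⟩

/-- The data of a solution of the system, in scaled form. -/
structure Sol (W1 W2 W3 W4 d12 d13 d14 d23 d24 d34 : ℝ) : Prop where
  m12 : d12 ∈ Set.Ioo 0 π
  m13 : d13 ∈ Set.Ioo 0 π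
  m14 : d14 ∈ Set.Ioo 0 π
  m23 : d23 ∈ Set.Ioo 0 π
  m24 : d24 ∈ Set.Ioo 0 π
  m34 : d34 ∈ Set.Ioo 0 π
  G12 : W1 * W2 = (sc2 : ℝ) * GG d12
  G13 : W1 * W3 = (sc2 : ℝ) * GG d13
  G14 : W1 * W4 = (sc2 : ℝ) * GG d14
  G23 : W2 * W3 = (sc2 : ℝ) * GG d23
  G24 : W2 * W4 = (sc2 : ℝ) * GG d24
  G34 : W3 * W4 = (sc2 : ℝ) * GG d34
  K1 : W1 ^ 2 = (sc2 : ℝ) * (KK d12 + KK d13 + KK d14)
  K2 : W2 ^ 2 = (sc2 : ℝ) * (KK d12 + KK d23 + KK d24)
  K3 : W3 ^ 2 = (sc2 : ℝ) * (KK d13 + KK d23 + KK d34)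
  K4 : W4 ^ 2 = (sc2 : ℝ) * (KK d14 + KK d24 + KK d34)
  s12 : W2 ≤ W1
  s23 : W3 ≤ W2
  s34 : W4 ≤ W3
  pos4 : 0 < W4
  hE : (222 / 10 : ℝ) * sc2 < (sc2 : ℝ) * (d12 ^ 2 + d13 ^ 2 + d14 ^ 2 + d23 ^ 2 + d24 ^ 2 + d34 ^ 2)

/-- The largest admissible sum of the `Del`. -/
def tgt : ℕ := 95348273971

/-- One upper test. -/
def upT (lA hA hB hC hD : ℕ) (eB eC eD : Ent) : Bool :=
  decide (hA * hB ≤ eB.P) && decide (hA * hC ≤ eC.P) && decide (hA * hD ≤ eD.P) &&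
    decide (eB.Ku + eC.Ku + eD.Ku < lA * lA + 3 * sc2)

/-- One lower test. -/
def lowT (hA lA lB lC lD : ℕ) (eB eC eD : Ent) : Bool :=
  decide (eB.Q ≤ lA * lB) && decide (eC.Q ≤ lA * lC) && decide (eD.Q ≤ lA * lD) &&
    decide (hA * hA + 3 * sc2 < eB.Kl + eC.Kl + eD.Kl)

lemma upT_sound {lA hA hB hC hD : ℕ} {eB eC eD : Ent} (h : upT lA hA hB hC hD eB eC eD = true)
    (okB : EntOK eB) (okC : EntOK eC) (okD : EntOK eD)
    {WA WB WC WD dB dC dD : ℝ} (hWA : (lA : ℝ) ≤ WA) (hWA' : WA ≤ hA)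
    (pA : 0 < WA) (pB : 0 < WB) (pC : 0 < WC) (pD : 0 < WD)
    (hWB : WB ≤ hB) (hWC : WC ≤ hC) (hWD : WD ≤ hD)
    (mB : dB ∈ Set.Ioo 0 π) (mC : dC ∈ Set.Ioo 0 π) (mD : dD ∈ Set.Ioo 0 π)
    (gB : WA * WB = (sc2 : ℝ) * GG dB) (gC : WA * WC = (sc2 : ℝ) * GG dC)
    (gD : WA * WD = (sc2 : ℝ) * GG dD)
    (hK : WA ^ 2 = (sc2 : ℝ) * (KK dB + KK dC + KK dD)) : False := by
  simp only [upT, Bool.and_eq_true, decide_eq_true_eq] at h
  obtain ⟨⟨⟨h1, h2⟩, h3⟩, h4⟩ := h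
  have hp : ∀ {Y : ℝ} {b e : ℕ}, 0 < Y → Y ≤ b → hA * b ≤ e → WA * Y ≤ (e : ℝ) := by
    intro Y b e hY hYb hbe
    have h5 : WA * Y ≤ (hA : ℝ) * b := mul_le_mul hWA' hYb hY.le (le_trans pA.le hWA')
    have h6 : ((hA * b : ℕ) : ℝ) ≤ (e : ℝ) := by exact_mod_cast hbe
    push_cast at h6
    linarith
  have b1 := (okB.1 dB mB (by rw [← gB]; exact hp pB hWB h1)).1
  have b2 := (okC.1 dC mC (by rw [← gC]; exact hp pC hWC h2)).1
  have b3 := (okD.1 dD mD (by rw [← gD]; exact hp pD hWD h3)).1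
  have h5 : ((eB.Ku + eC.Ku + eD.Ku : ℕ) : ℝ) < ((lA * lA + 3 * sc2 : ℕ) : ℝ) := by
    exact_mod_cast h4
  push_cast at h5
  have hl : (0 : ℝ) ≤ (lA : ℝ) := Nat.cast_nonneg _
  have h6 : (lA : ℝ) * lA ≤ WA ^ 2 := by nlinarith
  nlinarith

lemma lowT_sound {hA lA lB lC lD : ℕ} {eB eC eD : Ent} (h : lowT hA lA lB lC lD eB eC eD = true)
    (okB : EntOK eB) (okC : EntOK eC) (okD : EntOK eD)
    {WA WB WC WD dB dC dD : ℝ} (hWA : (lA : ℝ) ≤ WA) (hWA' : WA ≤ hA)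
    (pA : 0 < WA)
    (hWB : (lB : ℝ) ≤ WB) (hWC : (lC : ℝ) ≤ WC) (hWD : (lD : ℝ) ≤ WD)
    (mB : dB ∈ Set.Ioo 0 π) (mC : dC ∈ Set.Ioo 0 π) (mD : dD ∈ Set.Ioo 0 π)
    (gB : WA * WB = (sc2 : ℝ) * GG dB) (gC : WA * WC = (sc2 : ℝ) * GG dC)
    (gD : WA * WD = (sc2 : ℝ) * GG dD)
    (hK : WA ^ 2 = (sc2 : ℝ) * (KK dB + KK dC + KK dD)) : False := by
  simp only [lowT, Bool.and_eq_true, decide_eq_true_eq] at h
  obtain ⟨⟨⟨h1, h2⟩, h3⟩, h4⟩ := h
  have hp : ∀ {Y : ℝ} {b e : ℕ}, (b : ℝ) ≤ Y → e ≤ lA * b → (e : ℝ) ≤ WA * Y := by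
    intro Y b e hYb hbe
    have h5 : (lA : ℝ) * b ≤ WA * Y := mul_le_mul hWA hYb (Nat.cast_nonneg _) pA.le
    have h6 : (e : ℝ) ≤ ((lA * b : ℕ) : ℝ) := by exact_mod_cast hbe
    push_cast at h6
    linarith
  have b1 := okB.2 dB mB (by rw [← gB]; exact hp hWB h1)
  have b2 := okC.2 dC mC (by rw [← gC]; exact hp hWC h2)
  have b3 := okD.2 dD mD (by rw [← gD]; exact hp hWD h3)
  have h5 : ((hA * hA + 3 * sc2 : ℕ) : ℝ) < ((eB.Kl + eC.Kl + eD.Kl : ℕ) : ℝ) := by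
    exact_mod_cast h4
  push_cast at h5
  have h6 : WA ^ 2 ≤ (hA : ℝ) * hA := by nlinarith
  nlinarith

/-- The test excluding a box. -/
def exclT (t : BT) (l1 h1 l2 h2 l3 h3 l4 h4 : ℕ) : Bool :=
  decide (h1 < l2) || decide (h2 < l3) || decide (h3 < l4) || decide (h3 * h4 ≤ sc2) ||
  (let u12 := upFind t (h1 * h2) dflt
   let u13 := upFind t (h1 * h3) dflt
   let u14 := upFind t (h1 * h4) dflt
   let u23 := upFind t (h2 * h3) dflt
   let u24 := upFind t (h2 * h4) dflt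
   let u34 := upFind t (h3 * h4) dflt
   (decide (h1 * h2 ≤ u12.P) && decide (h1 * h3 ≤ u13.P) && decide (h1 * h4 ≤ u14.P) &&
      decide (h2 * h3 ≤ u23.P) && decide (h2 * h4 ≤ u24.P) && decide (h3 * h4 ≤ u34.P) &&
      decide (u12.Del + u13.Del + u14.Del + u23.Del + u24.Del + u34.Del ≤ tgt)) ||
   upT l1 h1 h2 h3 h4 u12 u13 u14 || upT l2 h2 h1 h3 h4 u12 u23 u24 ||
   upT l3 h3 h1 h2 h4 u13 u23 u34 || upT l4 h4 h1 h2 h3 u14 u24 u34) ||
  (let f12 := lowFind t (l1 * l2) dflt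
   let f13 := lowFind t (l1 * l3) dflt
   let f14 := lowFind t (l1 * l4) dflt
   let f23 := lowFind t (l2 * l3) dflt
   let f24 := lowFind t (l2 * l4) dflt
   let f34 := lowFind t (l3 * l4) dflt
   lowT h1 l1 l2 l3 l4 f12 f13 f14 || lowT h2 l2 l1 l3 l4 f12 f23 f24 ||
   lowT h3 l3 l1 l2 l4 f13 f23 f34 || lowT h4 l4 l1 l2 l3 f14 f24 f34)

section Sound

variable {W1 W2 W3 W4 d12 d13 d14 d23 d24 d34 : ℝ}

lemma Sol.pos (S : Sol W1 W2 W3 W4 d12 d13 d14 d23 d24 d34) :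
    0 < W1 ∧ 0 < W2 ∧ 0 < W3 ∧ 0 < W4 := by
  have h4 := S.pos4
  have h3 : 0 < W3 := lt_of_lt_of_le h4 S.s34
  have h2 : 0 < W2 := lt_of_lt_of_le h3 S.s23
  have h1 : 0 < W1 := lt_of_lt_of_le h2 S.s12
  exact ⟨h1, h2, h3, h4⟩

lemma exclT_sound {t : BT} (ht : TreeOK t) {l1 h1 l2 h2 l3 h3 l4 h4 : ℕ}
    (hT : exclT t l1 h1 l2 h2 l3 h3 l4 h4 = true)
    (S : Sol W1 W2 W3 W4 d12 d13 d14 d23 d24 d34)
    (b1 : (l1 : ℝ) ≤ W1) (b1' : W1 ≤ h1) (b2 : (l2 : ℝ) ≤ W2) (b2' : W2 ≤ h2)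
    (b3 : (l3 : ℝ) ≤ W3) (b3' : W3 ≤ h3) (b4 : (l4 : ℝ) ≤ W4) (b4' : W4 ≤ h4) : False := by
  obtain ⟨p1, p2, p3, p4⟩ := S.pos
  have hS : (0 : ℝ) < (sc2 : ℝ) := by norm_num [sc2]
  simp only [exclT, Bool.or_eq_true, decide_eq_true_eq] at hT
  rcases hT with (((((h | h) | h) | h) | h) | h)
  · have h5 : ((h1 : ℕ) : ℝ) < (l2 : ℝ) := by exact_mod_cast h
    linarith [S.s12]
  · have h5 : ((h2 : ℕ) : ℝ) < (l3 : ℝ) := by exact_mod_cast h
    linarith [S.s23]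
  · have h5 : ((h3 : ℕ) : ℝ) < (l4 : ℝ) := by exact_mod_cast h
    linarith [S.s34]
  · have h5 : ((h3 * h4 : ℕ) : ℝ) ≤ (sc2 : ℝ) := by exact_mod_cast h
    push_cast at h5
    have h6 : W3 * W4 ≤ (h3 : ℝ) * h4 := mul_le_mul b3' b4' p4.le (le_trans p3.le b3')
    have h7 := one_lt_GG S.m34
    have h8 := S.G34
    nlinarith
  · -- upper tests
    have ok : ∀ p, EntOK (upFind t p dflt) := fun p => upFind_ok ht p dflt_ok
    rcases h with ((((h | h) | h) | h) | h)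
    · simp only [Bool.and_eq_true, decide_eq_true_eq] at h
      obtain ⟨⟨⟨⟨⟨⟨g1, g2⟩, g3⟩, g4⟩, g5⟩, g6⟩, g7⟩ := h
      have hp : ∀ {X Y : ℝ} {a b e : ℕ}, 0 < X → 0 < Y → X ≤ a → Y ≤ b → a * b ≤ e →
          X * Y ≤ (e : ℝ) := by
        intro X Y a b e hX hY hXa hYb hbe
        have h5 : X * Y ≤ (a : ℝ) * b := mul_le_mul hXa hYb hY.le (le_trans hX.le hXa)
        have h6 : ((a * b : ℕ) : ℝ) ≤ (e : ℝ) := by exact_mod_cast hbe
        push_cast at h6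
        linarith
      have e1 := ((ok (h1 * h2)).1 d12 S.m12 (by rw [← S.G12]; exact hp p1 p2 b1' b2' g1)).2
      have e2 := ((ok (h1 * h3)).1 d13 S.m13 (by rw [← S.G13]; exact hp p1 p3 b1' b3' g2)).2
      have e3 := ((ok (h1 * h4)).1 d14 S.m14 (by rw [← S.G14]; exact hp p1 p4 b1' b4' g3)).2
      have e4 := ((ok (h2 * h3)).1 d23 S.m23 (by rw [← S.G23]; exact hp p2 p3 b2' b3' g4)).2
      have e5 := ((ok (h2 * h4)).1 d24 S.m24 (by rw [← S.G24]; exact hp p2 p4 b2' b4' g5)).2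
      have e6 := ((ok (h3 * h4)).1 d34 S.m34 (by rw [← S.G34]; exact hp p3 p4 b3' b4' g6)).2
      have g8 : ((_ : ℕ) : ℝ) ≤ ((tgt : ℕ) : ℝ) := Nat.cast_le.mpr g7
      push_cast at g8
      have g9 : ((tgt : ℕ) : ℝ) ≤ (222 / 10 : ℝ) * sc2 := by norm_num [tgt, sc2]
      have g10 := S.hE
      nlinarith
    · exact upT_sound h (ok _) (ok _) (ok _) b1 b1' p1 p2 p3 p4 b2' b3' b4' S.m12 S.m13 S.m14
        S.G12 S.G13 S.G14 S.K1
    · exact upT_sound h (ok _) (ok _) (ok _) b2 b2' p2 p1 p3 p4 b1' b3' b4' S.m12 S.m23 S.m24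
        (by rw [mul_comm]; exact S.G12) S.G23 S.G24 S.K2
    · exact upT_sound h (ok _) (ok _) (ok _) b3 b3' p3 p1 p2 p4 b1' b2' b4' S.m13 S.m23 S.m34
        (by rw [mul_comm]; exact S.G13) (by rw [mul_comm]; exact S.G23) S.G34 S.K3
    · exact upT_sound h (ok _) (ok _) (ok _) b4 b4' p4 p1 p2 p3 b1' b2' b3' S.m14 S.m24 S.m34
        (by rw [mul_comm]; exact S.G14) (by rw [mul_comm]; exact S.G24)
        (by rw [mul_comm]; exact S.G34) S.K4
  · have ok : ∀ p, EntOK (lowFind t p dflt) := fun p => lowFind_ok ht p dflt_ok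
    rcases h with (((h | h) | h) | h)
    · exact lowT_sound h (ok _) (ok _) (ok _) b1 b1' p1 b2 b3 b4 S.m12 S.m13 S.m14
        S.G12 S.G13 S.G14 S.K1
    · exact lowT_sound h (ok _) (ok _) (ok _) b2 b2' p2 b1 b3 b4 S.m12 S.m23 S.m24
        (by rw [mul_comm]; exact S.G12) S.G23 S.G24 S.K2
    · exact lowT_sound h (ok _) (ok _) (ok _) b3 b3' p3 b1 b2 b4 S.m13 S.m23 S.m34
        (by rw [mul_comm]; exact S.G13) (by rw [mul_comm]; exact S.G23) S.G34 S.K3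
    · exact lowT_sound h (ok _) (ok _) (ok _) b4 b4' p4 b1 b2 b3 S.m14 S.m24 S.m34
        (by rw [mul_comm]; exact S.G14) (by rw [mul_comm]; exact S.G24)
        (by rw [mul_comm]; exact S.G34) S.K4

/-- The relative width of an interval. -/
def relW (l h : ℕ) : ℕ := (h - l) * 65536 / l

/-- The recursive checker. -/
def chk (t : BT) : ℕ → ℕ → ℕ → ℕ → ℕ → ℕ → ℕ → ℕ → ℕ → Bool
  | 0, l1, h1, l2, h2, l3, h3, l4, h4 => exclT t l1 h1 l2 h2 l3 h3 l4 h4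
  | f + 1, l1, h1, l2, h2, l3, h3, l4, h4 =>
    exclT t l1 h1 l2 h2 l3 h3 l4 h4 ||
    (let r1 := relW l1 h1
     let r2 := relW l2 h2
     let r3 := relW l3 h3
     let r4 := relW l4 h4
     if r2 ≤ r1 ∧ r3 ≤ r1 ∧ r4 ≤ r1 then
       chk t f l1 ((l1 + h1) / 2) l2 h2 l3 h3 l4 h4 && chk t f ((l1 + h1) / 2) h1 l2 h2 l3 h3 l4 h4
     else if r3 ≤ r2 ∧ r4 ≤ r2 then
       chk t f l1 h1 l2 ((l2 + h2) / 2) l3 h3 l4 h4 && chk t f l1 h1 ((l2 + h2) / 2) h2 l3 h3 l4 h4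
     else if r4 ≤ r3 then
       chk t f l1 h1 l2 h2 l3 ((l3 + h3) / 2) l4 h4 && chk t f l1 h1 l2 h2 ((l3 + h3) / 2) h3 l4 h4
     else
       chk t f l1 h1 l2 h2 l3 h3 l4 ((l4 + h4) / 2) && chk t f l1 h1 l2 h2 l3 h3 ((l4 + h4) / 2) h4)

theorem chk_sound {t : BT} (ht : TreeOK t) (S : Sol W1 W2 W3 W4 d12 d13 d14 d23 d24 d34) (f : ℕ) :
    ∀ {l1 h1 l2 h2 l3 h3 l4 h4 : ℕ}, chk t f l1 h1 l2 h2 l3 h3 l4 h4 = true →
      (l1 : ℝ) ≤ W1 → W1 ≤ h1 → (l2 : ℝ) ≤ W2 → W2 ≤ h2 →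
      (l3 : ℝ) ≤ W3 → W3 ≤ h3 → (l4 : ℝ) ≤ W4 → W4 ≤ h4 → False := by
  induction f with
  | zero =>
    intro l1 h1 l2 h2 l3 h3 l4 h4 hT b1 b1' b2 b2' b3 b3' b4 b4'
    exact exclT_sound ht hT S b1 b1' b2 b2' b3 b3' b4 b4'
  | succ f ih =>
    intro l1 h1 l2 h2 l3 h3 l4 h4 hT b1 b1' b2 b2' b3 b3' b4 b4'
    simp only [chk, Bool.or_eq_true] at hT
    rcases hT with hT | hT
    · exact exclT_sound ht hT S b1 b1' b2 b2' b3 b3' b4 b4'
    · split_ifs at hT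
      · simp only [Bool.and_eq_true] at hT
        rcases le_total W1 (((l1 + h1) / 2 : ℕ) : ℝ) with hm | hm
        · exact ih hT.1 b1 hm b2 b2' b3 b3' b4 b4'
        · exact ih hT.2 hm b1' b2 b2' b3 b3' b4 b4'
      · simp only [Bool.and_eq_true] at hT
        rcases le_total W2 (((l2 + h2) / 2 : ℕ) : ℝ) with hm | hm
        · exact ih hT.1 b1 b1' b2 hm b3 b3' b4 b4'
        · exact ih hT.2 b1 b1' hm b2' b3 b3' b4 b4'
      · simp only [Bool.and_eq_true] at hT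
        rcases le_total W3 (((l3 + h3) / 2 : ℕ) : ℝ) with hm | hm
        · exact ih hT.1 b1 b1' b2 b2' b3 hm b4 b4'
        · exact ih hT.2 b1 b1' b2 b2' hm b3' b4 b4'
      · simp only [Bool.and_eq_true] at hT
        rcases le_total W4 (((l4 + h4) / 2 : ℕ) : ℝ) with hm | hm
        · exact ih hT.1 b1 b1' b2 b2' b3 b3' b4 hm
        · exact ih hT.2 b1 b1' b2 b2' b3 b3' hm b4'

end Sound

end Vale.Agent.Lib.P226
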