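import Vale.Agent.Lib.P226.Final5
import Vale.Agent.Lib.P226.Final6
import Vale.Agent.Lib.P226.Final7

/-!
The induction on the number of cells.
-/

open MeasureTheory ProbabilityTheory Real Set
open scoped RealInnerProductSpace ENNReal NNReal Pointwise

namespace Vale.Agent.Lib.P226

/-- Numerical bounds for the value of the propeller. -/
lemma F0_bounds : (35809 / 100000 : ℝ) < 9 / (8 * π) ∧ 9 / (8 * π) ≤ (35811 / 100000 : ℝ) := by
  have h1 := Real.pi_gt_d4
  have h2 := Real.pi_lt_d4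
  constructor
  · rw [lt_div_iff₀ (by positivity)]
    nlinarith
  · rw [div_le_iff₀ (by positivity)]
    nlinarith

variable {E : Type*} [NormedAddCommGroup E] [InnerProductSpace ℝ E] [FiniteDimensional ℝ E]
  [MeasurableSpace E] [BorelSpace E]

omit [FiniteDimensional ℝ E] [MeasurableSpace E] [BorelSpace E] in
lemma sqrt_two_pi_div_le {n : ℕ} {cb : ℝ} (hn : 0 < n) (h : (2.50663 : ℝ) / n ≤ cb) :
    √(2 * π) / (n : ℝ) ≤ cb := by
  refine le_trans ?_ h
  have hn' : (0 : ℝ) < n := by exact_mod_cast hn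
  have := sqrt_two_pi_bounds.2
  gcongr

/-- Transport of an energy bound along a bijection of the index sets. -/
lemma energy_le_of_card {F₀ : ℝ} {n : ℕ}
    (hn : ∀ A : Fin n → Set E, IsMeasPartition A → momentEnergy A ≤ F₀)
    {κ : Type*} [Fintype κ] (hκ : Fintype.card κ = n) (B : κ → Set E) (hB : IsMeasPartition B) :
    momentEnergy B ≤ F₀ := by
  classical
  let e : κ ≃ Fin n := Fintype.equivFinOfCardEq hκ
  have hA : IsMeasPartition (fun i => B (e.symm i)) := by
    refine ⟨fun i => hB.1 _, fun i j hij => hB.2.1 (fun h => hij (e.symm.injective h)), ?_⟩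
    rw [← hB.2.2]
    ext x
    simp only [mem_iUnion]
    constructor
    · rintro ⟨i, hi⟩
      exact ⟨_, hi⟩
    · rintro ⟨i, hi⟩
      exact ⟨e i, by simpa using hi⟩
  have h1 := hn _ hA
  have h2 : momentEnergy (fun i => B (e.symm i)) = momentEnergy B := by
    unfold momentEnergy
    exact Equiv.sum_comp e.symm (fun i => ‖gaussMoment (B i)‖ ^ 2)
  rwa [h2] at h1

/-- Passing to a larger index set by adding empty cells. -/
lemma energy_coarsen_of_injective {ι κ : Type*} [Fintype ι] [Fintype κ] [DecidableEq κ]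
    {A : ι → Set E} (hA : IsMeasPartition A) {f : ι → κ} (hf : Function.Injective f) :
    momentEnergy A ≤ momentEnergy (coarsen f A) := by
  classical
  have h1 : ∀ i, gaussMoment (coarsen f A (f i)) = gaussMoment (A i) := by
    intro i
    rw [gaussMoment_coarsen hA f (f i)]
    have hfil : (Finset.univ.filter (fun m => f m = f i)) = {i} := by
      ext m
      simp [hf.eq_iff]
    rw [hfil, Finset.sum_singleton]
  unfold momentEnergy
  calc ∑ i, ‖gaussMoment (A i)‖ ^ 2
      = ∑ j ∈ Finset.univ.image f, ‖gaussMoment (coarsen f A j)‖ ^ 2 := by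
        rw [Finset.sum_image (fun a _ b _ h => hf h)]
        exact Finset.sum_congr rfl (fun i _ => by rw [h1 i])
    _ ≤ ∑ j, ‖gaussMoment (coarsen f A j)‖ ^ 2 :=
        Finset.sum_le_sum_of_subset_of_nonneg (Finset.subset_univ _) (fun _ _ _ => by positivity)

namespace IsOptimal

variable {ι : Type*} [Fintype ι] {t : ι → E} {A : ι → Set E}

/-- Under an energy bound on fewer cells which is exceeded, the moment vectors are strictly
obtuse. -/
lemma inner_neg (h : IsOptimal t A) [DecidableEq ι] {F₀ : ℝ} {i j : ι} (hij : i ≠ j)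
    (hF₀ : ∀ B : {m // m ≠ j} → Set E, IsMeasPartition B → momentEnergy B ≤ F₀)
    (hF : F₀ < ∑ m, ‖t m‖ ^ 2) : ⟪t i, t j⟫ < 0 := by
  by_contra hcon
  push Not at hcon
  set f : ι → {m // m ≠ j} := fun m => if hm : m = j then ⟨i, hij⟩ else ⟨m, hm⟩ with hf
  have hB := h.part.coarsen f
  have h1 := hF₀ _ hB
  have hy : ∀ l, gaussMoment (coarsen f A l) = ∑ m with f m = l, t m := by
    intro l
    rw [gaussMoment_coarsen h.part f l]
    exact Finset.sum_congr rfl (fun m _ => h.moment m)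
  have hfm : ∀ (m : ι) (l : {m // m ≠ j}), f m = l ↔ (m = j ∧ i = l.1) ∨ (m ≠ j ∧ m = l.1) := by
    intro m l
    by_cases hm : m = j
    · subst hm
      simp [hf, Subtype.ext_iff]
    · simp [hf, hm, Subtype.ext_iff]
  have hval : ∀ l : {m // m ≠ j}, ‖∑ m with f m = l, t m‖ ^ 2
      = (if l.1 = i then ‖t i + t j‖ ^ 2 else ‖t l.1‖ ^ 2) := by
    intro l
    by_cases hl : l.1 = i
    · have hfil : (Finset.univ.filter (fun m => f m = l)) = {i, j} := by
        ext m
        simp only [Finset.mem_filter, Finset.mem_univ, true_and, Finset.mem_insert,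
          Finset.mem_singleton, hfm, hl]
        constructor
        · rintro (⟨h3, _⟩ | ⟨_, h3⟩)
          · exact Or.inr h3
          · exact Or.inl h3
        · rintro (h3 | h3)
          · right
            exact ⟨by rw [h3]; exact hij, h3⟩
          · left
            exact ⟨h3, trivial⟩
      rw [hfil, Finset.sum_pair hij, if_pos hl]
    · have hfil : (Finset.univ.filter (fun m => f m = l)) = {l.1} := by
        ext m
        simp only [Finset.mem_filter, Finset.mem_univ, true_and, Finset.mem_singleton, hfm]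
        constructor
        · rintro (⟨_, h3⟩ | ⟨_, h3⟩)
          · exact absurd h3.symm hl
          · exact h3
        · intro h3
          right
          exact ⟨by rw [h3]; exact l.2, h3⟩
      rw [hfil, Finset.sum_singleton, if_neg hl]
  have h2 : momentEnergy (coarsen f A)
      = ∑ m, (if m = i then ‖t i + t j‖ ^ 2 else ‖t m‖ ^ 2)
        - (if j = i then ‖t i + t j‖ ^ 2 else ‖t j‖ ^ 2) := by
    unfold momentEnergy
    rw [← sum_subtype_ne j (fun m => if m = i then ‖t i + t j‖ ^ 2 else ‖t m‖ ^ 2)]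
    exact Finset.sum_congr rfl (fun l _ => by rw [hy l, hval l])
  have h3 : ∑ m, (if m = i then ‖t i + t j‖ ^ 2 else ‖t m‖ ^ 2)
      = ∑ m, ‖t m‖ ^ 2 + (‖t i + t j‖ ^ 2 - ‖t i‖ ^ 2) := by
    have h4 : ∀ m, (if m = i then ‖t i + t j‖ ^ 2 else ‖t m‖ ^ 2)
        = ‖t m‖ ^ 2 + (if m = i then ‖t i + t j‖ ^ 2 - ‖t i‖ ^ 2 else 0) := by
      intro m
      by_cases hm : m = i
      · subst hm
        simp
      · simp [hm]
    simp only [h4]
    rw [Finset.sum_add_distrib, Finset.sum_ite_eq']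
    simp
  rw [h2, h3, if_neg hij.symm, norm_add_sq_real] at h1
  linarith

/-- The numerical facts for one cell of an optimal configuration. -/
theorem cell_facts (h : IsOptimal t A) [DecidableEq ι]
    (hneg : ∀ i j, i ≠ j → ⟪t i, t j⟫ < 0) (hd : ∀ i j, i ≠ j → t i ≠ t j)
    {F₀ : ℝ} (hF₀pos : 0 < F₀) (hF₀num : (35 / 100 : ℝ) ≤ F₀)
    (hF₀ : ∀ l : ι, ∀ B : {m // m ≠ l} → Set E, IsMeasPartition B → momentEnergy B ≤ F₀)
    (hF : F₀ < ∑ m, ‖t m‖ ^ 2) (hcard : 5 ≤ Fintype.card ι) {κ₀ : ℝ}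
    (hκ₀ : κ₀ * (1 - 1 / (Fintype.card ι : ℝ)) ≤ 1) (l : ι) :
    ∃ α : ℝ, ncdf α = (stdGaussian E).real (A l) ∧ ‖t l‖ ^ 2 ≤ npdf α ^ 2 ∧
      (eF α ≤ 7 / 50 → ‖t l‖ ^ 2 ≤ 2 * eF α - κ₀ * eF α ^ 2 / F₀) := by
  have hcard1 : 1 < Fintype.card ι := by omega
  obtain ⟨m, hm⟩ : ∃ m, m ≠ l := by
    obtain ⟨x, y, hxy⟩ := Fintype.one_lt_card_iff.mp hcard1
    by_cases hx : x = l
    · exact ⟨y, fun e => hxy (hx.trans e.symm)⟩
    · exact ⟨x, hx⟩
  have : Nonempty {m // m ≠ l} := ⟨⟨m, hm⟩⟩
  have hpos : ∀ q, 0 < (stdGaussian E).real (A q) := by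
    intro q
    obtain ⟨r, hr⟩ : ∃ r, r ≠ q := by
      obtain ⟨x, y, hxy⟩ := Fintype.one_lt_card_iff.mp hcard1
      by_cases hx : x = q
      · exact ⟨y, fun e => hxy (hx.trans e.symm)⟩
      · exact ⟨x, hx⟩
    refine lt_of_le_of_ne measureReal_nonneg (fun e => ?_)
    have h0 := gaussMoment_of_real_eq_zero e.symm
    rw [h.moment q] at h0
    have h1 := hneg r q hr
    rw [h0, inner_zero_right] at h1
    exact lt_irrefl _ h1
  have hsum := h.part.sum_real
  have hlt1 : (stdGaussian E).real (A l) < 1 := by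
    have h1 : (stdGaussian E).real (A l) + (stdGaussian E).real (A m) ≤ 1 := by
      rw [← hsum, ← Finset.sum_pair (f := fun q => (stdGaussian E).real (A q)) hm.symm]
      exact Finset.sum_le_sum_of_subset_of_nonneg (Finset.subset_univ _)
        (fun _ _ _ => measureReal_nonneg)
    linarith [hpos m]
  obtain ⟨α, hα⟩ := exists_ncdf_eq (hpos l) hlt1
  refine ⟨α, hα, ?_, ?_⟩
  · exact pow_le_pow_left₀ (norm_nonneg _) (h.norm_le_npdf l hα) 2
  · intro hemax
    set n : ℝ := (Fintype.card ι : ℝ) with hn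
    have hn5 : (5 : ℝ) ≤ n := by
      rw [hn]
      exact_mod_cast hcard
    set K : ℝ := 1 - 1 / n with hK
    have hKlow : (4 / 5 : ℝ) ≤ K := by
      have : 1 / n ≤ 1 / 5 := one_div_le_one_div_of_le (by norm_num) hn5
      rw [hK]
      linarith
    have hKpos : 0 < K := by linarith
    have he0 : 0 ≤ eF α := mul_nonneg (npdf_pos α).le (ngrand_nonneg α)
    have hgap := h.gap_integral_le hneg hd l hα
    have hdel := h.deletion l (hF₀ l)
    refine p_le_of_deletion (F := ∑ m, ‖t m‖ ^ 2) (κ := 1 / K)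
      (P := Phi (fun m : {m // m ≠ l} => t m)) hF.le hF₀pos (by positivity) he0 ?_ ?_ ?_ ?_
    · have h1 : 1 / K ≤ 5 / 4 := by
        rw [div_le_iff₀ hKpos]
        linarith
      have h2 : 1 / K * eF α ≤ 5 / 4 * (7 / 50) :=
        mul_le_mul h1 hemax he0 (by norm_num)
      linarith
    · have h1 : eF α * (1 / K) = npdf α * ngrand α / K := by
        unfold eF
        ring
      have h2 : 1 / K * eF α = npdf α * ngrand α / K := by
        rw [← h1]
        ring
      rw [h2]
      linarith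
    · have h1 : 1 / K * ‖t l‖ ^ 2 = ‖t l‖ ^ 2 / K := by ring
      rw [h1]
      exact hdel
    · rw [le_div_iff₀ hKpos]
      exact hκ₀

end IsOptimal

/-- The induction step of the main theorem. -/
theorem step {n k : ℕ} (hn : n = k + 1) (hk : 4 ≤ k)
    (hprev : ∀ A : Fin k → Set E, IsMeasPartition A → momentEnergy A ≤ 9 / (8 * π))
    (A : Fin n → Set E) (hA : IsMeasPartition A) : momentEnergy A ≤ 9 / (8 * π) := by
  by_contra hcon
  push Not at hcon
  have : Nonempty (Fin n) := ⟨⟨0, by omega⟩⟩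
  obtain ⟨t, C, hC1, hC2, hC3, hC4⟩ := exists_optimal (ι := Fin n) (E := E)
  have h : IsOptimal t C := ⟨hC1, hC2, hC3, hC4⟩
  have hF : 9 / (8 * π) < ∑ m, ‖t m‖ ^ 2 := hcon.trans_le (hC4 A hA)
  obtain ⟨hFL, hFU⟩ := F0_bounds
  have hF₀ : ∀ l : Fin n, ∀ B : {m // m ≠ l} → Set E, IsMeasPartition B →
      momentEnergy B ≤ 9 / (8 * π) := by
    intro l B hB
    refine energy_le_of_card hprev ?_ B hB
    rw [Fintype.card_subtype_compl, Fintype.card_fin]
    simp [hn]
  have hneg : ∀ i j, i ≠ j → ⟪t i, t j⟫ < 0 := fun i j hij => h.inner_neg hij (hF₀ j) hF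
  have hd : ∀ i j, i ≠ j → t i ≠ t j := by
    intro i j hij e
    have h1 := hneg i j hij
    rw [e, real_inner_self_eq_norm_sq] at h1
    nlinarith [sq_nonneg ‖t j‖]
  have hcard : Fintype.card (Fin n) = n := Fintype.card_fin n
  have hF₀pos : (0 : ℝ) < 9 / (8 * π) := by positivity
  have hF₀num : (35 / 100 : ℝ) ≤ 9 / (8 * π) := by linarith
  have hsum : ∑ m, (stdGaussian E).real (C m) = 1 := h.part.sum_real
  have h3 : 3 ≤ Fintype.card (Fin n) := by omega
  have h5 : 5 ≤ Fintype.card (Fin n) := by omega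
  have hFL2 : (35809 / 100000 : ℝ) < ∑ m, ‖t m‖ ^ 2 := hFL.trans hF
  have hnR : (n : ℝ) = (Fintype.card (Fin n) : ℝ) := by rw [hcard]
  have hn5 : 5 ≤ n := by omega
  rcases eq_or_lt_of_le hn5 with e5 | h6
  · -- five cells
    subst e5
    refine chain5 h hneg hd ?_ h3 _ hsum (fun m => ?_) hFL2
    · rw [hcard]
      exact sqrt_two_pi_div_le (by norm_num) (by norm_num)
    · obtain ⟨α, h1, h2, h7⟩ := h.cell_facts hneg hd hF₀pos hF₀num hF₀ hF h5 (κ₀ := 5 / 4)
        (by rw [hcard]; norm_num) m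
      have h8 := cell5_of hF₀pos hFU h2 h7
      rwa [h1] at h8
  rcases eq_or_lt_of_le (show 6 ≤ n by omega) with e6 | h7
  · subst e6
    refine chain6 h hneg hd ?_ h3 _ hsum (fun m => ?_) hFL2
    · rw [hcard]
      exact sqrt_two_pi_div_le (by norm_num) (by norm_num)
    · obtain ⟨α, h1, h2, h8⟩ := h.cell_facts hneg hd hF₀pos hF₀num hF₀ hF h5 (κ₀ := 6 / 5)
        (by rw [hcard]; norm_num) m
      have h9 := cell6_of hF₀pos hFU h2 h8
      rwa [h1] at h9
  · have hn7 : (7 : ℝ) ≤ (n : ℝ) := by exact_mod_cast h7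
    refine chain7 h hneg hd ?_ h3 _ hsum (fun m => ?_) hFL2
    · rw [hcard]
      refine sqrt_two_pi_div_le (by omega) ?_
      have : (2.50663 : ℝ) / n ≤ 2.50663 / 7 := by gcongr
      exact this.trans (by norm_num)
    · obtain ⟨α, h1, h2, h8⟩ := h.cell_facts hneg hd hF₀pos hF₀num hF₀ hF h5 (κ₀ := 1)
        (by
          rw [hcard]
          have : 0 ≤ 1 / (n : ℝ) := by positivity
          linarith) m
      have h9 := cell7_of hF₀pos hFU h2 h8
      rwa [h1] at h9

/-- The main theorem, given the bound for four cells. -/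
theorem bound_all
    (hbase : ∀ A : Fin 4 → Set E, IsMeasPartition A → momentEnergy A ≤ 9 / (8 * π)) (k : ℕ) :
    ∀ A : Fin k → Set E, IsMeasPartition A → momentEnergy A ≤ 9 / (8 * π) := by
  induction k with
  | zero =>
    intro A hA
    exact (energy_coarsen_of_injective hA (Fin.castLE_injective (Nat.zero_le 4))).trans
      (hbase _ (hA.coarsen _))
  | succ k ih =>
    intro A hA
    rcases lt_or_ge k 4 with hk | hk
    · exact (energy_coarsen_of_injective hA (Fin.castLE_injective (by omega : k + 1 ≤ 4))).trans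
        (hbase _ (hA.coarsen _))
    · exact step rfl hk ih A hA

end Vale.Agent.Lib.P226
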