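import Vale.Agent.Lib.P226.K4Pair
import Vale.Agent.Lib.P226.Main
import Vale.Agent.Lib.P226.Blocks

/-!
The case of four cells of the propeller conjecture, and the conjecture.
-/

open MeasureTheory ProbabilityTheory Real Set
open scoped RealInnerProductSpace ENNReal NNReal

namespace Vale.Agent.Lib.P226

variable {E : Type*} [NormedAddCommGroup E] [InnerProductSpace ℝ E] [FiniteDimensional ℝ E]
  [MeasurableSpace E] [BorelSpace E]

section Gram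

omit [FiniteDimensional ℝ E] [MeasurableSpace E] [BorelSpace E]

variable {a b c d : E} {xab xac xad xbc xbd xcd : ℝ}

/-- The Gram matrix of four vectors of sum zero. -/
lemma gram4 (hsum : a + b + c + d = 0) (hab : ⟪a, b⟫ = -xab) (hac : ⟪a, c⟫ = -xac)
    (had : ⟪a, d⟫ = -xad) (hbc : ⟪b, c⟫ = -xbc) (hbd : ⟪b, d⟫ = -xbd) (hcd : ⟪c, d⟫ = -xcd) :
    ‖b - a‖ ^ 2 = 4 * xab + xac + xad + xbc + xbd ∧
    ‖c - b‖ ^ 2 = xab + xac + 4 * xbc + xbd + xcd ∧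
    ‖d - b‖ ^ 2 = xab + xad + 4 * xbd + xbc + xcd ∧
    ⟪b - a, c - b⟫ = -2 * xab - 2 * xbc - xbd + xac ∧
    ⟪b - a, d - b⟫ = -2 * xab - 2 * xbd - xbc + xad ∧
    ⟪c - b, d - b⟫ = -xcd + 2 * xbc + 2 * xbd + xab := by
  have hba : ⟪b, a⟫ = -xab := by rw [real_inner_comm]; exact hab
  have hca : ⟪c, a⟫ = -xac := by rw [real_inner_comm]; exact hac
  have hda : ⟪d, a⟫ = -xad := by rw [real_inner_comm]; exact had
  have hcb : ⟪c, b⟫ = -xbc := by rw [real_inner_comm]; exact hbc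
  have hdb : ⟪d, b⟫ = -xbd := by rw [real_inner_comm]; exact hbd
  have hdc : ⟪d, c⟫ = -xcd := by rw [real_inner_comm]; exact hcd
  have hz : ∀ v : E, ⟪v, a⟫ + ⟪v, b⟫ + ⟪v, c⟫ + ⟪v, d⟫ = 0 := by
    intro v
    rw [← inner_add_right, ← inner_add_right, ← inner_add_right, hsum, inner_zero_right]
  have haa : ⟪a, a⟫ = xab + xac + xad := by
    have := hz a
    rw [hab, hac, had] at this
    linarith
  have hbb : ⟪b, b⟫ = xab + xbc + xbd := by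
    have := hz b
    rw [hba, hbc, hbd] at this
    linarith
  have hcc : ⟪c, c⟫ = xac + xbc + xcd := by
    have := hz c
    rw [hca, hcb, hcd] at this
    linarith
  have hdd : ⟪d, d⟫ = xad + xbd + xcd := by
    have := hz d
    rw [hda, hdb, hdc] at this
    linarith
  refine ⟨?_, ?_, ?_, ?_, ?_, ?_⟩
  · rw [← real_inner_self_eq_norm_sq]
    simp only [inner_sub_left, inner_sub_right, haa, hbb, hab, hba]
    ring
  · rw [← real_inner_self_eq_norm_sq]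
    simp only [inner_sub_left, inner_sub_right, hcc, hbb, hbc, hcb]
    ring
  · rw [← real_inner_self_eq_norm_sq]
    simp only [inner_sub_left, inner_sub_right, hdd, hbb, hbd, hdb]
    ring
  · simp only [inner_sub_left, inner_sub_right, hbb, hbc, hac, hab, hba]
    ring
  · simp only [inner_sub_left, inner_sub_right, hbb, hbd, had, hab, hba]
    ring
  · simp only [inner_sub_left, inner_sub_right, hbb, hcd, hcb, hbd, hdb]
    ring

end Gram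

namespace IsOptimal

variable {t : Fin 4 → E} {A : Fin 4 → Set E}

/-- The edge formula in terms of the six scalar products. -/
theorem pair_formula (h : IsOptimal t A) (hneg : ∀ i j, i ≠ j → ⟪t i, t j⟫ < 0)
    (hd : ∀ i j, i ≠ j → t i ≠ t j) {i j k l : Fin 4} (hij : i ≠ j)
    (hki : k ≠ i) (hkj : k ≠ j) (hli : l ≠ i) (hlj : l ≠ j)
    (hcov : ∀ m, m ≠ i → m ≠ j → m = k ∨ m = l)
    (hsum : t i + t j + t k + t l = 0)
    {xij xik xil xjk xjl xkl : ℝ} (h1 : ⟪t i, t j⟫ = -xij) (h2 : ⟪t i, t k⟫ = -xik)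
    (h3 : ⟪t i, t l⟫ = -xil) (h4 : ⟪t j, t k⟫ = -xjk) (h5 : ⟪t j, t l⟫ = -xjl)
    (h6 : ⟪t k, t l⟫ = -xkl) {Qk Ql Nf : ℝ}
    (hQk : Qk = (4 * xij + xik + xil + xjk + xjl) * (xij + xil + 4 * xjl + xjk + xkl)
      - (-2 * xij - 2 * xjl - xjk + xil) ^ 2)
    (hQl : Ql = (4 * xij + xik + xil + xjk + xjl) * (xij + xik + 4 * xjk + xjl + xkl)
      - (-2 * xij - 2 * xjk - xjl + xik) ^ 2)
    (hNf : Nf = (4 * xij + xik + xil + xjk + xjl) * (-xkl + 2 * xjk + 2 * xjl + xij)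
      - (-2 * xij - 2 * xjk - xjl + xik) * (-2 * xij - 2 * xjl - xjk + xil))
    (hQk0 : 0 < Qk) (hQl0 : 0 < Ql) (hNlt : Nf ^ 2 < Qk * Ql) :
    ‖t j - t i‖ = (2 * npdf 0 / π) * (π - arccos (Nf / (√Qk * √Ql))) ∧
      ‖t j - t i‖ ^ 2 = 4 * xij + xik + xil + xjk + xjl := by
  obtain ⟨g1, g2, g3, g4, g5, g6⟩ := gram4 hsum h1 h2 h3 h4 h5 h6
  refine ⟨h.pair_eq hneg hd hij hki hkj hli hlj hcov ?_ ?_ ?_ hQk0 hQl0 hNlt, g1⟩
  · rw [g1, g3, g5, hQk]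
  · rw [g1, g2, g4, hQl]
  · rw [g1, g4, g5, g6, hNf]

end IsOptimal

section Polys

variable (x01 x02 x03 x12 x13 x23 : ℝ)

/-- Four times the squared area of the face opposite to the vertex 0. -/
noncomputable def k4Q0 : ℝ :=
  x01*x02 + x01*x03 + x01*x12 + x01*x13 + 4*x01*x23 + x02*x03 + x02*x12 + 4*x02*x13 + x02*x23 + 4*x03*x12 + x03*x13 + x03*x23 + 9*x12*x13 + 9*x12*x23 + 9*x13*x23

/-- Four times the squared area of the face opposite to the vertex 1. -/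
noncomputable def k4Q1 : ℝ :=
  x01*x02 + x01*x03 + x01*x12 + x01*x13 + 4*x01*x23 + 9*x02*x03 + x02*x12 + 4*x02*x13 + 9*x02*x23 + 4*x03*x12 + x03*x13 + 9*x03*x23 + x12*x13 + x12*x23 + x13*x23

/-- Four times the squared area of the face opposite to the vertex 2. -/
noncomputable def k4Q2 : ℝ :=
  x01*x02 + 9*x01*x03 + x01*x12 + 9*x01*x13 + 4*x01*x23 + x02*x03 + x02*x12 + 4*x02*x13 + x02*x23 + 4*x03*x12 + 9*x03*x13 + x03*x23 + x12*x13 + x12*x23 + x13*x23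

/-- Four times the squared area of the face opposite to the vertex 3. -/
noncomputable def k4Q3 : ℝ :=
  9*x01*x02 + x01*x03 + 9*x01*x12 + x01*x13 + 4*x01*x23 + x02*x03 + 9*x02*x12 + 4*x02*x13 + x02*x23 + 4*x03*x12 + x03*x13 + x03*x23 + x12*x13 + x12*x23 + x13*x23

/-- The scalar product of the area vectors of the faces 2 and 3. -/
noncomputable def k4N23 : ℝ :=
  3*x01*x02 + 3*x01*x03 + 3*x01*x12 + 3*x01*x13 - 4*x01*x23 - 1*x02*x03 + 3*x02*x12 + 4*x02*x13 - 1*x02*x23 + 4*x03*x12 + 3*x03*x13 - 1*x03*x23 - 1*x12*x13 - 1*x12*x23 - 1*x13*x23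

/-- The scalar product of the area vectors of the faces 1 and 3. -/
noncomputable def k4N13 : ℝ :=
  3*x01*x02 - 1*x01*x03 + 3*x01*x12 - 1*x01*x13 + 4*x01*x23 + 3*x02*x03 + 3*x02*x12 - 4*x02*x13 + 3*x02*x23 + 4*x03*x12 - 1*x03*x13 + 3*x03*x23 - 1*x12*x13 - 1*x12*x23 - 1*x13*x23

/-- The scalar product of the area vectors of the faces 1 and 2. -/
noncomputable def k4N12 : ℝ :=
  -1*x01*x02 + 3*x01*x03 - 1*x01*x12 + 3*x01*x13 + 4*x01*x23 + 3*x02*x03 - 1*x02*x12 + 4*x02*x13 + 3*x02*x23 - 4*x03*x12 + 3*x03*x13 + 3*x03*x23 - 1*x12*x13 - 1*x12*x23 - 1*x13*x23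

/-- The scalar product of the area vectors of the faces 0 and 3. -/
noncomputable def k4N03 : ℝ :=
  3*x01*x02 - 1*x01*x03 + 3*x01*x12 - 1*x01*x13 + 4*x01*x23 - 1*x02*x03 + 3*x02*x12 + 4*x02*x13 - 1*x02*x23 - 4*x03*x12 - 1*x03*x13 - 1*x03*x23 + 3*x12*x13 + 3*x12*x23 + 3*x13*x23

/-- The scalar product of the area vectors of the faces 0 and 2. -/
noncomputable def k4N02 : ℝ :=
  -1*x01*x02 + 3*x01*x03 - 1*x01*x12 + 3*x01*x13 + 4*x01*x23 - 1*x02*x03 - 1*x02*x12 - 4*x02*x13 - 1*x02*x23 + 4*x03*x12 + 3*x03*x13 - 1*x03*x23 + 3*x12*x13 + 3*x12*x23 + 3*x13*x23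

/-- The scalar product of the area vectors of the faces 0 and 1. -/
noncomputable def k4N01 : ℝ :=
  -1*x01*x02 - 1*x01*x03 - 1*x01*x12 - 1*x01*x13 - 4*x01*x23 + 3*x02*x03 - 1*x02*x12 + 4*x02*x13 + 3*x02*x23 + 4*x03*x12 - 1*x03*x13 + 3*x03*x23 + 3*x12*x13 + 3*x12*x23 + 3*x13*x23

/-- The weighted number of spanning trees of the tetrahedron. -/
noncomputable def k4τ : ℝ :=
  x01*x02*x03 + x01*x02*x13 + x01*x02*x23 + x01*x03*x12 + x01*x03*x23 + x01*x12*x13 + x01*x12*x23 + x01*x13*x23 + x02*x03*x12 + x02*x03*x13 + x02*x12*x13 + x02*x12*x23 + x02*x13*x23 + x03*x12*x13 + x03*x12*x23 + x03*x13*x23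

lemma k4Qk_01 : k4Q2 x01 x02 x03 x12 x13 x23 =
    (4 * x01 + x02 + x03 + x12 + x13) * (x01 + x03 + 4 * x13 + x12 + x23) - (-2 * x01 - 2 * x13 - x12 + x03) ^ 2 := by
  unfold k4Q2
  ring

lemma k4Ql_01 : k4Q3 x01 x02 x03 x12 x13 x23 =
    (4 * x01 + x02 + x03 + x12 + x13) * (x01 + x02 + 4 * x12 + x13 + x23) - (-2 * x01 - 2 * x12 - x13 + x02) ^ 2 := by
  unfold k4Q3
  ring

lemma k4Nf_01 : k4N23 x01 x02 x03 x12 x13 x23 =
    (4 * x01 + x02 + x03 + x12 + x13) * (-x23 + 2 * x12 + 2 * x13 + x01) - (-2 * x01 - 2 * x12 - x13 + x02) * (-2 * x01 - 2 * x13 - x12 + x03) := by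
  unfold k4N23
  ring

lemma k4e_23 : k4N23 x01 x02 x03 x12 x13 x23 ^ 2 + 16 * k4τ x01 x02 x03 x12 x13 x23 * (4 * x01 + x02 + x03 + x12 + x13)
    = k4Q2 x01 x02 x03 x12 x13 x23 * k4Q3 x01 x02 x03 x12 x13 x23 := by
  unfold k4N23 k4τ k4Q2 k4Q3
  ring

lemma k4Qk_02 : k4Q1 x01 x02 x03 x12 x13 x23 =
    (4 * x02 + x01 + x03 + x12 + x23) * (x02 + x03 + 4 * x23 + x12 + x13) - (-2 * x02 - 2 * x23 - x12 + x03) ^ 2 := by
  unfold k4Q1
  ring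

lemma k4Ql_02 : k4Q3 x01 x02 x03 x12 x13 x23 =
    (4 * x02 + x01 + x03 + x12 + x23) * (x02 + x01 + 4 * x12 + x23 + x13) - (-2 * x02 - 2 * x12 - x23 + x01) ^ 2 := by
  unfold k4Q3
  ring

lemma k4Nf_02 : k4N13 x01 x02 x03 x12 x13 x23 =
    (4 * x02 + x01 + x03 + x12 + x23) * (-x13 + 2 * x12 + 2 * x23 + x02) - (-2 * x02 - 2 * x12 - x23 + x01) * (-2 * x02 - 2 * x23 - x12 + x03) := by
  unfold k4N13
  ring

lemma k4e_13 : k4N13 x01 x02 x03 x12 x13 x23 ^ 2 + 16 * k4τ x01 x02 x03 x12 x13 x23 * (4 * x02 + x01 + x03 + x12 + x23)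
    = k4Q1 x01 x02 x03 x12 x13 x23 * k4Q3 x01 x02 x03 x12 x13 x23 := by
  unfold k4N13 k4τ k4Q1 k4Q3
  ring

lemma k4Qk_03 : k4Q1 x01 x02 x03 x12 x13 x23 =
    (4 * x03 + x01 + x02 + x13 + x23) * (x03 + x02 + 4 * x23 + x13 + x12) - (-2 * x03 - 2 * x23 - x13 + x02) ^ 2 := by
  unfold k4Q1
  ring

lemma k4Ql_03 : k4Q2 x01 x02 x03 x12 x13 x23 =
    (4 * x03 + x01 + x02 + x13 + x23) * (x03 + x01 + 4 * x13 + x23 + x12) - (-2 * x03 - 2 * x13 - x23 + x01) ^ 2 := by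
  unfold k4Q2
  ring

lemma k4Nf_03 : k4N12 x01 x02 x03 x12 x13 x23 =
    (4 * x03 + x01 + x02 + x13 + x23) * (-x12 + 2 * x13 + 2 * x23 + x03) - (-2 * x03 - 2 * x13 - x23 + x01) * (-2 * x03 - 2 * x23 - x13 + x02) := by
  unfold k4N12
  ring

lemma k4e_12 : k4N12 x01 x02 x03 x12 x13 x23 ^ 2 + 16 * k4τ x01 x02 x03 x12 x13 x23 * (4 * x03 + x01 + x02 + x13 + x23)
    = k4Q1 x01 x02 x03 x12 x13 x23 * k4Q2 x01 x02 x03 x12 x13 x23 := by
  unfold k4N12 k4τ k4Q1 k4Q2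
  ring

lemma k4Qk_12 : k4Q0 x01 x02 x03 x12 x13 x23 =
    (4 * x12 + x01 + x13 + x02 + x23) * (x12 + x13 + 4 * x23 + x02 + x03) - (-2 * x12 - 2 * x23 - x02 + x13) ^ 2 := by
  unfold k4Q0
  ring

lemma k4Ql_12 : k4Q3 x01 x02 x03 x12 x13 x23 =
    (4 * x12 + x01 + x13 + x02 + x23) * (x12 + x01 + 4 * x02 + x23 + x03) - (-2 * x12 - 2 * x02 - x23 + x01) ^ 2 := by
  unfold k4Q3
  ring

lemma k4Nf_12 : k4N03 x01 x02 x03 x12 x13 x23 =
    (4 * x12 + x01 + x13 + x02 + x23) * (-x03 + 2 * x02 + 2 * x23 + x12) - (-2 * x12 - 2 * x02 - x23 + x01) * (-2 * x12 - 2 * x23 - x02 + x13) := by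
  unfold k4N03
  ring

lemma k4e_03 : k4N03 x01 x02 x03 x12 x13 x23 ^ 2 + 16 * k4τ x01 x02 x03 x12 x13 x23 * (4 * x12 + x01 + x13 + x02 + x23)
    = k4Q0 x01 x02 x03 x12 x13 x23 * k4Q3 x01 x02 x03 x12 x13 x23 := by
  unfold k4N03 k4τ k4Q0 k4Q3
  ring

lemma k4Qk_13 : k4Q0 x01 x02 x03 x12 x13 x23 =
    (4 * x13 + x01 + x12 + x03 + x23) * (x13 + x12 + 4 * x23 + x03 + x02) - (-2 * x13 - 2 * x23 - x03 + x12) ^ 2 := by
  unfold k4Q0
  ring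

lemma k4Ql_13 : k4Q2 x01 x02 x03 x12 x13 x23 =
    (4 * x13 + x01 + x12 + x03 + x23) * (x13 + x01 + 4 * x03 + x23 + x02) - (-2 * x13 - 2 * x03 - x23 + x01) ^ 2 := by
  unfold k4Q2
  ring

lemma k4Nf_13 : k4N02 x01 x02 x03 x12 x13 x23 =
    (4 * x13 + x01 + x12 + x03 + x23) * (-x02 + 2 * x03 + 2 * x23 + x13) - (-2 * x13 - 2 * x03 - x23 + x01) * (-2 * x13 - 2 * x23 - x03 + x12) := by
  unfold k4N02
  ring

lemma k4e_02 : k4N02 x01 x02 x03 x12 x13 x23 ^ 2 + 16 * k4τ x01 x02 x03 x12 x13 x23 * (4 * x13 + x01 + x12 + x03 + x23)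
    = k4Q0 x01 x02 x03 x12 x13 x23 * k4Q2 x01 x02 x03 x12 x13 x23 := by
  unfold k4N02 k4τ k4Q0 k4Q2
  ring

lemma k4Qk_23 : k4Q0 x01 x02 x03 x12 x13 x23 =
    (4 * x23 + x02 + x12 + x03 + x13) * (x23 + x12 + 4 * x13 + x03 + x01) - (-2 * x23 - 2 * x13 - x03 + x12) ^ 2 := by
  unfold k4Q0
  ring

lemma k4Ql_23 : k4Q1 x01 x02 x03 x12 x13 x23 =
    (4 * x23 + x02 + x12 + x03 + x13) * (x23 + x02 + 4 * x03 + x13 + x01) - (-2 * x23 - 2 * x03 - x13 + x02) ^ 2 := by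
  unfold k4Q1
  ring

lemma k4Nf_23 : k4N01 x01 x02 x03 x12 x13 x23 =
    (4 * x23 + x02 + x12 + x03 + x13) * (-x01 + 2 * x03 + 2 * x13 + x23) - (-2 * x23 - 2 * x03 - x13 + x02) * (-2 * x23 - 2 * x13 - x03 + x12) := by
  unfold k4N01
  ring

lemma k4e_01 : k4N01 x01 x02 x03 x12 x13 x23 ^ 2 + 16 * k4τ x01 x02 x03 x12 x13 x23 * (4 * x23 + x02 + x12 + x03 + x13)
    = k4Q0 x01 x02 x03 x12 x13 x23 * k4Q1 x01 x02 x03 x12 x13 x23 := by
  unfold k4N01 k4τ k4Q0 k4Q1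
  ring

lemma k4c_0 : k4Q0 x01 x02 x03 x12 x13 x23 = k4N01 x01 x02 x03 x12 x13 x23 + k4N02 x01 x02 x03 x12 x13 x23 + k4N03 x01 x02 x03 x12 x13 x23 := by
  unfold k4Q0 k4N01 k4N02 k4N03
  ring

lemma k4c_1 : k4Q1 x01 x02 x03 x12 x13 x23 = k4N01 x01 x02 x03 x12 x13 x23 + k4N12 x01 x02 x03 x12 x13 x23 + k4N13 x01 x02 x03 x12 x13 x23 := by
  unfold k4Q1 k4N01 k4N12 k4N13
  ring

lemma k4c_2 : k4Q2 x01 x02 x03 x12 x13 x23 = k4N02 x01 x02 x03 x12 x13 x23 + k4N12 x01 x02 x03 x12 x13 x23 + k4N23 x01 x02 x03 x12 x13 x23 := by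
  unfold k4Q2 k4N02 k4N12 k4N23
  ring

lemma k4c_3 : k4Q3 x01 x02 x03 x12 x13 x23 = k4N03 x01 x02 x03 x12 x13 x23 + k4N13 x01 x02 x03 x12 x13 x23 + k4N23 x01 x02 x03 x12 x13 x23 := by
  unfold k4Q3 k4N03 k4N13 k4N23
  ring

variable {x01 x02 x03 x12 x13 x23}

lemma k4Q0_pos (p01 : 0 < x01) (p02 : 0 < x02) (p03 : 0 < x03) (p12 : 0 < x12) (p13 : 0 < x13)
    (p23 : 0 < x23) : 0 < k4Q0 x01 x02 x03 x12 x13 x23 := by
  unfold k4Q0
  positivity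

lemma k4Q1_pos (p01 : 0 < x01) (p02 : 0 < x02) (p03 : 0 < x03) (p12 : 0 < x12) (p13 : 0 < x13)
    (p23 : 0 < x23) : 0 < k4Q1 x01 x02 x03 x12 x13 x23 := by
  unfold k4Q1
  positivity

lemma k4Q2_pos (p01 : 0 < x01) (p02 : 0 < x02) (p03 : 0 < x03) (p12 : 0 < x12) (p13 : 0 < x13)
    (p23 : 0 < x23) : 0 < k4Q2 x01 x02 x03 x12 x13 x23 := by
  unfold k4Q2
  positivity

lemma k4Q3_pos (p01 : 0 < x01) (p02 : 0 < x02) (p03 : 0 < x03) (p12 : 0 < x12) (p13 : 0 < x13)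
    (p23 : 0 < x23) : 0 < k4Q3 x01 x02 x03 x12 x13 x23 := by
  unfold k4Q3
  positivity

lemma k4τ_pos (p01 : 0 < x01) (p02 : 0 < x02) (p03 : 0 < x03) (p12 : 0 < x12) (p13 : 0 < x13)
    (p23 : 0 < x23) : 0 < k4τ x01 x02 x03 x12 x13 x23 := by
  unfold k4τ
  positivity

end Polys

/-- The tetrahedron inequality for an optimal configuration of four cells. -/
theorem IsOptimal.core {t : Fin 4 → E} {A : Fin 4 → Set E} (h : IsOptimal t A)
    (hneg : ∀ i j, i ≠ j → ⟪t i, t j⟫ < 0) (hd : ∀ i j, i ≠ j → t i ≠ t j)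
    (hsum : t 0 + t 1 + t 2 + t 3 = 0)
    {x01 x02 x03 x12 x13 x23 : ℝ} (hx01 : ⟪t 0, t 1⟫ = -x01) (hx02 : ⟪t 0, t 2⟫ = -x02)
    (hx03 : ⟪t 0, t 3⟫ = -x03) (hx12 : ⟪t 1, t 2⟫ = -x12) (hx13 : ⟪t 1, t 3⟫ = -x13)
    (hx23 : ⟪t 2, t 3⟫ = -x23)
    (p01 : 0 < x01) (p02 : 0 < x02) (p03 : 0 < x03) (p12 : 0 < x12) (p13 : 0 < x13)
    (p23 : 0 < x23) :
    ‖t 1 - t 0‖ ^ 2 + ‖t 2 - t 0‖ ^ 2 + ‖t 3 - t 0‖ ^ 2 + ‖t 2 - t 1‖ ^ 2 + ‖t 3 - t 1‖ ^ 2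
      + ‖t 3 - t 2‖ ^ 2 ≤ (2 * npdf 0 / π) ^ 2 * (222 / 10) := by
  have hcn : 0 < 2 * npdf 0 / π := by
    have := npdf_pos 0
    have := Real.pi_pos
    positivity
  have qτ : 0 < k4τ x01 x02 x03 x12 x13 x23 := k4τ_pos p01 p02 p03 p12 p13 p23
  have q0 := k4Q0_pos p01 p02 p03 p12 p13 p23
  have q1 := k4Q1_pos p01 p02 p03 p12 p13 p23
  have q2 := k4Q2_pos p01 p02 p03 p12 p13 p23
  have q3 := k4Q3_pos p01 p02 p03 p12 p13 p23
  have e01 := k4e_01 x01 x02 x03 x12 x13 x23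
  have e02 := k4e_02 x01 x02 x03 x12 x13 x23
  have e03 := k4e_03 x01 x02 x03 x12 x13 x23
  have e12 := k4e_12 x01 x02 x03 x12 x13 x23
  have e13 := k4e_13 x01 x02 x03 x12 x13 x23
  have e23 := k4e_23 x01 x02 x03 x12 x13 x23
  have hc10 : ⟪t 1, t 0⟫ = -x01 := by rw [real_inner_comm]; exact hx01
  have hc20 : ⟪t 2, t 0⟫ = -x02 := by rw [real_inner_comm]; exact hx02
  have hc30 : ⟪t 3, t 0⟫ = -x03 := by rw [real_inner_comm]; exact hx03
  have hc21 : ⟪t 2, t 1⟫ = -x12 := by rw [real_inner_comm]; exact hx12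
  have hc31 : ⟪t 3, t 1⟫ = -x13 := by rw [real_inner_comm]; exact hx13
  have hc32 : ⟪t 3, t 2⟫ = -x23 := by rw [real_inner_comm]; exact hx23
  obtain ⟨r23, d01⟩ := h.pair_formula hneg hd (i := 0) (j := 1) (k := 2) (l := 3) (by decide)
    (by decide) (by decide) (by decide) (by decide) (by decide) hsum hx01 hx02 hx03 hx12 hx13 hx23
    (k4Qk_01 _ _ _ _ _ _) (k4Ql_01 _ _ _ _ _ _) (k4Nf_01 _ _ _ _ _ _) q2 q3 (by
      have : 0 < 16 * k4τ x01 x02 x03 x12 x13 x23 * (4 * x01 + x02 + x03 + x12 + x13) := by positivity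
      linarith)
  obtain ⟨r13, d02⟩ := h.pair_formula hneg hd (i := 0) (j := 2) (k := 1) (l := 3) (by decide)
    (by decide) (by decide) (by decide) (by decide) (by decide)
    (by rw [← hsum]; abel) hx02 hx01 hx03 hc21 hx23 hx13
    (k4Qk_02 _ _ _ _ _ _) (k4Ql_02 _ _ _ _ _ _) (k4Nf_02 _ _ _ _ _ _) q1 q3 (by
      have : 0 < 16 * k4τ x01 x02 x03 x12 x13 x23 * (4 * x02 + x01 + x03 + x12 + x23) := by positivity
      linarith)
  obtain ⟨r12, d03⟩ := h.pair_formula hneg hd (i := 0) (j := 3) (k := 1) (l := 2) (by decide)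
    (by decide) (by decide) (by decide) (by decide) (by decide)
    (by rw [← hsum]; abel) hx03 hx01 hx02 hc31 hc32 hx12
    (k4Qk_03 _ _ _ _ _ _) (k4Ql_03 _ _ _ _ _ _) (k4Nf_03 _ _ _ _ _ _) q1 q2 (by
      have : 0 < 16 * k4τ x01 x02 x03 x12 x13 x23 * (4 * x03 + x01 + x02 + x13 + x23) := by positivity
      linarith)
  obtain ⟨r03, d12⟩ := h.pair_formula hneg hd (i := 1) (j := 2) (k := 0) (l := 3) (by decide)
    (by decide) (by decide) (by decide) (by decide) (by decide)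
    (by rw [← hsum]; abel) hx12 hc10 hx13 hc20 hx23 hx03
    (k4Qk_12 _ _ _ _ _ _) (k4Ql_12 _ _ _ _ _ _) (k4Nf_12 _ _ _ _ _ _) q0 q3 (by
      have : 0 < 16 * k4τ x01 x02 x03 x12 x13 x23 * (4 * x12 + x01 + x13 + x02 + x23) := by positivity
      linarith)
  obtain ⟨r02, d13⟩ := h.pair_formula hneg hd (i := 1) (j := 3) (k := 0) (l := 2) (by decide)
    (by decide) (by decide) (by decide) (by decide) (by decide)
    (by rw [← hsum]; abel) hx13 hc10 hx12 hc30 hc32 hx02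
    (k4Qk_13 _ _ _ _ _ _) (k4Ql_13 _ _ _ _ _ _) (k4Nf_13 _ _ _ _ _ _) q0 q2 (by
      have : 0 < 16 * k4τ x01 x02 x03 x12 x13 x23 * (4 * x13 + x01 + x12 + x03 + x23) := by positivity
      linarith)
  obtain ⟨r01, d23⟩ := h.pair_formula hneg hd (i := 2) (j := 3) (k := 0) (l := 1) (by decide)
    (by decide) (by decide) (by decide) (by decide) (by decide)
    (by rw [← hsum]; abel) hx23 hc20 hc21 hc30 hc31 hx01
    (k4Qk_23 _ _ _ _ _ _) (k4Ql_23 _ _ _ _ _ _) (k4Nf_23 _ _ _ _ _ _) q0 q1 (by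
      have : 0 < 16 * k4τ x01 x02 x03 x12 x13 x23 * (4 * x23 + x02 + x12 + x03 + x13) := by positivity
      linarith)
  have hposD : ∀ i j : Fin 4, i ≠ j → 0 < ‖t j - t i‖ := fun i j hij =>
    norm_pos_iff.mpr (sub_ne_zero.mpr (hd j i hij.symm))
  have qτ' : 0 < 16 * k4τ x01 x02 x03 x12 x13 x23 := by positivity
  have hs2 := Real.sq_sqrt qτ'.le
  have hspos := Real.sqrt_pos.mpr qτ'
  refine assemble q0 q1 q2 q3 hspos hcn (hposD 0 1 (by decide)) (hposD 0 2 (by decide))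
    (hposD 0 3 (by decide)) (hposD 1 2 (by decide)) (hposD 1 3 (by decide)) (hposD 2 3 (by decide))
    ?_ ?_ ?_ ?_ ?_ ?_ (k4c_0 _ _ _ _ _ _) (k4c_1 _ _ _ _ _ _) (k4c_2 _ _ _ _ _ _) (k4c_3 _ _ _ _ _ _)
    r01 r02 r03 r12 r13 r23
  · rw [hs2, d23]
    linarith
  · rw [hs2, d13]
    linarith
  · rw [hs2, d12]
    linarith
  · rw [hs2, d03]
    linarith
  · rw [hs2, d02]
    linarith
  · rw [hs2, d01]
    linarith

/-- The case of four cells. -/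
theorem four_cells (A : Fin 4 → Set E) (hA : IsMeasPartition A) :
    momentEnergy A ≤ 9 / (8 * π) := by
  by_contra hcon
  push Not at hcon
  obtain ⟨t, C, hC1, hC2, hC3, hC4⟩ := exists_optimal (ι := Fin 4) (E := E)
  have h : IsOptimal t C := ⟨hC1, hC2, hC3, hC4⟩
  have hF : 9 / (8 * π) < ∑ m, ‖t m‖ ^ 2 := hcon.trans_le (hC4 A hA)
  have hF₀ : ∀ l : Fin 4, ∀ B : {m // m ≠ l} → Set E, IsMeasPartition B →
      momentEnergy B ≤ 9 / (8 * π) := by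
    intro l B hB
    refine energy_le_of_card (n := 3) (fun B hB => energy_three_le hB) ?_ B hB
    rw [Fintype.card_subtype_compl, Fintype.card_fin]
    simp
  have hneg : ∀ i j, i ≠ j → ⟪t i, t j⟫ < 0 := fun i j hij => h.inner_neg hij (hF₀ j) hF
  have hd : ∀ i j, i ≠ j → t i ≠ t j := by
    intro i j hij e
    have h1 := hneg i j hij
    rw [e, real_inner_self_eq_norm_sq] at h1
    nlinarith [sq_nonneg ‖t j‖]
  have hsum : t 0 + t 1 + t 2 + t 3 = 0 := by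
    have := h.sum_eq_zero
    rwa [Fin.sum_univ_four] at this
  obtain ⟨x01, hx01⟩ : ∃ x, ⟪t 0, t 1⟫ = -x := ⟨-⟪t 0, t 1⟫, by ring⟩
  obtain ⟨x02, hx02⟩ : ∃ x, ⟪t 0, t 2⟫ = -x := ⟨-⟪t 0, t 2⟫, by ring⟩
  obtain ⟨x03, hx03⟩ : ∃ x, ⟪t 0, t 3⟫ = -x := ⟨-⟪t 0, t 3⟫, by ring⟩
  obtain ⟨x12, hx12⟩ : ∃ x, ⟪t 1, t 2⟫ = -x := ⟨-⟪t 1, t 2⟫, by ring⟩
  obtain ⟨x13, hx13⟩ : ∃ x, ⟪t 1, t 3⟫ = -x := ⟨-⟪t 1, t 3⟫, by ring⟩
  obtain ⟨x23, hx23⟩ : ∃ x, ⟪t 2, t 3⟫ = -x := ⟨-⟪t 2, t 3⟫, by ring⟩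
  have p01 : 0 < x01 := by
    have := hneg 0 1 (by decide)
    linarith
  have p02 : 0 < x02 := by
    have := hneg 0 2 (by decide)
    linarith
  have p03 : 0 < x03 := by
    have := hneg 0 3 (by decide)
    linarith
  have p12 : 0 < x12 := by
    have := hneg 1 2 (by decide)
    linarith
  have p13 : 0 < x13 := by
    have := hneg 1 3 (by decide)
    linarith
  have p23 : 0 < x23 := by
    have := hneg 2 3 (by decide)
    linarith
  have hcore := h.core hneg hd hsum hx01 hx02 hx03 hx12 hx13 hx23 p01 p02 p03 p12 p13 p23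
  -- the sum of the squared edges is four times the energy
  have hz : ∀ v : E, ⟪v, t 0⟫ + ⟪v, t 1⟫ + ⟪v, t 2⟫ + ⟪v, t 3⟫ = 0 := by
    intro v
    rw [← inner_add_right, ← inner_add_right, ← inner_add_right, hsum, inner_zero_right]
  have hedge : ‖t 1 - t 0‖ ^ 2 + ‖t 2 - t 0‖ ^ 2 + ‖t 3 - t 0‖ ^ 2 + ‖t 2 - t 1‖ ^ 2 + ‖t 3 - t 1‖ ^ 2
      + ‖t 3 - t 2‖ ^ 2 = 4 * ∑ m, ‖t m‖ ^ 2 := by
    have e1 := real_inner_self_eq_norm_sq (t 0 + t 1 + t 2 + t 3)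
    rw [hsum, inner_zero_left, norm_zero] at e1
    rw [Fin.sum_univ_four]
    simp only [norm_sub_sq_real]
    have h0 := hz (t 0)
    have h1 := hz (t 1)
    have h2 := hz (t 2)
    have h3 := hz (t 3)
    simp only [real_inner_self_eq_norm_sq] at h0 h1 h2 h3
    have c1 := real_inner_comm (t 0) (t 1)
    have c2 := real_inner_comm (t 0) (t 2)
    have c3 := real_inner_comm (t 0) (t 3)
    have c4 := real_inner_comm (t 1) (t 2)
    have c5 := real_inner_comm (t 1) (t 3)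
    have c6 := real_inner_comm (t 2) (t 3)
    linarith
  have hπ : 0 < π := Real.pi_pos
  have hnp : npdf 0 ^ 2 = 1 / (2 * π) := by
    unfold npdf
    have h5 : √(2 * π) ^ 2 = 2 * π := Real.sq_sqrt (by positivity)
    simp only [ne_eq, OfNat.ofNat_ne_zero, not_false_eq_true, zero_pow, neg_zero, zero_div,
      Real.exp_zero, mul_one, inv_pow, h5, one_div]
  have hc2 : (2 * npdf 0 / π) ^ 2 = 2 / π ^ 3 := by
    rw [div_pow, mul_pow, hnp]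
    field_simp
  rw [hedge, hc2] at hcore
  have hpi := Real.pi_gt_d2
  have h6 : 9 / (8 * π) < 2 / π ^ 3 * (222 / 10) / 4 := by
    linarith
  have h7 : 2 / π ^ 3 * (222 / 10) / 4 = (111 / 10) / π ^ 3 := by
    ring
  rw [h7, div_lt_div_iff₀ (by positivity) (by positivity)] at h6
  have h8 : π ^ 2 > 9.868 := by nlinarith [Real.pi_gt_d4]
  have h9 : 9 * π ^ 3 < (111 / 10) * (8 * π) := by linarith
  have h10 : 9 * π ^ 3 = π * (9 * π ^ 2) := by ring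
  have h11 : (111 / 10) * (8 * π) = π * (888 / 10) := by ring
  rw [h10, h11] at h9
  have h12 := lt_of_mul_lt_mul_left h9 hπ.le
  norm_num at h8 h12
  nlinarith

/-- The Gaussian propeller conjecture. -/
theorem propeller_all (k : ℕ) (A : Fin k → Set E) (hA : IsMeasPartition A) :
    momentEnergy A ≤ 9 / (8 * π) :=
  bound_all four_cells k A hA

end Vale.Agent.Lib.P226
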