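import Vale.Agent.Lib.P226.K4Table

/-!
The finite system of the four cell case has no solution with large energy.
-/

open Real

namespace Vale.Agent.Lib.P226

lemma KK_le_GG {d : ℝ} (hd : d ∈ Set.Ioo 0 π) : KK d ≤ GG d := by
  unfold KK GG
  have hs := sin_pos_of_Ioo hd
  rw [div_le_div_iff_of_pos_right hs]
  have h1 := Real.neg_one_le_cos d
  have h2 := hd.1
  nlinarith

/-- The sorted form of the numerical theorem. -/
theorem noSol_sorted {w1 w2 w3 w4 d12 d13 d14 d23 d24 d34 : ℝ}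
    (p4 : 0 < w4) (s34 : w4 ≤ w3) (s23 : w3 ≤ w2) (s12 : w2 ≤ w1)
    (m12 : d12 ∈ Set.Ioo 0 π) (m13 : d13 ∈ Set.Ioo 0 π) (m14 : d14 ∈ Set.Ioo 0 π)
    (m23 : d23 ∈ Set.Ioo 0 π) (m24 : d24 ∈ Set.Ioo 0 π) (m34 : d34 ∈ Set.Ioo 0 π)
    (G12 : w1 * w2 = GG d12) (G13 : w1 * w3 = GG d13) (G14 : w1 * w4 = GG d14)
    (G23 : w2 * w3 = GG d23) (G24 : w2 * w4 = GG d24) (G34 : w3 * w4 = GG d34)
    (K1 : w1 ^ 2 = KK d12 + KK d13 + KK d14) (K2 : w2 ^ 2 = KK d12 + KK d23 + KK d24)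
    (K3 : w3 ^ 2 = KK d13 + KK d23 + KK d34) (K4 : w4 ^ 2 = KK d14 + KK d24 + KK d34) :
    d12 ^ 2 + d13 ^ 2 + d14 ^ 2 + d23 ^ 2 + d24 ^ 2 + d34 ^ 2 ≤ 222 / 10 := by
  by_contra hcon
  push Not at hcon
  have p3 : 0 < w3 := lt_of_lt_of_le p4 s34
  have p2 : 0 < w2 := lt_of_lt_of_le p3 s23
  have p1 : 0 < w1 := lt_of_lt_of_le p2 s12
  -- a priori bounds
  have h3 : 1 < w3 := by
    have h1 := one_lt_GG m34
    rw [← G34] at h1
    have h2 : w3 * w4 ≤ w3 * w3 := mul_le_mul_of_nonneg_left s34 p3.le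
    by_contra h
    push Not at h
    have h5 : w3 * w3 ≤ 1 * 1 := mul_self_le_mul_self p3.le h
    linarith
  have hK23 : KK d23 ≤ 3 := by
    have h1 := GG_sub_two_le_KK m12
    have h2 := neg_one_le_KK m24
    rw [← G12] at h1
    have h5 : w2 * w2 ≤ w1 * w2 := mul_le_mul_of_nonneg_right s12 p2.le
    have h6 : w2 ^ 2 = w2 * w2 := by ring
    linarith
  have hG23 : w2 * w3 ≤ 5 := by
    have h1 := GG_sub_two_le_KK m23
    rw [G23]
    linarith
  have h2u : w2 ≤ 5 := by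
    have h5 : w2 * 1 ≤ w2 * w3 := mul_le_mul_of_nonneg_left h3.le p2.le
    linarith
  have h3u : w3 ≤ 5 := le_trans s23 h2u
  have h4u : w4 ≤ 5 := le_trans s34 h3u
  have h1u : w1 ≤ 15 := by
    have h1 := KK_le_GG m12
    have h2 := KK_le_GG m13
    have h3' := KK_le_GG m14
    rw [← G12] at h1
    rw [← G13] at h2
    rw [← G14] at h3'
    have h4 : w1 * w1 ≤ w1 * (w2 + w3 + w4) := by
      have e1 : w1 ^ 2 = w1 * w1 := by ring
      have e2 : w1 * (w2 + w3 + w4) = w1 * w2 + w1 * w3 + w1 * w4 := by ring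
      linarith
    have h5 : w1 ≤ w2 + w3 + w4 := le_of_mul_le_mul_left h4 p1
    linarith
  have h4l : 1 / 5 < w4 := by
    have h1 := one_lt_GG m34
    rw [← G34] at h1
    have h5 : w3 * w4 ≤ 5 * w4 := mul_le_mul_of_nonneg_right h3u p4.le
    linarith
  have hsc : (sc2 : ℝ) = 65536 * 65536 := by norm_num [sc2]
  have hS : Sol (65536 * w1) (65536 * w2) (65536 * w3) (65536 * w4) d12 d13 d14 d23 d24 d34 := by
    refine ⟨m12, m13, m14, m23, m24, m34, ?_, ?_, ?_, ?_, ?_, ?_, ?_, ?_, ?_, ?_, by linarith,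
      by linarith, by linarith, by positivity, ?_⟩
    · rw [← G12, hsc]; ring
    · rw [← G13, hsc]; ring
    · rw [← G14, hsc]; ring
    · rw [← G23, hsc]; ring
    · rw [← G24, hsc]; ring
    · rw [← G34, hsc]; ring
    · rw [hsc, ← K1]; ring
    · rw [hsc, ← K2]; ring
    · rw [hsc, ← K3]; ring
    · rw [hsc, ← K4]; ring
    · rw [hsc]
      linarith
  have b1 : ((65536 : ℕ) : ℝ) ≤ 65536 * w1 := by
    push_cast
    linarith
  have b1' : 65536 * w1 ≤ ((983040 : ℕ) : ℝ) := by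
    push_cast
    linarith
  have b2 : ((65536 : ℕ) : ℝ) ≤ 65536 * w2 := by
    push_cast
    linarith
  have b2' : 65536 * w2 ≤ ((327680 : ℕ) : ℝ) := by
    push_cast
    linarith
  have b3 : ((65536 : ℕ) : ℝ) ≤ 65536 * w3 := by
    push_cast
    linarith
  have b3' : 65536 * w3 ≤ ((327680 : ℕ) : ℝ) := by
    push_cast
    linarith
  have b4 : ((13107 : ℕ) : ℝ) ≤ 65536 * w4 := by
    push_cast
    linarith
  have b4' : 65536 * w4 ≤ ((327680 : ℕ) : ℝ) := by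
    push_cast
    linarith
  exact chk_sound k4tbl_ok hS 60 k4root_chk b1 b1' b2 b2' b3 b3' b4 b4'

/-- The numerical theorem. -/
theorem noSol (w : Fin 4 → ℝ) (d : Fin 4 → Fin 4 → ℝ) (hw : ∀ a, 0 < w a)
    (hsym : ∀ a b, d a b = d b a) (hm : ∀ a b, a ≠ b → d a b ∈ Set.Ioo 0 π)
    (hG : ∀ a b, a ≠ b → w a * w b = GG (d a b))
    (hK : ∀ a, w a ^ 2 = ∑ b, if b = a then 0 else KK (d a b)) :
    (∑ a, ∑ b, if b = a then 0 else d a b ^ 2) ≤ 2 * (222 / 10) := by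
  set σ := Tuple.sort w with hσ
  have hmono : Monotone (w ∘ σ) := Tuple.monotone_sort w
  have hne : ∀ {a b : Fin 4}, a ≠ b → σ a ≠ σ b := fun h e => h (σ.injective e)
  have hK' : ∀ a, w (σ a) ^ 2 = ∑ b, if b = a then 0 else KK (d (σ a) (σ b)) := by
    intro a
    rw [hK (σ a), ← Equiv.sum_comp σ]
    exact Finset.sum_congr rfl (fun b _ => by simp [σ.injective.eq_iff])
  have hE : (∑ a, ∑ b, if b = a then 0 else d a b ^ 2)
      = ∑ a, ∑ b, if b = a then 0 else d (σ a) (σ b) ^ 2 := by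
    rw [← Equiv.sum_comp σ]
    refine Finset.sum_congr rfl (fun a _ => ?_)
    rw [← Equiv.sum_comp σ]
    exact Finset.sum_congr rfl (fun b _ => by simp [σ.injective.eq_iff])
  have h01 : w (σ 0) ≤ w (σ 1) := hmono (by decide)
  have h12 : w (σ 1) ≤ w (σ 2) := hmono (by decide)
  have h23 : w (σ 2) ≤ w (σ 3) := hmono (by decide)
  have key := noSol_sorted (w1 := w (σ 3)) (w2 := w (σ 2)) (w3 := w (σ 1)) (w4 := w (σ 0))
    (d12 := d (σ 3) (σ 2)) (d13 := d (σ 3) (σ 1)) (d14 := d (σ 3) (σ 0))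
    (d23 := d (σ 2) (σ 1)) (d24 := d (σ 2) (σ 0)) (d34 := d (σ 1) (σ 0))
    (hw _) h01 h12 h23
    (hm _ _ (hne (by decide))) (hm _ _ (hne (by decide))) (hm _ _ (hne (by decide)))
    (hm _ _ (hne (by decide))) (hm _ _ (hne (by decide))) (hm _ _ (hne (by decide)))
    (hG _ _ (hne (by decide))) (hG _ _ (hne (by decide))) (hG _ _ (hne (by decide)))
    (hG _ _ (hne (by decide))) (hG _ _ (hne (by decide))) (hG _ _ (hne (by decide)))
    (by
      rw [hK' 3]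
      simp [Fin.sum_univ_four]
      ring)
    (by
      rw [hK' 2]
      simp [Fin.sum_univ_four]
      rw [hsym (σ 2) (σ 3)]
      ring)
    (by
      rw [hK' 1]
      simp [Fin.sum_univ_four]
      rw [hsym (σ 1) (σ 3), hsym (σ 1) (σ 2)]
      ring)
    (by
      rw [hK' 0]
      simp [Fin.sum_univ_four]
      rw [hsym (σ 0) (σ 3), hsym (σ 0) (σ 2), hsym (σ 0) (σ 1)]
      ring)
  rw [hE]
  simp only [Fin.sum_univ_four]
  simp
  rw [hsym (σ 0) (σ 1), hsym (σ 0) (σ 2), hsym (σ 0) (σ 3), hsym (σ 1) (σ 2), hsym (σ 1) (σ 3),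
    hsym (σ 2) (σ 3)]
  linarith

end Vale.Agent.Lib.P226
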