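import Vale.Agent.Lib.P226.Gap

/-!
Selection of a pair of moment vectors: the wall inequality in terms of norms.
-/

open MeasureTheory ProbabilityTheory Real Set
open scoped RealInnerProductSpace ENNReal NNReal Pointwise

namespace Vale.Agent.Lib.P226

variable {E : Type*} [NormedAddCommGroup E] [InnerProductSpace ℝ E] [FiniteDimensional ℝ E]
  [MeasurableSpace E] [BorelSpace E]

variable {ι : Type*} [Fintype ι]

omit [FiniteDimensional ℝ E] [MeasurableSpace E] [BorelSpace E] in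
/-- Norm of the projection onto the orthogonal complement. -/
lemma norm_sq_perp {n : E} (hn : ‖n‖ = 1) (x : E) : ‖perp n x‖ ^ 2 = ‖x‖ ^ 2 - ⟪n, x⟫ ^ 2 := by
  unfold perp
  rw [norm_sub_sq_real, real_inner_smul_right, norm_smul, hn, Real.norm_eq_abs, mul_one, sq_abs,
    real_inner_comm x n]
  ring

omit [FiniteDimensional ℝ E] [MeasurableSpace E] [BorelSpace E] in
lemma perp_add (n x y : E) : perp n (x + y) = perp n x + perp n y := by
  simp only [perp, inner_add_right, add_smul]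
  abel

omit [FiniteDimensional ℝ E] [MeasurableSpace E] [BorelSpace E] in
lemma perp_sub (n x y : E) : perp n (x - y) = perp n x - perp n y := by
  simp only [perp, inner_sub_right, sub_smul]
  abel

omit [FiniteDimensional ℝ E] [MeasurableSpace E] [BorelSpace E] in
lemma perp_smul_self {n : E} (hn : ‖n‖ = 1) (c : ℝ) : perp n (c • n) = 0 := by
  simp only [perp, inner_smul_right, real_inner_self_eq_norm_sq, hn]
  simp

/-- A sector in the orthogonal complement: the bound through the parts of `y` along and across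
`v`. -/
lemma sec_sub_le {v y : E} (hv : v ≠ 0)
    (hpos : 0 < ‖v‖ ^ 2 - ⟪v, y⟫) {τ : ℝ} (hτ : 0 ≤ τ)
    (hbd : (‖y‖ ^ 2 - ⟪v, y⟫ ^ 2 / ‖v‖ ^ 2) ≤ τ ^ 2 * ((‖v‖ ^ 2 - ⟪v, y⟫) / ‖v‖) ^ 2) :
    sec v (y - v) ≤ arctan τ / (2 * π) := by
  have hn : 0 < ‖v‖ := norm_pos_iff.mpr hv
  set A : ℝ := (‖v‖ ^ 2 - ⟪v, y⟫) / ‖v‖ with hA
  have hApos : 0 < A := div_pos hpos hn
  have hip : ⟪v, y - v⟫ = -(A * ‖v‖) := by
    rw [inner_sub_right, real_inner_self_eq_norm_sq, hA]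
    field_simp
    ring
  have hnormsq : ‖y - v‖ ^ 2 = A ^ 2 + (‖y‖ ^ 2 - ⟪v, y⟫ ^ 2 / ‖v‖ ^ 2) := by
    rw [norm_sub_sq_real, real_inner_comm, hA]
    field_simp
    ring
  have hcs : 0 ≤ ‖y‖ ^ 2 - ⟪v, y⟫ ^ 2 / ‖v‖ ^ 2 := by
    have h1 := abs_real_inner_le_norm v y
    have h2 : ⟪v, y⟫ ^ 2 ≤ (‖v‖ * ‖y‖) ^ 2 := by
      rw [← sq_abs]
      exact pow_le_pow_left₀ (abs_nonneg _) h1 2
    rw [sub_nonneg, div_le_iff₀ (by positivity)]
    nlinarith
  set B' : ℝ := √(‖y‖ ^ 2 - ⟪v, y⟫ ^ 2 / ‖v‖ ^ 2) with hB'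
  have hB'sq : B' ^ 2 = ‖y‖ ^ 2 - ⟪v, y⟫ ^ 2 / ‖v‖ ^ 2 := Real.sq_sqrt hcs
  have h1 := sec_le hv hApos (Real.sqrt_nonneg _) hip (by rw [hnormsq, hB'sq])
  refine h1.trans ?_
  apply div_le_div_of_nonneg_right _ (by positivity)
  apply Real.arctan_mono
  rw [div_le_iff₀ hApos]
  have h2 : B' ^ 2 ≤ (τ * A) ^ 2 := by
    rw [hB'sq, mul_pow]
    exact hbd
  exact (abs_le_of_sq_le_sq' h2 (by positivity)).2

namespace IsOptimal

variable {t : ι → E} {A : ι → Set E}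

/-- The wall inequality for a pair `(i, j)`, in terms of norms only. -/
theorem wall_final (h : IsOptimal t A) (hneg : ∀ i j, i ≠ j → ⟪t i, t j⟫ < 0)
    (hd : ∀ i j, i ≠ j → t i ≠ t j) [DecidableEq ι] {l i j : ι}
    (hli : l ≠ i) (hlj : l ≠ j) (hij : i ≠ j)
    (S : Finset ι) (hS : ∀ m, m ∈ S ↔ m ≠ l ∧ m ≠ i ∧ m ≠ j) :
    ∃ V D : ℝ, 0 < V ∧ 0 < D ∧
      D ^ 2 = ‖t i‖ ^ 2 + ‖t j‖ ^ 2 - 2 * ⟪t i, t j⟫ ∧
      V ^ 2 * D ^ 2 = ‖t i‖ ^ 2 * ‖t j‖ ^ 2 - ⟪t i, t j⟫ ^ 2 ∧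
      ∀ τ : ℝ, 0 ≤ τ → ‖∑ m ∈ S, t m‖ ^ 2 < 9 * V ^ 2 →
        ‖∑ m ∈ S, t m‖ ^ 2 ≤ τ ^ 2 * (9 * V ^ 2 - ‖∑ m ∈ S, t m‖ ^ 2) →
        1 / 2 ≤ √(2 * π) * D / (Fintype.card ι : ℝ)
          + (∑ m ∈ S, arctan (‖t m‖ / V) + arctan τ) / (2 * π) := by
  set D : ℝ := ‖t j - t i‖ with hDdef
  have hDpos : 0 < D := norm_pos_iff.mpr (sub_ne_zero.mpr (hd j i hij.symm))
  set g : ℝ := -⟪t i, t j⟫ with hg
  have hgpos : 0 < g := by
    have := hneg i j hij
    rw [hg]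
    linarith
  have hpi : 0 < ‖t i‖ ^ 2 := by
    have h1 : t i ≠ 0 := by
      intro h0
      have := hneg i j hij
      rw [h0, inner_zero_left] at this
      exact lt_irrefl _ this
    have := norm_pos_iff.mpr h1
    positivity
  have hpj : 0 < ‖t j‖ ^ 2 := by
    have h1 : t j ≠ 0 := by
      intro h0
      have := hneg i j hij
      rw [h0, inner_zero_right] at this
      exact lt_irrefl _ this
    have := norm_pos_iff.mpr h1
    positivity
  have hD2 : D ^ 2 = ‖t i‖ ^ 2 + ‖t j‖ ^ 2 - 2 * ⟪t i, t j⟫ := by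
    rw [hDdef, norm_sub_sq_real, real_inner_comm]
    ring
  set n : E := D⁻¹ • (t j - t i) with hndef
  have hn : ‖n‖ = 1 := by
    rw [hndef, norm_smul, norm_inv, Real.norm_of_nonneg hDpos.le, ← hDdef,
      inv_mul_cancel₀ hDpos.ne']
  have hnD : t j - t i = D • n := by
    rw [hndef, smul_smul, mul_inv_cancel₀ hDpos.ne', one_smul]
  set v : E := perp n (t j) with hv
  have hvi : perp n (t i) = v := by
    have h1 : t j = t i + D • n := by rw [← hnD]; abel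
    rw [hv]
    conv_rhs => rw [h1]
    rw [perp_add, perp_smul_self hn, add_zero]
  have hnv : ⟪n, v⟫ = 0 := inner_perp_self hn _
  have hnj : ⟪n, t j⟫ = (‖t j‖ ^ 2 + g) / D := by
    rw [hndef, real_inner_smul_left, inner_sub_left, real_inner_self_eq_norm_sq, hg]
    field_simp
    ring
  set β : ℝ := (‖t j‖ ^ 2 + g) / D ^ 2 with hβ
  have hβ0 : 0 < β := by positivity
  have hβ1 : 0 < 1 - β := by
    have h1 : 1 - β = (‖t i‖ ^ 2 + g) / D ^ 2 := by
      rw [hβ]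
      have : D ^ 2 ≠ 0 := by positivity
      field_simp
      rw [hD2, hg]
      ring
    rw [h1]
    positivity
  have hvx : ∀ x, ⟪v, x⟫ = (1 - β) * ⟪t j, x⟫ + β * ⟪t i, x⟫ := by
    intro x
    have h1 : v = t j - β • (t j - t i) := by
      rw [hv, perp, hnj, hnD, smul_smul, hβ]
      congr 2
      field_simp
    rw [h1, inner_sub_left, real_inner_smul_left, inner_sub_left]
    ring
  have hvneg : ∀ m, m ≠ i → m ≠ j → ⟪v, t m⟫ < 0 := by
    intro m hmi hmj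
    rw [hvx]
    have h1 := hneg j m (Ne.symm hmj)
    have h2 := hneg i m (Ne.symm hmi)
    have h3 := mul_neg_of_pos_of_neg hβ1 h1
    have h4 := mul_neg_of_pos_of_neg hβ0 h2
    linarith
  have hv0 : v ≠ 0 := by
    intro h0
    have := hvneg l hli hlj
    rw [h0, inner_zero_left] at this
    exact lt_irrefl _ this
  set V : ℝ := ‖v‖ with hV
  have hVpos : 0 < V := norm_pos_iff.mpr hv0
  have hVD : V ^ 2 * D ^ 2 = ‖t i‖ ^ 2 * ‖t j‖ ^ 2 - ⟪t i, t j⟫ ^ 2 := by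
    have h1 : V ^ 2 = ‖t j‖ ^ 2 - ⟪n, t j⟫ ^ 2 := norm_sq_perp hn _
    rw [h1, hnj, sub_mul]
    have : ((‖t j‖ ^ 2 + g) / D) ^ 2 * D ^ 2 = (‖t j‖ ^ 2 + g) ^ 2 := by
      field_simp
    rw [this, hD2, hg]
    ring
  refine ⟨V, D, hVpos, hDpos, hD2, hVD, fun τ hτ hw1 hw2 => ?_⟩
  obtain ⟨u, hu⟩ := exists_dual h.sum_eq_zero hneg i
  have hwall := h.wall_lower hd hij hu hDpos hnD hn hv0
  -- the small cuts
  have hinner : ∀ x, ⟪v, perp n x⟫ = ⟪v, x⟫ := fun x => inner_of_perp hn hnv x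
  have hsec_small : ∀ m, m ≠ i → m ≠ j →
      sec v (perp n (t m - t j)) ≤ arctan (‖t m‖ / V) / (2 * π) := by
    intro m hmi hmj
    rw [perp_sub]
    set y := perp n (t m) with hy
    have hvy : ⟪v, y⟫ = ⟪v, t m⟫ := hinner _
    have hneg2 := hvneg m hmi hmj
    have hpos : 0 < ‖v‖ ^ 2 - ⟪v, y⟫ := by
      rw [hvy]
      have : 0 < ‖v‖ ^ 2 := by positivity
      linarith
    refine sec_sub_le hv0 hpos (by positivity) ?_
    have hy2 : ‖y‖ ^ 2 ≤ ‖t m‖ ^ 2 := by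
      rw [hy, norm_sq_perp hn]
      have := sq_nonneg ⟪n, t m⟫
      linarith
    have h1 : 0 ≤ ⟪v, y⟫ ^ 2 / ‖v‖ ^ 2 := by positivity
    have h2 : ‖t m‖ ^ 2 ≤ (‖t m‖ / V) ^ 2 * ((‖v‖ ^ 2 - ⟪v, y⟫) / ‖v‖) ^ 2 := by
      have e : (‖t m‖ / V) ^ 2 * ((‖v‖ ^ 2 - ⟪v, y⟫) / ‖v‖) ^ 2
          = ‖t m‖ ^ 2 * (((V ^ 2 - ⟪v, y⟫) / V ^ 2) ^ 2) := by
        rw [← hV]
        field_simp
      rw [e]
      have h3 : 1 ≤ (V ^ 2 - ⟪v, y⟫) / V ^ 2 := by
        rw [le_div_iff₀ (by positivity), hvy]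
        linarith
      have h4 : 1 ≤ ((V ^ 2 - ⟪v, y⟫) / V ^ 2) ^ 2 := one_le_pow₀ h3
      have h5 := sq_nonneg ‖t m‖
      nlinarith
    linarith
  -- the third big cell
  set W : E := ∑ m ∈ S, t m with hW
  set w : ℝ := ‖W‖ ^ 2 with hwdef
  have hsum : t l + t i + t j + W = 0 := by
    have h1 : (Finset.univ : Finset ι) = insert l (insert i (insert j S)) := by
      ext m
      simp only [Finset.mem_univ, Finset.mem_insert, true_iff, hS]
      tauto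
    have h2 := h.sum_eq_zero
    rw [h1] at h2
    rw [Finset.sum_insert, Finset.sum_insert, Finset.sum_insert] at h2
    · rw [← add_assoc, ← add_assoc] at h2
      exact h2
    · intro hm
      exact ((hS j).mp hm).2.2 rfl
    · intro hm
      rcases Finset.mem_insert.mp hm with hm | hm
      · exact hij hm
      · exact ((hS i).mp hm).2.1 rfl
    · intro hm
      rcases Finset.mem_insert.mp hm with hm | hm
      · exact hli hm
      rcases Finset.mem_insert.mp hm with hm | hm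
      · exact hlj hm
      · exact ((hS l).mp hm).1 rfl
  have hsec_third : sec v (perp n (t l - t j)) ≤ arctan τ / (2 * π) := by
    rw [perp_sub]
    set W' : E := perp n W with hW'
    have hyl : perp n (t l) = -(2 : ℝ) • v - W' := by
      have h1 : t l = -t i - t j - W := by
        calc t l = (t l + t i + t j + W) - t i - t j - W := by abel
          _ = -t i - t j - W := by rw [hsum]; abel
      have h2 : perp n (-t i) = -perp n (t i) := by
        simp only [perp, inner_neg_right, neg_smul]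
        abel
      rw [h1, perp_sub, perp_sub, h2, hvi, ← hv]
      module
    set y := perp n (t l) with hy
    set ξ : ℝ := ⟪v, W'⟫ with hξ
    have hW'2 : ‖W'‖ ^ 2 ≤ w := by
      rw [hW', norm_sq_perp hn]
      have := sq_nonneg ⟪n, W⟫
      rw [hwdef]
      linarith
    have hvy : ⟪v, y⟫ = -(2 * V ^ 2) - ξ := by
      rw [hyl, inner_sub_right, inner_smul_right, real_inner_self_eq_norm_sq, ← hV, ← hξ]
      ring
    have hyy : ‖y‖ ^ 2 = 4 * V ^ 2 + 4 * ξ + ‖W'‖ ^ 2 := by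
      rw [hyl, norm_sub_sq_real, norm_smul, real_inner_smul_left]
      simp only [Real.norm_eq_abs, abs_neg, abs_two]
      rw [← hV]
      ring
    have hxi : ξ ^ 2 ≤ V ^ 2 * w := by
      have h1 := abs_real_inner_le_norm v W'
      have h2 : ξ ^ 2 ≤ (‖v‖ * ‖W'‖) ^ 2 := by
        rw [← sq_abs]
        exact pow_le_pow_left₀ (abs_nonneg _) h1 2
      rw [mul_pow] at h2
      have h3 : V ^ 2 * ‖W'‖ ^ 2 ≤ V ^ 2 * w := by gcongr
      linarith
    have hpos3 : 0 < 3 * V ^ 2 + ξ := by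
      by_contra hc
      push Not at hc
      have h1 : 3 * V ^ 2 ≤ -ξ := by linarith
      have h2 : (3 * V ^ 2) ^ 2 ≤ (-ξ) ^ 2 := pow_le_pow_left₀ (by positivity) h1 2
      have h3 : 9 * V ^ 2 * V ^ 2 ≤ V ^ 2 * w := by nlinarith
      have h4 : 0 < V ^ 2 := by positivity
      have h5 : 9 * V ^ 2 ≤ w := by
        have : V ^ 2 * (9 * V ^ 2) ≤ V ^ 2 * w := by linarith
        exact le_of_mul_le_mul_left this h4
      linarith
    have hpos : 0 < ‖v‖ ^ 2 - ⟪v, y⟫ := by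
      rw [hvy, ← hV]
      linarith
    refine sec_sub_le hv0 hpos hτ ?_
    rw [hvy, hyy, ← hV]
    have hV2 : 0 < V ^ 2 := by positivity
    have e1 : 4 * V ^ 2 + 4 * ξ + ‖W'‖ ^ 2 - (-(2 * V ^ 2) - ξ) ^ 2 / V ^ 2
        = ‖W'‖ ^ 2 - ξ ^ 2 / V ^ 2 := by
      field_simp
      ring
    have e2 : τ ^ 2 * ((V ^ 2 - (-(2 * V ^ 2) - ξ)) / V) ^ 2
        = τ ^ 2 * ((3 * V ^ 2 + ξ) ^ 2 / V ^ 2) := by
      congr 1
      rw [div_pow]
      congr 2
      ring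
    rw [e1, e2]
    set Q : ℝ := 9 * V ^ 2 - w with hQ
    have hQpos : 0 < Q := by rw [hQ]; linarith
    have h6 : (w - ξ ^ 2 / V ^ 2) * Q ≤ w * ((3 * V ^ 2 + ξ) ^ 2 / V ^ 2) := by
      rw [hQ]
      have e3 : w * ((3 * V ^ 2 + ξ) ^ 2 / V ^ 2) - (w - ξ ^ 2 / V ^ 2) * (9 * V ^ 2 - w)
          = (w * V ^ 2 + 3 * V ^ 2 * ξ) ^ 2 / (V ^ 2) ^ 2 := by
        field_simp
        ring
      have h7 : 0 ≤ (w * V ^ 2 + 3 * V ^ 2 * ξ) ^ 2 / (V ^ 2) ^ 2 := by positivity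
      linarith
    have h8 : w * ((3 * V ^ 2 + ξ) ^ 2 / V ^ 2) ≤ τ ^ 2 * ((3 * V ^ 2 + ξ) ^ 2 / V ^ 2) * Q := by
      have h9 : 0 ≤ (3 * V ^ 2 + ξ) ^ 2 / V ^ 2 := by positivity
      calc w * ((3 * V ^ 2 + ξ) ^ 2 / V ^ 2) ≤ (τ ^ 2 * Q) * ((3 * V ^ 2 + ξ) ^ 2 / V ^ 2) :=
            mul_le_mul_of_nonneg_right hw2 h9
        _ = τ ^ 2 * ((3 * V ^ 2 + ξ) ^ 2 / V ^ 2) * Q := by ring
    have h10 : w - ξ ^ 2 / V ^ 2 ≤ τ ^ 2 * ((3 * V ^ 2 + ξ) ^ 2 / V ^ 2) :=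
      le_of_mul_le_mul_right (h6.trans h8) hQpos
    linarith
  -- summation
  have hfilter : (Finset.univ.filter (fun m => m ≠ i ∧ m ≠ j)) = insert l S := by
    ext m
    simp only [Finset.mem_filter, Finset.mem_univ, true_and, Finset.mem_insert, hS]
    by_cases hml : m = l
    · subst hml
      simp [hli, hlj]
    · simp [hml]
  have hlS : l ∉ S := fun hm => ((hS l).mp hm).1 rfl
  rw [hfilter, Finset.sum_insert hlS] at hwall
  have hsumsec : ∑ m ∈ S, sec v (perp n (t m - t j))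
      ≤ ∑ m ∈ S, arctan (‖t m‖ / V) / (2 * π) := by
    refine Finset.sum_le_sum (fun m hm => ?_)
    have := (hS m).mp hm
    exact hsec_small m this.2.1 this.2.2
  rw [← Finset.sum_div] at hsumsec
  have hn0 : npdf 0 = (√(2 * π))⁻¹ := by
    simp [npdf]
  rw [hn0] at hwall
  have hsq : 0 < √(2 * π) := by positivity
  have hcard : (0:ℝ) ≤ (Fintype.card ι : ℝ) := Nat.cast_nonneg _
  have h11 : 1 / 2 - (sec v (perp n (t l - t j)) + ∑ m ∈ S, sec v (perp n (t m - t j)))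
      ≤ √(2 * π) * (D / (Fintype.card ι : ℝ)) := by
    have h12 := mul_le_mul_of_nonneg_left hwall hsq.le
    rw [← mul_assoc, mul_inv_cancel₀ hsq.ne', one_mul] at h12
    exact h12
  have e : √(2 * π) * D / (Fintype.card ι : ℝ) = √(2 * π) * (D / (Fintype.card ι : ℝ)) := by
    ring
  rw [e, add_div]
  linarith

end IsOptimal

end Vale.Agent.Lib.P226
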