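import Vale.Agent.Lib.P226.K4Rigid
import Vale.Agent.Lib.P226.K4Algebra
import Vale.Agent.Lib.P226.Select

/-!
One wall of an optimal configuration of four cells: the exact formula for its length.
-/

open MeasureTheory ProbabilityTheory Real Set
open scoped RealInnerProductSpace ENNReal NNReal

namespace Vale.Agent.Lib.P226

variable {E : Type*} [NormedAddCommGroup E] [InnerProductSpace ℝ E] [FiniteDimensional ℝ E]
  [MeasurableSpace E] [BorelSpace E]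

omit [FiniteDimensional ℝ E] [MeasurableSpace E] [BorelSpace E] in
lemma inner_perp_perp {n : E} (hn : ‖n‖ = 1) (x y : E) :
    ⟪perp n x, perp n y⟫ = ⟪x, y⟫ - ⟪n, x⟫ * ⟪n, y⟫ := by
  simp only [perp, inner_sub_left, inner_sub_right, real_inner_smul_left, real_inner_smul_right,
    real_inner_self_eq_norm_sq, hn]
  rw [real_inner_comm n x]
  ring

namespace IsOptimal

variable {t : Fin 4 → E} {A : Fin 4 → Set E}

/-- The length of an edge of the tetrahedron in terms of the exterior angle at this edge. -/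
theorem pair_eq (h : IsOptimal t A) (hneg : ∀ i j, i ≠ j → ⟪t i, t j⟫ < 0)
    (hd : ∀ i j, i ≠ j → t i ≠ t j) {i j k l : Fin 4} (hij : i ≠ j)
    (hki : k ≠ i) (hkj : k ≠ j) (hli : l ≠ i) (hlj : l ≠ j)
    (hcov : ∀ m, m ≠ i → m ≠ j → m = k ∨ m = l)
    {Qk Ql Nf : ℝ}
    (hQk : Qk = ‖t j - t i‖ ^ 2 * ‖t l - t j‖ ^ 2 - ⟪t j - t i, t l - t j⟫ ^ 2)
    (hQl : Ql = ‖t j - t i‖ ^ 2 * ‖t k - t j‖ ^ 2 - ⟪t j - t i, t k - t j⟫ ^ 2)
    (hNf : Nf = ‖t j - t i‖ ^ 2 * ⟪t k - t j, t l - t j⟫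
      - ⟪t j - t i, t k - t j⟫ * ⟪t j - t i, t l - t j⟫)
    (hQk0 : 0 < Qk) (hQl0 : 0 < Ql) (hNlt : Nf ^ 2 < Qk * Ql) :
    ‖t j - t i‖ = (2 * npdf 0 / π) * (π - arccos (Nf / (√Qk * √Ql))) := by
  obtain ⟨D, hDdef⟩ : ∃ D : ℝ, D = ‖t j - t i‖ := ⟨_, rfl⟩
  rw [← hDdef] at hQk hQl hNf ⊢
  have hD : 0 < D := by
    rw [hDdef]
    exact norm_pos_iff.mpr (sub_ne_zero.mpr (hd j i hij.symm))
  obtain ⟨n, hndef⟩ : ∃ n : E, n = D⁻¹ • (t j - t i) := ⟨_, rfl⟩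
  have hn : ‖n‖ = 1 := by
    rw [hndef, norm_smul, norm_inv, Real.norm_of_nonneg hD.le, ← hDdef, inv_mul_cancel₀ hD.ne']
  have hnD : t j - t i = D • n := by
    rw [hndef, smul_smul, mul_inv_cancel₀ hD.ne', one_smul]
  have hnin : ∀ y, ⟪t j - t i, y⟫ = D * ⟪n, y⟫ := by
    intro y
    rw [hnD, real_inner_smul_left]
  obtain ⟨wk, hwk⟩ : ∃ wk : E, wk = perp n (t k - t j) := ⟨_, rfl⟩
  obtain ⟨wl, hwl⟩ : ∃ wl : E, wl = perp n (t l - t j) := ⟨_, rfl⟩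
  have hD2 : D ^ 2 ≠ 0 := by positivity
  have hkk : ‖wk‖ ^ 2 = Ql / D ^ 2 := by
    rw [hwk, norm_sq_perp hn, hQl, hnin]
    field_simp
  have hll : ‖wl‖ ^ 2 = Qk / D ^ 2 := by
    rw [hwl, norm_sq_perp hn, hQk, hnin]
    field_simp
  have hkl : ⟪wk, wl⟫ = Nf / D ^ 2 := by
    rw [hwk, hwl, inner_perp_perp hn, hNf, hnin, hnin]
    field_simp
  have hnk : ‖wk‖ = √Ql / D := by
    have h1 : ‖wk‖ = √(‖wk‖ ^ 2) := (Real.sqrt_sq (norm_nonneg _)).symm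
    rw [h1, hkk, Real.sqrt_div hQl0.le, Real.sqrt_sq hD.le]
  have hnl : ‖wl‖ = √Qk / D := by
    have h1 : ‖wl‖ = √(‖wl‖ ^ 2) := (Real.sqrt_sq (norm_nonneg _)).symm
    rw [h1, hll, Real.sqrt_div hQk0.le, Real.sqrt_sq hD.le]
  have hAk : 0 < √Qk := Real.sqrt_pos.mpr hQk0
  have hAl : 0 < √Ql := Real.sqrt_pos.mpr hQl0
  have hwk0 : wk ≠ 0 := by
    intro h0
    rw [h0, norm_zero] at hnk
    have : 0 < √Ql / D := by positivity
    linarith
  have hwl0 : wl ≠ 0 := by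
    intro h0
    rw [h0, norm_zero] at hnl
    have : 0 < √Qk / D := by positivity
    linarith
  have hlt : |⟪wk, wl⟫| < ‖wk‖ * ‖wl‖ := by
    apply abs_lt_of_sq_lt_sq _ (by positivity)
    rw [hkl, mul_pow, hkk, hll, div_pow]
    have h5 : (D ^ 2) ^ 2 > 0 := by positivity
    rw [div_mul_div_comm, show D ^ 2 * D ^ 2 = (D ^ 2) ^ 2 by ring]
    apply div_lt_div_of_pos_right _ h5
    linarith
  have hsec := sec_eq (a := -wk) (b := -wl) (neg_ne_zero.mpr hwk0) (neg_ne_zero.mpr hwl0)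
    (by simpa using hlt)
  have hratio : ⟪-wk, -wl⟫ / (‖-wk‖ * ‖-wl‖) = Nf / (√Qk * √Ql) := by
    rw [inner_neg_neg, norm_neg, norm_neg, hkl, hnk, hnl]
    field_simp
  rw [hratio] at hsec
  obtain ⟨u, hu⟩ := exists_dual h.sum_eq_zero hneg i
  have hw : ∀ m, m ≠ i → m ≠ j → perp n (t m - t j) ≠ 0 := by
    intro m hm1 hm2
    rcases hcov m hm1 hm2 with rfl | rfl
    · rw [← hwk]
      exact hwk0
    · rw [← hwl]
      exact hwl0
  have hwall := h.wall_eq hd hij hu hD hnD hn hw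
  have hset : {x : E | ∀ m, m ≠ i → m ≠ j → ⟪perp n (t m - t j), x⟫ ≤ 0}
      = {x | 0 ≤ ⟪-wk, x⟫ ∧ 0 ≤ ⟪-wl, x⟫} := by
    ext x
    simp only [Set.mem_ofPred_eq, inner_neg_left]
    constructor
    · intro hall
      have h1 := hall k hki hkj
      have h2 := hall l hli hlj
      rw [← hwk] at h1
      rw [← hwl] at h2
      exact ⟨by linarith, by linarith⟩
    · rintro ⟨h1, h2⟩ m hm1 hm2
      rcases hcov m hm1 hm2 with rfl | rfl
      · rw [← hwk]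
        linarith
      · rw [← hwl]
        linarith
  have hval : (stdGaussian E).real {x : E | 0 ≤ ⟪-wk, x⟫ ∧ 0 ≤ ⟪-wl, x⟫} = sec (-wk) (-wl) := rfl
  rw [hset, hval, hsec, Fintype.card_fin] at hwall
  have hpi := Real.pi_pos
  have h4 : D = 4 * (npdf 0 * ((π - arccos (Nf / (√Qk * √Ql))) / (2 * π))) := by
    rw [hwall]
    push_cast
    ring
  rw [h4]
  field_simp
  ring

end IsOptimal

end Vale.Agent.Lib.P226
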