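import Vale.Agent.Lib.P226.K4Wedge

/-!
Rigidity of optimal configurations: every wall has the exact Gaussian density `D / k`.
-/

open MeasureTheory ProbabilityTheory Real Set
open scoped RealInnerProductSpace ENNReal NNReal

namespace Vale.Agent.Lib.P226

variable {E : Type*} [NormedAddCommGroup E] [InnerProductSpace ℝ E] [FiniteDimensional ℝ E]
  [MeasurableSpace E] [BorelSpace E]

/-- A two sided thin strip has small measure. -/
lemma real_strip_two {w : E} (hw : w ≠ 0) {η : ℝ} (hη : 0 < η) :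
    (stdGaussian E).real {x | -η < ⟪w, x⟫ ∧ ⟪w, x⟫ ≤ η} ≤ 2 * npdf 0 / ‖w‖ * η := by
  have hn : 0 < ‖w‖ := norm_pos_iff.mpr hw
  obtain ⟨e, he⟩ : ∃ e : E, e = ‖w‖⁻¹ • w := ⟨_, rfl⟩
  have hen : ‖e‖ = 1 := by
    rw [he, norm_smul, norm_inv, norm_norm, inv_mul_cancel₀ hn.ne']
  have hwe : ∀ x, ⟪w, x⟫ = ‖w‖ * ⟪e, x⟫ := by
    intro x
    rw [he, real_inner_smul_left]
    field_simp
  have hsub : {x : E | -η < ⟪w, x⟫ ∧ ⟪w, x⟫ ≤ η} ⊆
      {x | ⟪e, x⟫ ≤ η / ‖w‖} \ {x | ⟪e, x⟫ ≤ -η / ‖w‖} := by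
    intro x hx
    have h1 := hx.1
    have h2 := hx.2
    rw [hwe x] at h1 h2
    refine ⟨?_, ?_⟩
    · simp only [Set.mem_ofPred_eq]
      rw [le_div_iff₀ hn]
      linarith
    · simp only [Set.mem_ofPred_eq, not_le]
      rw [div_lt_iff₀ hn]
      linarith
  have hle : -η / ‖w‖ ≤ η / ‖w‖ := by
    apply div_le_div_of_nonneg_right _ hn.le
    linarith
  have hsub2 : {x : E | ⟪e, x⟫ ≤ -η / ‖w‖} ⊆ {x | ⟪e, x⟫ ≤ η / ‖w‖} := by
    intro x hx
    exact le_trans hx hle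
  have hmeas : MeasurableSet {x : E | ⟪e, x⟫ ≤ -η / ‖w‖} :=
    measurableSet_le (measurable_inner_const e) measurable_const
  calc (stdGaussian E).real {x | -η < ⟪w, x⟫ ∧ ⟪w, x⟫ ≤ η}
      ≤ (stdGaussian E).real ({x | ⟪e, x⟫ ≤ η / ‖w‖} \ {x | ⟪e, x⟫ ≤ -η / ‖w‖}) :=
        measureReal_mono hsub
    _ = ncdf (η / ‖w‖) - ncdf (-η / ‖w‖) := by
        rw [measureReal_sdiff hsub2 hmeas, real_inner_le_eq_ncdf hen, real_inner_le_eq_ncdf hen]
    _ ≤ (η / ‖w‖ - (-η / ‖w‖)) * npdf 0 := ncdf_sub_le hle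
    _ = 2 * npdf 0 / ‖w‖ * η := by ring

/-- The measure of an outer slab. -/
lemma real_slab_neg {n : E} (hn : ‖n‖ = 1) {ρ : ℝ} (hρ : 0 ≤ ρ) :
    (stdGaussian E).real {x | ⟪n, x⟫ ∈ Ico (-ρ) 0} = ncdf 0 - ncdf (-ρ) := by
  have hm := map_inner_std n
  rw [hn] at hm
  simp only [one_pow, Real.toNNReal_one] at hm
  have h1 : (stdGaussian E).real {x | ⟪n, x⟫ ∈ Ico (-ρ) 0}
      = (gaussianReal (0:ℝ) 1).real (Ico (-ρ) 0) := by
    rw [← hm, map_measureReal_apply (measurable_inner_const n) measurableSet_Ico]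
    rfl
  have hat : NullSingletonClass (gaussianReal (0:ℝ) 1) :=
    nullSingletonClass_gaussianReal (μ := 0) (v := 1) (by simp)
  rw [h1, measureReal_congr Ico_ae_eq_Ioc, ← Iic_sdiff_Iic, measureReal_sdiff
    (Iic_subset_Iic.mpr (by linarith)) measurableSet_Iic]
  rfl

namespace IsOptimal

variable {ι : Type*} [Fintype ι] {t : ι → E} {A : ι → Set E}

/-- Lower bound for an outer slab of a cell. -/
lemma slab_outer_ge (h : IsOptimal t A) (hd : ∀ i j, i ≠ j → t i ≠ t j) {i j : ι} (hij : i ≠ j)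
    [DecidableEq ι] {u : E}
    (hu : ∀ m, ⟪t m, u⟫ = (if m = i then 1 else 0) - 1 / (Fintype.card ι : ℝ)) {ε : ℝ} (hε : 0 < ε) :
    ε / (Fintype.card ι : ℝ) - ε ^ 2 * ‖u‖ ^ 2 / 2 ≤ (stdGaussian E).real
      {x | (∀ m, m ≠ i → ⟪t m, x⟫ ≤ ⟪t j, x⟫) ∧ -ε ≤ ⟪t j - t i, x⟫ ∧ ⟪t j - t i, x⟫ < 0} := by
  set S := ccell t j with hS
  have hSm : MeasurableSet S := measurableSet_ccell t j
  obtain ⟨s, hs⟩ : ∃ s : E, s = (-ε) • u := ⟨_, rfl⟩
  have hji : ¬ j = i := fun h => hij h.symm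
  -- the translate is larger
  have hset : {x | x + s ∈ S} = {x | (∀ m, m ≠ i → ⟪t m, x⟫ ≤ ⟪t j, x⟫) ∧ -ε ≤ ⟪t j - t i, x⟫} := by
    ext x
    simp only [Set.mem_ofPred_eq, hS, mem_ccell, inner_add_right, hs, inner_smul_right, hu,
      inner_sub_left]
    simp only [hji, if_false]
    constructor
    · intro hx
      refine ⟨fun m hm => ?_, ?_⟩
      · have := hx m
        simp only [hm, if_false] at this
        linarith
      · have := hx i
        simp only [if_true] at this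
        linarith
    · rintro ⟨h1, h2⟩ m
      by_cases hm : m = i
      · subst hm
        simp only [if_true]
        linarith
      · simp only [hm, if_false]
        have := h1 m hm
        linarith
  have hsm : MeasurableSet {x | x + s ∈ S} := by
    have : {x | x + s ∈ S} = (fun x : E => x + s) ⁻¹' S := rfl
    rw [this]
    exact (measurable_add_const s) hSm
  have hsub : S ⊆ {x | x + s ∈ S} := by
    intro x hx
    rw [hset]
    refine ⟨fun m _ => hx m, ?_⟩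
    have h1 := hx i
    rw [inner_sub_left]
    linarith
  have hdiff : {x | x + s ∈ S} \ S ⊆
      {x | (∀ m, m ≠ i → ⟪t m, x⟫ ≤ ⟪t j, x⟫) ∧ -ε ≤ ⟪t j - t i, x⟫ ∧ ⟪t j - t i, x⟫ < 0} := by
    rintro x ⟨hx1, hx2⟩
    rw [hset] at hx1
    refine ⟨hx1.1, hx1.2, ?_⟩
    by_contra hcon
    push Not at hcon
    apply hx2
    intro m
    by_cases hm : m = i
    · subst hm
      rw [inner_sub_left] at hcon
      linarith
    · exact hx1.1 m hm
  have h1 : (stdGaussian E).real S = ∫ _x in S, (1:ℝ) ∂(stdGaussian E) := by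
    simp [measureReal_def]
  have hint : Integrable (fun y : E => 1 + (⟪s, y⟫ - ‖s‖ ^ 2 / 2)) (stdGaussian E) :=
    (integrable_const _).add ((integrable_inner_std s).sub (integrable_const _))
  have hge : ∫ y in S, (1 + (⟪s, y⟫ - ‖s‖ ^ 2 / 2)) ∂(stdGaussian E)
      ≤ ∫ y in S, shiftDens s y ∂(stdGaussian E) := by
    refine setIntegral_mono hint.integrableOn (integrable_shiftDens s).integrableOn (fun y => ?_)
    have := Real.add_one_le_exp (⟪s, y⟫ - ‖s‖ ^ 2 / 2)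
    simp only [shiftDens]
    linarith
  have hval : ∫ y in S, (1 + (⟪s, y⟫ - ‖s‖ ^ 2 / 2)) ∂(stdGaussian E)
      = (stdGaussian E).real S * (1 - ‖s‖ ^ 2 / 2) + ⟪s, t j⟫ := by
    have e1 : (fun y : E => 1 + (⟪s, y⟫ - ‖s‖ ^ 2 / 2)) = fun y => ⟪s, y⟫ + (1 - ‖s‖ ^ 2 / 2) := by
      ext y
      ring
    rw [e1, integral_add (integrable_inner_std s).integrableOn (integrable_const _).integrableOn,
      setIntegral_const, h.inner_setIntegral_ccell hd j s]
    simp [measureReal_def]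
    ring
  have hst : ⟪s, t j⟫ = ε / (Fintype.card ι : ℝ) := by
    rw [hs, real_inner_smul_left, real_inner_comm, hu]
    simp only [hji, if_false]
    ring
  have hns : ‖s‖ ^ 2 = ε ^ 2 * ‖u‖ ^ 2 := by
    rw [hs, norm_smul, Real.norm_eq_abs, abs_neg, abs_of_pos hε]
    ring
  have hle : (stdGaussian E).real S ≤ 1 := measureReal_le_one
  have hpos : 0 ≤ ‖s‖ ^ 2 / 2 := by positivity
  have hSnn : 0 ≤ (stdGaussian E).real S := measureReal_nonneg
  have hmain : (stdGaussian E).real S + ε / (Fintype.card ι : ℝ) - ε ^ 2 * ‖u‖ ^ 2 / 2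
      ≤ (stdGaussian E).real {x | x + s ∈ S} := by
    rw [real_preimage_add s hSm]
    have h3 := hge
    rw [hval, hst] at h3
    have h4 : (stdGaussian E).real S * (‖s‖ ^ 2 / 2) ≤ 1 * (‖s‖ ^ 2 / 2) := by gcongr
    rw [hns] at h4 hpos
    rw [hns] at h3
    nlinarith
  have h5 : (stdGaussian E).real ({x | x + s ∈ S} \ S)
      = (stdGaussian E).real {x | x + s ∈ S} - (stdGaussian E).real S :=
    measureReal_sdiff hsub hSm
  calc ε / (Fintype.card ι : ℝ) - ε ^ 2 * ‖u‖ ^ 2 / 2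
      ≤ (stdGaussian E).real ({x | x + s ∈ S} \ S) := by rw [h5]; linarith
    _ ≤ _ := measureReal_mono hdiff

variable [DecidableEq ι]

/-- The first half of rigidity: `φ(0) γ(W) ≤ D / k`. -/
lemma wall_le (h : IsOptimal t A) (hd : ∀ i j, i ≠ j → t i ≠ t j) {i j : ι} (hij : i ≠ j)
    {u : E}
    (hu : ∀ m, ⟪t m, u⟫ = (if m = i then 1 else 0) - 1 / (Fintype.card ι : ℝ))
    {n : E} {D : ℝ} (hD : 0 < D) (hnD : t j - t i = D • n) (hn : ‖n‖ = 1)
    (hw : ∀ m, m ≠ i → m ≠ j → perp n (t m - t j) ≠ 0) :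
    npdf 0 * (stdGaussian E).real {x | ∀ m, m ≠ i → m ≠ j → ⟪perp n (t m - t j), x⟫ ≤ 0}
      ≤ D / (Fintype.card ι : ℝ) := by
  classical
  set w : ι → E := fun m => perp n (t m - t j) with hwdef
  set W : Set E := {x | ∀ m, m ≠ i → m ≠ j → ⟪w m, x⟫ ≤ 0} with hW
  set O : Finset ι := Finset.univ.filter (fun m => m ≠ i ∧ m ≠ j) with hO
  have hOm : ∀ m, m ∈ O ↔ m ≠ i ∧ m ≠ j := by
    intro m
    simp [hO]
  set B : ℝ := 1 + ∑ m, |⟪n, t m - t j⟫| with hB
  have hBpos : 0 < B := by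
    have : 0 ≤ ∑ m, |⟪n, t m - t j⟫| := Finset.sum_nonneg (fun m _ => abs_nonneg _)
    linarith
  have hBle : ∀ m, |⟪n, t m - t j⟫| ≤ B := by
    intro m
    have := Finset.single_le_sum (f := fun m => |⟪n, t m - t j⟫|)
      (fun m _ => abs_nonneg _) (Finset.mem_univ m)
    linarith
  set Cm : ι → ℝ := fun m => 2 * npdf 0 / ‖w m‖ with hCm
  have hCm0 : ∀ m, 0 ≤ Cm m := by
    intro m
    have := npdf_pos 0
    simp only [hCm]
    positivity
  set Ctot : ℝ := B * ∑ m ∈ O, Cm m with hCtot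
  have hkey : ∀ ρ : ℝ, 0 < ρ →
      npdf ρ * ((stdGaussian E).real W - Ctot * ρ)
        ≤ D / (Fintype.card ι : ℝ) + D ^ 2 * ρ * ‖u‖ ^ 2 / 2 := by
    intro ρ hρ
    set η : ℝ := ρ * B with hη
    have hηpos : 0 < η := by positivity
    set R : Set E := {x | ⟪n, x⟫ ∈ Ico 0 ρ} with hR
    set T : Set E := {x | ∀ m ∈ O, ⟪w m, x⟫ ≤ -η} with hT
    have hwperp : ∀ m, ⟪n, w m⟫ = 0 := fun m => inner_perp_self hn _
    have hTm : MeasurableSet T := by
      have : T = ⋂ m ∈ O, {x | ⟪w m, x⟫ ≤ -η} := by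
        ext x
        simp [hT]
      rw [this]
      refine Finset.measurableSet_biInter _ (fun m _ => ?_)
      exact measurableSet_le (measurable_inner_const _) measurable_const
    have hinv : ∀ x, x ∈ T ↔ perp n x ∈ T := by
      intro x
      simp only [hT, Set.mem_ofPred_eq, inner_of_perp hn (hwperp _)]
    have hprod := real_inter_perp hn (measurableSet_Ico (a := (0:ℝ)) (b := ρ)) hTm hinv
    have hincl : R ∩ T ⊆ {x | x ∈ ccell t j ∧ ⟪t j - t i, x⟫ < D * ρ} := by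
      rintro x ⟨hxR, hxT⟩
      have hr0 : 0 ≤ ⟪n, x⟫ := hxR.1
      have hr1 : ⟪n, x⟫ < ρ := hxR.2
      have hU : ⟪t j - t i, x⟫ = D * ⟪n, x⟫ := by
        rw [hnD, real_inner_smul_left]
      refine ⟨fun m => ?_, ?_⟩
      · by_cases hmi : m = i
        · subst hmi
          have : 0 ≤ ⟪t j - t m, x⟫ := by rw [hU]; positivity
          rw [inner_sub_left] at this
          linarith
        by_cases hmj : m = j
        · subst hmj; exact le_rfl
        · have hmO : m ∈ O := (hOm m).mpr ⟨hmi, hmj⟩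
          have h1 : ⟪w m, x⟫ ≤ -η := hxT m hmO
          have h2 : ⟪t m - t j, x⟫ = ⟪n, t m - t j⟫ * ⟪n, x⟫ + ⟪w m, x⟫ := by
            simp only [hwdef, perp, inner_sub_left, real_inner_smul_left]
            ring
          have h3 : ⟪n, t m - t j⟫ * ⟪n, x⟫ ≤ B * ρ := by
            have h4 := hBle m
            have h5 : ⟪n, t m - t j⟫ ≤ B := (le_abs_self _).trans h4
            nlinarith
          rw [inner_sub_left] at h2
          have : η = B * ρ := by rw [hη]; ring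
          linarith
      · rw [hU]
        exact mul_lt_mul_of_pos_left hr1 hD
    have hTlow : (stdGaussian E).real W - Ctot * ρ ≤ (stdGaussian E).real T := by
      have hcover : W ⊆ T ∪ ⋃ m ∈ O, {x | -η < ⟪w m, x⟫ ∧ ⟪w m, x⟫ ≤ η} := by
        intro x hx
        by_cases hall : ∀ m ∈ O, ⟪w m, x⟫ ≤ -η
        · exact Or.inl hall
        · right
          push Not at hall
          obtain ⟨m, hm, hm2⟩ := hall
          obtain ⟨h1, h2⟩ := (hOm m).mp hm
          exact mem_iUnion₂.mpr ⟨m, hm, hm2, (hx m h1 h2).trans hηpos.le⟩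
      have h2 : (stdGaussian E).real W ≤ (stdGaussian E).real T
          + ∑ m ∈ O, (stdGaussian E).real {x | -η < ⟪w m, x⟫ ∧ ⟪w m, x⟫ ≤ η} :=
        (measureReal_mono hcover).trans ((measureReal_union_le _ _).trans
          (by gcongr; exact measureReal_biUnion_finset_le _ _))
      have h3 : ∑ m ∈ O, (stdGaussian E).real {x | -η < ⟪w m, x⟫ ∧ ⟪w m, x⟫ ≤ η}
          ≤ ∑ m ∈ O, Cm m * η := by
        refine Finset.sum_le_sum (fun m hm => ?_)
        obtain ⟨h1, h2⟩ := (hOm m).mp hm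
        exact real_strip_two (hw m h1 h2) hηpos
      rw [← Finset.sum_mul] at h3
      have h4 : (∑ m ∈ O, Cm m) * η = Ctot * ρ := by
        rw [hCtot, hη]; ring
      linarith
    have hslab := h.slab_le hd hij hu (ε := D * ρ) (by positivity)
    have hRval : (stdGaussian E).real R = ncdf ρ - ncdf 0 := real_slab hn hρ.le
    have hRlow : ρ * npdf ρ ≤ (stdGaussian E).real R := by
      rw [hRval]
      exact le_ncdf_sub hρ.le
    have hTnn : 0 ≤ (stdGaussian E).real T := measureReal_nonneg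
    have hmain : (ρ * npdf ρ) * ((stdGaussian E).real W - Ctot * ρ)
        ≤ (stdGaussian E).real (R ∩ T) := by
      rw [show R ∩ T = {x | ⟪n, x⟫ ∈ Ico 0 ρ} ∩ T from rfl, hprod]
      have hp : 0 ≤ ρ * npdf ρ := mul_nonneg hρ.le (npdf_pos ρ).le
      calc (ρ * npdf ρ) * ((stdGaussian E).real W - Ctot * ρ)
          ≤ (ρ * npdf ρ) * (stdGaussian E).real T := mul_le_mul_of_nonneg_left hTlow hp
        _ ≤ _ := mul_le_mul_of_nonneg_right hRlow hTnn
    have hfin : (ρ * npdf ρ) * ((stdGaussian E).real W - Ctot * ρ) ≤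
        D * ρ / (Fintype.card ι : ℝ) + (D * ρ) ^ 2 * ‖u‖ ^ 2 / 2 :=
      hmain.trans ((measureReal_mono hincl).trans hslab)
    have hcancel : ρ * (npdf ρ * ((stdGaussian E).real W - Ctot * ρ))
        ≤ ρ * (D / (Fintype.card ι : ℝ) + D ^ 2 * ρ * ‖u‖ ^ 2 / 2) := by
      have e1 : ρ * (npdf ρ * ((stdGaussian E).real W - Ctot * ρ))
          = (ρ * npdf ρ) * ((stdGaussian E).real W - Ctot * ρ) := by ring
      have e2 : ρ * (D / (Fintype.card ι : ℝ) + D ^ 2 * ρ * ‖u‖ ^ 2 / 2)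
          = D * ρ / (Fintype.card ι : ℝ) + (D * ρ) ^ 2 * ‖u‖ ^ 2 / 2 := by ring
      rw [e1, e2]
      exact hfin
    exact le_of_mul_le_mul_left hcancel hρ
  set f : ℝ → ℝ := fun ρ => D / (Fintype.card ι : ℝ) + D ^ 2 * ρ * ‖u‖ ^ 2 / 2
    - npdf ρ * ((stdGaussian E).real W - Ctot * ρ) with hf
  have hcont : Continuous f := by
    simp only [hf]
    have := continuous_npdf
    fun_prop
  have hnn : ∀ ρ, 0 < ρ → 0 ≤ f ρ := by
    intro ρ hρ
    have := hkey ρ hρ
    simp only [hf]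
    linarith
  have hlim : Filter.Tendsto f (nhdsWithin 0 (Ioi 0)) (nhds (f 0)) :=
    (hcont.tendsto 0).mono_left nhdsWithin_le_nhds
  have h0 : 0 ≤ f 0 := by
    refine ge_of_tendsto hlim ?_
    filter_upwards [self_mem_nhdsWithin] with ρ hρ
    exact hnn ρ hρ
  simp only [hf] at h0
  have e : D ^ 2 * 0 * ‖u‖ ^ 2 / 2 = 0 := by ring
  rw [e] at h0
  simp only [mul_zero, sub_zero, add_zero] at h0
  linarith

/-- The second half of rigidity: `D / k ≤ φ(0) γ(W)`. -/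
lemma le_wall (h : IsOptimal t A) (hd : ∀ i j, i ≠ j → t i ≠ t j) {i j : ι} (hij : i ≠ j)
    {u : E}
    (hu : ∀ m, ⟪t m, u⟫ = (if m = i then 1 else 0) - 1 / (Fintype.card ι : ℝ))
    {n : E} {D : ℝ} (hD : 0 < D) (hnD : t j - t i = D • n) (hn : ‖n‖ = 1)
    (hw : ∀ m, m ≠ i → m ≠ j → perp n (t m - t j) ≠ 0) :
    D / (Fintype.card ι : ℝ)
      ≤ npdf 0 * (stdGaussian E).real {x | ∀ m, m ≠ i → m ≠ j → ⟪perp n (t m - t j), x⟫ ≤ 0} := by
  classical
  set w : ι → E := fun m => perp n (t m - t j) with hwdef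
  set W : Set E := {x | ∀ m, m ≠ i → m ≠ j → ⟪w m, x⟫ ≤ 0} with hW
  set O : Finset ι := Finset.univ.filter (fun m => m ≠ i ∧ m ≠ j) with hO
  have hOm : ∀ m, m ∈ O ↔ m ≠ i ∧ m ≠ j := by
    intro m
    simp [hO]
  set B : ℝ := 1 + ∑ m, |⟪n, t m - t j⟫| with hB
  have hBpos : 0 < B := by
    have : 0 ≤ ∑ m, |⟪n, t m - t j⟫| := Finset.sum_nonneg (fun m _ => abs_nonneg _)
    linarith
  have hBle : ∀ m, |⟪n, t m - t j⟫| ≤ B := by
    intro m
    have := Finset.single_le_sum (f := fun m => |⟪n, t m - t j⟫|)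
      (fun m _ => abs_nonneg _) (Finset.mem_univ m)
    linarith
  set Cm : ι → ℝ := fun m => 2 * npdf 0 / ‖w m‖ with hCm
  have hCm0 : ∀ m, 0 ≤ Cm m := by
    intro m
    have := npdf_pos 0
    simp only [hCm]
    positivity
  set Ctot : ℝ := B * ∑ m ∈ O, Cm m with hCtot
  have hCtot0 : 0 ≤ Ctot := mul_nonneg hBpos.le (Finset.sum_nonneg (fun m _ => hCm0 m))
  have hWnn : 0 ≤ (stdGaussian E).real W := measureReal_nonneg
  have hkey : ∀ ρ : ℝ, 0 < ρ →
      D / (Fintype.card ι : ℝ) - D ^ 2 * ρ * ‖u‖ ^ 2 / 2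
        ≤ npdf 0 * ((stdGaussian E).real W + Ctot * ρ) := by
    intro ρ hρ
    set η : ℝ := ρ * B with hη
    have hηpos : 0 < η := by positivity
    set R : Set E := {x | ⟪n, x⟫ ∈ Ico (-ρ) 0} with hR
    set T : Set E := {x | ∀ m ∈ O, ⟪w m, x⟫ ≤ η} with hT
    have hwperp : ∀ m, ⟪n, w m⟫ = 0 := fun m => inner_perp_self hn _
    have hTm : MeasurableSet T := by
      have : T = ⋂ m ∈ O, {x | ⟪w m, x⟫ ≤ η} := by
        ext x
        simp [hT]
      rw [this]
      refine Finset.measurableSet_biInter _ (fun m _ => ?_)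
      exact measurableSet_le (measurable_inner_const _) measurable_const
    have hinv : ∀ x, x ∈ T ↔ perp n x ∈ T := by
      intro x
      simp only [hT, Set.mem_ofPred_eq, inner_of_perp hn (hwperp _)]
    have hprod := real_inter_perp hn (measurableSet_Ico (a := (-ρ:ℝ)) (b := 0)) hTm hinv
    have hincl : {x | (∀ m, m ≠ i → ⟪t m, x⟫ ≤ ⟪t j, x⟫) ∧ -(D * ρ) ≤ ⟪t j - t i, x⟫ ∧
        ⟪t j - t i, x⟫ < 0} ⊆ R ∩ T := by
      rintro x ⟨hx1, hx2, hx3⟩
      have hU : ⟪t j - t i, x⟫ = D * ⟪n, x⟫ := by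
        rw [hnD, real_inner_smul_left]
      rw [hU] at hx2 hx3
      have hr0 : ⟪n, x⟫ < 0 := by
        by_contra hc
        push Not at hc
        have : 0 ≤ D * ⟪n, x⟫ := by positivity
        linarith
      have hr1 : -ρ ≤ ⟪n, x⟫ := by
        have : D * (-ρ) ≤ D * ⟪n, x⟫ := by linarith
        exact le_of_mul_le_mul_left this hD
      refine ⟨⟨hr1, hr0⟩, fun m hm => ?_⟩
      obtain ⟨hmi, hmj⟩ := (hOm m).mp hm
      have h2 : ⟪t m - t j, x⟫ = ⟪n, t m - t j⟫ * ⟪n, x⟫ + ⟪w m, x⟫ := by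
        simp only [hwdef, perp, inner_sub_left, real_inner_smul_left]
        ring
      have h3 : -(⟪n, t m - t j⟫ * ⟪n, x⟫) ≤ B * ρ := by
        have h4 := hBle m
        have h5 : ⟪n, t m - t j⟫ ≤ B := (le_abs_self _).trans h4
        have h7 : ⟪n, t m - t j⟫ * (-⟪n, x⟫) ≤ B * ρ :=
          mul_le_mul h5 (by linarith) (by linarith) hBpos.le
        linarith
      have h6 := hx1 m hmi
      rw [inner_sub_left] at h2
      have : η = B * ρ := by rw [hη]; ring
      linarith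
    have hTup : (stdGaussian E).real T ≤ (stdGaussian E).real W + Ctot * ρ := by
      have hcover : T ⊆ W ∪ ⋃ m ∈ O, {x | -η < ⟪w m, x⟫ ∧ ⟪w m, x⟫ ≤ η} := by
        intro x hx
        by_cases hall : ∀ m, m ≠ i → m ≠ j → ⟪w m, x⟫ ≤ 0
        · exact Or.inl hall
        · right
          push Not at hall
          obtain ⟨m, h1, h2, hm2⟩ := hall
          have hm : m ∈ O := (hOm m).mpr ⟨h1, h2⟩
          exact mem_iUnion₂.mpr ⟨m, hm, by linarith, hx m hm⟩
      have h2 : (stdGaussian E).real T ≤ (stdGaussian E).real W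
          + ∑ m ∈ O, (stdGaussian E).real {x | -η < ⟪w m, x⟫ ∧ ⟪w m, x⟫ ≤ η} :=
        (measureReal_mono hcover).trans ((measureReal_union_le _ _).trans
          (by gcongr; exact measureReal_biUnion_finset_le _ _))
      have h3 : ∑ m ∈ O, (stdGaussian E).real {x | -η < ⟪w m, x⟫ ∧ ⟪w m, x⟫ ≤ η}
          ≤ ∑ m ∈ O, Cm m * η := by
        refine Finset.sum_le_sum (fun m hm => ?_)
        obtain ⟨h1, h2⟩ := (hOm m).mp hm
        exact real_strip_two (hw m h1 h2) hηpos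
      rw [← Finset.sum_mul] at h3
      have h4 : (∑ m ∈ O, Cm m) * η = Ctot * ρ := by
        rw [hCtot, hη]; ring
      linarith
    have hslab := h.slab_outer_ge hd hij hu (ε := D * ρ) (by positivity)
    have hRval : (stdGaussian E).real R = ncdf 0 - ncdf (-ρ) := real_slab_neg hn hρ.le
    have hRup : (stdGaussian E).real R ≤ ρ * npdf 0 := by
      rw [hRval]
      have := ncdf_sub_le (a := -ρ) (b := 0) (by linarith)
      linarith
    have hTnn : 0 ≤ (stdGaussian E).real T := measureReal_nonneg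
    have hmain : (stdGaussian E).real (R ∩ T)
        ≤ (ρ * npdf 0) * ((stdGaussian E).real W + Ctot * ρ) := by
      rw [show R ∩ T = {x | ⟪n, x⟫ ∈ Ico (-ρ) 0} ∩ T from rfl, hprod]
      have hp : 0 ≤ ρ * npdf 0 := mul_nonneg hρ.le (npdf_pos 0).le
      calc _ ≤ (ρ * npdf 0) * (stdGaussian E).real T := mul_le_mul_of_nonneg_right hRup hTnn
        _ ≤ _ := mul_le_mul_of_nonneg_left hTup hp
    have hfin := hslab.trans ((measureReal_mono hincl).trans hmain)
    have hcancel : ρ * (D / (Fintype.card ι : ℝ) - D ^ 2 * ρ * ‖u‖ ^ 2 / 2)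
        ≤ ρ * (npdf 0 * ((stdGaussian E).real W + Ctot * ρ)) := by
      have e1 : ρ * (npdf 0 * ((stdGaussian E).real W + Ctot * ρ))
          = (ρ * npdf 0) * ((stdGaussian E).real W + Ctot * ρ) := by ring
      have e2 : ρ * (D / (Fintype.card ι : ℝ) - D ^ 2 * ρ * ‖u‖ ^ 2 / 2)
          = D * ρ / (Fintype.card ι : ℝ) - (D * ρ) ^ 2 * ‖u‖ ^ 2 / 2 := by ring
      rw [e1, e2]
      exact hfin
    exact le_of_mul_le_mul_left hcancel hρ
  set f : ℝ → ℝ := fun ρ => npdf 0 * ((stdGaussian E).real W + Ctot * ρ)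
    + D ^ 2 * ρ * ‖u‖ ^ 2 / 2 - D / (Fintype.card ι : ℝ) with hf
  have hcont : Continuous f := by
    simp only [hf]
    fun_prop
  have hnn : ∀ ρ, 0 < ρ → 0 ≤ f ρ := by
    intro ρ hρ
    have := hkey ρ hρ
    simp only [hf]
    linarith
  have hlim : Filter.Tendsto f (nhdsWithin 0 (Ioi 0)) (nhds (f 0)) :=
    (hcont.tendsto 0).mono_left nhdsWithin_le_nhds
  have h0 : 0 ≤ f 0 := by
    refine ge_of_tendsto hlim ?_
    filter_upwards [self_mem_nhdsWithin] with ρ hρ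
    exact hnn ρ hρ
  simp only [hf] at h0
  have e : D ^ 2 * 0 * ‖u‖ ^ 2 / 2 = 0 := by ring
  rw [e] at h0
  simp only [mul_zero, add_zero] at h0
  linarith

/-- Rigidity: every wall of an optimal configuration has density exactly `D / k`. -/
theorem wall_eq (h : IsOptimal t A) (hd : ∀ i j, i ≠ j → t i ≠ t j) {i j : ι} (hij : i ≠ j)
    {u : E}
    (hu : ∀ m, ⟪t m, u⟫ = (if m = i then 1 else 0) - 1 / (Fintype.card ι : ℝ))
    {n : E} {D : ℝ} (hD : 0 < D) (hnD : t j - t i = D • n) (hn : ‖n‖ = 1)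
    (hw : ∀ m, m ≠ i → m ≠ j → perp n (t m - t j) ≠ 0) :
    npdf 0 * (stdGaussian E).real {x | ∀ m, m ≠ i → m ≠ j → ⟪perp n (t m - t j), x⟫ ≤ 0}
      = D / (Fintype.card ι : ℝ) :=
  le_antisymm (h.wall_le hd hij hu hD hnD hn hw) (h.le_wall hd hij hu hD hnD hn hw)

end IsOptimal

end Vale.Agent.Lib.P226
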