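import Mathlib

/-!
Alternating Taylor bounds for the sine and the cosine, and monotonicity of `d / sin d` and
`- d cot d` on `(0, π)`.
-/

open Real

namespace Vale.Agent.Lib.P226

/-- Partial sums of the sine series. -/
noncomputable def rS (n : ℕ) (x : ℝ) : ℝ :=
  ∑ k ∈ Finset.range n, (-1) ^ k * x ^ (2 * k + 1) / ((2 * k + 1).factorial : ℝ)

/-- Partial sums of the cosine series. -/
noncomputable def rC (n : ℕ) (x : ℝ) : ℝ :=
  ∑ k ∈ Finset.range n, (-1) ^ k * x ^ (2 * k) / ((2 * k).factorial : ℝ)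

lemma rS_succ (n : ℕ) :
    rS (n + 1) = fun y => rS n y + (-1) ^ n * y ^ (2 * n + 1) / ((2 * n + 1).factorial : ℝ) := by
  funext y
  simp only [rS, Finset.sum_range_succ]

lemma rC_succ (n : ℕ) :
    rC (n + 1) = fun y => rC n y + (-1) ^ n * y ^ (2 * n) / ((2 * n).factorial : ℝ) := by
  funext y
  simp only [rC, Finset.sum_range_succ]

lemma hasDerivAt_rS (n : ℕ) (x : ℝ) : HasDerivAt (rS n) (rC n x) x := by
  induction n with
  | zero =>
    have h1 : rS 0 = fun _ => (0 : ℝ) := by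
      funext y
      simp [rS]
    have h2 : rC 0 x = 0 := by simp [rC]
    rw [h1, h2]
    exact hasDerivAt_const x (0 : ℝ)
  | succ n ih =>
    have h2 := ((hasDerivAt_pow (2 * n + 1) x).const_mul ((-1 : ℝ) ^ n)).div_const
      ((2 * n + 1).factorial : ℝ)
    have e : ((-1 : ℝ) ^ n * (((2 * n + 1 : ℕ) : ℝ) * x ^ (2 * n + 1 - 1)) /
        ((2 * n + 1).factorial : ℝ)) = (-1) ^ n * x ^ (2 * n) / ((2 * n).factorial : ℝ) := by
      rw [Nat.factorial_succ]
      push_cast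
      have h3 : ((2 * n).factorial : ℝ) ≠ 0 := by positivity
      have h4 : (2 * (n : ℝ) + 1) ≠ 0 := by positivity
      try simp only [Nat.add_sub_cancel]
      field_simp
    rw [e] at h2
    rw [rS_succ, rC_succ]
    exact ih.fun_add h2

lemma hasDerivAt_rC (n : ℕ) (x : ℝ) : HasDerivAt (rC (n + 1)) (-rS n x) x := by
  induction n with
  | zero =>
    have h1 : rC (0 + 1) = fun _ => (1 : ℝ) := by
      funext y
      simp [rC]
    have h2 : rS 0 x = 0 := by simp [rS]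
    rw [h1, h2, neg_zero]
    exact hasDerivAt_const x (1 : ℝ)
  | succ n ih =>
    have h2 := ((hasDerivAt_pow (2 * (n + 1)) x).const_mul ((-1 : ℝ) ^ (n + 1))).div_const
      ((2 * (n + 1)).factorial : ℝ)
    have e : ((-1 : ℝ) ^ (n + 1) * (((2 * (n + 1) : ℕ) : ℝ) * x ^ (2 * (n + 1) - 1)) /
        ((2 * (n + 1)).factorial : ℝ))
        = -((-1) ^ n * x ^ (2 * n + 1) / ((2 * n + 1).factorial : ℝ)) := by
      have e1 : 2 * (n + 1) = 2 * n + 1 + 1 := by ring
      rw [e1, Nat.factorial_succ]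
      push_cast
      have h3 : ((2 * n + 1).factorial : ℝ) ≠ 0 := by positivity
      have h4 : (2 * (n : ℝ) + 1 + 1) ≠ 0 := by positivity
      try simp only [Nat.add_sub_cancel]
      field_simp
      ring
    rw [e] at h2
    have h5 := ih.fun_add h2
    have e3 : -rS (n + 1) x = -rS n x + -((-1) ^ n * x ^ (2 * n + 1) / ((2 * n + 1).factorial : ℝ)) := by
      rw [rS_succ]
      ring
    rw [e3, rC_succ (n + 1)]
    exact h5

/-- A function vanishing at `0` with nonnegative derivative on `[0, ∞)` is nonnegative there. -/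
lemma k4_nonneg_of_deriv_nonneg {f f' : ℝ → ℝ} (h0 : f 0 = 0) (hf : ∀ x, HasDerivAt f (f' x) x)
    (hf' : ∀ x, 0 ≤ x → 0 ≤ f' x) {x : ℝ} (hx : 0 ≤ x) : 0 ≤ f x := by
  have hmono : MonotoneOn f (Set.Ici 0) := by
    apply monotoneOn_of_deriv_nonneg (convex_Ici 0)
    · exact fun y _ => (hf y).continuousAt.continuousWithinAt
    · exact fun y _ => (hf y).differentiableAt.differentiableWithinAt
    · intro y hy
      rw [interior_Ici] at hy
      rw [(hf y).deriv]
      exact hf' y (le_of_lt hy)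
  have := hmono (Set.mem_Ici.mpr le_rfl) (Set.mem_Ici.mpr hx) hx
  rwa [h0] at this

lemma rS_rC_bounds (n : ℕ) :
    (∀ x : ℝ, 0 ≤ x → 0 ≤ (-1) ^ (n + 1) * (cos x - rC (n + 1) x)) ∧
    (∀ x : ℝ, 0 ≤ x → 0 ≤ (-1) ^ (n + 1) * (sin x - rS (n + 1) x)) := by
  have key : ∀ n : ℕ, (∀ x : ℝ, 0 ≤ x → 0 ≤ (-1) ^ (n + 1) * (cos x - rC (n + 1) x)) →
      (∀ x : ℝ, 0 ≤ x → 0 ≤ (-1) ^ (n + 1) * (sin x - rS (n + 1) x)) := by
    intro n hA x hx
    refine k4_nonneg_of_deriv_nonneg (f := fun y => (-1) ^ (n + 1) * (sin y - rS (n + 1) y))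
      (f' := fun y => (-1) ^ (n + 1) * (cos y - rC (n + 1) y)) ?_ ?_ hA hx
    · simp [rS]
    · intro y
      exact ((Real.hasDerivAt_sin y).fun_sub (hasDerivAt_rS (n + 1) y)).const_mul _
  induction n with
  | zero =>
    have hA : ∀ x : ℝ, 0 ≤ x → 0 ≤ (-1) ^ (0 + 1) * (cos x - rC (0 + 1) x) := by
      intro x _
      have : rC (0 + 1) x = 1 := by simp [rC]
      rw [this]
      have := Real.cos_le_one x
      simp only [zero_add, pow_one]
      linarith
    exact ⟨hA, key 0 hA⟩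
  | succ n ih =>
    have hA : ∀ x : ℝ, 0 ≤ x → 0 ≤ (-1) ^ (n + 1 + 1) * (cos x - rC (n + 1 + 1) x) := by
      intro x hx
      refine k4_nonneg_of_deriv_nonneg (f := fun y => (-1) ^ (n + 1 + 1) * (cos y - rC (n + 1 + 1) y))
        (f' := fun y => (-1) ^ (n + 1) * (sin y - rS (n + 1) y)) ?_ ?_ ih.2 hx
      · have : rC (n + 1 + 1) 0 = 1 := by
          rw [rC, Finset.sum_range_succ']
          simp
        simp [this]
      · intro y
        have h := ((Real.hasDerivAt_cos y).fun_sub (hasDerivAt_rC (n + 1) y)).const_mul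
          ((-1 : ℝ) ^ (n + 1 + 1))
        refine h.congr_deriv ?_
        rw [pow_succ (-1 : ℝ) (n + 1)]
        ring
    exact ⟨hA, key (n + 1) hA⟩

/-- For `n` even the partial sums lie below. -/
lemma rS_le_sin (n : ℕ) {x : ℝ} (hx : 0 ≤ x) : rS (2 * n + 2) x ≤ sin x := by
  have := (rS_rC_bounds (2 * n + 1)).2 x hx
  have e : ((-1 : ℝ)) ^ (2 * n + 1 + 1) = 1 := by
    rw [show 2 * n + 1 + 1 = 2 * (n + 1) by ring, pow_mul]
    simp
  rw [e] at this
  linarith

lemma sin_le_rS (n : ℕ) {x : ℝ} (hx : 0 ≤ x) : sin x ≤ rS (2 * n + 1) x := by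
  have := (rS_rC_bounds (2 * n)).2 x hx
  have e : ((-1 : ℝ)) ^ (2 * n + 1) = -1 := by
    rw [pow_succ, pow_mul]
    simp
  rw [e] at this
  linarith

lemma rC_le_cos (n : ℕ) {x : ℝ} (hx : 0 ≤ x) : rC (2 * n + 2) x ≤ cos x := by
  have := (rS_rC_bounds (2 * n + 1)).1 x hx
  have e : ((-1 : ℝ)) ^ (2 * n + 1 + 1) = 1 := by
    rw [show 2 * n + 1 + 1 = 2 * (n + 1) by ring, pow_mul]
    simp
  rw [e] at this
  linarith

lemma cos_le_rC (n : ℕ) {x : ℝ} (hx : 0 ≤ x) : cos x ≤ rC (2 * n + 1) x := by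
  have := (rS_rC_bounds (2 * n)).1 x hx
  have e : ((-1 : ℝ)) ^ (2 * n + 1) = -1 := by
    rw [pow_succ, pow_mul]
    simp
  rw [e] at this
  linarith

/-- `d / sin d`. -/
noncomputable def GG (d : ℝ) : ℝ := d / sin d

/-- `- d cos d / sin d`. -/
noncomputable def KK (d : ℝ) : ℝ := -(d * cos d) / sin d

lemma sin_pos_of_Ioo {d : ℝ} (hd : d ∈ Set.Ioo 0 π) : 0 < sin d := Real.sin_pos_of_mem_Ioo hd

lemma mul_cos_le_sin {d : ℝ} (hd : d ∈ Set.Ioo 0 π) : d * cos d ≤ sin d := by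
  rcases le_or_gt (π / 2) d with h | h
  · have h1 : cos d ≤ 0 := Real.cos_nonpos_of_pi_div_two_le_of_le h (by linarith [hd.2, Real.pi_pos])
    have h2 := sin_pos_of_Ioo hd
    nlinarith [hd.1]
  · have hc : 0 < cos d := Real.cos_pos_of_mem_Ioo ⟨by linarith [hd.1, Real.pi_pos], h⟩
    have h1 := Real.lt_tan hd.1 h
    rw [Real.tan_eq_sin_div_cos, lt_div_iff₀ hc] at h1
    exact h1.le

lemma hasDerivAt_GG {d : ℝ} (hd : d ∈ Set.Ioo 0 π) :
    HasDerivAt GG ((sin d - d * cos d) / sin d ^ 2) d := by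
  have h := (hasDerivAt_id' d).fun_div (Real.hasDerivAt_sin d) (sin_pos_of_Ioo hd).ne'
  have e : GG = fun y => y / sin y := rfl
  rw [e]
  refine h.congr_deriv ?_
  ring

lemma hasDerivAt_KK {d : ℝ} (hd : d ∈ Set.Ioo 0 π) :
    HasDerivAt KK ((d - sin d * cos d) / sin d ^ 2) d := by
  have hs := sin_pos_of_Ioo hd
  have h1 : HasDerivAt (fun y : ℝ => -(y * cos y)) (-(1 * cos d + d * (-sin d))) d :=
    ((hasDerivAt_id' d).fun_mul (Real.hasDerivAt_cos d)).fun_neg
  have h := h1.fun_div (Real.hasDerivAt_sin d) hs.ne'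
  have e0 : KK = fun y => -(y * cos y) / sin y := rfl
  rw [e0]
  refine h.congr_deriv ?_
  have h3 := Real.sin_sq_add_cos_sq d
  have e : d - sin d * cos d = d * (sin d ^ 2 + cos d ^ 2) - sin d * cos d := by rw [h3]; ring
  rw [e]
  ring

lemma monotoneOn_GG : MonotoneOn GG (Set.Ioo 0 π) := by
  apply monotoneOn_of_deriv_nonneg (convex_Ioo 0 π)
  · exact fun y hy => (hasDerivAt_GG hy).continuousAt.continuousWithinAt
  · intro y hy
    rw [interior_Ioo] at hy
    exact (hasDerivAt_GG hy).differentiableAt.differentiableWithinAt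
  · intro y hy
    rw [interior_Ioo] at hy
    rw [(hasDerivAt_GG hy).deriv]
    have := mul_cos_le_sin hy
    apply div_nonneg (by linarith) (by positivity)

lemma monotoneOn_KK : MonotoneOn KK (Set.Ioo 0 π) := by
  apply monotoneOn_of_deriv_nonneg (convex_Ioo 0 π)
  · exact fun y hy => (hasDerivAt_KK hy).continuousAt.continuousWithinAt
  · intro y hy
    rw [interior_Ioo] at hy
    exact (hasDerivAt_KK hy).differentiableAt.differentiableWithinAt
  · intro y hy
    rw [interior_Ioo] at hy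
    rw [(hasDerivAt_KK hy).deriv]
    have hs := sin_pos_of_Ioo hy
    have h1 : sin y * cos y ≤ y := by
      have h2 : sin y ≤ y := Real.sin_le hy.1.le
      rcases le_or_gt 0 (cos y) with hc | hc
      · have := Real.cos_le_one y
        nlinarith [hy.1]
      · nlinarith [hy.1]
    apply div_nonneg (by linarith) (by positivity)

/-- `1 < d / sin d`. -/
lemma one_lt_GG {d : ℝ} (hd : d ∈ Set.Ioo 0 π) : 1 < GG d := by
  unfold GG
  rw [lt_div_iff₀ (sin_pos_of_Ioo hd), one_mul]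
  exact Real.sin_lt hd.1

/-- `-1 ≤ K`. -/
lemma neg_one_le_KK {d : ℝ} (hd : d ∈ Set.Ioo 0 π) : -1 ≤ KK d := by
  unfold KK
  have hs := sin_pos_of_Ioo hd
  rw [le_div_iff₀ hs]
  have := mul_cos_le_sin hd
  linarith

/-- `G - 2 ≤ K`. -/
lemma GG_sub_two_le_KK {d : ℝ} (hd : d ∈ Set.Ioo 0 π) : GG d - 2 ≤ KK d := by
  unfold GG KK
  have hs := sin_pos_of_Ioo hd
  have e : d / sin d - 2 = (d - 2 * sin d) / sin d := by
    field_simp
  rw [e, div_le_div_iff_of_pos_right hs]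
  -- `d (1 + cos d) ≤ 2 sin d`
  have hhalf : d / 2 ∈ Set.Ioo 0 (π / 2) := ⟨by linarith [hd.1], by linarith [hd.2]⟩
  have hc : 0 < cos (d / 2) := Real.cos_pos_of_mem_Ioo ⟨by linarith [hhalf.1, Real.pi_pos], hhalf.2⟩
  have ht := Real.lt_tan hhalf.1 hhalf.2
  rw [Real.tan_eq_sin_div_cos, lt_div_iff₀ hc] at ht
  have h1 : sin d = 2 * sin (d / 2) * cos (d / 2) := by
    have := Real.sin_two_mul (d / 2)
    rwa [show 2 * (d / 2) = d by ring] at this
  have h2 : cos d = 2 * cos (d / 2) ^ 2 - 1 := by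
    have := Real.cos_two_mul (d / 2)
    rwa [show 2 * (d / 2) = d by ring] at this
  have h3 : d * (1 + cos d) ≤ 2 * sin d := by
    rw [h1, h2]
    have : d / 2 * cos (d / 2) * cos (d / 2) ≤ sin (d / 2) * cos (d / 2) :=
      mul_le_mul_of_nonneg_right ht.le hc.le
    nlinarith
  linarith

end Vale.Agent.Lib.P226
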