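import Vale.Agent.Lib.P226.Sector

/-!
The exact Gaussian measure of a wedge (Sheppard's formula).
-/

open MeasureTheory ProbabilityTheory Real Set
open scoped RealInnerProductSpace ENNReal NNReal

namespace Vale.Agent.Lib.P226

lemma wedge_angle_iff {ψ φ : ℝ} (h0 : 0 < ψ) (h1 : ψ < π) (hφ1 : -π < φ) (hφ2 : φ < π) :
    (0 ≤ cos φ ∧ 0 ≤ cos (φ - ψ)) ↔ φ ∈ Icc (ψ - π / 2) (π / 2) := by
  constructor
  · rintro ⟨h2, h3⟩
    have h4 : φ ≤ π / 2 := by
      by_contra h
      push Not at h
      have := Real.cos_neg_of_pi_div_two_lt_of_lt h (by linarith)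
      linarith
    have h4' : -(π / 2) ≤ φ := by
      by_contra h
      push Not at h
      have h5 : cos φ = cos (-φ) := (Real.cos_neg _).symm
      have h6 := Real.cos_neg_of_pi_div_two_lt_of_lt (x := -φ) (by linarith) (by linarith)
      linarith
    refine ⟨?_, h4⟩
    by_contra h
    push Not at h
    -- `φ - ψ < - π / 2`
    have h5 : φ - ψ < -(π / 2) := by linarith
    have h6 : -(π + π / 2) < φ - ψ := by linarith
    have h7 : cos (φ - ψ) = cos (-(φ - ψ)) := (Real.cos_neg _).symm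
    have h8 := Real.cos_neg_of_pi_div_two_lt_of_lt (x := -(φ - ψ)) (by linarith) (by linarith)
    linarith
  · rintro ⟨h2, h3⟩
    refine ⟨Real.cos_nonneg_of_neg_pi_div_two_le_of_le (by linarith) h3,
      Real.cos_nonneg_of_neg_pi_div_two_le_of_le (by linarith) (by linarith)⟩

/-- The Gaussian measure of a plane wedge. -/
lemma prod_wedge {ψ : ℝ} (h0 : 0 < ψ) (h1 : ψ < π) :
    ((gaussianReal 0 1).prod (gaussianReal 0 1))
        {p : ℝ × ℝ | 0 ≤ p.1 ∧ 0 ≤ cos ψ * p.1 + sin ψ * p.2}
      = ENNReal.ofReal ((π - ψ) / (2 * π)) := by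
  set R : Set (ℝ × ℝ) := {p : ℝ × ℝ | 0 ≤ p.1 ∧ 0 ≤ cos ψ * p.1 + sin ψ * p.2} with hRdef
  have hR : MeasurableSet R := by
    apply MeasurableSet.inter
    · exact measurableSet_le measurable_const measurable_fst
    · exact measurableSet_le measurable_const
        ((measurable_const.mul measurable_fst).add (measurable_const.mul measurable_snd))
  set d : ℝ × ℝ → ℝ≥0∞ := fun z => gaussianPDF 0 1 z.1 * gaussianPDF 0 1 z.2 with hd
  rw [prod_gaussian_apply hR, ← lintegral_comp_polarCoord_symm]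
  set g : ℝ → ℝ≥0∞ := fun r => (Ioi (0:ℝ)).indicator
    (fun r => ENNReal.ofReal (1 / (2 * π)) * ENNReal.ofReal (r * rexp (-r ^ 2 / 2))) r with hg
  set f : ℝ → ℝ≥0∞ := (Icc (ψ - π / 2) (π / 2)).indicator (fun _ => 1) with hf
  have hpt : ∀ q ∈ polarCoord.target, ENNReal.ofReal q.1 • R.indicator d (polarCoord.symm q)
      = g q.1 * f q.2 := by
    intro q hq
    rw [polarCoord_target] at hq
    have hr : 0 < q.1 := hq.1
    have hθ1 : -π < q.2 := hq.2.1
    have hθ2 : q.2 < π := hq.2.2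
    have hsym : polarCoord.symm q = (q.1 * cos q.2, q.1 * sin q.2) := rfl
    have hmem : polarCoord.symm q ∈ R ↔ q.2 ∈ Icc (ψ - π / 2) (π / 2) := by
      rw [← wedge_angle_iff h0 h1 hθ1 hθ2, hsym]
      have e : cos ψ * (q.1 * cos q.2) + sin ψ * (q.1 * sin q.2) = q.1 * cos (q.2 - ψ) := by
        rw [Real.cos_sub]
        ring
      simp only [hRdef, Set.mem_ofPred_eq, e]
      constructor
      · rintro ⟨h2, h3⟩
        exact ⟨nonneg_of_mul_nonneg_right h2 hr, nonneg_of_mul_nonneg_right h3 hr⟩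
      · rintro ⟨h2, h3⟩
        exact ⟨mul_nonneg hr.le h2, mul_nonneg hr.le h3⟩
    have hgval : g q.1 = ENNReal.ofReal (1 / (2 * π)) * ENNReal.ofReal (q.1 * rexp (-q.1 ^ 2 / 2)) := by
      simp only [hg]
      rw [indicator_of_mem (show q.1 ∈ Ioi (0:ℝ) from hr)]
    by_cases hφ : q.2 ∈ Icc (ψ - π / 2) (π / 2)
    · rw [indicator_of_mem (hmem.mpr hφ)]
      have hfval : f q.2 = 1 := by
        simp only [hf]
        rw [indicator_of_mem hφ]
      rw [hgval, hfval, mul_one]
      simp only [hd, smul_eq_mul]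
      rw [hsym]
      simp only
      rw [gaussianPDF_mul_polar, ← ENNReal.ofReal_mul hr.le, ← ENNReal.ofReal_mul (by positivity)]
      congr 1
      ring
    · rw [indicator_of_notMem (fun h => hφ (hmem.mp h))]
      have hfval : f q.2 = 0 := by
        simp only [hf]
        rw [indicator_of_notMem hφ]
      rw [hfval]
      simp
  have hmeas : MeasurableSet polarCoord.target := by
    rw [polarCoord_target]
    exact measurableSet_Ioi.prod measurableSet_Ioo
  have hout : ∀ q, q ∉ polarCoord.target → g q.1 * f q.2 = 0 := by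
    intro q hq
    rw [polarCoord_target] at hq
    by_cases hr : 0 < q.1
    · have : q.2 ∉ Icc (ψ - π / 2) (π / 2) := by
        intro h
        apply hq
        refine ⟨hr, ?_, ?_⟩
        · have := h.1
          show -π < q.2
          linarith [Real.pi_pos]
        · have := h.2
          show q.2 < π
          linarith [Real.pi_pos]
      have hf0 : f q.2 = 0 := by
        simp only [hf]
        rw [indicator_of_notMem this]
      rw [hf0, mul_zero]
    · have hg0 : g q.1 = 0 := by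
        simp only [hg]
        rw [indicator_of_notMem (by simpa using hr)]
      rw [hg0, zero_mul]
  calc ∫⁻ q in polarCoord.target, ENNReal.ofReal q.1 • R.indicator d (polarCoord.symm q)
      = ∫⁻ q in polarCoord.target, g q.1 * f q.2 := setLIntegral_congr_fun hmeas hpt
    _ = ∫⁻ q : ℝ × ℝ, g q.1 * f q.2 := by
        rw [← lintegral_indicator hmeas]
        refine lintegral_congr (fun q => ?_)
        by_cases hq : q ∈ polarCoord.target
        · rw [indicator_of_mem hq]
        · rw [indicator_of_notMem hq, hout q hq]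
    _ = (∫⁻ r, g r) * ∫⁻ θ, f θ := by
        rw [Measure.volume_eq_prod]
        apply lintegral_prod_mul
        · exact (Measurable.indicator (by fun_prop) measurableSet_Ioi).aemeasurable
        · exact (Measurable.indicator measurable_const measurableSet_Icc).aemeasurable
    _ = ENNReal.ofReal ((π - ψ) / (2 * π)) := by
        have hg1 : ∫⁻ r, g r = ENNReal.ofReal (1 / (2 * π)) := by
          simp only [hg]
          rw [lintegral_indicator measurableSet_Ioi, lintegral_const_mul' _ _ ENNReal.ofReal_ne_top,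
            lintegral_radial, mul_one]
        have hf1 : ∫⁻ θ, f θ = ENNReal.ofReal (π / 2 - (ψ - π / 2)) := by
          simp only [hf]
          rw [lintegral_indicator measurableSet_Icc]
          simp
        rw [hg1, hf1, ← ENNReal.ofReal_mul (by positivity)]
        congr 1
        field_simp
        ring

variable {E : Type*} [NormedAddCommGroup E] [InnerProductSpace ℝ E] [FiniteDimensional ℝ E]
  [MeasurableSpace E] [BorelSpace E]

/-- Sheppard's formula for a wedge. -/
theorem sec_eq {a b : E} (ha : a ≠ 0) (hb : b ≠ 0)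
    (hρ : |⟪a, b⟫| < ‖a‖ * ‖b‖) :
    sec a b = (π - arccos (⟪a, b⟫ / (‖a‖ * ‖b‖))) / (2 * π) := by
  have hna : 0 < ‖a‖ := norm_pos_iff.mpr ha
  have hnb : 0 < ‖b‖ := norm_pos_iff.mpr hb
  set ρ : ℝ := ⟪a, b⟫ / (‖a‖ * ‖b‖) with hρd
  have hprod : 0 < ‖a‖ * ‖b‖ := by positivity
  have hρ1 : |ρ| < 1 := by
    rw [hρd, abs_div, abs_of_pos hprod, div_lt_one hprod]
    exact hρ
  have hρ2 := abs_lt.mp hρ1
  set ψ : ℝ := arccos ρ with hψ
  have hψ0 : 0 < ψ := Real.arccos_pos.mpr hρ2.2
  have hψ1 : ψ < π := by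
    refine lt_of_le_of_ne (Real.arccos_le_pi _) (fun h => ?_)
    have := Real.arccos_eq_pi.mp h
    linarith [hρ2.1]
  have hcos : cos ψ = ρ := Real.cos_arccos hρ2.1.le hρ2.2.le
  have hsin : 0 < sin ψ := Real.sin_pos_of_mem_Ioo ⟨hψ0, hψ1⟩
  have hsc := Real.sin_sq_add_cos_sq ψ
  obtain ⟨e, he⟩ : ∃ e : E, e = ‖a‖⁻¹ • a := ⟨_, rfl⟩
  have hen : ‖e‖ = 1 := by
    rw [he, norm_smul, norm_inv, norm_norm, inv_mul_cancel₀ hna.ne']
  obtain ⟨b', hb'⟩ : ∃ b' : E, b' = ‖b‖⁻¹ • b := ⟨_, rfl⟩
  have hb'n : ‖b'‖ = 1 := by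
    rw [hb', norm_smul, norm_inv, norm_norm, inv_mul_cancel₀ hnb.ne']
  have heb : ⟪e, b'⟫ = ρ := by
    rw [he, hb', real_inner_smul_left, real_inner_smul_right, hρd]
    field_simp
  obtain ⟨f, hf⟩ : ∃ f : E, f = (sin ψ)⁻¹ • (b' - cos ψ • e) := ⟨_, rfl⟩
  have hbdec : b' = cos ψ • e + sin ψ • f := by
    rw [hf, smul_smul, mul_inv_cancel₀ hsin.ne', one_smul]
    abel
  have hef : ⟪e, f⟫ = 0 := by
    rw [hf, real_inner_smul_right, inner_sub_right, real_inner_smul_right,
      real_inner_self_eq_norm_sq, hen, heb, hcos]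
    ring
  have hfn : ‖f‖ = 1 := by
    have h1 : ‖b' - cos ψ • e‖ ^ 2 = sin ψ ^ 2 := by
      rw [norm_sub_sq_real, hb'n, real_inner_smul_right, real_inner_comm, heb, norm_smul, hen, hcos,
        Real.norm_eq_abs]
      rw [hcos] at hsc
      rw [mul_one, sq_abs]
      nlinarith
    have h2 : ‖b' - cos ψ • e‖ = sin ψ := by
      have h3 := norm_nonneg (b' - cos ψ • e)
      nlinarith [sq_nonneg (‖b' - cos ψ • e‖ - sin ψ), sq_nonneg (‖b' - cos ψ • e‖ + sin ψ)]
    rw [hf, norm_smul, norm_inv, h2, Real.norm_of_nonneg hsin.le, inv_mul_cancel₀ hsin.ne']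
  have hmap := map_prod_inner_std hen hfn hef
  set R : Set (ℝ × ℝ) := {p : ℝ × ℝ | 0 ≤ p.1 ∧ 0 ≤ cos ψ * p.1 + sin ψ * p.2} with hRdef
  have hR : MeasurableSet R := by
    apply MeasurableSet.inter
    · exact measurableSet_le measurable_const measurable_fst
    · exact measurableSet_le measurable_const
        ((measurable_const.mul measurable_fst).add (measurable_const.mul measurable_snd))
  have hax : ∀ x, ⟪a, x⟫ = ‖a‖ * ⟪e, x⟫ := by
    intro x
    rw [he, real_inner_smul_left]
    field_simp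
  have hbx : ∀ x, ⟪b, x⟫ = ‖b‖ * (cos ψ * ⟪e, x⟫ + sin ψ * ⟪f, x⟫) := by
    intro x
    have h1 : ⟪b', x⟫ = cos ψ * ⟪e, x⟫ + sin ψ * ⟪f, x⟫ := by
      rw [hbdec, inner_add_left, real_inner_smul_left, real_inner_smul_left]
    rw [← h1, hb', real_inner_smul_left]
    field_simp
  have hset : {x : E | 0 ≤ ⟪a, x⟫ ∧ 0 ≤ ⟪b, x⟫} = (fun x => (⟪e, x⟫, ⟪f, x⟫)) ⁻¹' R := by
    ext x
    simp only [Set.mem_ofPred_eq, mem_preimage, hRdef, hax x, hbx x]
    constructor
    · rintro ⟨h3, h4⟩
      exact ⟨nonneg_of_mul_nonneg_right h3 hna, nonneg_of_mul_nonneg_right h4 hnb⟩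
    · rintro ⟨h3, h4⟩
      exact ⟨by positivity, by positivity⟩
  have hmeasf : Measurable (fun x : E => (⟪e, x⟫, ⟪f, x⟫)) :=
    (measurable_inner_const e).prodMk (measurable_inner_const f)
  unfold sec
  rw [hset, ← map_measureReal_apply hmeasf hR, hmap, measureReal_def, prod_wedge hψ0 hψ1,
    ENNReal.toReal_ofReal]
  have := Real.pi_pos
  apply div_nonneg (by linarith) (by positivity)

end Vale.Agent.Lib.P226
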