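import Vale.Agent.Lib.P226.NumLib

/-!
Numerical enclosures of the normal density and distribution function at rational points.
-/

open MeasureTheory ProbabilityTheory Real Set
open scoped RealInnerProductSpace ENNReal NNReal Pointwise

namespace Vale.Agent.Lib.P226

theorem k210 : ((87967/2000000) : ℝ) ≤ npdf (-(21/10)) ∧ npdf (-(21/10)) ≤ (439839/10000000) ∧ (178623/10000000) ≤ ncdf (-(21/10)) ∧
    ncdf (-(21/10)) ≤ (22331/1250000) :=
  knot_of (x := (21/10)) (e1 := (6890657/62500000)) (e2 := (110250621/1000000000)) (q1 := (604267337/500000000)) (q2 := (1208534683/1000000000)) (by norm_num)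
    (by norm_num [expS, Finset.sum_range_succ, Nat.factorial])
    (by norm_num [expS, Finset.sum_range_succ, Nat.factorial])
    (by norm_num [Qs, Finset.sum_range_succ, Nat.factorial])
    (by norm_num [Qs, Finset.sum_range_succ, Nat.factorial])
    (by norm_num) (by norm_num) (by norm_num) (by norm_num) (by norm_num) (by norm_num)

theorem k200 : ((539909/10000000) : ℝ) ≤ npdf (-2) ∧ npdf (-2) ≤ (539913/10000000) ∧ (5687/250000) ≤ ncdf (-2) ∧
    ncdf (-2) ≤ (45501/2000000) :=
  knot_of (x := 2) (e1 := (1691691/12500000)) (e2 := (67667653/500000000)) (q1 := (1196288013/1000000000)) (q2 := (239257603/200000000)) (by norm_num)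
    (by norm_num [expS, Finset.sum_range_succ, Nat.factorial])
    (by norm_num [expS, Finset.sum_range_succ, Nat.factorial])
    (by norm_num [Qs, Finset.sum_range_succ, Nat.factorial])
    (by norm_num [Qs, Finset.sum_range_succ, Nat.factorial])
    (by norm_num) (by norm_num) (by norm_num) (by norm_num) (by norm_num) (by norm_num)

theorem k190 : ((656157/10000000) : ℝ) ≤ npdf (-(19/10)) ∧ npdf (-(19/10)) ≤ (656161/10000000) ∧ (57429/2000000) ≤ ncdf (-(19/10)) ∧
    ncdf (-(19/10)) ≤ (287169/10000000) :=
  knot_of (x := (19/10)) (e1 := (20559307/125000000)) (e2 := (82237231/500000000)) (q1 := (295333099/250000000)) (q2 := (1181332397/1000000000)) (by norm_num)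
    (by norm_num [expS, Finset.sum_range_succ, Nat.factorial])
    (by norm_num [expS, Finset.sum_range_succ, Nat.factorial])
    (by norm_num [Qs, Finset.sum_range_succ, Nat.factorial])
    (by norm_num [Qs, Finset.sum_range_succ, Nat.factorial])
    (by norm_num) (by norm_num) (by norm_num) (by norm_num) (by norm_num) (by norm_num)

theorem k180 : ((789501/10000000) : ℝ) ≤ npdf (-(9/5)) ∧ npdf (-(9/5)) ≤ (157901/2000000) ∧ (359283/10000000) ≤ ncdf (-(9/5)) ∧
    ncdf (-(9/5)) ≤ (359307/10000000) :=
  knot_of (x := (9/5)) (e1 := (98949349/500000000)) (e2 := (197898701/1000000000)) (q1 := (1163250183/1000000000)) (q2 := (145406273/125000000)) (by norm_num)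
    (by norm_num [expS, Finset.sum_range_succ, Nat.factorial])
    (by norm_num [expS, Finset.sum_range_succ, Nat.factorial])
    (by norm_num [Qs, Finset.sum_range_succ, Nat.factorial])
    (by norm_num [Qs, Finset.sum_range_succ, Nat.factorial])
    (by norm_num) (by norm_num) (by norm_num) (by norm_num) (by norm_num) (by norm_num)

theorem k170 : ((94049/1000000) : ℝ) ≤ npdf (-(17/10)) ∧ npdf (-(17/10)) ≤ (188099/2000000) ∧ (222817/5000000) ≤ ncdf (-(17/10)) ∧
    ncdf (-(17/10)) ≤ (222829/5000000) :=
  knot_of (x := (17/10)) (e1 := (58936519/250000000)) (e2 := (235746077/1000000000)) (q1 := (35675159/31250000)) (q2 := (1141605089/1000000000)) (by norm_num)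
    (by norm_num [expS, Finset.sum_range_succ, Nat.factorial])
    (by norm_num [expS, Finset.sum_range_succ, Nat.factorial])
    (by norm_num [Qs, Finset.sum_range_succ, Nat.factorial])
    (by norm_num [Qs, Finset.sum_range_succ, Nat.factorial])
    (by norm_num) (by norm_num) (by norm_num) (by norm_num) (by norm_num) (by norm_num)

theorem k160 : ((1109207/10000000) : ℝ) ≤ npdf (-(8/5)) ∧ npdf (-(8/5)) ≤ (554607/5000000) ∧ (547973/10000000) ≤ ncdf (-(8/5)) ∧
    ncdf (-(8/5)) ≤ (547997/10000000) :=
  knot_of (x := (8/5)) (e1 := (2780373/10000000)) (e2 := (278037301/1000000000)) (q1 := (1115952683/1000000000)) (q2 := (278988171/250000000)) (by norm_num)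
    (by norm_num [expS, Finset.sum_range_succ, Nat.factorial])
    (by norm_num [expS, Finset.sum_range_succ, Nat.factorial])
    (by norm_num [Qs, Finset.sum_range_succ, Nat.factorial])
    (by norm_num [Qs, Finset.sum_range_succ, Nat.factorial])
    (by norm_num) (by norm_num) (by norm_num) (by norm_num) (by norm_num) (by norm_num)

theorem k150 : ((51807/400000) : ℝ) ≤ npdf (-(3/2)) ∧ npdf (-(3/2)) ≤ (647591/5000000) ∧ (668053/10000000) ≤ ncdf (-(3/2)) ∧
    ncdf (-(3/2)) ≤ (167019/2500000) :=
  knot_of (x := (3/2)) (e1 := (324652467/1000000000)) (e2 := (81163117/250000000)) (q1 := (1085853317/1000000000)) (q2 := (542926659/500000000)) (by norm_num)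
    (by norm_num [expS, Finset.sum_range_succ, Nat.factorial])
    (by norm_num [expS, Finset.sum_range_succ, Nat.factorial])
    (by norm_num [Qs, Finset.sum_range_succ, Nat.factorial])
    (by norm_num [Qs, Finset.sum_range_succ, Nat.factorial])
    (by norm_num) (by norm_num) (by norm_num) (by norm_num) (by norm_num) (by norm_num)

theorem k140 : ((1497273/10000000) : ℝ) ≤ npdf (-(7/5)) ∧ npdf (-(7/5)) ≤ (748641/5000000) ∧ (201887/2500000) ≤ ncdf (-(7/5)) ∧
    ncdf (-(7/5)) ≤ (80757/1000000) :=
  knot_of (x := (7/5)) (e1 := (187655549/500000000)) (e2 := (375311099/1000000000)) (q1 := (1050887211/1000000000)) (q2 := (262721803/250000000)) (by norm_num)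
    (by norm_num [expS, Finset.sum_range_succ, Nat.factorial])
    (by norm_num [expS, Finset.sum_range_succ, Nat.factorial])
    (by norm_num [Qs, Finset.sum_range_succ, Nat.factorial])
    (by norm_num [Qs, Finset.sum_range_succ, Nat.factorial])
    (by norm_num) (by norm_num) (by norm_num) (by norm_num) (by norm_num) (by norm_num)

theorem k130 : ((428421/2500000) : ℝ) ≤ npdf (-(13/10)) ∧ npdf (-(13/10)) ≤ (856847/5000000) ∧ (967987/10000000) ≤ ncdf (-(13/10)) ∧
    ncdf (-(13/10)) ≤ (121001/1250000) :=
  knot_of (x := (13/10)) (e1 := (214778679/500000000)) (e2 := (429557359/1000000000)) (q1 := (202134261/200000000)) (q2 := (505335653/500000000)) (by norm_num)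
    (by norm_num [expS, Finset.sum_range_succ, Nat.factorial])
    (by norm_num [expS, Finset.sum_range_succ, Nat.factorial])
    (by norm_num [Qs, Finset.sum_range_succ, Nat.factorial])
    (by norm_num [Qs, Finset.sum_range_succ, Nat.factorial])
    (by norm_num) (by norm_num) (by norm_num) (by norm_num) (by norm_num) (by norm_num)

theorem k120 : ((1941859/10000000) : ℝ) ≤ npdf (-(6/5)) ∧ npdf (-(6/5)) ≤ (1941869/10000000) ∧ (28767/250000) ≤ ncdf (-(6/5)) ∧
    ncdf (-(6/5)) ≤ (11507/100000) :=
  knot_of (x := (6/5)) (e1 := (97350451/200000000)) (e2 := (950688/1953125)) (q1 := (15076207/15625000)) (q2 := (964877249/1000000000)) (by norm_num)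
    (by norm_num [expS, Finset.sum_range_succ, Nat.factorial])
    (by norm_num [expS, Finset.sum_range_succ, Nat.factorial])
    (by norm_num [Qs, Finset.sum_range_succ, Nat.factorial])
    (by norm_num [Qs, Finset.sum_range_succ, Nat.factorial])
    (by norm_num) (by norm_num) (by norm_num) (by norm_num) (by norm_num) (by norm_num)

theorem k110 : ((54463/250000) : ℝ) ≤ npdf (-(11/10)) ∧ npdf (-(11/10)) ≤ (544633/2500000) ∧ (339161/2500000) ≤ ncdf (-(11/10)) ∧
    ncdf (-(11/10)) ≤ (169583/1250000) :=
  knot_of (x := (11/10)) (e1 := (273037213/500000000)) (e2 := (546074427/1000000000)) (q1 := (913249753/1000000000)) (q2 := (456624877/500000000)) (by norm_num)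
    (by norm_num [expS, Finset.sum_range_succ, Nat.factorial])
    (by norm_num [expS, Finset.sum_range_succ, Nat.factorial])
    (by norm_num [Qs, Finset.sum_range_succ, Nat.factorial])
    (by norm_num [Qs, Finset.sum_range_succ, Nat.factorial])
    (by norm_num) (by norm_num) (by norm_num) (by norm_num) (by norm_num) (by norm_num)

theorem k100 : ((483941/2000000) : ℝ) ≤ npdf (-1) ∧ npdf (-1) ≤ (1209859/5000000) ∧ (1586537/10000000) ≤ ncdf (-1) ∧
    ncdf (-1) ≤ (317311/2000000) :=
  knot_of (x := 1) (e1 := (606530659/1000000000)) (e2 := (30326533/50000000)) (q1 := (855624391/1000000000)) (q2 := (106953049/125000000)) (by norm_num)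
    (by norm_num [expS, Finset.sum_range_succ, Nat.factorial])
    (by norm_num [expS, Finset.sum_range_succ, Nat.factorial])
    (by norm_num [Qs, Finset.sum_range_succ, Nat.factorial])
    (by norm_num [Qs, Finset.sum_range_succ, Nat.factorial])
    (by norm_num) (by norm_num) (by norm_num) (by norm_num) (by norm_num) (by norm_num)

theorem k095 : ((635147/2500000) : ℝ) ≤ npdf (-(19/20)) ∧ npdf (-(19/20)) ≤ (1270301/5000000) ∧ (1710547/10000000) ≤ ncdf (-(19/20)) ∧
    ncdf (-(19/20)) ≤ (427641/2500000) :=
  knot_of (x := (19/20)) (e1 := (318415807/500000000)) (e2 := (127366323/200000000)) (q1 := (412270007/500000000)) (q2 := (164908003/200000000)) (by norm_num)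
    (by norm_num [expS, Finset.sum_range_succ, Nat.factorial])
    (by norm_num [expS, Finset.sum_range_succ, Nat.factorial])
    (by norm_num [Qs, Finset.sum_range_succ, Nat.factorial])
    (by norm_num [Qs, Finset.sum_range_succ, Nat.factorial])
    (by norm_num) (by norm_num) (by norm_num) (by norm_num) (by norm_num) (by norm_num)

theorem k090 : ((53217/200000) : ℝ) ≤ npdf (-(9/10)) ∧ npdf (-(9/10)) ≤ (20788/78125) ∧ (1840587/10000000) ≤ ncdf (-(9/10)) ∧
    ncdf (-(9/10)) ≤ (460151/2500000) :=
  knot_of (x := (9/10)) (e1 := (66697681/100000000)) (e2 := (666976811/1000000000)) (q1 := (395971911/500000000)) (q2 := (791943823/1000000000)) (by norm_num)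
    (by norm_num [expS, Finset.sum_range_succ, Nat.factorial])
    (by norm_num [expS, Finset.sum_range_succ, Nat.factorial])
    (by norm_num [Qs, Finset.sum_range_succ, Nat.factorial])
    (by norm_num [Qs, Finset.sum_range_succ, Nat.factorial])
    (by norm_num) (by norm_num) (by norm_num) (by norm_num) (by norm_num) (by norm_num)

theorem k085 : ((1389923/5000000) : ℝ) ≤ npdf (-(17/20)) ∧ npdf (-(17/20)) ≤ (2779861/10000000) ∧ (494153/2500000) ≤ ncdf (-(17/20)) ∧
    ncdf (-(17/20)) ≤ (494157/2500000) :=
  knot_of (x := (17/20)) (e1 := (27872191/40000000)) (e2 := (87100597/125000000)) (q1 := (757847617/1000000000)) (q2 := (378923809/500000000)) (by norm_num)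
    (by norm_num [expS, Finset.sum_range_succ, Nat.factorial])
    (by norm_num [expS, Finset.sum_range_succ, Nat.factorial])
    (by norm_num [Qs, Finset.sum_range_succ, Nat.factorial])
    (by norm_num [Qs, Finset.sum_range_succ, Nat.factorial])
    (by norm_num) (by norm_num) (by norm_num) (by norm_num) (by norm_num) (by norm_num)

theorem k080 : ((2896913/10000000) : ℝ) ≤ npdf (-(4/5)) ∧ npdf (-(4/5)) ≤ (2896929/10000000) ∧ (2118541/10000000) ≤ ncdf (-(4/5)) ∧
    ncdf (-(4/5)) ≤ (2118557/10000000) :=
  knot_of (x := (4/5)) (e1 := (726149037/1000000000)) (e2 := (363074519/500000000)) (q1 := (144454281/200000000)) (q2 := (361135703/500000000)) (by norm_num)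
    (by norm_num [expS, Finset.sum_range_succ, Nat.factorial])
    (by norm_num [expS, Finset.sum_range_succ, Nat.factorial])
    (by norm_num [Qs, Finset.sum_range_succ, Nat.factorial])
    (by norm_num [Qs, Finset.sum_range_succ, Nat.factorial])
    (by norm_num) (by norm_num) (by norm_num) (by norm_num) (by norm_num) (by norm_num)

theorem k075 : ((752843/2500000) : ℝ) ≤ npdf (-(3/4)) ∧ npdf (-(3/4)) ≤ (752847/2500000) ∧ (2266261/10000000) ≤ ncdf (-(3/4)) ∧
    ncdf (-(3/4)) ≤ (566569/2500000) :=
  knot_of (x := (3/4)) (e1 := (754839601/1000000000)) (e2 := (377419801/500000000)) (q1 := (85655451/125000000)) (q2 := (685243609/1000000000)) (by norm_num)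
    (by norm_num [expS, Finset.sum_range_succ, Nat.factorial])
    (by norm_num [expS, Finset.sum_range_succ, Nat.factorial])
    (by norm_num [Qs, Finset.sum_range_succ, Nat.factorial])
    (by norm_num [Qs, Finset.sum_range_succ, Nat.factorial])
    (by norm_num) (by norm_num) (by norm_num) (by norm_num) (by norm_num) (by norm_num)

theorem k070 : ((3122537/10000000) : ℝ) ≤ npdf (-(7/10)) ∧ npdf (-(7/10)) ≤ (3122553/10000000) ∧ (19357/80000) ≤ ncdf (-(7/10)) ∧
    ncdf (-(7/10)) ≤ (2419639/10000000) :=
  knot_of (x := (7/10)) (e1 := (391352269/500000000)) (e2 := (782704539/1000000000)) (q1 := (129360241/200000000)) (q2 := (323400603/500000000)) (by norm_num)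
    (by norm_num [expS, Finset.sum_range_succ, Nat.factorial])
    (by norm_num [expS, Finset.sum_range_succ, Nat.factorial])
    (by norm_num [Qs, Finset.sum_range_succ, Nat.factorial])
    (by norm_num [Qs, Finset.sum_range_succ, Nat.factorial])
    (by norm_num) (by norm_num) (by norm_num) (by norm_num) (by norm_num) (by norm_num)

theorem k065 : ((3229721/10000000) : ℝ) ≤ npdf (-(13/20)) ∧ npdf (-(13/20)) ≤ (1614869/5000000) ∧ (51569/200000) ≤ ncdf (-(13/20)) ∧
    ncdf (-(13/20)) ≤ (2578463/10000000) :=
  knot_of (x := (13/20)) (e1 := (12649557/15625000)) (e2 := (809571649/1000000000)) (q1 := (121397957/200000000)) (q2 := (303494893/500000000)) (by norm_num)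
    (by norm_num [expS, Finset.sum_range_succ, Nat.factorial])
    (by norm_num [expS, Finset.sum_range_succ, Nat.factorial])
    (by norm_num [Qs, Finset.sum_range_succ, Nat.factorial])
    (by norm_num [Qs, Finset.sum_range_succ, Nat.factorial])
    (by norm_num) (by norm_num) (by norm_num) (by norm_num) (by norm_num) (by norm_num)

theorem k060 : ((3332243/10000000) : ℝ) ≤ npdf (-(3/5)) ∧ npdf (-(3/5)) ≤ (3332261/10000000) ∧ (2742521/10000000) ≤ ncdf (-(3/5)) ∧
    ncdf (-(3/5)) ≤ (2742533/10000000) :=
  knot_of (x := (3/5)) (e1 := (835270211/1000000000)) (e2 := (208817553/250000000)) (q1 := (565863517/1000000000)) (q2 := (282931759/500000000)) (by norm_num)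
    (by norm_num [expS, Finset.sum_range_succ, Nat.factorial])
    (by norm_num [expS, Finset.sum_range_succ, Nat.factorial])
    (by norm_num [Qs, Finset.sum_range_succ, Nat.factorial])
    (by norm_num [Qs, Finset.sum_range_succ, Nat.factorial])
    (by norm_num) (by norm_num) (by norm_num) (by norm_num) (by norm_num) (by norm_num)

theorem k055 : ((857359/2500000) : ℝ) ≤ npdf (-(11/20)) ∧ npdf (-(11/20)) ≤ (1714727/5000000) ∧ (2911587/10000000) ≤ ncdf (-(11/20)) ∧
    ncdf (-(11/20)) ≤ (2911599/10000000) :=
  knot_of (x := (11/20)) (e1 := (859632763/1000000000)) (e2 := (214908191/250000000)) (q1 := (523485033/1000000000)) (q2 := (261742517/500000000)) (by norm_num)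
    (by norm_num [expS, Finset.sum_range_succ, Nat.factorial])
    (by norm_num [expS, Finset.sum_range_succ, Nat.factorial])
    (by norm_num [Qs, Finset.sum_range_succ, Nat.factorial])
    (by norm_num [Qs, Finset.sum_range_succ, Nat.factorial])
    (by norm_num) (by norm_num) (by norm_num) (by norm_num) (by norm_num) (by norm_num)

theorem k052 : ((1742461/5000000) : ℝ) ≤ npdf (-(13/25)) ∧ npdf (-(13/25)) ≤ (3484941/10000000) ∧ (3015309/10000000) ≤ ncdf (-(13/25)) ∧
    ncdf (-(13/25)) ≤ (75383/250000) :=
  knot_of (x := (13/25)) (e1 := (174708237/200000000)) (e2 := (436770593/500000000)) (q1 := (31092877/62500000)) (q2 := (497486033/1000000000)) (by norm_num)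
    (by norm_num [expS, Finset.sum_range_succ, Nat.factorial])
    (by norm_num [expS, Finset.sum_range_succ, Nat.factorial])
    (by norm_num [Qs, Finset.sum_range_succ, Nat.factorial])
    (by norm_num [Qs, Finset.sum_range_succ, Nat.factorial])
    (by norm_num) (by norm_num) (by norm_num) (by norm_num) (by norm_num) (by norm_num)

theorem k050 : ((70413/200000) : ℝ) ≤ npdf (-(1/2)) ∧ npdf (-(1/2)) ≤ (3520669/10000000) ∧ (3085367/10000000) ≤ ncdf (-(1/2)) ∧
    ncdf (-(1/2)) ≤ (3085377/10000000) :=
  knot_of (x := (1/2)) (e1 := (441248451/500000000)) (e2 := (882496903/1000000000)) (q1 := (239962609/500000000)) (q2 := (479925219/1000000000)) (by norm_num)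
    (by norm_num [expS, Finset.sum_range_succ, Nat.factorial])
    (by norm_num [expS, Finset.sum_range_succ, Nat.factorial])
    (by norm_num [Qs, Finset.sum_range_succ, Nat.factorial])
    (by norm_num [Qs, Finset.sum_range_succ, Nat.factorial])
    (by norm_num) (by norm_num) (by norm_num) (by norm_num) (by norm_num) (by norm_num)

theorem k048 : ((1777661/5000000) : ℝ) ≤ npdf (-(12/25)) ∧ npdf (-(12/25)) ≤ (3555341/10000000) ∧ (3156129/10000000) ≤ ncdf (-(12/25)) ∧
    ncdf (-(12/25)) ≤ (3156139/10000000) :=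
  knot_of (x := (12/25)) (e1 := (55699243/62500000)) (e2 := (891187889/1000000000)) (q1 := (462187921/1000000000)) (q2 := (231093961/500000000)) (by norm_num)
    (by norm_num [expS, Finset.sum_range_succ, Nat.factorial])
    (by norm_num [expS, Finset.sum_range_succ, Nat.factorial])
    (by norm_num [Qs, Finset.sum_range_succ, Nat.factorial])
    (by norm_num [Qs, Finset.sum_range_succ, Nat.factorial])
    (by norm_num) (by norm_num) (by norm_num) (by norm_num) (by norm_num) (by norm_num)

theorem k045 : ((3605267/10000000) : ℝ) ≤ npdf (-(9/20)) ∧ npdf (-(9/20)) ≤ (1802643/5000000) ∧ (407943/1250000) ≤ ncdf (-(9/20)) ∧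
    ncdf (-(9/20)) ≤ (1631777/5000000) :=
  knot_of (x := (9/20)) (e1 := (903707077/1000000000)) (e2 := (451853539/500000000)) (q1 := (217631457/500000000)) (q2 := (87052583/200000000)) (by norm_num)
    (by norm_num [expS, Finset.sum_range_succ, Nat.factorial])
    (by norm_num [expS, Finset.sum_range_succ, Nat.factorial])
    (by norm_num [Qs, Finset.sum_range_succ, Nat.factorial])
    (by norm_num [Qs, Finset.sum_range_succ, Nat.factorial])
    (by norm_num) (by norm_num) (by norm_num) (by norm_num) (by norm_num) (by norm_num)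

theorem k040 : ((1841349/5000000) : ℝ) ≤ npdf (-(2/5)) ∧ npdf (-(2/5)) ≤ (1841359/5000000) ∧ (137831/400000) ≤ ncdf (-(2/5)) ∧
    ncdf (-(2/5)) ≤ (430723/1250000) :=
  knot_of (x := (2/5)) (e1 := (461558173/500000000)) (e2 := (923116347/1000000000)) (q1 := (97396133/250000000)) (q2 := (389584533/1000000000)) (by norm_num)
    (by norm_num [expS, Finset.sum_range_succ, Nat.factorial])
    (by norm_num [expS, Finset.sum_range_succ, Nat.factorial])
    (by norm_num [Qs, Finset.sum_range_succ, Nat.factorial])
    (by norm_num [Qs, Finset.sum_range_succ, Nat.factorial])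
    (by norm_num) (by norm_num) (by norm_num) (by norm_num) (by norm_num) (by norm_num)

theorem k035 : ((9381/25000) : ℝ) ≤ npdf (-(7/20)) ∧ npdf (-(7/20)) ≤ (187621/500000) ∧ (3631687/10000000) ≤ ncdf (-(7/20)) ∧
    ncdf (-(7/20)) ≤ (726339/2000000) :=
  knot_of (x := (7/20)) (e1 := (940588063/1000000000)) (e2 := (29393377/31250000)) (q1 := (342983579/1000000000)) (q2 := (17149179/50000000)) (by norm_num)
    (by norm_num [expS, Finset.sum_range_succ, Nat.factorial])
    (by norm_num [expS, Finset.sum_range_succ, Nat.factorial])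
    (by norm_num [Qs, Finset.sum_range_succ, Nat.factorial])
    (by norm_num [Qs, Finset.sum_range_succ, Nat.factorial])
    (by norm_num) (by norm_num) (by norm_num) (by norm_num) (by norm_num) (by norm_num)

theorem k030 : ((30511/80000) : ℝ) ≤ npdf (-(3/10)) ∧ npdf (-(3/10)) ≤ (762779/2000000) ∧ (47761/125000) ≤ ncdf (-(3/10)) ∧
    ncdf (-(3/10)) ≤ (3820887/10000000) :=
  knot_of (x := (3/10)) (e1 := (955997481/1000000000)) (e2 := (477998741/500000000)) (q1 := (36945013/125000000)) (q2 := (59112021/200000000)) (by norm_num)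
    (by norm_num [expS, Finset.sum_range_succ, Nat.factorial])
    (by norm_num [expS, Finset.sum_range_succ, Nat.factorial])
    (by norm_num [Qs, Finset.sum_range_succ, Nat.factorial])
    (by norm_num [Qs, Finset.sum_range_succ, Nat.factorial])
    (by norm_num) (by norm_num) (by norm_num) (by norm_num) (by norm_num) (by norm_num)

theorem k025 : ((1933339/5000000) : ℝ) ≤ npdf (-(1/4)) ∧ npdf (-(1/4)) ≤ (1933349/5000000) ∧ (1003233/2500000) ≤ ncdf (-(1/4)) ∧
    ncdf (-(1/4)) ≤ (2006469/5000000) :=
  knot_of (x := (1/4)) (e1 := (484616617/500000000)) (e2 := (193846647/200000000)) (q1 := (123710033/500000000)) (q2 := (247420067/1000000000)) (by norm_num)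
    (by norm_num [expS, Finset.sum_range_succ, Nat.factorial])
    (by norm_num [expS, Finset.sum_range_succ, Nat.factorial])
    (by norm_num [Qs, Finset.sum_range_succ, Nat.factorial])
    (by norm_num [Qs, Finset.sum_range_succ, Nat.factorial])
    (by norm_num) (by norm_num) (by norm_num) (by norm_num) (by norm_num) (by norm_num)

theorem k020 : ((488803/1250000) : ℝ) ≤ npdf (-(1/5)) ∧ npdf (-(1/5)) ≤ (977611/2500000) ∧ (4207399/10000000) ≤ ncdf (-(1/5)) ∧
    ncdf (-(1/5)) ≤ (1051851/2500000) :=
  knot_of (x := (1/5)) (e1 := (980198673/1000000000)) (e2 := (490099337/500000000)) (q1 := (49668657/250000000)) (q2 := (198674629/1000000000)) (by norm_num)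
    (by norm_num [expS, Finset.sum_range_succ, Nat.factorial])
    (by norm_num [expS, Finset.sum_range_succ, Nat.factorial])
    (by norm_num [Qs, Finset.sum_range_succ, Nat.factorial])
    (by norm_num [Qs, Finset.sum_range_succ, Nat.factorial])
    (by norm_num) (by norm_num) (by norm_num) (by norm_num) (by norm_num) (by norm_num)

theorem k015 : ((394479/1000000) : ℝ) ≤ npdf (-(3/20)) ∧ npdf (-(3/20)) ≤ (3944811/10000000) ∧ (220191/500000) ≤ ncdf (-(3/20)) ∧
    ncdf (-(3/20)) ≤ (275239/625000) :=
  knot_of (x := (3/20)) (e1 := (247203261/250000000)) (e2 := (197762609/200000000)) (q1 := (149439393/1000000000)) (q2 := (74719697/500000000)) (by norm_num)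
    (by norm_num [expS, Finset.sum_range_succ, Nat.factorial])
    (by norm_num [expS, Finset.sum_range_succ, Nat.factorial])
    (by norm_num [Qs, Finset.sum_range_succ, Nat.factorial])
    (by norm_num [Qs, Finset.sum_range_succ, Nat.factorial])
    (by norm_num) (by norm_num) (by norm_num) (by norm_num) (by norm_num) (by norm_num)

theorem k010 : ((1984761/5000000) : ℝ) ≤ npdf (-(1/10)) ∧ npdf (-(1/10)) ≤ (3969543/10000000) ∧ (4601719/10000000) ≤ ncdf (-(1/10)) ∧
    ncdf (-(1/10)) ≤ (2300861/5000000) :=
  knot_of (x := (1/10)) (e1 := (995012479/1000000000)) (e2 := (1554707/1562500)) (q1 := (99833583/1000000000)) (q2 := (6239599/62500000)) (by norm_num)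
    (by norm_num [expS, Finset.sum_range_succ, Nat.factorial])
    (by norm_num [expS, Finset.sum_range_succ, Nat.factorial])
    (by norm_num [Qs, Finset.sum_range_succ, Nat.factorial])
    (by norm_num [Qs, Finset.sum_range_succ, Nat.factorial])
    (by norm_num) (by norm_num) (by norm_num) (by norm_num) (by norm_num) (by norm_num)

theorem k005 : ((996109/2500000) : ℝ) ≤ npdf (-(1/20)) ∧ npdf (-(1/20)) ≤ (3984457/10000000) ∧ (4800611/10000000) ≤ ncdf (-(1/20)) ∧
    ncdf (-(1/20)) ≤ (4800613/10000000) :=
  knot_of (x := (1/20)) (e1 := (49937539/50000000)) (e2 := (998750781/1000000000)) (q1 := (24989587/500000000)) (q2 := (1999167/40000000)) (by norm_num)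
    (by norm_num [expS, Finset.sum_range_succ, Nat.factorial])
    (by norm_num [expS, Finset.sum_range_succ, Nat.factorial])
    (by norm_num [Qs, Finset.sum_range_succ, Nat.factorial])
    (by norm_num [Qs, Finset.sum_range_succ, Nat.factorial])
    (by norm_num) (by norm_num) (by norm_num) (by norm_num) (by norm_num) (by norm_num)

theorem k000 : ((199471/500000) : ℝ) ≤ npdf (-0) ∧ npdf (-0) ≤ (12467/31250) ∧ (1/2) ≤ ncdf (-0) ∧
    ncdf (-0) ≤ (1/2) :=
  knot_of (x := 0) (e1 := 1) (e2 := 1) (q1 := 0) (q2 := 0) (by norm_num)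
    (by norm_num [expS, Finset.sum_range_succ, Nat.factorial])
    (by norm_num [expS, Finset.sum_range_succ, Nat.factorial])
    (by norm_num [Qs, Finset.sum_range_succ, Nat.factorial])
    (by norm_num [Qs, Finset.sum_range_succ, Nat.factorial])
    (by norm_num) (by norm_num) (by norm_num) (by norm_num) (by norm_num) (by norm_num)

theorem tang_k055 {α : ℝ} (hα : -1 ≤ α) : npdf α ^ 2 ≤ (9431/25000) * ncdf α + (243/31250) :=
  tangent_line (α₀ := -(11/20)) (pl := (857359/2500000)) (pu := (1714727/5000000)) (cl := (2911587/10000000)) (by norm_num) (by norm_num)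
    ⟨k055.1, k055.2.1, k055.2.2.1⟩ (by norm_num) (by norm_num) (by norm_num) (by norm_num) hα

theorem tang_k052 {α : ℝ} (hα : -1 ≤ α) : npdf α ^ 2 ≤ (181217/500000) * ncdf α + (3041/250000) :=
  tangent_line (α₀ := -(13/25)) (pl := (1742461/5000000)) (pu := (3484941/10000000)) (cl := (3015309/10000000)) (by norm_num) (by norm_num)
    ⟨k052.1, k052.2.1, k052.2.2.1⟩ (by norm_num) (by norm_num) (by norm_num) (by norm_num) hα

theorem tang_k050 {α : ℝ} (hα : -1 ≤ α) : npdf α ^ 2 ≤ (352067/1000000) * ncdf α + (15327/1000000) :=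
  tangent_line (α₀ := -(1/2)) (pl := (70413/200000)) (pu := (3520669/10000000)) (cl := (3085367/10000000)) (by norm_num) (by norm_num)
    ⟨k050.1, k050.2.1, k050.2.2.1⟩ (by norm_num) (by norm_num) (by norm_num) (by norm_num) hα

theorem tang_k048 {α : ℝ} (hα : -1 ≤ α) : npdf α ^ 2 ≤ (341313/1000000) * ncdf α + (18683/1000000) :=
  tangent_line (α₀ := -(12/25)) (pl := (1777661/5000000)) (pu := (3555341/10000000)) (cl := (3156129/10000000)) (by norm_num) (by norm_num)
    ⟨k048.1, k048.2.1, k048.2.2.1⟩ (by norm_num) (by norm_num) (by norm_num) (by norm_num) hα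

theorem tang_k045 {α : ℝ} (hα : -1 ≤ α) : npdf α ^ 2 ≤ (81119/250000) * ncdf α + (3011/125000) :=
  tangent_line (α₀ := -(9/20)) (pl := (3605267/10000000)) (pu := (1802643/5000000)) (cl := (407943/1250000)) (by norm_num) (by norm_num)
    ⟨k045.1, k045.2.1, k045.2.2.1⟩ (by norm_num) (by norm_num) (by norm_num) (by norm_num) hα

theorem tang_k040 {α : ℝ} (hα : -1 ≤ α) : npdf α ^ 2 ≤ (147309/500000) * ncdf α + (34107/1000000) :=
  tangent_line (α₀ := -(2/5)) (pl := (1841349/5000000)) (pu := (1841359/5000000)) (cl := (137831/400000)) (by norm_num) (by norm_num)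
    ⟨k040.1, k040.2.1, k040.2.2.1⟩ (by norm_num) (by norm_num) (by norm_num) (by norm_num) hα

theorem tang_k035 {α : ℝ} (hα : -1 ≤ α) : npdf α ^ 2 ≤ (26267/100000) * ncdf α + (22707/500000) :=
  tangent_line (α₀ := -(7/20)) (pl := (9381/25000)) (pu := (187621/500000)) (cl := (3631687/10000000)) (by norm_num) (by norm_num)
    ⟨k035.1, k035.2.1, k035.2.2.1⟩ (by norm_num) (by norm_num) (by norm_num) (by norm_num) hα

theorem tang_k030 {α : ℝ} (hα : -1 ≤ α) : npdf α ^ 2 ≤ (114417/500000) * ncdf α + (7253/125000) :=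
  tangent_line (α₀ := -(3/10)) (pl := (30511/80000)) (pu := (762779/2000000)) (cl := (47761/125000)) (by norm_num) (by norm_num)
    ⟨k030.1, k030.2.1, k030.2.2.1⟩ (by norm_num) (by norm_num) (by norm_num) (by norm_num) hα

theorem tang_k025 {α : ℝ} (hα : -1 ≤ α) : npdf α ^ 2 ≤ (38667/200000) * ncdf α + (7193/100000) :=
  tangent_line (α₀ := -(1/4)) (pl := (1933339/5000000)) (pu := (1933349/5000000)) (cl := (1003233/2500000)) (by norm_num) (by norm_num)
    ⟨k025.1, k025.2.1, k025.2.2.1⟩ (by norm_num) (by norm_num) (by norm_num) (by norm_num) hα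

theorem tang_k020 {α : ℝ} (hα : -1 ≤ α) : npdf α ^ 2 ≤ (78209/500000) * ncdf α + (17421/200000) :=
  tangent_line (α₀ := -(1/5)) (pl := (488803/1250000)) (pu := (977611/2500000)) (cl := (4207399/10000000)) (by norm_num) (by norm_num)
    ⟨k020.1, k020.2.1, k020.2.2.1⟩ (by norm_num) (by norm_num) (by norm_num) (by norm_num) hα

theorem tang_k015 {α : ℝ} (hα : -1 ≤ α) : npdf α ^ 2 ≤ (23669/200000) * ncdf α + (103499/1000000) :=
  tangent_line (α₀ := -(3/20)) (pl := (394479/1000000)) (pu := (3944811/10000000)) (cl := (220191/500000)) (by norm_num) (by norm_num)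
    ⟨k015.1, k015.2.1, k015.2.2.1⟩ (by norm_num) (by norm_num) (by norm_num) (by norm_num) hα

theorem tang_k010 {α : ℝ} (hα : -1 ≤ α) : npdf α ^ 2 ≤ (79391/1000000) * ncdf α + (1513/12500) :=
  tangent_line (α₀ := -(1/10)) (pl := (1984761/5000000)) (pu := (3969543/10000000)) (cl := (4601719/10000000)) (by norm_num) (by norm_num)
    ⟨k010.1, k010.2.1, k010.2.2.1⟩ (by norm_num) (by norm_num) (by norm_num) (by norm_num) hα

theorem tang_k005 {α : ℝ} (hα : -1 ≤ α) : npdf α ^ 2 ≤ (7969/200000) * ncdf α + (8727/62500) :=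
  tangent_line (α₀ := -(1/20)) (pl := (996109/2500000)) (pu := (3984457/10000000)) (cl := (4800611/10000000)) (by norm_num) (by norm_num)
    ⟨k005.1, k005.2.1, k005.2.2.1⟩ (by norm_num) (by norm_num) (by norm_num) (by norm_num) hα

theorem tang_k000 {α : ℝ} (hα : -1 ≤ α) : npdf α ^ 2 ≤ 0 * ncdf α + (159157/1000000) :=
  tangent_line (α₀ := -0) (pl := (199471/500000)) (pu := (12467/31250)) (cl := (1/2)) (by norm_num) (by norm_num)
    ⟨k000.1, k000.2.1, k000.2.2.1⟩ (by norm_num) (by norm_num) (by norm_num) (by norm_num) hα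

end Vale.Agent.Lib.P226
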