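import Vale.Agent.Lib.P226.Heat

/-!
The one dimensional functional Ehrhard inequality, by a maximum principle for the heat flow.
-/

open MeasureTheory ProbabilityTheory Real Set Filter Topology Metric
open scoped NNReal

namespace Vale.Agent.Lib.P226

/-- At a minimum the second derivative is nonnegative. -/
lemma second_deriv_nonneg_of_min {g g₁ : ℝ → ℝ} {g₂ : ℝ} (hg : ∀ t, HasDerivAt g (g₁ t) t)
    (hg₁ : HasDerivAt g₁ g₂ 0) (hmin : ∀ t, g 0 ≤ g t) : 0 ≤ g₂ := by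
  have h0 : g₁ 0 = 0 := IsLocalMin.hasDerivAt_eq_zero (Eventually.of_forall hmin) (hg 0)
  by_contra hcon
  push Not at hcon
  have hs := (hasDerivAt_iff_tendsto_slope.mp hg₁).mono_left
    (nhdsWithin_mono (0:ℝ) (show Ioi (0:ℝ) ⊆ {0}ᶜ from fun t ht => (ne_of_gt ht : t ≠ 0)))
  have hev : ∀ᶠ t in 𝓝[>] (0:ℝ), slope g₁ 0 t < 0 := hs.eventually (gt_mem_nhds hcon)
  obtain ⟨δ, hδ, hd⟩ := (mem_nhdsGT_iff_exists_Ioo_subset).mp hev
  have hδ0 : (0:ℝ) < δ := hδ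
  have hneg : ∀ t ∈ Ioo (0:ℝ) δ, g₁ t < 0 := by
    intro t ht
    have h1 : slope g₁ 0 t < 0 := hd ht
    rw [slope_def_field, h0, sub_zero, sub_zero, div_lt_iff₀ ht.1, zero_mul] at h1
    exact h1
  obtain ⟨c, hc, hc2⟩ := exists_hasDerivAt_eq_slope g g₁ hδ0
    (fun t _ => (hg t).continuousAt.continuousWithinAt) (fun t _ => hg t)
  have h2 := hneg c hc
  rw [hc2, div_lt_iff₀ (by linarith), zero_mul] at h2
  linarith [hmin δ]

/-- The left derivative at a minimum from the left. -/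
lemma deriv_nonpos_of_left_min {τ : ℝ → ℝ} {d T ρ : ℝ} (hd : HasDerivAt τ d T) (hρ : 0 < ρ)
    (hmin : ∀ s, T - ρ < s → s < T → τ T ≤ τ s) : d ≤ 0 := by
  have hs := (hasDerivAt_iff_tendsto_slope.mp hd).mono_left
    (nhdsWithin_mono T (show Iio T ⊆ {T}ᶜ from fun t ht => (ne_of_lt ht : t ≠ T)))
  refine le_of_tendsto hs ?_
  have h1 : Ioo (T - ρ) T ∈ 𝓝[<] T := Ioo_mem_nhdsLT (by linarith)
  filter_upwards [h1] with s hs2
  rw [slope_def_field]
  apply div_nonpos_of_nonneg_of_nonpos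
  · linarith [hmin s hs2.1 hs2.2]
  · linarith [hs2.2]

/-- The derivative along a path of the Ehrhard mean. -/
lemma hasDerivAt_W {θ : ℝ} {u v : ℝ → ℝ} {u' v' t : ℝ} (hu : HasDerivAt u u' t)
    (hv : HasDerivAt v v' t) (hu0 : 0 < u t) (hu1 : u t < 1) (hv0 : 0 < v t) (hv1 : v t < 1) :
    HasDerivAt (fun t => ncdf (θ * nq (u t) + (1 - θ) * nq (v t)))
      (npdf (θ * nq (u t) + (1 - θ) * nq (v t)) *
        (θ * (u' / npdf (nq (u t))) + (1 - θ) * (v' / npdf (nq (v t))))) t := by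
  have h1 : HasDerivAt (fun t => nq (u t)) (u' / npdf (nq (u t))) t := by
    have := (hasDerivAt_nq hu0 hu1).comp t hu
    refine this.congr_deriv ?_
    ring
  have h2 : HasDerivAt (fun t => nq (v t)) (v' / npdf (nq (v t))) t := by
    have := (hasDerivAt_nq hv0 hv1).comp t hv
    refine this.congr_deriv ?_
    ring
  have h3 := (h1.const_mul θ).add (h2.const_mul (1 - θ))
  exact (hasDerivAt_ncdf _).comp t h3

/-- The second derivative along a path of the Ehrhard mean. -/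
lemma hasDerivAt_W₁ {θ : ℝ} {u v u₁ v₁ : ℝ → ℝ} {u₂ v₂ : ℝ} (hu : ∀ t, HasDerivAt u (u₁ t) t)
    (hv : ∀ t, HasDerivAt v (v₁ t) t) (hu₁ : HasDerivAt u₁ u₂ 0) (hv₁ : HasDerivAt v₁ v₂ 0)
    (hu0 : ∀ t, 0 < u t) (hu1 : ∀ t, u t < 1) (hv0 : ∀ t, 0 < v t) (hv1 : ∀ t, v t < 1) :
    HasDerivAt (fun t => npdf (θ * nq (u t) + (1 - θ) * nq (v t)) *
        (θ * (u₁ t / npdf (nq (u t))) + (1 - θ) * (v₁ t / npdf (nq (v t)))))
      (npdf (θ * nq (u 0) + (1 - θ) * nq (v 0)) *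
        (-(θ * nq (u 0) + (1 - θ) * nq (v 0)) *
            (θ * (u₁ 0 / npdf (nq (u 0))) + (1 - θ) * (v₁ 0 / npdf (nq (v 0)))) ^ 2
          + θ * (u₂ / npdf (nq (u 0)) + nq (u 0) * (u₁ 0 / npdf (nq (u 0))) ^ 2)
          + (1 - θ) * (v₂ / npdf (nq (v 0)) + nq (v 0) * (v₁ 0 / npdf (nq (v 0))) ^ 2))) 0 := by
  set a := nq (u 0) with ha
  set b := nq (v 0) with hb
  set pa := u₁ 0 / npdf a with hpa
  set pb := v₁ 0 / npdf b with hpb
  set c := θ * a + (1 - θ) * b with hc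
  have h1 : HasDerivAt (fun t => nq (u t)) pa 0 := by
    have := (hasDerivAt_nq (hu0 0) (hu1 0)).comp 0 (hu 0)
    refine this.congr_deriv ?_
    rw [hpa, ha]
    ring
  have h2 : HasDerivAt (fun t => nq (v t)) pb 0 := by
    have := (hasDerivAt_nq (hv0 0) (hv1 0)).comp 0 (hv 0)
    refine this.congr_deriv ?_
    rw [hpb, hb]
    ring
  have hφa : npdf a ≠ 0 := (npdf_pos a).ne'
  have hφb : npdf b ≠ 0 := (npdf_pos b).ne'
  have h3 : HasDerivAt (npdf ∘ fun t => nq (u t)) (-a * npdf a * pa) 0 :=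
    (hasDerivAt_npdf a).comp (0:ℝ) h1
  have h4 : HasDerivAt (npdf ∘ fun t => nq (v t)) (-b * npdf b * pb) 0 :=
    (hasDerivAt_npdf b).comp (0:ℝ) h2
  have h5 : HasDerivAt (fun t => u₁ t / npdf (nq (u t))) (u₂ / npdf a + a * pa ^ 2) 0 := by
    have h3' : HasDerivAt (fun t => npdf (nq (u t))) (-a * npdf a * pa) 0 := h3
    have := hu₁.fun_div h3' hφa
    refine this.congr_deriv ?_
    rw [show nq (u 0) = a from rfl, hpa]
    field_simp
    ring
  have h6 : HasDerivAt (fun t => v₁ t / npdf (nq (v t))) (v₂ / npdf b + b * pb ^ 2) 0 := by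
    have h4' : HasDerivAt (fun t => npdf (nq (v t))) (-b * npdf b * pb) 0 := h4
    have := hv₁.fun_div h4' hφb
    refine this.congr_deriv ?_
    rw [show nq (v 0) = b from rfl, hpb]
    field_simp
    ring
  have h7 : HasDerivAt (fun t => θ * nq (u t) + (1 - θ) * nq (v t)) (θ * pa + (1 - θ) * pb) 0 :=
    (h1.const_mul θ).add (h2.const_mul (1 - θ))
  have h8 : HasDerivAt (npdf ∘ fun t => θ * nq (u t) + (1 - θ) * nq (v t))
      (-c * npdf c * (θ * pa + (1 - θ) * pb)) 0 :=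
    (hasDerivAt_npdf c).comp (0:ℝ) h7
  have h9 : HasDerivAt (fun t => θ * (u₁ t / npdf (nq (u t))) + (1 - θ) * (v₁ t / npdf (nq (v t))))
      (θ * (u₂ / npdf a + a * pa ^ 2) + (1 - θ) * (v₂ / npdf b + b * pb ^ 2)) 0 :=
    (h5.const_mul θ).add (h6.const_mul (1 - θ))
  have h8' : HasDerivAt (fun t => npdf (θ * nq (u t) + (1 - θ) * nq (v t)))
      (-c * npdf c * (θ * pa + (1 - θ) * pb)) 0 := h8
  have h10 := h8'.fun_mul h9
  refine h10.congr_deriv ?_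
  ring

/-- The concluding algebra at a minimum. -/
lemma algebra_step {θ φc φa φb H₁ H₂ u₁ v₁ u₂ v₂ a b ε : ℝ} (hθ0 : 0 < θ) (hθ1 : θ < 1)
    (hφc : 0 < φc) (hε : 0 < ε)
    (h1 : H₁ * θ - φc * (θ * (u₁ / φa) + (1 - θ) * (0 / φb)) = 0)
    (h2 : H₁ * (1 - θ) - φc * (θ * (0 / φa) + (1 - θ) * (v₁ / φb)) = 0)
    (h3 : 0 ≤ H₂ - φc * (-(θ * a + (1 - θ) * b) * (θ * (u₁ / φa) + (1 - θ) * (v₁ / φb)) ^ 2
          + θ * (u₂ / φa + a * (u₁ / φa) ^ 2) + (1 - θ) * (v₂ / φb + b * (v₁ / φb) ^ 2)))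
    (h4 : H₂ / 2 - φc * (θ * ((u₂ / 2) / φa) + (1 - θ) * ((v₂ / 2) / φb)) + ε ≤ 0) : False := by
  have hθ' : 0 < 1 - θ := by linarith
  have e1 : H₁ = φc * (u₁ / φa) := by
    have : θ * (H₁ - φc * (u₁ / φa)) = 0 := by
      simp only [zero_div, mul_zero, add_zero] at h1
      linarith
    have h5 := (mul_eq_zero.mp this).resolve_left hθ0.ne'
    linarith
  have e2 : H₁ = φc * (v₁ / φb) := by
    have : (1 - θ) * (H₁ - φc * (v₁ / φb)) = 0 := by
      simp only [zero_div, mul_zero, zero_add] at h2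
      linarith
    have h5 := (mul_eq_zero.mp this).resolve_left hθ'.ne'
    linarith
  have e3 : u₁ / φa = v₁ / φb := by
    have : φc * (u₁ / φa) = φc * (v₁ / φb) := by rw [← e1, ← e2]
    exact mul_left_cancel₀ hφc.ne' this
  rw [← e3] at h3
  have e4 : -(θ * a + (1 - θ) * b) * (θ * (u₁ / φa) + (1 - θ) * (u₁ / φa)) ^ 2
          + θ * (u₂ / φa + a * (u₁ / φa) ^ 2) + (1 - θ) * (v₂ / φb + b * (u₁ / φa) ^ 2)
      = θ * (u₂ / φa) + (1 - θ) * (v₂ / φb) := by ring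
  rw [e4] at h3
  have e5 : H₂ / 2 - φc * (θ * ((u₂ / 2) / φa) + (1 - θ) * ((v₂ / 2) / φb))
      = (H₂ - φc * (θ * (u₂ / φa) + (1 - θ) * (v₂ / φb))) / 2 := by ring
  rw [e5] at h4
  linarith

/-- The function minimised in the maximum principle. -/
noncomputable def Psi (θ : ℝ) (F G H : ℝ → ℝ → ℝ) (s a b : ℝ) : ℝ :=
  H s (θ * a + (1 - θ) * b) - ncdf (θ * nq (F s a) + (1 - θ) * nq (G s b))

/-- The contradiction at a minimum for flows satisfying the heat equation. -/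
theorem min_contra {θ ε T y₁ y₂ ρ : ℝ} (hθ0 : 0 < θ) (hθ1 : θ < 1) (hε : 0 < ε) (hρ : 0 < ρ)
    {F G H F1 F2 G1 G2 H1 H2 : ℝ → ℝ → ℝ}
    (hFy : ∀ y, HasDerivAt (F T) (F1 T y) y) (hF1y : ∀ y, HasDerivAt (F1 T) (F2 T y) y)
    (hFT : HasDerivAt (fun s => F s y₁) (F2 T y₁ / 2) T)
    (hGy : ∀ y, HasDerivAt (G T) (G1 T y) y) (hG1y : ∀ y, HasDerivAt (G1 T) (G2 T y) y)
    (hGT : HasDerivAt (fun s => G s y₂) (G2 T y₂ / 2) T)
    (hHy : ∀ y, HasDerivAt (H T) (H1 T y) y) (hH1y : ∀ y, HasDerivAt (H1 T) (H2 T y) y)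
    (hHT : HasDerivAt (fun s => H s (θ * y₁ + (1 - θ) * y₂)) (H2 T (θ * y₁ + (1 - θ) * y₂) / 2) T)
    (hF0 : ∀ y, 0 < F T y) (hF1 : ∀ y, F T y < 1) (hG0 : ∀ y, 0 < G T y) (hG1 : ∀ y, G T y < 1)
    (hmin : ∀ a b, Psi θ F G H T y₁ y₂ ≤ Psi θ F G H T a b)
    (hleft : ∀ s, T - ρ < s → s < T →
      Psi θ F G H T y₁ y₂ + ε * T ≤ Psi θ F G H s y₁ y₂ + ε * s) : False := by
  set z : ℝ := θ * y₁ + (1 - θ) * y₂ with hz
  set a : ℝ := nq (F T y₁) with ha
  set b : ℝ := nq (G T y₂) with hb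
  set c : ℝ := θ * a + (1 - θ) * b with hc
  have hφc : 0 < npdf c := npdf_pos c
  have hu : ∀ t, HasDerivAt (fun t => F T (y₁ + t)) (F1 T (y₁ + t)) t :=
    fun t => (hFy (y₁ + t)).comp_const_add y₁ t
  have hv : ∀ t, HasDerivAt (fun t => G T (y₂ + t)) (G1 T (y₂ + t)) t :=
    fun t => (hGy (y₂ + t)).comp_const_add y₂ t
  have hu0 : HasDerivAt (fun t => F T (y₁ + t)) (F1 T y₁) 0 := by
    simpa using hu 0
  have hv0 : HasDerivAt (fun t => G T (y₂ + t)) (G1 T y₂) 0 := by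
    simpa using hv 0
  -- first order condition in the first variable
  have h1 : H1 T z * θ - npdf c * (θ * (F1 T y₁ / npdf a) + (1 - θ) * (0 / npdf b)) = 0 := by
    have hW := hasDerivAt_W (θ := θ) hu0 (hasDerivAt_const (0:ℝ) (G T y₂))
      (hF0 _) (hF1 _) (hG0 _) (hG1 _)
    simp only [add_zero] at hW
    have hin : HasDerivAt (fun t : ℝ => θ * (y₁ + t) + (1 - θ) * y₂) θ 0 := by
      have := (((hasDerivAt_id (0:ℝ)).const_add y₁).const_mul θ).add_const ((1 - θ) * y₂)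
      simpa using this
    have hHz : HasDerivAt (H T) (H1 T z) (θ * (y₁ + 0) + (1 - θ) * y₂) := by
      rw [add_zero]
      exact hHy z
    have hH := hHz.comp (0:ℝ) hin
    have hd := hH.sub hW
    refine IsLocalMin.hasDerivAt_eq_zero (Eventually.of_forall (fun t => ?_)) hd
    have := hmin (y₁ + t) y₂
    simp only [Psi, add_zero, Function.comp, Pi.sub_apply] at this ⊢
    exact this
  -- first order condition in the second variable
  have h2 : H1 T z * (1 - θ) - npdf c * (θ * (0 / npdf a) + (1 - θ) * (G1 T y₂ / npdf b)) = 0 := by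
    have hW := hasDerivAt_W (θ := θ) (hasDerivAt_const (0:ℝ) (F T y₁)) hv0
      (hF0 _) (hF1 _) (hG0 _) (hG1 _)
    simp only [add_zero] at hW
    have hin : HasDerivAt (fun t : ℝ => θ * y₁ + (1 - θ) * (y₂ + t)) (1 - θ) 0 := by
      have := (((hasDerivAt_id (0:ℝ)).const_add y₂).const_mul (1 - θ)).const_add (θ * y₁)
      simpa using this
    have hHz : HasDerivAt (H T) (H1 T z) (θ * y₁ + (1 - θ) * (y₂ + 0)) := by
      rw [add_zero]
      exact hHy z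
    have hH := hHz.comp (0:ℝ) hin
    have hd := hH.sub hW
    refine IsLocalMin.hasDerivAt_eq_zero (Eventually.of_forall (fun t => ?_)) hd
    have := hmin y₁ (y₂ + t)
    simp only [Psi, add_zero, Function.comp, Pi.sub_apply] at this ⊢
    exact this
  -- second order condition along the diagonal
  have h3 : 0 ≤ H2 T z - npdf c * (-(θ * a + (1 - θ) * b) *
        (θ * (F1 T y₁ / npdf a) + (1 - θ) * (G1 T y₂ / npdf b)) ^ 2
      + θ * (F2 T y₁ / npdf a + a * (F1 T y₁ / npdf a) ^ 2)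
      + (1 - θ) * (G2 T y₂ / npdf b + b * (G1 T y₂ / npdf b) ^ 2)) := by
    have hW₂ := hasDerivAt_W₁ (θ := θ) (u := fun t => F T (y₁ + t)) (v := fun t => G T (y₂ + t))
      (u₁ := fun t => F1 T (y₁ + t)) (v₁ := fun t => G1 T (y₂ + t))
      (u₂ := F2 T y₁) (v₂ := G2 T y₂) hu hv
      (by simpa using (hF1y (y₁ + 0)).comp_const_add y₁ 0)
      (by simpa using (hG1y (y₂ + 0)).comp_const_add y₂ 0)
      (fun t => hF0 _) (fun t => hF1 _) (fun t => hG0 _) (fun t => hG1 _)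
    simp only [add_zero] at hW₂
    have hH₂ : HasDerivAt (fun t => H1 T (z + t)) (H2 T z) 0 := by
      simpa using (hH1y (z + 0)).comp_const_add z 0
    refine second_deriv_nonneg_of_min
      (g := fun t => H T (z + t) - ncdf (θ * nq (F T (y₁ + t)) + (1 - θ) * nq (G T (y₂ + t))))
      (g₁ := fun t => H1 T (z + t) - npdf (θ * nq (F T (y₁ + t)) + (1 - θ) * nq (G T (y₂ + t))) *
        (θ * (F1 T (y₁ + t) / npdf (nq (F T (y₁ + t))))
          + (1 - θ) * (G1 T (y₂ + t) / npdf (nq (G T (y₂ + t))))))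
      (fun t => ?_) (hH₂.sub hW₂) (fun t => ?_)
    · exact ((hHy (z + t)).comp_const_add z t).sub
        (hasDerivAt_W (hu t) (hv t) (hF0 _) (hF1 _) (hG0 _) (hG1 _))
    · have := hmin (y₁ + t) (y₂ + t)
      have e : θ * (y₁ + t) + (1 - θ) * (y₂ + t) = z + t := by
        rw [hz]
        ring
      simp only [Psi, e] at this
      simp only [add_zero]
      exact this
  -- the time derivative
  have h4 : H2 T z / 2 - npdf c * (θ * ((F2 T y₁ / 2) / npdf a) + (1 - θ) * ((G2 T y₂ / 2) / npdf b))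
      + ε ≤ 0 := by
    have hW := hasDerivAt_W (θ := θ) hFT hGT (hF0 _) (hF1 _) (hG0 _) (hG1 _)
    have hτ := (hHT.sub hW).add ((hasDerivAt_id T).const_mul ε)
    simp only [mul_one] at hτ
    refine deriv_nonpos_of_left_min hτ hρ (fun s hs1 hs2 => ?_)
    have := hleft s hs1 hs2
    simp only [Psi, id] at this ⊢
    exact this
  exact algebra_step hθ0 hθ1 hφc hε h1 h2 h3 h4

/-- The one dimensional functional form of Ehrhard's inequality. -/
theorem ehrhard_one {θ η : ℝ} (hθ0 : 0 < θ) (hθ1 : θ < 1) (hη0 : 0 < η) (hη1 : η < 1)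
    {f g h : ℝ → ℝ} (hf : Continuous f) (hfc : HasCompactSupport f) (hf0 : ∀ x, 0 ≤ f x)
    (hf1 : ∀ x, f x ≤ 1 - η) (hg : Continuous g) (hgc : HasCompactSupport g) (hg0 : ∀ x, 0 ≤ g x)
    (hg1 : ∀ x, g x ≤ 1 - η) (hh : Continuous h) (hhc : HasCompactSupport h) (hh0 : ∀ x, 0 ≤ h x)
    (hM : ∀ x y, ehrM θ (f x) (g y) ≤ h (θ * x + (1 - θ) * y)) :
    ehrM θ (∫ z, f z ∂(gaussianReal 0 1)) (∫ z, g z ∂(gaussianReal 0 1))
      ≤ ∫ z, h z ∂(gaussianReal 0 1) := by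
  by_contra hcon
  push Not at hcon
  have hint0 : 0 ≤ ∫ z, h z ∂(gaussianReal 0 1) := integral_nonneg hh0
  -- the functions are not identically zero
  obtain ⟨x₁, hx₁⟩ : ∃ x, 0 < f x := by
    by_contra hno
    push Not at hno
    have h0 : f = fun _ => 0 := funext (fun x => le_antisymm (hno x) (hf0 x))
    rw [h0] at hcon
    simp only [integral_zero] at hcon
    rw [ehrM_of_left le_rfl] at hcon
    linarith
  obtain ⟨x₂, hx₂⟩ : ∃ x, 0 < g x := by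
    by_contra hno
    push Not at hno
    have h0 : g = fun _ => 0 := funext (fun x => le_antisymm (hno x) (hg0 x))
    rw [h0] at hcon
    simp only [integral_zero] at hcon
    rw [ehrM_of_right le_rfl] at hcon
    linarith
  have hθ' : 0 < 1 - θ := by linarith
  have hη' : 0 < 1 - η := by linarith
  -- bounds for the flows
  have hCf : ∀ x, |f x| ≤ |1 - η| := fun x => by
    rw [abs_of_nonneg (hf0 x), abs_of_pos hη']
    exact hf1 x
  have hCg : ∀ x, |g x| ≤ |1 - η| := fun x => by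
    rw [abs_of_nonneg (hg0 x), abs_of_pos hη']
    exact hg1 x
  obtain ⟨Ch, hCh⟩ : ∃ C, ∀ x, |h x| ≤ C := by
    obtain ⟨C, hC⟩ := hhc.exists_bound_of_continuous hh
    exact ⟨C, fun x => by simpa using hC x⟩
  have hF1 : ∀ T y, heat f T y ≤ 1 - η := fun T y => heat_le hf hCf hf1 T y
  have hG1 : ∀ T y, heat g T y ≤ 1 - η := fun T y => heat_le hg hCg hg1 T y
  have hF0 : ∀ T y, 0 ≤ heat f T y := fun T y => heat_nonneg hf0 T y
  have hG0 : ∀ T y, 0 ≤ heat g T y := fun T y => heat_nonneg hg0 T y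
  have hFc := heat_continuous hf hCf
  have hGc := heat_continuous hg hCg
  have hHc := heat_continuous hh hCh
  -- the main function
  set A : ℝ → ℝ → ℝ → ℝ := fun T y₁ y₂ =>
    heat h T (θ * y₁ + (1 - θ) * y₂) - ehrM θ (heat f T y₁) (heat g T y₂) with hA
  have hAc : Continuous (fun p : ℝ × ℝ × ℝ => A p.1 p.2.1 p.2.2) := by
    simp only [hA]
    refine Continuous.sub ?_ ?_
    · exact hHc.comp (by fun_prop : Continuous fun p : ℝ × ℝ × ℝ =>
        (p.1, θ * p.2.1 + (1 - θ) * p.2.2))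
    · have h1 := (continuousOn_ehrM hθ0 hθ1 hη0 hη1).comp_continuous
        (f := fun p : ℝ × ℝ × ℝ => (heat f p.1 p.2.1, heat g p.1 p.2.2))
        ((hFc.comp (by fun_prop : Continuous fun p : ℝ × ℝ × ℝ => (p.1, p.2.1))).prodMk
          (hGc.comp (by fun_prop : Continuous fun p : ℝ × ℝ × ℝ => (p.1, p.2.2))))
        (fun p => ⟨⟨hF0 _ _, hF1 _ _⟩, ⟨hG0 _ _, hG1 _ _⟩⟩)
      exact h1
  have hA0 : ∀ y₁ y₂, 0 ≤ A 0 y₁ y₂ := by
    intro y₁ y₂
    simp only [hA, heat_zero]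
    linarith [hM y₁ y₂]
  have hA1 : A 1 0 0 < 0 := by
    simp only [hA, mul_zero, add_zero, heat_one]
    linarith
  obtain ⟨δ, hδdef⟩ : ∃ δ, δ = -A 1 0 0 := ⟨_, rfl⟩
  have hδ : 0 < δ := by rw [hδdef]; linarith
  -- smallness at infinity
  obtain ⟨ε₁, hε₁, hS1⟩ := ehrM_small_left hθ0 hθ1 hη0 hη1 (show 0 < δ / 4 by linarith)
  obtain ⟨ε₂, hε₂, hS2⟩ := ehrM_small_right hθ0 hθ1 hη0 hη1 (show 0 < δ / 4 by linarith)
  obtain ⟨R₁, hR₁, hR1⟩ := heat_small hf hfc hf0 (fun x => (hf1 x).trans (by linarith)) hε₁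
  obtain ⟨R₂, hR₂, hR2⟩ := heat_small hg hgc hg0 (fun x => (hg1 x).trans (by linarith)) hε₂
  obtain ⟨R, hRdef⟩ : ∃ R, R = max R₁ R₂ := ⟨_, rfl⟩
  have hRpos : 0 < R := by
    rw [hRdef]
    exact lt_max_of_lt_left hR₁
  have hfar : ∀ T y₁ y₂, 0 ≤ T → T ≤ 1 → (R ≤ |y₁| ∨ R ≤ |y₂|) → -(δ / 4) < A T y₁ y₂ := by
    intro T y₁ y₂ hT0 hT1 hy
    have hH0 : 0 ≤ heat h T (θ * y₁ + (1 - θ) * y₂) := heat_nonneg hh0 _ _
    rcases hy with hy | hy
    · have h1 := hS1 _ _ (hR1 T y₁ hT0 hT1 ((hRdef ▸ le_max_left R₁ R₂).trans hy)) (hG1 T y₂)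
      simp only [hA]
      linarith
    · have h1 := hS2 _ _ (hR2 T y₂ hT0 hT1 ((hRdef ▸ le_max_right R₁ R₂).trans hy)) (hF1 T y₁)
      simp only [hA]
      linarith
  -- the compact set
  set K : Set (ℝ × ℝ × ℝ) := Icc 0 1 ×ˢ (Icc (-R) R ×ˢ Icc (-R) R) with hK
  have hKc : IsCompact K := isCompact_Icc.prod (isCompact_Icc.prod isCompact_Icc)
  have h1K : ((1:ℝ), (0:ℝ), (0:ℝ)) ∈ K := by
    refine ⟨⟨zero_le_one, le_rfl⟩, ⟨⟨?_, hRpos.le⟩, ⟨?_, hRpos.le⟩⟩⟩ <;> simp only <;> linarith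
  set B : ℝ × ℝ × ℝ → ℝ := fun p => A p.1 p.2.1 p.2.2 + δ / 2 * p.1 with hB
  have hBc : Continuous B := hAc.add (by fun_prop)
  obtain ⟨q, hqK, hq⟩ := hKc.exists_isMinOn ⟨_, h1K⟩ hBc.continuousOn
  have hBq : B q ≤ -(δ / 2) := by
    have h1 : B q ≤ B (1, 0, 0) := hq h1K
    have h2 : B (1, 0, 0) = -(δ / 2) := by
      simp only [hB]
      rw [hδdef]
      ring
    linarith
  have hglobal : ∀ T y₁ y₂, 0 ≤ T → T ≤ 1 → B q ≤ B (T, y₁, y₂) := by
    intro T y₁ y₂ hT0 hT1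
    by_cases hin : |y₁| < R ∧ |y₂| < R
    · exact hq ⟨⟨hT0, hT1⟩, ⟨abs_le.mp hin.1.le, abs_le.mp hin.2.le⟩⟩
    · have h1 : R ≤ |y₁| ∨ R ≤ |y₂| := by
        by_contra hno
        push Not at hno
        exact hin hno
      have h2 := hfar T y₁ y₂ hT0 hT1 h1
      have h3 : 0 ≤ δ / 2 * T := by positivity
      have h4 : B (T, y₁, y₂) = A T y₁ y₂ + δ / 2 * T := rfl
      rw [h4]
      linarith
  obtain ⟨T, y₁, y₂⟩ := q
  have hT0' : 0 ≤ T := hqK.1.1
  have hT1 : T ≤ 1 := hqK.1.2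
  have hT0 : 0 < T := by
    rcases hT0'.eq_or_lt with h0 | h0
    · exfalso
      have h2 : B (T, y₁, y₂) = A T y₁ y₂ + δ / 2 * T := rfl
      rw [h2, ← h0, mul_zero, add_zero] at hBq
      linarith [hA0 y₁ y₂]
    · exact h0
  have hFp : ∀ s, 0 < s → ∀ y, 0 < heat f s y := fun s hs y => heat_pos hf hfc hf0 hx₁ hs y
  have hGp : ∀ s, 0 < s → ∀ y, 0 < heat g s y := fun s hs y => heat_pos hg hgc hg0 hx₂ hs y
  have hAΨ : ∀ s, 0 < s → ∀ a b, A s a b = Psi θ (heat f) (heat g) (heat h) s a b := by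
    intro s hs a b
    simp only [hA, Psi]
    rw [ehrM_of_pos (hFp s hs a) (hGp s hs b)]
  have hε : 0 < δ / 2 := by positivity
  refine min_contra (θ := θ) (ε := δ / 2) (T := T) (y₁ := y₁) (y₂ := y₂) (ρ := T)
    (F := heat f) (G := heat g) (H := heat h)
    (F1 := heatD1 f) (F2 := heatD2 f) (G1 := heatD1 g) (G2 := heatD2 g)
    (H1 := heatD1 h) (H2 := heatD2 h) hθ0 hθ1 hε hT0
    (fun y => hasDerivAt_heat_y hf hfc hT0 y) (fun y => hasDerivAt_heatD1 hf hfc hT0 y)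
    (hasDerivAt_heat_T hf hfc hT0 y₁)
    (fun y => hasDerivAt_heat_y hg hgc hT0 y) (fun y => hasDerivAt_heatD1 hg hgc hT0 y)
    (hasDerivAt_heat_T hg hgc hT0 y₂)
    (fun y => hasDerivAt_heat_y hh hhc hT0 y) (fun y => hasDerivAt_heatD1 hh hhc hT0 y)
    (hasDerivAt_heat_T hh hhc hT0 _)
    (hFp T hT0) (fun y => lt_of_le_of_lt (hF1 T y) (by linarith))
    (hGp T hT0) (fun y => lt_of_le_of_lt (hG1 T y) (by linarith)) ?_ ?_
  · intro a b
    have h1 := hglobal T a b hT0' hT1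
    have h2 : B (T, y₁, y₂) = A T y₁ y₂ + δ / 2 * T := rfl
    have h3 : B (T, a, b) = A T a b + δ / 2 * T := rfl
    rw [h2, h3, hAΨ T hT0, hAΨ T hT0] at h1
    linarith
  · intro s hs1 hs2
    have hs0 : 0 < s := by linarith
    have h1 := hglobal s y₁ y₂ hs0.le (by linarith)
    have h2 : B (T, y₁, y₂) = A T y₁ y₂ + δ / 2 * T := rfl
    have h3 : B (s, y₁, y₂) = A s y₁ y₂ + δ / 2 * s := rfl
    rw [h2, h3, hAΨ T hT0, hAΨ s hs0] at h1
    exact h1

end Vale.Agent.Lib.P226
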