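import Vale.Agent.Lib.P226.Partition

/-!
Existence of a self-consistent optimal configuration for a fixed number of cells.
-/

open MeasureTheory ProbabilityTheory Real Set
open scoped RealInnerProductSpace ENNReal NNReal

namespace Vale.Agent.Lib.P226

variable {E : Type*} [NormedAddCommGroup E] [InnerProductSpace ℝ E] [FiniteDimensional ℝ E]
  [MeasurableSpace E] [BorelSpace E]

variable {ι : Type*} [Fintype ι] [Nonempty ι]

/-- The support function `x ↦ max_i ⟨t i, x⟩`. -/
noncomputable def phi (t : ι → E) (x : E) : ℝ :=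
  Finset.univ.sup' Finset.univ_nonempty (fun i => ⟪t i, x⟫)

omit [FiniteDimensional ℝ E] [MeasurableSpace E] [BorelSpace E] in
lemma inner_le_phi (t : ι → E) (x : E) (i : ι) : ⟪t i, x⟫ ≤ phi t x :=
  Finset.le_sup' (fun i => ⟪t i, x⟫) (Finset.mem_univ i)

omit [FiniteDimensional ℝ E] [MeasurableSpace E] [BorelSpace E] in
lemma phi_le (t : ι → E) (x : E) {c : ℝ} (h : ∀ i, ⟪t i, x⟫ ≤ c) : phi t x ≤ c :=
  Finset.sup'_le _ _ (fun i _ => h i)

omit [FiniteDimensional ℝ E] [MeasurableSpace E] [BorelSpace E] in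
lemma exists_phi_eq (t : ι → E) (x : E) : ∃ i, phi t x = ⟪t i, x⟫ := by
  obtain ⟨i, -, hi⟩ := Finset.exists_mem_eq_sup' (Finset.univ_nonempty (α := ι))
    (fun i => ⟪t i, x⟫)
  exact ⟨i, hi⟩

omit [FiniteDimensional ℝ E] [MeasurableSpace E] [BorelSpace E] in
lemma continuous_phi (t : ι → E) : Continuous (phi t) := by
  unfold phi
  have h : (fun x => Finset.univ.sup' Finset.univ_nonempty (fun i => ⟪t i, x⟫))
      = Finset.univ.sup' Finset.univ_nonempty (fun i x => ⟪t i, x⟫) := by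
    ext x
    simp [Finset.sup'_apply]
  rw [h]
  exact Continuous.finset_sup' _ (fun i _ => continuous_const.inner continuous_id)

omit [FiniteDimensional ℝ E] [MeasurableSpace E] [BorelSpace E] in
lemma abs_phi_le (t : ι → E) (x : E) : |phi t x| ≤ ‖t‖ * ‖x‖ := by
  obtain ⟨i, hi⟩ := exists_phi_eq t x
  rw [hi]
  exact (abs_real_inner_le_norm _ _).trans
    (mul_le_mul_of_nonneg_right (norm_le_pi_norm t i) (norm_nonneg _))

lemma integrable_phi (t : ι → E) : Integrable (phi t) (stdGaussian E) := by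
  refine Integrable.mono' (integrable_norm_std.const_mul ‖t‖)
    (continuous_phi t).aestronglyMeasurable (Filter.Eventually.of_forall ?_)
  intro x
  rw [Real.norm_eq_abs]
  exact abs_phi_le t x

/-- `Φ(t) = E max_i ⟨t i, G⟩`. -/
noncomputable def Phi (t : ι → E) : ℝ := ∫ x, phi t x ∂(stdGaussian E)

omit [FiniteDimensional ℝ E] [MeasurableSpace E] [BorelSpace E] in
lemma phi_sub_le (t s : ι → E) (x : E) : phi t x - phi s x ≤ ‖t - s‖ * ‖x‖ := by
  obtain ⟨i, hi⟩ := exists_phi_eq t x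
  rw [hi]
  have h1 := inner_le_phi s x i
  have h2 : ⟪t i, x⟫ - ⟪s i, x⟫ = ⟪t i - s i, x⟫ := by rw [inner_sub_left]
  have h3 : ⟪t i - s i, x⟫ ≤ ‖t i - s i‖ * ‖x‖ := real_inner_le_norm _ _
  have h4 : ‖t i - s i‖ ≤ ‖t - s‖ := norm_le_pi_norm (t - s) i
  have h5 := mul_le_mul_of_nonneg_right h4 (norm_nonneg x)
  linarith

lemma Phi_sub_le (t s : ι → E) :
    Phi t - Phi s ≤ ‖t - s‖ * ∫ x, ‖x‖ ∂(stdGaussian E) := by
  rw [Phi, Phi, ← integral_sub (integrable_phi t) (integrable_phi s), ← integral_const_mul]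
  exact integral_mono ((integrable_phi t).sub (integrable_phi s))
    (integrable_norm_std.const_mul _) (fun x => phi_sub_le t s x)

lemma continuous_Phi : Continuous (Phi : (ι → E) → ℝ) := by
  have hC : 0 ≤ ∫ x : E, ‖x‖ ∂(stdGaussian E) := integral_nonneg (fun x => norm_nonneg x)
  refine (LipschitzWith.of_dist_le_mul (K := (∫ x : E, ‖x‖ ∂(stdGaussian E)).toNNReal)
    (fun t s => ?_)).continuous
  rw [Real.coe_toNNReal _ hC, Real.dist_eq, dist_eq_norm, abs_le]
  constructor
  · have := Phi_sub_le s t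
    rw [norm_sub_rev] at this
    linarith
  · have := Phi_sub_le t s
    linarith

/-- The Lagrangian `J(t) = 2 Φ(t) - ∑ ‖t i‖²`. -/
noncomputable def J (t : ι → E) : ℝ := 2 * Phi t - ∑ i, ‖t i‖ ^ 2

lemma continuous_J : Continuous (J : (ι → E) → ℝ) := by
  unfold J
  refine (continuous_const.mul continuous_Phi).sub ?_
  refine continuous_finset_sum _ (fun i _ => ?_)
  exact ((continuous_apply i).norm).pow 2

lemma Phi_le (t : ι → E) : Phi t ≤ ‖t‖ * ∫ x, ‖x‖ ∂(stdGaussian E) := by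
  rw [Phi, ← integral_const_mul]
  refine integral_mono (integrable_phi t) (integrable_norm_std.const_mul _) (fun x => ?_)
  exact (le_abs_self _).trans (abs_phi_le t x)

omit [FiniteDimensional ℝ E] [MeasurableSpace E] [BorelSpace E] [Nonempty ι] in
lemma sq_norm_le_sum (t : ι → E) : ‖t‖ ^ 2 ≤ ∑ i, ‖t i‖ ^ 2 := by
  have hS : 0 ≤ ∑ i, ‖t i‖ ^ 2 := Finset.sum_nonneg (fun i _ => by positivity)
  have h : ‖t‖ ≤ √(∑ i, ‖t i‖ ^ 2) := by
    rw [pi_norm_le_iff_of_nonneg (Real.sqrt_nonneg _)]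
    intro i
    apply Real.le_sqrt_of_sq_le
    exact Finset.single_le_sum (f := fun i => ‖t i‖ ^ 2) (fun i _ => by positivity)
      (Finset.mem_univ i)
  calc ‖t‖ ^ 2 ≤ (√(∑ i, ‖t i‖ ^ 2)) ^ 2 := by gcongr
    _ = ∑ i, ‖t i‖ ^ 2 := Real.sq_sqrt hS

omit [FiniteDimensional ℝ E] [MeasurableSpace E] [BorelSpace E] in
lemma phi_zero (x : E) : phi (0 : ι → E) x = 0 := by
  apply le_antisymm
  · exact phi_le _ _ (fun i => by simp)
  · have h := inner_le_phi (0 : ι → E) x (Classical.arbitrary ι)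
    simpa using h

lemma J_zero : J (0 : ι → E) = 0 := by
  unfold J Phi
  simp [phi_zero]

lemma exists_max_J : ∃ t : ι → E, ∀ s : ι → E, J s ≤ J t := by
  haveI : ProperSpace E := FiniteDimensional.proper_real E
  set C : ℝ := ∫ x : E, ‖x‖ ∂(stdGaussian E) with hC
  have hC0 : 0 ≤ C := integral_nonneg (fun x => norm_nonneg x)
  have hcompact : IsCompact (Metric.closedBall (0 : ι → E) (2 * C)) := isCompact_closedBall _ _
  have hne : (Metric.closedBall (0 : ι → E) (2 * C)).Nonempty :=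
    Metric.nonempty_closedBall.mpr (by positivity)
  obtain ⟨t, htK, ht⟩ := hcompact.exists_isMaxOn hne (continuous_J.continuousOn)
  refine ⟨t, fun s => ?_⟩
  by_cases hs : s ∈ Metric.closedBall (0 : ι → E) (2 * C)
  · exact ht hs
  · have h0 : J (0 : ι → E) ≤ J t := ht (Metric.mem_closedBall_self (by positivity))
    rw [J_zero] at h0
    refine le_trans ?_ h0
    have hs2 : 2 * C < ‖s‖ := by
      simpa [Metric.mem_closedBall, dist_zero_right] using hs
    have h1 := Phi_le s
    have h2 := sq_norm_le_sum s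
    unfold J
    have h3 : 0 ≤ ‖s‖ := norm_nonneg s
    nlinarith

variable [LinearOrder ι]

/-- The cell where `i` is the first index achieving the maximum. -/
def cell (t : ι → E) (i : ι) : Set E :=
  {x | (∀ j, ⟪t j, x⟫ ≤ ⟪t i, x⟫) ∧ ∀ j, j < i → ⟪t j, x⟫ < ⟪t i, x⟫}

omit [Nonempty ι] in
lemma measurableSet_cell (t : ι → E) (i : ι) : MeasurableSet (cell t i) := by
  have h : cell t i = (⋂ j, {x | ⟪t j, x⟫ ≤ ⟪t i, x⟫}) ∩
      (⋂ j, ⋂ (_ : j < i), {x | ⟪t j, x⟫ < ⟪t i, x⟫}) := by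
    ext x
    simp [cell]
  rw [h]
  refine MeasurableSet.inter (MeasurableSet.iInter (fun j => ?_))
    (MeasurableSet.iInter (fun j => MeasurableSet.iInter (fun _ => ?_)))
  · exact measurableSet_le (measurable_inner_const _) (measurable_inner_const _)
  · exact measurableSet_lt (measurable_inner_const _) (measurable_inner_const _)

lemma isMeasPartition_cell (t : ι → E) : IsMeasPartition (cell t) := by
  refine ⟨measurableSet_cell t, fun i i' hii' => ?_, ?_⟩
  · change Disjoint _ _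
    rw [Set.disjoint_left]
    intro x hx hx'
    rcases lt_or_gt_of_ne hii' with h | h
    · exact absurd (hx'.2 i h) (not_lt.mpr (hx.1 i'))
    · exact absurd (hx.2 i' h) (not_lt.mpr (hx'.1 i))
  · apply Set.eq_univ_of_forall
    intro x
    classical
    set P : Finset ι := Finset.univ.filter (fun i => ⟪t i, x⟫ = phi t x) with hP
    have hPne : P.Nonempty := by
      obtain ⟨i, hi⟩ := exists_phi_eq t x
      exact ⟨i, by simp [hP, hi]⟩
    refine mem_iUnion.mpr ⟨P.min' hPne, ?_⟩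
    have hmem : P.min' hPne ∈ P := Finset.min'_mem _ _
    have hval : ⟪t (P.min' hPne), x⟫ = phi t x := by
      simpa [hP] using hmem
    constructor
    · intro j
      rw [hval]
      exact inner_le_phi t x j
    · intro j hj
      rw [hval]
      refine lt_of_le_of_ne (inner_le_phi t x j) (fun h => ?_)
      have hjP : j ∈ P := by simp [hP, h]
      exact absurd (Finset.min'_le _ _ hjP) (not_le.mpr hj)

omit [FiniteDimensional ℝ E] [MeasurableSpace E] [BorelSpace E] in
lemma phi_eq_of_mem_cell {t : ι → E} {i : ι} {x : E} (hx : x ∈ cell t i) :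
    phi t x = ⟪t i, x⟫ :=
  le_antisymm (phi_le t x hx.1) (inner_le_phi t x i)

omit [LinearOrder ι] in
/-- For a partition `B` with moments `y`, one has `∑‖y i‖² ≤ J y`. -/
lemma energy_le_J {B : ι → Set E} (hB : IsMeasPartition B) :
    momentEnergy B ≤ J (fun i => gaussMoment (B i)) := by
  set y : ι → E := fun i => gaussMoment (B i) with hy
  have h1 : ∑ i, ‖y i‖ ^ 2 ≤ Phi y := by
    rw [Phi, ← hB.sum_setIntegral (integrable_phi y)]
    refine Finset.sum_le_sum (fun i _ => ?_)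
    have h2 : ‖y i‖ ^ 2 = ∫ x in B i, ⟪y i, x⟫ ∂(stdGaussian E) := by
      rw [← inner_gaussMoment, real_inner_self_eq_norm_sq]
    rw [h2]
    exact setIntegral_mono (integrable_inner_std _).integrableOn (integrable_phi y).integrableOn
      (fun x => inner_le_phi y x i)
  unfold momentEnergy J
  linarith

/-- Existence of an optimal self-consistent configuration. -/
theorem exists_optimal : ∃ (t : ι → E) (A : ι → Set E), IsMeasPartition A ∧
    (∀ i, gaussMoment (A i) = t i) ∧ (∀ i j, ∀ x ∈ A i, ⟪t j, x⟫ ≤ ⟪t i, x⟫) ∧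
    ∀ B : ι → Set E, IsMeasPartition B → momentEnergy B ≤ ∑ i, ‖t i‖ ^ 2 := by
  obtain ⟨t, ht⟩ := exists_max_J (ι := ι) (E := E)
  set A := cell t with hA
  have hApart : IsMeasPartition A := isMeasPartition_cell t
  set z : ι → E := fun i => gaussMoment (A i) with hz
  have hPhi : Phi t = ∑ i, ⟪t i, z i⟫ := by
    rw [Phi, ← hApart.sum_setIntegral (integrable_phi t)]
    refine Finset.sum_congr rfl (fun i _ => ?_)
    rw [hz, inner_gaussMoment]
    exact setIntegral_congr_fun (measurableSet_cell t i) (fun x hx => phi_eq_of_mem_cell hx)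
  have hJt : J t = 2 * ∑ i, ⟪t i, z i⟫ - ∑ i, ‖t i‖ ^ 2 := by
    rw [J, hPhi]
  have h1 : ∑ i, ‖z i‖ ^ 2 ≤ J t := (energy_le_J hApart).trans (ht _)
  have h2 : ∑ i, ‖z i - t i‖ ^ 2 ≤ 0 := by
    have h3 : ∑ i, ‖z i - t i‖ ^ 2 = ∑ i, ‖z i‖ ^ 2 - 2 * ∑ i, ⟪t i, z i⟫ + ∑ i, ‖t i‖ ^ 2 := by
      rw [Finset.mul_sum, ← Finset.sum_sub_distrib, ← Finset.sum_add_distrib]
      refine Finset.sum_congr rfl (fun i _ => ?_)
      rw [norm_sub_sq_real, real_inner_comm]
    rw [h3]
    linarith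
  have hzt : ∀ i, z i = t i := by
    intro i
    have h4 : ‖z i - t i‖ ^ 2 ≤ 0 := by
      refine le_trans ?_ h2
      exact Finset.single_le_sum (f := fun i => ‖z i - t i‖ ^ 2) (fun i _ => by positivity)
        (Finset.mem_univ i)
    have h5 : ‖z i - t i‖ = 0 := by
      have h6 := sq_nonneg ‖z i - t i‖
      have h7 : ‖z i - t i‖ ^ 2 = 0 := le_antisymm h4 h6
      exact pow_eq_zero_iff (two_ne_zero) |>.mp h7
    exact sub_eq_zero.mp (norm_eq_zero.mp h5)
  have hJval : J t = ∑ i, ‖t i‖ ^ 2 := by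
    rw [hJt]
    have : ∑ i, ⟪t i, z i⟫ = ∑ i, ‖t i‖ ^ 2 := by
      refine Finset.sum_congr rfl (fun i _ => ?_)
      rw [hzt i, real_inner_self_eq_norm_sq]
    rw [this]
    ring
  refine ⟨t, A, hApart, hzt, fun i j x hx => hx.1 j, fun B hB => ?_⟩
  rw [← hJval]
  exact (energy_le_J hB).trans (ht _)

end Vale.Agent.Lib.P226
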