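import Vale.Agent.Lib.P226.Defs
import Vale.Agent.Lib.P226.Gauss

/-!
Partitions, first moments, coarsening.
-/

open MeasureTheory ProbabilityTheory Real Set
open scoped RealInnerProductSpace ENNReal NNReal

namespace Vale.Agent.Lib.P226

variable {E : Type*} [NormedAddCommGroup E] [InnerProductSpace ℝ E] [FiniteDimensional ℝ E]
  [MeasurableSpace E] [BorelSpace E]

lemma inner_gaussMoment (v : E) (A : Set E) :
    ⟪v, gaussMoment A⟫ = ∫ x in A, ⟪v, x⟫ ∂(stdGaussian E) := by
  rw [gaussMoment, integral_inner (integrable_id_std.integrableOn) v]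

variable {ι : Type*} [Fintype ι]

lemma IsMeasPartition.sum_setIntegral {F : Type*} [NormedAddCommGroup F] [NormedSpace ℝ F]
    {A : ι → Set E} (hA : IsMeasPartition A) {f : E → F}
    (hf : Integrable f (stdGaussian E)) :
    ∑ i, ∫ x in A i, f x ∂(stdGaussian E) = ∫ x, f x ∂(stdGaussian E) := by
  have h := integral_iUnion (f := f) (μ := stdGaussian E) hA.1 hA.2.1
    (by rw [hA.2.2]; exact hf.integrableOn)
  rw [hA.2.2, setIntegral_univ, tsum_fintype] at h
  exact h.symm

lemma IsMeasPartition.sum_real {A : ι → Set E} (hA : IsMeasPartition A) :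
    ∑ i, (stdGaussian E).real (A i) = 1 := by
  have h := hA.sum_setIntegral (f := fun _ => (1:ℝ)) (integrable_const _)
  simpa [measureReal_def] using h

lemma IsMeasPartition.sum_moment {A : ι → Set E} (hA : IsMeasPartition A) :
    ∑ i, gaussMoment (A i) = 0 := by
  have h := hA.sum_setIntegral (f := fun x => x) integrable_id_std
  simpa [gaussMoment] using h

lemma gaussMoment_of_real_eq_zero {A : Set E} (h : (stdGaussian E).real A = 0) :
    gaussMoment A = 0 := by
  have h2 : (stdGaussian E) A = 0 := by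
    rw [measureReal_def, ENNReal.toReal_eq_zero_iff] at h
    rcases h with h | h
    · exact h
    · exact absurd h (measure_ne_top _ _)
  rw [gaussMoment]
  exact setIntegral_measure_zero _ h2

/-- Level-one bound, squared form. -/
lemma norm_sq_moment_le {A : Set E} (hμ : 0 < (stdGaussian E).real A) :
    ‖gaussMoment A‖ ^ 2 ≤ 2 * (stdGaussian E).real A ^ 2 * Real.log ((stdGaussian E).real A)⁻¹ := by
  set μ := (stdGaussian E).real A with hμdef
  set z := gaussMoment A with hz
  have h := setIntegral_inner_le (μ⁻¹ • z) (A := A) hμ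
  rw [← hμdef] at h
  rw [← inner_gaussMoment, ← hz, inner_smul_left, real_inner_self_eq_norm_sq, norm_smul,
    norm_inv, Real.norm_of_nonneg hμ.le] at h
  simp only [conj_trivial] at h
  have h2 : μ * (μ⁻¹ * ‖z‖) ^ 2 = ‖z‖ ^ 2 / μ := by
    field_simp
  have h3 : μ⁻¹ * ‖z‖ ^ 2 = ‖z‖ ^ 2 / μ := by
    field_simp
  rw [mul_div_assoc', h2, h3] at h
  have h4 : ‖z‖ ^ 2 / μ / 2 ≤ μ * Real.log μ⁻¹ := by
    have : ‖z‖ ^ 2 / μ = ‖z‖ ^ 2 / μ / 2 + ‖z‖ ^ 2 / μ / 2 := by ring
    linarith
  have h5 : ‖z‖ ^ 2 / μ ≤ 2 * (μ * Real.log μ⁻¹) := by linarith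
  rw [div_le_iff₀ hμ] at h5
  calc ‖z‖ ^ 2 ≤ 2 * (μ * Real.log μ⁻¹) * μ := h5
    _ = 2 * μ ^ 2 * Real.log μ⁻¹ := by ring

/-- Coarsening a partition along a map of index sets. -/
def coarsen {κ : Type*} (f : ι → κ) (A : ι → Set E) (j : κ) : Set E := ⋃ i ∈ {i | f i = j}, A i

lemma IsMeasPartition.coarsen {κ : Type*} {A : ι → Set E} (hA : IsMeasPartition A) (f : ι → κ) :
    IsMeasPartition (coarsen f A) := by
  refine ⟨fun j => ?_, fun j j' hjj' => ?_, ?_⟩
  · exact MeasurableSet.biUnion (Set.to_countable _) (fun i _ => hA.1 i)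
  · change Disjoint _ _
    rw [Set.disjoint_left]
    intro x hx hx'
    simp only [Vale.Agent.Lib.P226.coarsen, mem_iUnion, exists_prop, Set.mem_ofPred_eq] at hx hx'
    obtain ⟨i, hi, hxi⟩ := hx
    obtain ⟨i', hi', hxi'⟩ := hx'
    have hii' : i = i' := by
      by_contra hne
      exact (Set.disjoint_left.mp (hA.2.1 hne)) hxi hxi'
    apply hjj'
    rw [← hi, ← hi', hii']
  · apply Set.eq_univ_of_forall
    intro x
    have hx : x ∈ ⋃ i, A i := by rw [hA.2.2]; exact mem_univ x
    obtain ⟨i, hi⟩ := mem_iUnion.mp hx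
    refine mem_iUnion.mpr ⟨f i, ?_⟩
    simp only [Vale.Agent.Lib.P226.coarsen, mem_iUnion, exists_prop, Set.mem_ofPred_eq]
    exact ⟨i, rfl, hi⟩

lemma gaussMoment_coarsen {κ : Type*} [DecidableEq κ] {A : ι → Set E} (hA : IsMeasPartition A)
    (f : ι → κ) (j : κ) :
    gaussMoment (coarsen f A j) = ∑ i with f i = j, gaussMoment (A i) := by
  classical
  rw [gaussMoment, Vale.Agent.Lib.P226.coarsen]
  have hcoe : (⋃ i ∈ {i | f i = j}, A i) = ⋃ i ∈ (Finset.univ.filter (fun i => f i = j)), A i := by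
    ext x
    simp
  rw [hcoe, integral_biUnion_finset _ (fun i _ => hA.1 i)
    (fun i _ i' _ hne => hA.2.1 hne) (fun i _ => integrable_id_std.integrableOn)]
  rfl

end Vale.Agent.Lib.P226
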