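import Vale.Agent.Lib.P226.Normal

/-!
The quantile function of the normal law and the Ehrhard mean.
-/

open MeasureTheory ProbabilityTheory Real Set Filter Topology

namespace Vale.Agent.Lib.P226

/-- The quantile function of the standard normal law. -/
noncomputable def nq (a : ℝ) : ℝ :=
  if h : 0 < a ∧ a < 1 then Classical.choose (exists_ncdf_eq h.1 h.2) else 0

lemma ncdf_nq {a : ℝ} (h0 : 0 < a) (h1 : a < 1) : ncdf (nq a) = a := by
  have h : 0 < a ∧ a < 1 := ⟨h0, h1⟩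
  rw [nq, dif_pos h]
  exact Classical.choose_spec (exists_ncdf_eq h.1 h.2)

lemma nq_ncdf (x : ℝ) : nq (ncdf x) = x :=
  strictMono_ncdf.injective (ncdf_nq (ncdf_pos x) (ncdf_lt_one x))

lemma nq_le_nq {a b : ℝ} (h0 : 0 < a) (hab : a ≤ b) (h1 : b < 1) : nq a ≤ nq b := by
  rw [← strictMono_ncdf.le_iff_le, ncdf_nq h0 (lt_of_le_of_lt hab h1),
    ncdf_nq (lt_of_lt_of_le h0 hab) h1]
  exact hab

lemma continuousAt_nq {a : ℝ} (h0 : 0 < a) (h1 : a < 1) : ContinuousAt nq a := by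
  rw [Metric.continuousAt_iff]
  intro ε hε
  have hl := strictMono_ncdf (show nq a - ε < nq a by linarith)
  have hu := strictMono_ncdf (show nq a < nq a + ε by linarith)
  rw [ncdf_nq h0 h1] at hl hu
  obtain ⟨δ, hδ, hδl, hδu⟩ : ∃ δ > 0, ncdf (nq a - ε) ≤ a - δ ∧ a + δ ≤ ncdf (nq a + ε) :=
    ⟨min (a - ncdf (nq a - ε)) (ncdf (nq a + ε) - a),
      lt_min (by linarith) (by linarith),
      by linarith [min_le_left (a - ncdf (nq a - ε)) (ncdf (nq a + ε) - a)],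
      by linarith [min_le_right (a - ncdf (nq a - ε)) (ncdf (nq a + ε) - a)]⟩
  refine ⟨δ, hδ, fun y hy => ?_⟩
  rw [Real.dist_eq, abs_lt] at hy ⊢
  have hy0 : 0 < y := by linarith [ncdf_pos (nq a - ε)]
  have hy1 : y < 1 := by linarith [ncdf_lt_one (nq a + ε)]
  constructor
  · have : nq a - ε < nq y := by
      rw [← strictMono_ncdf.lt_iff_lt, ncdf_nq hy0 hy1]
      linarith
    linarith
  · have : nq y < nq a + ε := by
      rw [← strictMono_ncdf.lt_iff_lt, ncdf_nq hy0 hy1]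
      linarith
    linarith

lemma hasDerivAt_nq {a : ℝ} (h0 : 0 < a) (h1 : a < 1) : HasDerivAt nq (1 / npdf (nq a)) a := by
  have h2 : HasDerivAt ncdf (npdf (nq a)) (nq a) := hasDerivAt_ncdf _
  have h3 := h2.of_local_left_inverse (f := ncdf) (g := nq) (a := a) (continuousAt_nq h0 h1)
    (npdf_pos _).ne' ?_
  · rwa [one_div]
  · filter_upwards [Ioo_mem_nhds h0 h1] with y hy
    exact ncdf_nq hy.1 hy.2

/-- The Ehrhard mean of two numbers of `[0,1)`. -/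
noncomputable def ehrM (θ x y : ℝ) : ℝ :=
  if 0 < x ∧ 0 < y then ncdf (θ * nq x + (1 - θ) * nq y) else 0

lemma ehrM_of_pos {θ x y : ℝ} (hx : 0 < x) (hy : 0 < y) :
    ehrM θ x y = ncdf (θ * nq x + (1 - θ) * nq y) := by
  rw [ehrM, if_pos ⟨hx, hy⟩]

lemma ehrM_of_left {θ x y : ℝ} (hx : x ≤ 0) : ehrM θ x y = 0 := by
  rw [ehrM, if_neg (fun h => absurd h.1 (not_lt.mpr hx))]

lemma ehrM_of_right {θ x y : ℝ} (hy : y ≤ 0) : ehrM θ x y = 0 := by
  rw [ehrM, if_neg (fun h => absurd h.2 (not_lt.mpr hy))]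

lemma ehrM_nonneg (θ x y : ℝ) : 0 ≤ ehrM θ x y := by
  unfold ehrM
  split_ifs
  · exact ncdf_nonneg _
  · exact le_rfl

lemma ehrM_ncdf (θ a b : ℝ) : ehrM θ (ncdf a) (ncdf b) = ncdf (θ * a + (1 - θ) * b) := by
  rw [ehrM_of_pos (ncdf_pos a) (ncdf_pos b), nq_ncdf, nq_ncdf]

lemma ehrM_mono {θ x x' y y' : ℝ} (hθ0 : 0 ≤ θ) (hθ1 : θ ≤ 1) (hxx : x ≤ x') (hyy : y ≤ y')
    (hx' : x' < 1) (hy' : y' < 1) : ehrM θ x y ≤ ehrM θ x' y' := by
  by_cases hx : 0 < x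
  · by_cases hy : 0 < y
    · rw [ehrM_of_pos hx hy, ehrM_of_pos (lt_of_lt_of_le hx hxx) (lt_of_lt_of_le hy hyy)]
      apply strictMono_ncdf.monotone
      have h1 := nq_le_nq hx hxx hx'
      have h2 := nq_le_nq hy hyy hy'
      have h3 : θ * nq x ≤ θ * nq x' := mul_le_mul_of_nonneg_left h1 hθ0
      have h4 : (1 - θ) * nq y ≤ (1 - θ) * nq y' := mul_le_mul_of_nonneg_left h2 (by linarith)
      linarith
    · rw [ehrM_of_right (not_lt.mp hy)]
      exact ehrM_nonneg _ _ _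
  · rw [ehrM_of_left (not_lt.mp hx)]
    exact ehrM_nonneg _ _ _

/-- The mean is small if its first argument is small. -/
lemma ehrM_small_left {θ η ε : ℝ} (hθ0 : 0 < θ) (hθ1 : θ < 1) (hη0 : 0 < η) (hη1 : η < 1)
    (hε : 0 < ε) : ∃ ε₁ > 0, ∀ x y, x < ε₁ → y ≤ 1 - η → ehrM θ x y < ε := by
  obtain ⟨L, hL⟩ : ∃ L, ncdf L < ε := by
    have := (tendsto_ncdf_atBot.eventually (gt_mem_nhds hε)).exists
    exact this
  set Q₀ := nq (1 - η) with hQ₀
  refine ⟨ncdf ((L - (1 - θ) * Q₀) / θ), ncdf_pos _, fun x y hx hy => ?_⟩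
  by_cases hx0 : 0 < x
  · by_cases hy0 : 0 < y
    · rw [ehrM_of_pos hx0 hy0]
      have hx1 : x < 1 := hx.trans (ncdf_lt_one _)
      have h1 : nq x < (L - (1 - θ) * Q₀) / θ := by
        rw [← strictMono_ncdf.lt_iff_lt, ncdf_nq hx0 hx1]
        exact hx
      rw [lt_div_iff₀ hθ0] at h1
      have h2 : nq y ≤ Q₀ := nq_le_nq hy0 hy (by linarith)
      have h3 : (1 - θ) * nq y ≤ (1 - θ) * Q₀ := mul_le_mul_of_nonneg_left h2 (by linarith)
      have h4 : θ * nq x + (1 - θ) * nq y < L := by linarith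
      exact (strictMono_ncdf h4).trans hL
    · rw [ehrM_of_right (not_lt.mp hy0)]
      exact hε
  · rw [ehrM_of_left (not_lt.mp hx0)]
    exact hε

lemma ehrM_symm (θ x y : ℝ) : ehrM θ x y = ehrM (1 - θ) y x := by
  unfold ehrM
  by_cases h : 0 < x ∧ 0 < y
  · rw [if_pos h, if_pos ⟨h.2, h.1⟩]
    congr 1
    ring
  · rw [if_neg h, if_neg (fun h' => h ⟨h'.2, h'.1⟩)]

lemma ehrM_small_right {θ η ε : ℝ} (hθ0 : 0 < θ) (hθ1 : θ < 1) (hη0 : 0 < η) (hη1 : η < 1)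
    (hε : 0 < ε) : ∃ ε₁ > 0, ∀ x y, y < ε₁ → x ≤ 1 - η → ehrM θ x y < ε := by
  obtain ⟨ε₁, h1, h2⟩ := ehrM_small_left (θ := 1 - θ) (by linarith) (by linarith) hη0 hη1 hε
  refine ⟨ε₁, h1, fun x y hy hx => ?_⟩
  rw [ehrM_symm]
  exact h2 y x hy hx

/-- The continuity of the Ehrhard mean on a square. -/
lemma continuousOn_ehrM {θ η : ℝ} (hθ0 : 0 < θ) (hθ1 : θ < 1) (hη0 : 0 < η) (hη1 : η < 1) :
    ContinuousOn (fun p : ℝ × ℝ => ehrM θ p.1 p.2) (Icc 0 (1 - η) ×ˢ Icc 0 (1 - η)) := by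
  rintro ⟨x, y⟩ ⟨hx, hy⟩
  simp only [mem_Icc] at hx hy
  rcases hx.1.eq_or_lt with hx0 | hx0
  · -- the left boundary
    rw [Metric.continuousWithinAt_iff]
    intro ε hε
    obtain ⟨ε₁, hε₁, h⟩ := ehrM_small_left hθ0 hθ1 hη0 hη1 hε
    refine ⟨ε₁, hε₁, ?_⟩
    rintro ⟨x', y'⟩ ⟨hx', hy'⟩ hd
    simp only [mem_Icc] at hx' hy'
    simp only [← hx0, ehrM_of_left le_rfl, dist_zero_right, Real.norm_eq_abs,
      abs_of_nonneg (ehrM_nonneg θ x' y')]
    refine h x' y' ?_ hy'.2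
    rw [Prod.dist_eq, max_lt_iff, Real.dist_eq, ← hx0, sub_zero, abs_of_nonneg hx'.1] at hd
    exact hd.1
  rcases hy.1.eq_or_lt with hy0 | hy0
  · -- the lower boundary
    rw [Metric.continuousWithinAt_iff]
    intro ε hε
    obtain ⟨ε₁, hε₁, h⟩ := ehrM_small_right hθ0 hθ1 hη0 hη1 hε
    refine ⟨ε₁, hε₁, ?_⟩
    rintro ⟨x', y'⟩ ⟨hx', hy'⟩ hd
    simp only [mem_Icc] at hx' hy'
    simp only [← hy0, ehrM_of_right le_rfl, dist_zero_right, Real.norm_eq_abs,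
      abs_of_nonneg (ehrM_nonneg θ x' y')]
    refine h x' y' ?_ hx'.2
    rw [Prod.dist_eq, max_lt_iff, Real.dist_eq (y'), ← hy0, sub_zero, abs_of_nonneg hy'.1] at hd
    exact hd.2
  · -- the interior
    have hx1 : x < 1 := by linarith [hx.2]
    have hy1 : y < 1 := by linarith [hy.2]
    have h1 : ContinuousAt (fun p : ℝ × ℝ => ncdf (θ * nq p.1 + (1 - θ) * nq p.2)) (x, y) := by
      refine continuous_ncdf.continuousAt.comp ?_
      refine (continuousAt_const.mul ?_).add (continuousAt_const.mul ?_)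
      · exact ContinuousAt.comp (f := Prod.fst) (g := nq) (continuousAt_nq hx0 hx1) continuousAt_fst
      · exact ContinuousAt.comp (f := Prod.snd) (g := nq) (continuousAt_nq hy0 hy1) continuousAt_snd
    have h2 : (fun p : ℝ × ℝ => ehrM θ p.1 p.2) =ᶠ[𝓝 (x, y)]
        (fun p : ℝ × ℝ => ncdf (θ * nq p.1 + (1 - θ) * nq p.2)) := by
      have h3 : {p : ℝ × ℝ | 0 < p.1 ∧ 0 < p.2} ∈ 𝓝 (x, y) :=
        (isOpen_lt continuous_const continuous_fst).inter (isOpen_lt continuous_const continuous_snd)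
          |>.mem_nhds ⟨hx0, hy0⟩
      filter_upwards [h3] with p hp
      exact ehrM_of_pos hp.1 hp.2
    exact (h1.congr h2.symm).continuousWithinAt

end Vale.Agent.Lib.P226
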