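import Vale.Agent.Lib.P226.Wall

/-!
The Gaussian measure of a two dimensional sector.
-/

open MeasureTheory ProbabilityTheory Real Set
open scoped RealInnerProductSpace ENNReal NNReal

namespace Vale.Agent.Lib.P226

/-- `∫₀^∞ r e^{-r²/2} dr = 1`. -/
lemma lintegral_radial :
    ∫⁻ r in Ioi (0:ℝ), ENNReal.ofReal (r * rexp (-r ^ 2 / 2)) = 1 := by
  have hF : ∀ r ∈ Ici (0:ℝ), HasDerivAt (fun r : ℝ => -rexp (-r ^ 2 / 2)) (r * rexp (-r ^ 2 / 2)) r := by
    intro r _
    have h : HasDerivAt (fun x : ℝ => -x ^ 2 / 2) (-r) r := by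
      have h0 : HasDerivAt (fun x : ℝ => x ^ 2) (2 * r) r := by
        simpa using hasDerivAt_pow 2 r
      have h2 := (h0.neg).div_const 2
      have e : -(2 * r) / 2 = -r := by ring
      rw [e] at h2
      exact h2
    have h2 := (h.exp).neg
    have e : -(rexp (-r ^ 2 / 2) * -r) = r * rexp (-r ^ 2 / 2) := by ring
    rw [e] at h2
    exact h2
  have hcont : ContinuousWithinAt (fun r : ℝ => -rexp (-r ^ 2 / 2)) (Ici 0) 0 := by
    apply Continuous.continuousWithinAt
    fun_prop
  have hlim : Filter.Tendsto (fun r : ℝ => -rexp (-r ^ 2 / 2)) Filter.atTop (nhds 0) := by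
    have h1 : Filter.Tendsto (fun r : ℝ => r ^ 2 / 2) Filter.atTop Filter.atTop :=
      (Filter.tendsto_pow_atTop two_ne_zero).atTop_div_const (by norm_num)
    have h2 : Filter.Tendsto (fun r : ℝ => rexp (-(r ^ 2 / 2))) Filter.atTop (nhds 0) :=
      Real.tendsto_exp_neg_atTop_nhds_zero.comp h1
    have h3 := h2.neg
    simp only [neg_zero] at h3
    refine h3.congr (fun r => ?_)
    congr 2
    ring
  have hnn : ∀ r ∈ Ioi (0:ℝ), 0 ≤ r * rexp (-r ^ 2 / 2) := by
    intro r hr
    have : 0 < r := hr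
    positivity
  have hint := integrableOn_Ioi_deriv_of_nonneg hcont (fun r hr => hF r (Ioi_subset_Ici_self (by
    simpa using hr))) hnn hlim
  have hval := integral_Ioi_of_hasDerivAt_of_nonneg hcont (fun r hr => hF r (Ioi_subset_Ici_self (by
    simpa using hr))) hnn hlim
  rw [← ofReal_integral_eq_lintegral_ofReal hint
    ((ae_restrict_iff' measurableSet_Ioi).mpr (Filter.Eventually.of_forall hnn)), hval]
  simp

/-- The product density formula. -/
lemma prod_gaussian_apply {R : Set (ℝ × ℝ)} (hR : MeasurableSet R) :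
    ((gaussianReal 0 1).prod (gaussianReal 0 1)) R
      = ∫⁻ z : ℝ × ℝ, R.indicator (fun z => gaussianPDF 0 1 z.1 * gaussianPDF 0 1 z.2) z := by
  have h1 : (gaussianReal (0:ℝ) 1) = volume.withDensity (gaussianPDF 0 1) :=
    gaussianReal_of_var_ne_zero 0 (by simp)
  rw [h1, prod_withDensity (measurable_gaussianPDF 0 1) (measurable_gaussianPDF 0 1),
    withDensity_apply _ hR, lintegral_indicator hR, Measure.volume_eq_prod]

lemma gaussianPDF_mul_polar (r θ : ℝ) :
    gaussianPDF 0 1 (r * cos θ) * gaussianPDF 0 1 (r * sin θ)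
      = ENNReal.ofReal (1 / (2 * π) * rexp (-r ^ 2 / 2)) := by
  rw [gaussianPDF, gaussianPDF, ← ENNReal.ofReal_mul (gaussianPDFReal_nonneg _ _ _), ← npdf_eq,
    ← npdf_eq]
  congr 1
  unfold npdf
  have h1 : (√(2 * π))⁻¹ * rexp (-(r * cos θ) ^ 2 / 2) * ((√(2 * π))⁻¹ * rexp (-(r * sin θ) ^ 2 / 2))
      = ((√(2 * π))⁻¹ * (√(2 * π))⁻¹) *
        (rexp (-(r * cos θ) ^ 2 / 2) * rexp (-(r * sin θ) ^ 2 / 2)) := by ring
  rw [h1, ← Real.exp_add]
  have h2 : -(r * cos θ) ^ 2 / 2 + -(r * sin θ) ^ 2 / 2 = -r ^ 2 / 2 := by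
    have := Real.sin_sq_add_cos_sq θ
    have h3 : (r * cos θ) ^ 2 + (r * sin θ) ^ 2 = r ^ 2 * (sin θ ^ 2 + cos θ ^ 2) := by ring
    rw [this, mul_one] at h3
    linarith
  rw [h2]
  congr 1
  rw [← mul_inv, Real.mul_self_sqrt (by positivity)]
  simp

/-- Upper bound for a plane sector: if `A, B > 0`. -/
lemma prod_sector_le {A B : ℝ} (hA : 0 < A) (hB : 0 < B) :
    ((gaussianReal 0 1).prod (gaussianReal 0 1)) {p : ℝ × ℝ | 0 ≤ p.1 ∧ A * p.1 ≤ B * p.2}
      ≤ ENNReal.ofReal (arctan (B / A) / (2 * π)) := by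
  set R : Set (ℝ × ℝ) := {p : ℝ × ℝ | 0 ≤ p.1 ∧ A * p.1 ≤ B * p.2} with hRdef
  have hR : MeasurableSet R := by
    apply MeasurableSet.inter
    · exact measurableSet_le measurable_const measurable_fst
    · exact measurableSet_le (measurable_const.mul measurable_fst)
        (measurable_const.mul measurable_snd)
  set θ₀ : ℝ := arctan (A / B) with hθ₀
  have hθ₀pos : 0 < θ₀ := Real.arctan_pos.mpr (by positivity)
  have hθ₀lt : θ₀ < π / 2 := Real.arctan_lt_pi_div_two _
  set d : ℝ × ℝ → ℝ≥0∞ := fun z => gaussianPDF 0 1 z.1 * gaussianPDF 0 1 z.2 with hd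
  rw [prod_gaussian_apply hR, ← lintegral_comp_polarCoord_symm]
  set g : ℝ → ℝ≥0∞ := fun r => (Ioi (0:ℝ)).indicator
    (fun r => ENNReal.ofReal (1 / (2 * π)) * ENNReal.ofReal (r * rexp (-r ^ 2 / 2))) r with hg
  set f : ℝ → ℝ≥0∞ := (Icc θ₀ (π / 2)).indicator (fun _ => 1) with hf
  have hpt : ∀ q ∈ polarCoord.target, ENNReal.ofReal q.1 • R.indicator d (polarCoord.symm q)
      ≤ g q.1 * f q.2 := by
    intro q hq
    rw [polarCoord_target] at hq
    have hr : 0 < q.1 := hq.1
    have hθ1 : -π < q.2 := hq.2.1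
    have hθ2 : q.2 < π := hq.2.2
    by_cases hmem : polarCoord.symm q ∈ R
    · rw [indicator_of_mem hmem]
      have hsym : polarCoord.symm q = (q.1 * cos q.2, q.1 * sin q.2) := rfl
      rw [hsym] at hmem ⊢
      have hm1 : 0 ≤ q.1 * cos q.2 := hmem.1
      have hm2 : A * (q.1 * cos q.2) ≤ B * (q.1 * sin q.2) := hmem.2
      have hcos : 0 ≤ cos q.2 := nonneg_of_mul_nonneg_right hm1 hr
      have hm3 : A * cos q.2 ≤ B * sin q.2 := by
        have : q.1 * (A * cos q.2) ≤ q.1 * (B * sin q.2) := by nlinarith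
        exact le_of_mul_le_mul_left this hr
      have hsin : 0 ≤ sin q.2 := by
        have : 0 ≤ B * sin q.2 := le_trans (by positivity) hm3
        exact nonneg_of_mul_nonneg_right this hB
      have hθ3 : 0 ≤ q.2 := by
        by_contra hneg
        push Not at hneg
        have := Real.sin_neg_of_neg_of_neg_pi_lt hneg hθ1
        linarith
      have hθ4 : q.2 ≤ π / 2 := by
        by_contra hgt
        push Not at hgt
        have := Real.cos_neg_of_pi_div_two_lt_of_lt hgt (by linarith)
        linarith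
      have hθ5 : θ₀ ≤ q.2 := by
        rcases hθ4.lt_or_eq with hlt | heq
        · have hcospos : 0 < cos q.2 := Real.cos_pos_of_mem_Ioo ⟨by linarith, hlt⟩
          have htan : A / B ≤ tan q.2 := by
            rw [Real.tan_eq_sin_div_cos, div_le_div_iff₀ hB hcospos]
            linarith
          have h2 : arctan (A / B) ≤ arctan (tan q.2) := Real.arctan_mono htan
          rwa [Real.arctan_tan (by linarith) hlt] at h2
        · rw [heq]; exact hθ₀lt.le
      have hgval : g q.1 = ENNReal.ofReal (1 / (2 * π)) * ENNReal.ofReal (q.1 * rexp (-q.1 ^ 2 / 2)) := by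
        simp only [hg]
        rw [indicator_of_mem (show q.1 ∈ Ioi (0:ℝ) from hr)]
      have hfval : f q.2 = 1 := by
        simp only [hf]
        rw [indicator_of_mem (show q.2 ∈ Icc θ₀ (π / 2) from ⟨hθ5, hθ4⟩)]
      rw [hgval, hfval, mul_one]
      simp only [hd, smul_eq_mul]
      rw [gaussianPDF_mul_polar, ← ENNReal.ofReal_mul hr.le, ← ENNReal.ofReal_mul (by positivity)]
      apply ENNReal.ofReal_le_ofReal
      apply le_of_eq
      ring
    · rw [indicator_of_notMem hmem, smul_zero]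
      exact bot_le
  have hmeas : MeasurableSet polarCoord.target := by
    rw [polarCoord_target]
    exact measurableSet_Ioi.prod measurableSet_Ioo
  calc ∫⁻ q in polarCoord.target, ENNReal.ofReal q.1 • R.indicator d (polarCoord.symm q)
      ≤ ∫⁻ q in polarCoord.target, g q.1 * f q.2 := setLIntegral_mono' hmeas hpt
    _ ≤ ∫⁻ q : ℝ × ℝ, g q.1 * f q.2 := setLIntegral_le_lintegral _ _
    _ = (∫⁻ r, g r) * ∫⁻ θ, f θ := by
        rw [Measure.volume_eq_prod]
        apply lintegral_prod_mul
        · exact (Measurable.indicator (by fun_prop) measurableSet_Ioi).aemeasurable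
        · exact (Measurable.indicator measurable_const measurableSet_Icc).aemeasurable
    _ = ENNReal.ofReal (arctan (B / A) / (2 * π)) := by
        have hg1 : ∫⁻ r, g r = ENNReal.ofReal (1 / (2 * π)) := by
          simp only [hg]
          rw [lintegral_indicator measurableSet_Ioi, lintegral_const_mul' _ _ ENNReal.ofReal_ne_top,
            lintegral_radial, mul_one]
        have hf1 : ∫⁻ θ, f θ = ENNReal.ofReal (π / 2 - θ₀) := by
          simp only [hf]
          rw [lintegral_indicator measurableSet_Icc]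
          simp
        rw [hg1, hf1, ← ENNReal.ofReal_mul (by positivity)]
        congr 1
        have h2 : arctan (B / A) = π / 2 - θ₀ := by
          have := Real.arctan_inv_of_pos (x := A / B) (by positivity)
          rw [inv_div] at this
          exact this
        rw [h2]
        ring

variable {E : Type*} [NormedAddCommGroup E] [InnerProductSpace ℝ E] [FiniteDimensional ℝ E]
  [MeasurableSpace E] [BorelSpace E]

/-- The sector bound. -/
theorem sec_le {v w : E} (hv : v ≠ 0) {A B : ℝ} (hA : 0 < A) (hB : 0 ≤ B)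
    (h1 : ⟪v, w⟫ = -(A * ‖v‖)) (h2 : ‖w‖ ^ 2 = A ^ 2 + B ^ 2) :
    sec v w ≤ arctan (B / A) / (2 * π) := by
  have hn : 0 < ‖v‖ := norm_pos_iff.mpr hv
  set e : E := ‖v‖⁻¹ • v with he
  have hen : ‖e‖ = 1 := by
    rw [he, norm_smul, norm_inv, norm_norm, inv_mul_cancel₀ hn.ne']
  have hve : v = ‖v‖ • e := by
    rw [he, smul_smul, mul_inv_cancel₀ hn.ne', one_smul]
  have hew : ⟪e, w⟫ = -A := by
    rw [he, inner_smul_left, h1]
    simp only [conj_trivial]
    field_simp
  set b : E := w + A • e with hb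
  have hbe : ⟪e, b⟫ = 0 := by
    rw [hb, inner_add_right, inner_smul_right, real_inner_self_eq_norm_sq, hen, hew]
    ring
  have hbn : ‖b‖ ^ 2 = B ^ 2 := by
    rw [hb, norm_add_sq_real, norm_smul, real_inner_smul_right, real_inner_comm, hew, hen, h2]
    rw [Real.norm_of_nonneg hA.le]
    ring
  have hbn' : ‖b‖ = B := by
    have h3 : (‖b‖ - B) * (‖b‖ + B) = 0 := by nlinarith
    rcases mul_eq_zero.mp h3 with h4 | h4
    · linarith
    · have := norm_nonneg b
      nlinarith
  have hvx : ∀ x, ⟪v, x⟫ = ‖v‖ * ⟪e, x⟫ := by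
    intro x
    conv_lhs => rw [hve]
    rw [real_inner_smul_left]
  rcases hB.eq_or_lt with hB0 | hBpos
  · -- the degenerate case
    have hb0 : b = 0 := by
      rw [← norm_eq_zero, hbn', ← hB0]
    have hw : w = -(A • e) := by
      rw [hb] at hb0
      exact eq_neg_of_add_eq_zero_left hb0
    have hsub : {x : E | 0 ≤ ⟪v, x⟫ ∧ 0 ≤ ⟪w, x⟫} ⊆ {x | ⟪e, x⟫ = 0} := by
      rintro x ⟨hx1, hx2⟩
      rw [hvx] at hx1
      rw [hw, inner_neg_left, real_inner_smul_left] at hx2
      have h3 : 0 ≤ ⟪e, x⟫ := nonneg_of_mul_nonneg_right hx1 hn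
      have h4 : ⟪e, x⟫ ≤ 0 := by
        by_contra hc
        push Not at hc
        have : 0 < A * ⟪e, x⟫ := by positivity
        linarith
      exact le_antisymm h4 h3
    have he0 : e ≠ 0 := by
      intro h
      rw [h, norm_zero] at hen
      exact zero_ne_one hen
    have hnull := real_hyperplane_eq_zero he0
    have h5 : (stdGaussian E) {x : E | 0 ≤ ⟪v, x⟫ ∧ 0 ≤ ⟪w, x⟫} = 0 := measure_mono_null hsub hnull
    have h6 : sec v w = 0 := by
      unfold sec
      rw [measureReal_def, h5]
      simp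
    rw [h6, ← hB0]
    simp
  · -- the main case
    set f : E := B⁻¹ • b with hf
    have hfn : ‖f‖ = 1 := by
      rw [hf, norm_smul, norm_inv, Real.norm_of_nonneg hBpos.le, hbn', inv_mul_cancel₀ hBpos.ne']
    have hef : ⟪e, f⟫ = 0 := by
      rw [hf, inner_smul_right, hbe, mul_zero]
    have hwx : ∀ x, ⟪w, x⟫ = -A * ⟪e, x⟫ + B * ⟪f, x⟫ := by
      intro x
      have h3 : w = b - A • e := by rw [hb]; abel
      have h4 : b = B • f := by
        rw [hf, smul_smul, mul_inv_cancel₀ hBpos.ne', one_smul]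
      rw [h3, inner_sub_left, real_inner_smul_left, h4, real_inner_smul_left]
      ring
    have hmap := map_prod_inner_std hen hfn hef
    set R : Set (ℝ × ℝ) := {p : ℝ × ℝ | 0 ≤ p.1 ∧ A * p.1 ≤ B * p.2} with hRdef
    have hR : MeasurableSet R := by
      apply MeasurableSet.inter
      · exact measurableSet_le measurable_const measurable_fst
      · exact measurableSet_le (measurable_const.mul measurable_fst)
          (measurable_const.mul measurable_snd)
    have hset : {x : E | 0 ≤ ⟪v, x⟫ ∧ 0 ≤ ⟪w, x⟫} = (fun x => (⟪e, x⟫, ⟪f, x⟫)) ⁻¹' R := by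
      ext x
      simp only [Set.mem_ofPred_eq, mem_preimage, hRdef, hvx x, hwx x]
      constructor
      · rintro ⟨h3, h4⟩
        exact ⟨nonneg_of_mul_nonneg_right h3 hn, by linarith⟩
      · rintro ⟨h3, h4⟩
        exact ⟨by positivity, by linarith⟩
    have hmeasf : Measurable (fun x : E => (⟪e, x⟫, ⟪f, x⟫)) :=
      (measurable_inner_const e).prodMk (measurable_inner_const f)
    unfold sec
    rw [hset, ← map_measureReal_apply hmeasf hR, hmap, measureReal_def]
    have h7 := prod_sector_le hA hBpos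
    refine ENNReal.toReal_le_of_le_ofReal ?_ h7
    have := Real.arctan_nonneg (x := B / A) |>.mpr (by positivity)
    positivity

end Vale.Agent.Lib.P226
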