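import Vale.Agent.Lib.P226.Maximizer

/-!
Structure of optimal configurations: sum zero, pairwise obtuse, and the elementary estimates.
-/

open MeasureTheory ProbabilityTheory Real Set
open scoped RealInnerProductSpace ENNReal NNReal

namespace Vale.Agent.Lib.P226

variable {E : Type*} [NormedAddCommGroup E] [InnerProductSpace ℝ E] [FiniteDimensional ℝ E]
  [MeasurableSpace E] [BorelSpace E]

variable {ι : Type*} [Fintype ι]

/-- One-dimensional bound: for any partition and any unit vector `u`,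
`∑ ⟨u, z(A i)⟩² ≤ 1/π`. -/
lemma sum_inner_sq_le [Nonempty ι] {A : ι → Set E} (hA : IsMeasPartition A) {u : E}
    (hu : ‖u‖ = 1) : ∑ i, ⟪u, gaussMoment (A i)⟫ ^ 2 ≤ 1 / π := by
  classical
  set a : ι → ℝ := fun i => ⟪u, gaussMoment (A i)⟫ with ha
  set S := ∑ i, a i ^ 2 with hS
  have hS0 : 0 ≤ S := Finset.sum_nonneg (fun i _ => sq_nonneg _)
  obtain ⟨ip, -, hip⟩ := Finset.exists_max_image Finset.univ a Finset.univ_nonempty
  obtain ⟨im, -, him⟩ := Finset.exists_min_image Finset.univ a Finset.univ_nonempty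
  set G : E → ℝ := fun x => a ip * max ⟪u, x⟫ 0 + (- a im) * max ⟪-u, x⟫ 0 with hG
  have hGint : Integrable G (stdGaussian E) :=
    ((integrable_max_inner u).const_mul _).add ((integrable_max_inner (-u)).const_mul _)
  have hGval : ∫ x, G x ∂(stdGaussian E) = (a ip - a im) / √(2 * π) := by
    rw [hG, integral_add ((integrable_max_inner u).const_mul _)
      ((integrable_max_inner (-u)).const_mul _), integral_const_mul, integral_const_mul,
      integral_max_inner, integral_max_inner, norm_neg, hu]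
    ring
  have hpt : ∀ i x, a i * ⟪u, x⟫ ≤ G x := by
    intro i x
    simp only [hG, inner_neg_left]
    rcases le_total 0 ⟪u, x⟫ with h | h
    · rw [max_eq_left h, max_eq_right (by linarith)]
      nlinarith [hip i (Finset.mem_univ i)]
    · rw [max_eq_right h, max_eq_left (by linarith)]
      nlinarith [him i (Finset.mem_univ i)]
  have h1 : S ≤ (a ip - a im) / √(2 * π) := by
    rw [← hGval, ← hA.sum_setIntegral hGint, hS]
    refine Finset.sum_le_sum (fun i _ => ?_)
    have h2 : a i ^ 2 = ∫ x in A i, a i * ⟪u, x⟫ ∂(stdGaussian E) := by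
      rw [integral_const_mul, ← inner_gaussMoment]
      simp only [ha]
      ring
    rw [h2]
    exact setIntegral_mono (((integrable_inner_std u).const_mul _).integrableOn)
      hGint.integrableOn (hpt i)
  have h2 : (a ip - a im) ^ 2 ≤ 2 * S := by
    by_cases hne : ip = im
    · rw [hne]
      simp only [sub_self]
      have : (0:ℝ) ^ 2 = 0 := by norm_num
      rw [this]
      linarith
    · have h3 : a ip ^ 2 + a im ^ 2 ≤ S :=
        Finset.add_le_sum (f := fun i => a i ^ 2) (fun i _ => sq_nonneg _)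
          (Finset.mem_univ ip) (Finset.mem_univ im) hne
      nlinarith [sq_nonneg (a ip + a im)]
  have hsq : √(2 * π) ^ 2 = 2 * π := Real.sq_sqrt (by positivity)
  have h3 : S ^ 2 ≤ (a ip - a im) ^ 2 / (2 * π) := by
    have h4 := pow_le_pow_left₀ hS0 h1 2
    rwa [div_pow, hsq] at h4
  have h5 : S ^ 2 ≤ S / π := by
    refine h3.trans ?_
    rw [div_le_div_iff₀ (by positivity) Real.pi_pos]
    nlinarith [Real.pi_pos]
  by_cases hS1 : S = 0
  · rw [hS1]; positivity
  · have hSpos : 0 < S := lt_of_le_of_ne hS0 (Ne.symm hS1)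
    have h6 : S * S ≤ 1 / π * S := by
      calc S * S = S ^ 2 := by ring
        _ ≤ S / π := h5
        _ = 1 / π * S := by ring
    exact le_of_mul_le_mul_right h6 hSpos

/-- Monotonicity of `μ ↦ μ log (1/μ)` for small `μ`. -/
lemma mul_log_inv_le {m ms : ℝ} (hm : 0 < m) (h : m ≤ ms) (hs : 1 ≤ Real.log ms⁻¹) :
    m * Real.log m⁻¹ ≤ ms * Real.log ms⁻¹ := by
  have hms : 0 < ms := lt_of_lt_of_le hm h
  have h1 : Real.log m⁻¹ = Real.log ms⁻¹ + Real.log (ms / m) := by
    rw [Real.log_inv, Real.log_inv, Real.log_div hms.ne' hm.ne']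
    ring
  have h2 : Real.log (ms / m) ≤ ms / m - 1 := Real.log_le_sub_one_of_pos (by positivity)
  have h3 : m * (ms / m - 1) = ms - m := by
    field_simp
  calc m * Real.log m⁻¹ = m * Real.log ms⁻¹ + m * Real.log (ms / m) := by rw [h1]; ring
    _ ≤ m * Real.log ms⁻¹ + m * (ms / m - 1) := by gcongr
    _ = m * (Real.log ms⁻¹ - 1) + ms := by rw [h3]; ring
    _ ≤ ms * (Real.log ms⁻¹ - 1) + ms := by
        have : 0 ≤ Real.log ms⁻¹ - 1 := by linarith
        gcongr
    _ = ms * Real.log ms⁻¹ := by ring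

/-- Small moments carry little total mass. -/
lemma sum_sq_le_of_le {A : ι → Set E} (hA : IsMeasPartition A) {ρ : ι → ℝ}
    (hρ0 : ∀ i, 0 ≤ ρ i) (hρt : ∀ i, ρ i ≤ ‖gaussMoment (A i)‖) {η ms Θ : ℝ}
    (hρη : ∀ i, ρ i ≤ η) (hms : 0 < ms) (hlog : 1 ≤ Real.log ms⁻¹) (h1 : η ^ 2 ≤ Θ * ms)
    (h2 : 2 * (ms * Real.log ms⁻¹) ≤ Θ) : ∑ i, ρ i ^ 2 ≤ Θ := by
  have hΘ : 0 ≤ Θ := by
    have : 0 ≤ ms * Real.log ms⁻¹ := mul_nonneg hms.le (by linarith)
    linarith
  have hterm : ∀ i, ρ i ^ 2 ≤ Θ * (stdGaussian E).real (A i) := by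
    intro i
    set m := (stdGaussian E).real (A i) with hm
    have hm0 : 0 ≤ m := measureReal_nonneg
    by_cases hm1 : m = 0
    · have h3 : gaussMoment (A i) = 0 := gaussMoment_of_real_eq_zero hm1
      have h4 := hρt i
      rw [h3, norm_zero] at h4
      have h5 : ρ i = 0 := le_antisymm h4 (hρ0 i)
      rw [h5, hm1]
      simp
    · have hmpos : 0 < m := lt_of_le_of_ne hm0 (Ne.symm hm1)
      by_cases hcase : ms ≤ m
      · calc ρ i ^ 2 ≤ η ^ 2 := pow_le_pow_left₀ (hρ0 i) (hρη i) 2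
          _ ≤ Θ * ms := h1
          _ ≤ Θ * m := by gcongr
      · have hlt : m ≤ ms := (not_le.mp hcase).le
        have h3 := norm_sq_moment_le (A := A i) hmpos
        rw [← hm] at h3
        have h4 := mul_log_inv_le hmpos hlt hlog
        calc ρ i ^ 2 ≤ ‖gaussMoment (A i)‖ ^ 2 := pow_le_pow_left₀ (hρ0 i) (hρt i) 2
          _ ≤ 2 * m ^ 2 * Real.log m⁻¹ := h3
          _ = 2 * (m * Real.log m⁻¹) * m := by ring
          _ ≤ 2 * (ms * Real.log ms⁻¹) * m := by gcongr
          _ ≤ Θ * m := by gcongr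
  calc ∑ i, ρ i ^ 2 ≤ ∑ i, Θ * (stdGaussian E).real (A i) :=
        Finset.sum_le_sum (fun i _ => hterm i)
    _ = Θ := by rw [← Finset.mul_sum, hA.sum_real, mul_one]

/-- The data of an optimal self-consistent configuration. -/
structure IsOptimal (t : ι → E) (A : ι → Set E) : Prop where
  part : IsMeasPartition A
  moment : ∀ i, gaussMoment (A i) = t i
  max_on : ∀ i j, ∀ x ∈ A i, ⟪t j, x⟫ ≤ ⟪t i, x⟫
  opt : ∀ B : ι → Set E, IsMeasPartition B → momentEnergy B ≤ ∑ i, ‖t i‖ ^ 2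

namespace IsOptimal

variable {t : ι → E} {A : ι → Set E}

lemma sum_eq_zero (h : IsOptimal t A) : ∑ i, t i = 0 := by
  have := h.part.sum_moment
  simpa [h.moment] using this

lemma inner_nonpos (h : IsOptimal t A) {i j : ι} (hij : i ≠ j) : ⟪t i, t j⟫ ≤ 0 := by
  classical
  set f : ι → ι := Function.update id j i with hf
  have hB := h.part.coarsen f
  have h1 := h.opt _ hB
  have hy : ∀ l, gaussMoment (coarsen f A l) = ∑ m with f m = l, t m := by
    intro l
    rw [gaussMoment_coarsen h.part f l]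
    exact Finset.sum_congr rfl (fun m _ => h.moment m)
  have hfm : ∀ m l, f m = l ↔ (m = j ∧ i = l) ∨ (m ≠ j ∧ m = l) := by
    intro m l
    by_cases hm : m = j
    · subst hm
      simp [hf]
    · simp [hf, hm]
  have hfib : ∀ l, l ≠ i → l ≠ j → (Finset.univ.filter (fun m => f m = l)) = {l} := by
    intro l hli hlj
    ext m
    simp only [Finset.mem_filter, Finset.mem_univ, true_and, Finset.mem_singleton, hfm]
    constructor
    · rintro (⟨_, h3⟩ | ⟨_, h3⟩)
      · exact absurd h3.symm hli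
      · exact h3
    · intro h3
      right
      exact ⟨by rw [h3]; exact hlj, h3⟩
  have hfibj : (Finset.univ.filter (fun m => f m = j)) = ∅ := by
    ext m
    simp only [Finset.mem_filter, Finset.mem_univ, true_and, Finset.notMem_empty, iff_false, hfm]
    rintro (⟨_, h3⟩ | ⟨h3, h4⟩)
    · exact hij h3
    · exact h3 h4
  have hfibi : (Finset.univ.filter (fun m => f m = i)) = {i, j} := by
    ext m
    simp only [Finset.mem_filter, Finset.mem_univ, true_and, Finset.mem_insert,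
      Finset.mem_singleton, hfm]
    constructor
    · rintro (⟨h3, _⟩ | ⟨_, h3⟩)
      · exact Or.inr h3
      · exact Or.inl h3
    · rintro (h3 | h3)
      · right
        exact ⟨by rw [h3]; exact hij, h3⟩
      · left
        exact ⟨h3, trivial⟩
  have hsum : ∑ l, (‖∑ m with f m = l, t m‖ ^ 2 - ‖t l‖ ^ 2) = 2 * ⟪t i, t j⟫ := by
    rw [Finset.sum_eq_add i j hij]
    · rw [hfibi, hfibj, Finset.sum_pair hij, Finset.sum_empty, norm_add_sq_real]
      simp only [norm_zero]
      ring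
    · intro c _ hc
      rw [hfib c hc.1 hc.2, Finset.sum_singleton]
      ring
    · intro h3; exact absurd (Finset.mem_univ i) h3
    · intro h3; exact absurd (Finset.mem_univ j) h3
  have h2 : momentEnergy (coarsen f A) = ∑ l, ‖∑ m with f m = l, t m‖ ^ 2 := by
    unfold momentEnergy
    exact Finset.sum_congr rfl (fun l _ => by rw [hy l])
  rw [h2] at h1
  rw [Finset.sum_sub_distrib] at hsum
  linarith

lemma inner_self_nonneg_of_mem (h : IsOptimal t A) {i : ι} {x : E} (hx : x ∈ A i) :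
    0 ≤ ⟪t i, x⟫ := by
  have h1 : ∑ j, ⟪t j, x⟫ = 0 := by
    rw [← sum_inner, h.sum_eq_zero, inner_zero_left]
  have h2 : ∑ j, ⟪t j, x⟫ ≤ ∑ _j : ι, ⟪t i, x⟫ :=
    Finset.sum_le_sum (fun j _ => h.max_on i j x hx)
  rw [h1, Finset.sum_const, nsmul_eq_mul] at h2
  have hcard : (0:ℝ) < (Finset.univ : Finset ι).card := by
    have : (Finset.univ : Finset ι).Nonempty := ⟨i, Finset.mem_univ i⟩
    exact_mod_cast Finset.card_pos.mpr this
  by_contra hneg
  push Not at hneg
  nlinarith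

/-- `∫_{A i} |⟨t j, x⟩| ≤ 2 ‖t i‖² - ⟨t j, t i⟩`. -/
lemma setIntegral_abs_le (h : IsOptimal t A) (i j : ι) :
    ∫ x in A i, |⟪t j, x⟫| ∂(stdGaussian E) ≤ 2 * ‖t i‖ ^ 2 - ⟪t j, t i⟫ := by
  have h1 : ∫ x in A i, (2 * ⟪t i, x⟫ - ⟪t j, x⟫) ∂(stdGaussian E)
      = 2 * ‖t i‖ ^ 2 - ⟪t j, t i⟫ := by
    rw [integral_sub (((integrable_inner_std _).const_mul _).integrableOn)
      ((integrable_inner_std _).integrableOn), integral_const_mul, ← inner_gaussMoment,
      ← inner_gaussMoment, h.moment, real_inner_self_eq_norm_sq]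
  rw [← h1]
  refine setIntegral_mono_on (integrable_abs_inner _).integrableOn
    ((((integrable_inner_std _).const_mul _).sub (integrable_inner_std _)).integrableOn)
    (h.part.1 i) (fun x hx => ?_)
  have h2 := h.max_on i j x hx
  have h3 := h.inner_self_nonneg_of_mem hx
  rw [abs_le]
  constructor <;> linarith

/-- Sum of two negative correlations is bounded by the squared norm. -/
lemma neg_inner_add_le (h : IsOptimal t A) (i : ι) {j₁ j₂ : ι} (hj : j₁ ≠ j₂) :
    -⟪t j₁, t i⟫ - ⟪t j₂, t i⟫ ≤ ‖t i‖ ^ 2 := by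
  classical
  set g : ι → ℝ := fun l => max (-⟪t l, t i⟫) 0 with hg
  have hg0 : ∀ l, 0 ≤ g l := fun l => le_max_right _ _
  have hne : ∀ l, l ≠ i → g l = -⟪t l, t i⟫ := by
    intro l hl
    have := h.inner_nonpos hl
    exact max_eq_left (by linarith)
  have hgi : g i = 0 := by
    have : -⟪t i, t i⟫ ≤ 0 := by
      rw [real_inner_self_eq_norm_sq]
      have := sq_nonneg ‖t i‖
      linarith
    exact max_eq_right this
  have hsum : ∑ l, g l = ‖t i‖ ^ 2 := by
    have h1 : ∑ l, ⟪t l, t i⟫ = 0 := by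
      rw [← sum_inner, h.sum_eq_zero, inner_zero_left]
    have h2 : ∑ l, g l = ∑ l, (-⟪t l, t i⟫) + ‖t i‖ ^ 2 := by
      have h3 : ∀ l, g l = -⟪t l, t i⟫ + (if l = i then ‖t i‖ ^ 2 else 0) := by
        intro l
        by_cases hl : l = i
        · subst hl
          rw [hgi, if_pos rfl, real_inner_self_eq_norm_sq]
          ring
        · rw [hne l hl, if_neg hl]
          ring
      simp_rw [h3]
      rw [Finset.sum_add_distrib, Finset.sum_ite_eq']
      simp
    rw [h2, Finset.sum_neg_distrib, h1]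
    simp
  have h1 : g j₁ + g j₂ ≤ ∑ l, g l :=
    Finset.add_le_sum (fun l _ => hg0 l) (Finset.mem_univ _) (Finset.mem_univ _) hj
  have h2 : -⟪t j₁, t i⟫ ≤ g j₁ := le_max_left _ _
  have h3 : -⟪t j₂, t i⟫ ≤ g j₂ := le_max_left _ _
  linarith

/-- Markov step: the cell `A i` is almost contained in a box for two vectors `t j₁, t j₂`. -/
lemma real_cell_le (h : IsOptimal t A) (i : ι) {j₁ j₂ : ι} (hj : j₁ ≠ j₂) {a : ℝ} (ha : 0 < a) :
    (stdGaussian E).real (A i) ≤
      (stdGaussian E).real {x | |⟪t j₁, x⟫| ≤ a ∧ |⟪t j₂, x⟫| ≤ a} + 5 * ‖t i‖ ^ 2 / a := by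
  set f : E → ℝ := fun x => |⟪t j₁, x⟫| + |⟪t j₂, x⟫| with hf
  have hfint : Integrable f (stdGaussian E) := (integrable_abs_inner _).add (integrable_abs_inner _)
  have hfm : Measurable f :=
    ((measurable_inner_const _).abs).add ((measurable_inner_const _).abs)
  have h1 : ∫ x in A i, f x ∂(stdGaussian E) ≤ 5 * ‖t i‖ ^ 2 := by
    rw [hf, integral_add (integrable_abs_inner _).integrableOn (integrable_abs_inner _).integrableOn]
    have h2 := h.setIntegral_abs_le i j₁
    have h3 := h.setIntegral_abs_le i j₂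
    have h4 := h.neg_inner_add_le i hj
    linarith
  have h2 := mul_meas_ge_le_integral_of_nonneg (μ := (stdGaussian E).restrict (A i)) (f := f)
    (Filter.Eventually.of_forall (fun x => by
      simp only [hf, Pi.zero_apply]
      positivity)) hfint.integrableOn a
  have h3 : ((stdGaussian E).restrict (A i)).real {x | a ≤ f x}
      = (stdGaussian E).real ({x | a ≤ f x} ∩ A i) := by
    rw [measureReal_def, measureReal_def,
      Measure.restrict_apply (measurableSet_le measurable_const hfm)]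
  rw [h3] at h2
  have h4 : (stdGaussian E).real ({x | a ≤ f x} ∩ A i) ≤ 5 * ‖t i‖ ^ 2 / a := by
    rw [le_div_iff₀ ha]
    linarith
  have hsub : A i ⊆ {x | |⟪t j₁, x⟫| ≤ a ∧ |⟪t j₂, x⟫| ≤ a} ∪ ({x | a ≤ f x} ∩ A i) := by
    intro x hx
    by_cases hbox : |⟪t j₁, x⟫| ≤ a ∧ |⟪t j₂, x⟫| ≤ a
    · exact Or.inl hbox
    · right
      refine ⟨?_, hx⟩
      simp only [hf, Set.mem_ofPred_eq]
      by_contra hlt
      push Not at hlt
      apply hbox
      have h5 := abs_nonneg ⟪t j₁, x⟫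
      have h6 := abs_nonneg ⟪t j₂, x⟫
      constructor <;> linarith
  calc (stdGaussian E).real (A i)
      ≤ (stdGaussian E).real ({x | |⟪t j₁, x⟫| ≤ a ∧ |⟪t j₂, x⟫| ≤ a} ∪ ({x | a ≤ f x} ∩ A i)) :=
        measureReal_mono hsub
    _ ≤ (stdGaussian E).real {x | |⟪t j₁, x⟫| ≤ a ∧ |⟪t j₂, x⟫| ≤ a}
        + (stdGaussian E).real ({x | a ≤ f x} ∩ A i) := measureReal_union_le _ _
    _ ≤ _ := by linarith

end IsOptimal

/-- Box estimate for two vectors in terms of the area `‖p‖ ‖q - ⟨q,u⟩u‖`. -/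
lemma real_box_le {p q : E} (hp : p ≠ 0) {Q a : ℝ}
    (hQdef : Q = ‖q - ⟪‖p‖⁻¹ • p, q⟫ • (‖p‖⁻¹ • p)‖) (hQ : 0 < Q) (ha : 0 ≤ a) :
    (stdGaussian E).real {x | |⟪p, x⟫| ≤ a ∧ |⟪q, x⟫| ≤ a} ≤ 2 * a ^ 2 / (π * (‖p‖ * Q)) := by
  have hpn : 0 < ‖p‖ := norm_pos_iff.mpr hp
  set u : E := ‖p‖⁻¹ • p with hu
  have hun : ‖u‖ = 1 := by
    rw [hu, norm_smul, norm_inv, norm_norm, inv_mul_cancel₀ hpn.ne']
  set α : ℝ := ⟪u, q⟫ with hα
  set b : E := q - α • u with hb
  have hbu : ⟪u, b⟫ = 0 := by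
    rw [hb, inner_sub_right, inner_smul_right, real_inner_self_eq_norm_sq, hun, hα]
    ring
  set w : E := Q⁻¹ • b with hw
  have hQb : ‖b‖ = Q := hQdef.symm
  have hwn : ‖w‖ = 1 := by
    rw [hw, norm_smul, norm_inv, Real.norm_of_nonneg hQ.le, hQb, inv_mul_cancel₀ hQ.ne']
  have huw : ⟪u, w⟫ = 0 := by
    rw [hw, inner_smul_right, hbu, mul_zero]
  have hpx : ∀ x, ⟪p, x⟫ = ‖p‖ * ⟪u, x⟫ := by
    intro x
    rw [hu, inner_smul_left]
    simp only [conj_trivial]
    field_simp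
  have hqx : ∀ x, ⟪q, x⟫ = α * ⟪u, x⟫ + Q * ⟪w, x⟫ := by
    intro x
    have h1 : q = α • u + b := by rw [hb]; abel
    have h2 : b = Q • w := by
      rw [hw, smul_smul, mul_inv_cancel₀ hQ.ne', one_smul]
    conv_lhs => rw [h1, h2]
    rw [inner_add_left, real_inner_smul_left u x α, real_inner_smul_left w x Q]
  have hset : {x : E | |⟪p, x⟫| ≤ a ∧ |⟪q, x⟫| ≤ a}
      = {x | |‖p‖ * ⟪u, x⟫| ≤ a ∧ |α * ⟪u, x⟫ + Q * ⟪w, x⟫| ≤ a} := by
    ext x
    simp only [Set.mem_ofPred_eq, hpx x, hqx x]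
  rw [hset]
  exact small_ball_two hun hwn huw α hpn hQ ha

end Vale.Agent.Lib.P226
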