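import Vale.Agent.Lib.P226.Knots

/-!
The finite table for the constant 4/3 in the deletion bound.
-/

open MeasureTheory ProbabilityTheory Real Set
open scoped RealInnerProductSpace ENNReal NNReal Pointwise

namespace Vale.Agent.Lib.P226


theorem tang_k095 {α : ℝ} (hα : -1 ≤ α) : npdf α ^ 2 ≤ (96543/200000) * ncdf α + (-(18023/1000000)) :=
  tangent_line (α₀ := -(19/20)) (pl := (635147/2500000)) (pu := (1270301/5000000)) (cl := (1710547/10000000)) (by norm_num) (by norm_num)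
    ⟨k095.1, k095.2.1, k095.2.2.1⟩ (by norm_num) (by norm_num) (by norm_num) (by norm_num) hα

theorem tang_k090 {α : ℝ} (hα : -1 ≤ α) : npdf α ^ 2 ≤ (119739/250000) * ncdf α + (-(17353/1000000)) :=
  tangent_line (α₀ := -(9/10)) (pl := (53217/200000)) (pu := (20788/78125)) (cl := (1840587/10000000)) (by norm_num) (by norm_num)
    ⟨k090.1, k090.2.1, k090.2.2.1⟩ (by norm_num) (by norm_num) (by norm_num) (by norm_num) hα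

theorem tang_k085 {α : ℝ} (hα : -1 ≤ α) : npdf α ^ 2 ≤ (472577/1000000) * ncdf α + (-(16133/1000000)) :=
  tangent_line (α₀ := -(17/20)) (pl := (1389923/5000000)) (pu := (2779861/10000000)) (cl := (494153/2500000)) (by norm_num) (by norm_num)
    ⟨k085.1, k085.2.1, k085.2.2.1⟩ (by norm_num) (by norm_num) (by norm_num) (by norm_num) hα

theorem tang_k080 {α : ℝ} (hα : -1 ≤ α) : npdf α ^ 2 ≤ (463509/1000000) * ncdf α + (-(14273/1000000)) :=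
  tangent_line (α₀ := -(4/5)) (pl := (2896913/10000000)) (pu := (2896929/10000000)) (cl := (2118541/10000000)) (by norm_num) (by norm_num)
    ⟨k080.1, k080.2.1, k080.2.2.1⟩ (by norm_num) (by norm_num) (by norm_num) (by norm_num) hα

theorem tang_k075 {α : ℝ} (hα : -1 ≤ α) : npdf α ^ 2 ≤ (451709/1000000) * ncdf α + (-(11683/1000000)) :=
  tangent_line (α₀ := -(3/4)) (pl := (752843/2500000)) (pu := (752847/2500000)) (cl := (2266261/10000000)) (by norm_num) (by norm_num)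
    ⟨k075.1, k075.2.1, k075.2.2.1⟩ (by norm_num) (by norm_num) (by norm_num) (by norm_num) hα

theorem tang_k070 {α : ℝ} (hα : -1 ≤ α) : npdf α ^ 2 ≤ (218579/500000) * ncdf α + (-(8271/1000000)) :=
  tangent_line (α₀ := -(7/10)) (pl := (3122537/10000000)) (pu := (3122553/10000000)) (cl := (19357/80000)) (by norm_num) (by norm_num)
    ⟨k070.1, k070.2.1, k070.2.2.1⟩ (by norm_num) (by norm_num) (by norm_num) (by norm_num) hα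

theorem tang_k065 {α : ℝ} (hα : -1 ≤ α) : npdf α ^ 2 ≤ (209933/500000) * ncdf α + (-(3947/1000000)) :=
  tangent_line (α₀ := -(13/20)) (pl := (3229721/10000000)) (pu := (1614869/5000000)) (cl := (51569/200000)) (by norm_num) (by norm_num)
    ⟨k065.1, k065.2.1, k065.2.2.1⟩ (by norm_num) (by norm_num) (by norm_num) (by norm_num) hα

theorem tang_k060 {α : ℝ} (hα : -1 ≤ α) : npdf α ^ 2 ≤ (6248/15625) * ncdf α + (11/8000) :=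
  tangent_line (α₀ := -(3/5)) (pl := (3332243/10000000)) (pu := (3332261/10000000)) (cl := (2742521/10000000)) (by norm_num) (by norm_num)
    ⟨k060.1, k060.2.1, k060.2.2.1⟩ (by norm_num) (by norm_num) (by norm_num) (by norm_num) hα

/-- The finite description of the admissible triples `(Φ(α), p, e)`. -/
def Cell4 (a p e : ℝ) : Prop :=
  (0 < a ∧ a ≤ (22331/1250000) ∧ p ≤ 2 * a ^ 2 ∧ p ≤ (22331/625000) * a) ∨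
  ((178623/10000000) ≤ a ∧ a ≤ (45501/2000000) ∧ e ≤ (356063/10000000) * a + (-(439/1250000)) ∧ p ≤ (71107/1000000) * a + (-(7/10000))) ∨
  ((5687/250000) ≤ a ∧ a ≤ (287169/10000000) ∧ e ≤ (44741/1000000) * a + (-(559/1000000)) ∧ p ≤ (89283/1000000) * a + (-(557/500000))) ∨
  ((57429/2000000) ≤ a ∧ a ≤ (359307/10000000) ∧ e ≤ (139233/2500000) * a + (-(1747/2000000)) ∧ p ≤ (27743/250000) * a + (-(217/125000))) ∨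
  ((359283/10000000) ≤ a ∧ a ≤ (222829/5000000) ∧ e ≤ (686673/10000000) * a + (-(13397/10000000)) ∧ p ≤ (17071/125000) * a + (-(83/31250))) ∨
  ((222817/5000000) ≤ a ∧ a ≤ (547997/10000000) ∧ e ≤ (209627/2500000) * a + (-(20163/10000000)) ∧ p ≤ (20791/125000) * a + (-(3981/1000000))) ∨
  ((547973/10000000) ≤ a ∧ a ≤ (167019/2500000) ∧ e ≤ (1014127/10000000) * a + (-(14893/5000000)) ∧ p ≤ (200409/1000000) * a + (-(731/125000))) ∨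
  ((668053/10000000) ≤ a ∧ a ≤ (80757/1000000) ∧ e ≤ (1214771/10000000) * a + (-(43191/10000000)) ∧ p ≤ (238703/1000000) * a + (-(2101/250000))) ∨
  ((201887/2500000) ≤ a ∧ a ≤ (121001/1250000) ∧ e ≤ (360243/2500000) * a + (-(61457/10000000)) ∧ p ≤ (140503/500000) * a + (-(11817/1000000))) ∨
  ((967987/10000000) ≤ a ∧ a ≤ (11507/100000) ∧ e ≤ (169261/1000000) * a + (-(10727/1250000)) ∧ p ≤ (13067/40000) * a + (-(16233/1000000))) ∨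
  ((28767/250000) ≤ a ∧ a ≤ (169583/1250000) ∧ e ≤ (1968639/10000000) * a + (-(58789/5000000)) ∧ p ≤ (374671/1000000) * a + (-(5437/250000))) ∨
  ((339161/2500000) ≤ a ∧ a ≤ (317311/2000000) ∧ e ≤ (14167/62500) * a + (-(158017/10000000)) ∧ p ≤ (423637/1000000) * a + (-(28379/1000000))) ∨
  ((1586537/10000000) ≤ a ∧ a ≤ (427641/2500000) ∧ e ≤ (2500341/10000000) * a + (-(97541/5000000)) ∧ p ≤ (11487/25000) * a + (-(213/6250))) ∨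
  ((1710547/10000000) ≤ a ∧ a ≤ (460151/2500000) ∧ e ≤ (2662799/10000000) * a + (-(222871/10000000)) ∧ p ≤ (482989/1000000) * a + (-(19049/500000)) ∧ p ≤ (96543/200000) * a + (-(18023/1000000)) ∧ p ≤ (119739/250000) * a + (-(17353/1000000))) ∨
  ((1840587/10000000) ≤ a ∧ a ≤ (494157/2500000) ∧ e ≤ (2828347/10000000) * a + (-(253341/10000000)) ∧ p ≤ (63153/125000) * a + (-(42187/1000000)) ∧ p ≤ (119739/250000) * a + (-(17353/1000000)) ∧ p ≤ (472577/1000000) * a + (-(16133/1000000))) ∨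
  ((494153/2500000) ≤ a ∧ a ≤ (2118557/10000000) ∧ e ≤ (2996293/10000000) * a + (-(143269/5000000)) ∧ p ≤ (526299/1000000) * a + (-(46349/1000000)) ∧ p ≤ (472577/1000000) * a + (-(16133/1000000)) ∧ p ≤ (463509/1000000) * a + (-(14273/1000000))) ∨
  ((2118541/10000000) ≤ a ∧ a ≤ (566569/2500000) ∧ e ≤ (3165631/10000000) * a + (-(322413/10000000)) ∧ p ≤ (136359/250000) * a + (-(50399/1000000)) ∧ p ≤ (463509/1000000) * a + (-(14273/1000000)) ∧ p ≤ (451709/1000000) * a + (-(11683/1000000))) ∨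
  ((2266261/10000000) ≤ a ∧ a ≤ (2419639/10000000) ∧ e ≤ (66709/200000) * a + (-(180449/5000000)) ∧ p ≤ (22501/40000) * a + (-(27133/500000)) ∧ p ≤ (451709/1000000) * a + (-(11683/1000000)) ∧ p ≤ (218579/500000) * a + (-(8271/1000000))) ∨
  ((19357/80000) ≤ a ∧ a ≤ (2578463/10000000) ∧ e ≤ (3504731/10000000) * a + (-(200929/5000000)) ∧ p ≤ (288621/500000) * a + (-(28911/500000)) ∧ p ≤ (218579/500000) * a + (-(8271/1000000)) ∧ p ≤ (209933/500000) * a + (-(3947/1000000))) ∨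
  ((51569/200000) ≤ a ∧ a ≤ (2742533/10000000) ∧ e ≤ (3672161/10000000) * a + (-(445029/10000000)) ∧ p ≤ (588959/1000000) * a + (-(30419/500000)) ∧ p ≤ (209933/500000) * a + (-(3947/1000000)) ∧ p ≤ (6248/15625) * a + (11/8000)) ∨
  ((2742521/10000000) ≤ a ∧ a ≤ (2911599/10000000) ∧ e ≤ (153463/400000) * a + (-(12253/250000)) ∧ p ≤ (59733/100000) * a + (-(63127/1000000)) ∧ p ≤ (6248/15625) * a + (11/8000) ∧ p ≤ (9431/25000) * a + (243/31250)) ∨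
  ((2911587/10000000) ≤ a ∧ a ≤ (75383/250000) ∧ e ≤ (3964859/10000000) * a + (-(527471/10000000)) ∧ p ≤ (120331/200000) * a + (-(64407/1000000)) ∧ p ≤ (9431/25000) * a + (243/31250) ∧ p ≤ (181217/500000) * a + (3041/250000)) ∨
  ((3015309/10000000) ≤ a ∧ a ≤ (3085377/10000000) ∧ e ≤ (4043349/10000000) * a + (-(275569/5000000)) ∧ p ≤ (603027/1000000) * a + (-(16207/250000)) ∧ p ≤ (181217/500000) * a + (3041/250000) ∧ p ≤ (352067/1000000) * a + (15327/1000000)) ∨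
  ((3085367/10000000) ≤ a ∧ a ≤ (3156139/10000000) ∧ e ≤ (4105061/10000000) * a + (-(285089/5000000)) ∧ p ≤ (75459/125000) * a + (-(2601/40000)) ∧ p ≤ (352067/1000000) * a + (15327/1000000) ∧ p ≤ (341313/1000000) * a + (18683/1000000)) ∨
  ((3156129/10000000) ≤ a ∧ a ≤ (1631777/5000000) ∧ e ≤ (2090343/5000000) * a + (-(297023/5000000)) ∧ p ≤ (301637/500000) * a + (-(64889/1000000)) ∧ p ≤ (341313/1000000) * a + (18683/1000000) ∧ p ≤ (81119/250000) * a + (3011/125000)) ∨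
  ((407943/1250000) ≤ a ∧ a ≤ (430723/1250000) ∧ e ≤ (537163/1250000) * a + (-(126421/2000000)) ∧ p ≤ (300131/500000) * a + (-(31933/500000)) ∧ p ≤ (81119/250000) * a + (3011/125000) ∧ p ≤ (147309/500000) * a + (34107/1000000)) ∨
  ((137831/400000) ≤ a ∧ a ≤ (726339/2000000) ∧ e ≤ (2217463/5000000) * a + (-(679527/10000000)) ∧ p ≤ (296533/500000) * a + (-(30689/500000)) ∧ p ≤ (147309/500000) * a + (34107/1000000) ∧ p ≤ (26267/100000) * a + (22707/500000)) ∨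
  ((3631687/10000000) ≤ a ∧ a ≤ (3820887/10000000) ∧ e ≤ (4561871/10000000) * a + (-(725629/10000000)) ∧ p ≤ (581167/1000000) * a + (-(7131/125000)) ∧ p ≤ (26267/100000) * a + (22707/500000) ∧ p ≤ (114417/500000) * a + (7253/125000)) ∨
  ((47761/125000) ≤ a ∧ a ≤ (2006469/5000000) ∧ e ≤ (935257/2000000) * a + (-(153869/2000000)) ∧ p ≤ (114417/500000) * a + (7253/125000) ∧ p ≤ (38667/200000) * a + (7193/100000)) ∨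
  ((1003233/2500000) ≤ a ∧ a ≤ (1051851/2500000) ∧ e ≤ (298527/625000) * a + (-(404767/5000000)) ∧ p ≤ (38667/200000) * a + (7193/100000) ∧ p ≤ (78209/500000) * a + (17421/200000)) ∨
  ((4207399/10000000) ≤ a ∧ a ≤ (275239/625000) ∧ e ≤ (972081/2000000) * a + (-(168973/2000000)) ∧ p ≤ (78209/500000) * a + (17421/200000) ∧ p ≤ (23669/200000) * a + (103499/1000000)) ∨
  ((220191/500000) ≤ a ∧ a ≤ (2300861/5000000) ∧ e ≤ (4926257/10000000) * a + (-(174773/2000000)) ∧ p ≤ (23669/200000) * a + (103499/1000000) ∧ p ≤ (79391/1000000) * a + (1513/12500)) ∨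
  ((4601719/10000000) ≤ a ∧ a ≤ (4800613/10000000) ∧ e ≤ (4972079/10000000) * a + (-(894951/10000000)) ∧ p ≤ (79391/1000000) * a + (1513/12500) ∧ p ≤ (7969/200000) * a + (8727/62500)) ∨
  ((4800611/10000000) ≤ a ∧ a ≤ (1/2) ∧ e ≤ (499589/1000000) * a + (-(906381/10000000)) ∧ p ≤ (7969/200000) * a + (8727/62500) ∧ p ≤ 0 * a + (159157/1000000)) ∨
  ((1/2) ≤ a ∧ a ≤ 1 ∧ p ≤ (159157/1000000))

theorem tiny4 {F₀ α p : ℝ} (h0 : 0 < F₀)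
    (hp2 : eF α ≤ (13/100) → p ≤ 2 * eF α - (4/3) * eF α ^ 2 / F₀) (h1 : α ≤ -(21/10)) :
    0 < ncdf α ∧ ncdf α ≤ (22331/1250000) ∧ p ≤ 2 * ncdf α ^ 2 ∧ p ≤ (22331/625000) * ncdf α := by
  obtain ⟨-, -, -, cu⟩ := k210
  have hm := strictMono_ncdf.monotone h1
  have ha := ncdf_pos α
  have hle : ncdf α ≤ (22331/1250000) := by linarith
  have he := eF_le_sq α
  have hsq : ncdf α ^ 2 ≤ (22331/1250000) * ncdf α := by nlinarith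
  have hemax : eF α ≤ (13/100) := by nlinarith
  have hq := hp2 hemax
  have hpos : 0 ≤ (4/3) * eF α ^ 2 / F₀ := by positivity
  exact ⟨ha, hle, by linarith, by linarith⟩

theorem piece4_1 {F₀ α p : ℝ} (h0 : 0 < F₀) (hU : F₀ ≤ (35811/100000)) (hp1 : p ≤ npdf α ^ 2)
    (hp2 : eF α ≤ (13/100) → p ≤ 2 * eF α - (4/3) * eF α ^ 2 / F₀)
    (h1 : -(21/10) ≤ α) (h2 : α ≤ -2) :
    (178623/10000000) ≤ ncdf α ∧ ncdf α ≤ (45501/2000000) ∧ eF α ≤ (356063/10000000) * ncdf α + (-(439/1250000)) ∧ p ≤ (71107/1000000) * ncdf α + (-(7/10000)) := by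
  obtain ⟨-, pu1, cl1, cu1⟩ := k210
  obtain ⟨-, pu2, cl2, cu2⟩ := k200
  have hm1 : ncdf (-(21/10)) ≤ ncdf α := strictMono_ncdf.monotone h1
  have hm2 : ncdf α ≤ ncdf (-2) := strictMono_ncdf.monotone h2
  have e1 : eF (-(21/10)) ≤ (284710863573/1000000000000000) :=
    (eF_le_of_bounds (by norm_num) pu1 cl1).trans (by norm_num)
  have e2 : eF (-2) ≤ (45867229089/100000000000000) :=
    (eF_le_of_bounds (by norm_num) pu2 cl2).trans (by norm_num)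
  have he1 : eF (-(21/10)) ≤ (356063/10000000) * ncdf (-(21/10)) + (-(439/1250000)) := by linarith
  have he2 : eF (-2) ≤ (356063/10000000) * ncdf (-2) + (-(439/1250000)) := by linarith
  have hc := eF_chord (by norm_num) he1 he2 ⟨h1, h2⟩
  have hpos := ncdf_pos α
  have hemax : eF α ≤ (13/100) := by linarith
  have hq := p_le_linear (κ := (4/3)) (e₀ := (1/2500)) (by norm_num) h0 hU (hp2 hemax)
  have hA : (2 - 2 * (4/3) * (1/2500) / (35811/100000) : ℝ) = (214546/107433) := by norm_num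
  have hC : ((4/3) * (1/2500) ^ 2 / (35811/100000) : ℝ) = (8/13429125) := by norm_num
  rw [hA, hC] at hq
  exact ⟨cl1.trans hm1, hm2.trans cu2, hc, by linarith⟩

theorem piece4_2 {F₀ α p : ℝ} (h0 : 0 < F₀) (hU : F₀ ≤ (35811/100000)) (hp1 : p ≤ npdf α ^ 2)
    (hp2 : eF α ≤ (13/100) → p ≤ 2 * eF α - (4/3) * eF α ^ 2 / F₀)
    (h1 : -2 ≤ α) (h2 : α ≤ -(19/10)) :
    (5687/250000) ≤ ncdf α ∧ ncdf α ≤ (287169/10000000) ∧ eF α ≤ (44741/1000000) * ncdf α + (-(559/1000000)) ∧ p ≤ (89283/1000000) * ncdf α + (-(557/500000)) := by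
  obtain ⟨-, pu1, cl1, cu1⟩ := k200
  obtain ⟨-, pu2, cl2, cu2⟩ := k190
  have hm1 : ncdf (-2) ≤ ncdf α := strictMono_ncdf.monotone h1
  have hm2 : ncdf α ≤ ncdf (-(19/10)) := strictMono_ncdf.monotone h2
  have e1 : eF (-2) ≤ (45867229089/100000000000000) :=
    (eF_le_of_bounds (by norm_num) pu1 cl1).trans (by norm_num)
  have e2 : eF (-(19/10)) ≤ (145123784531/200000000000000) :=
    (eF_le_of_bounds (by norm_num) pu2 cl2).trans (by norm_num)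
  have he1 : eF (-2) ≤ (44741/1000000) * ncdf (-2) + (-(559/1000000)) := by linarith
  have he2 : eF (-(19/10)) ≤ (44741/1000000) * ncdf (-(19/10)) + (-(559/1000000)) := by linarith
  have hc := eF_chord (by norm_num) he1 he2 ⟨h1, h2⟩
  have hpos := ncdf_pos α
  have hemax : eF α ≤ (13/100) := by linarith
  have hq := p_le_linear (κ := (4/3)) (e₀ := (3/5000)) (by norm_num) h0 hU (hp2 hemax)
  have hA : (2 - 2 * (4/3) * (3/5000) / (35811/100000) : ℝ) = (71462/35811) := by norm_num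
  have hC : ((4/3) * (3/5000) ^ 2 / (35811/100000) : ℝ) = (2/1492125) := by norm_num
  rw [hA, hC] at hq
  exact ⟨cl1.trans hm1, hm2.trans cu2, hc, by linarith⟩

theorem piece4_3 {F₀ α p : ℝ} (h0 : 0 < F₀) (hU : F₀ ≤ (35811/100000)) (hp1 : p ≤ npdf α ^ 2)
    (hp2 : eF α ≤ (13/100) → p ≤ 2 * eF α - (4/3) * eF α ^ 2 / F₀)
    (h1 : -(19/10) ≤ α) (h2 : α ≤ -(9/5)) :
    (57429/2000000) ≤ ncdf α ∧ ncdf α ≤ (359307/10000000) ∧ eF α ≤ (139233/2500000) * ncdf α + (-(1747/2000000)) ∧ p ≤ (27743/250000) * ncdf α + (-(217/125000)) := by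
  obtain ⟨-, pu1, cl1, cu1⟩ := k190
  obtain ⟨-, pu2, cl2, cu2⟩ := k180
  have hm1 : ncdf (-(19/10)) ≤ ncdf α := strictMono_ncdf.monotone h1
  have hm2 : ncdf α ≤ ncdf (-(9/5)) := strictMono_ncdf.monotone h2
  have e1 : eF (-(19/10)) ≤ (145123784531/200000000000000) :=
    (eF_le_of_bounds (by norm_num) pu1 cl1).trans (by norm_num)
  have e2 : eF (-(9/5)) ≤ (56368920089/50000000000000) :=
    (eF_le_of_bounds (by norm_num) pu2 cl2).trans (by norm_num)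
  have he1 : eF (-(19/10)) ≤ (139233/2500000) * ncdf (-(19/10)) + (-(1747/2000000)) := by linarith
  have he2 : eF (-(9/5)) ≤ (139233/2500000) * ncdf (-(9/5)) + (-(1747/2000000)) := by linarith
  have hc := eF_chord (by norm_num) he1 he2 ⟨h1, h2⟩
  have hpos := ncdf_pos α
  have hemax : eF α ≤ (13/100) := by linarith
  have hq := p_le_linear (κ := (4/3)) (e₀ := (1/1000)) (by norm_num) h0 hU (hp2 hemax)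
  have hA : (2 - 2 * (4/3) * (1/1000) / (35811/100000) : ℝ) = (214066/107433) := by norm_num
  have hC : ((4/3) * (1/1000) ^ 2 / (35811/100000) : ℝ) = (2/537165) := by norm_num
  rw [hA, hC] at hq
  exact ⟨cl1.trans hm1, hm2.trans cu2, hc, by linarith⟩

theorem piece4_4 {F₀ α p : ℝ} (h0 : 0 < F₀) (hU : F₀ ≤ (35811/100000)) (hp1 : p ≤ npdf α ^ 2)
    (hp2 : eF α ≤ (13/100) → p ≤ 2 * eF α - (4/3) * eF α ^ 2 / F₀)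
    (h1 : -(9/5) ≤ α) (h2 : α ≤ -(17/10)) :
    (359283/10000000) ≤ ncdf α ∧ ncdf α ≤ (222829/5000000) ∧ eF α ≤ (686673/10000000) * ncdf α + (-(13397/10000000)) ∧ p ≤ (17071/125000) * ncdf α + (-(83/31250)) := by
  obtain ⟨-, pu1, cl1, cu1⟩ := k180
  obtain ⟨-, pu2, cl2, cu2⟩ := k170
  have hm1 : ncdf (-(9/5)) ≤ ncdf α := strictMono_ncdf.monotone h1
  have hm2 : ncdf α ≤ ncdf (-(17/10)) := strictMono_ncdf.monotone h2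
  have e1 : eF (-(9/5)) ≤ (56368920089/50000000000000) :=
    (eF_le_of_bounds (by norm_num) pu1 cl1).trans (by norm_num)
  have e2 : eF (-(17/10)) ≤ (86016356007/50000000000000) :=
    (eF_le_of_bounds (by norm_num) pu2 cl2).trans (by norm_num)
  have he1 : eF (-(9/5)) ≤ (686673/10000000) * ncdf (-(9/5)) + (-(13397/10000000)) := by linarith
  have he2 : eF (-(17/10)) ≤ (686673/10000000) * ncdf (-(17/10)) + (-(13397/10000000)) := by linarith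
  have hc := eF_chord (by norm_num) he1 he2 ⟨h1, h2⟩
  have hpos := ncdf_pos α
  have hemax : eF α ≤ (13/100) := by linarith
  have hq := p_le_linear (κ := (4/3)) (e₀ := (3/2000)) (by norm_num) h0 hU (hp2 hemax)
  have hA : (2 - 2 * (4/3) * (3/2000) / (35811/100000) : ℝ) = (71222/35811) := by norm_num
  have hC : ((4/3) * (3/2000) ^ 2 / (35811/100000) : ℝ) = (1/119370) := by norm_num
  rw [hA, hC] at hq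
  exact ⟨cl1.trans hm1, hm2.trans cu2, hc, by linarith⟩

theorem piece4_5 {F₀ α p : ℝ} (h0 : 0 < F₀) (hU : F₀ ≤ (35811/100000)) (hp1 : p ≤ npdf α ^ 2)
    (hp2 : eF α ≤ (13/100) → p ≤ 2 * eF α - (4/3) * eF α ^ 2 / F₀)
    (h1 : -(17/10) ≤ α) (h2 : α ≤ -(8/5)) :
    (222817/5000000) ≤ ncdf α ∧ ncdf α ≤ (547997/10000000) ∧ eF α ≤ (209627/2500000) * ncdf α + (-(20163/10000000)) ∧ p ≤ (20791/125000) * ncdf α + (-(3981/1000000)) := by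
  obtain ⟨-, pu1, cl1, cu1⟩ := k170
  obtain ⟨-, pu2, cl2, cu2⟩ := k160
  have hm1 : ncdf (-(17/10)) ≤ ncdf α := strictMono_ncdf.monotone h1
  have hm2 : ncdf α ≤ ncdf (-(8/5)) := strictMono_ncdf.monotone h2
  have e1 : eF (-(17/10)) ≤ (86016356007/50000000000000) :=
    (eF_le_of_bounds (by norm_num) pu1 cl1).trans (by norm_num)
  have e2 : eF (-(8/5)) ≤ (322305975801/125000000000000) :=
    (eF_le_of_bounds (by norm_num) pu2 cl2).trans (by norm_num)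
  have he1 : eF (-(17/10)) ≤ (209627/2500000) * ncdf (-(17/10)) + (-(20163/10000000)) := by linarith
  have he2 : eF (-(8/5)) ≤ (209627/2500000) * ncdf (-(8/5)) + (-(20163/10000000)) := by linarith
  have hc := eF_chord (by norm_num) he1 he2 ⟨h1, h2⟩
  have hpos := ncdf_pos α
  have hemax : eF α ≤ (13/100) := by linarith
  have hq := p_le_linear (κ := (4/3)) (e₀ := (11/5000)) (by norm_num) h0 hU (hp2 hemax)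
  have hA : (2 - 2 * (4/3) * (11/5000) / (35811/100000) : ℝ) = (213106/107433) := by norm_num
  have hC : ((4/3) * (11/5000) ^ 2 / (35811/100000) : ℝ) = (242/13429125) := by norm_num
  rw [hA, hC] at hq
  exact ⟨cl1.trans hm1, hm2.trans cu2, hc, by linarith⟩

theorem piece4_6 {F₀ α p : ℝ} (h0 : 0 < F₀) (hU : F₀ ≤ (35811/100000)) (hp1 : p ≤ npdf α ^ 2)
    (hp2 : eF α ≤ (13/100) → p ≤ 2 * eF α - (4/3) * eF α ^ 2 / F₀)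
    (h1 : -(8/5) ≤ α) (h2 : α ≤ -(3/2)) :
    (547973/10000000) ≤ ncdf α ∧ ncdf α ≤ (167019/2500000) ∧ eF α ≤ (1014127/10000000) * ncdf α + (-(14893/5000000)) ∧ p ≤ (200409/1000000) * ncdf α + (-(731/125000)) := by
  obtain ⟨-, pu1, cl1, cu1⟩ := k160
  obtain ⟨-, pu2, cl2, cu2⟩ := k150
  have hm1 : ncdf (-(8/5)) ≤ ncdf α := strictMono_ncdf.monotone h1
  have hm2 : ncdf α ≤ ncdf (-(3/2)) := strictMono_ncdf.monotone h2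
  have e1 : eF (-(8/5)) ≤ (322305975801/125000000000000) :=
    (eF_le_of_bounds (by norm_num) pu1 cl1).trans (by norm_num)
  have e2 : eF (-(3/2)) ≤ (75924216431/20000000000000) :=
    (eF_le_of_bounds (by norm_num) pu2 cl2).trans (by norm_num)
  have he1 : eF (-(8/5)) ≤ (1014127/10000000) * ncdf (-(8/5)) + (-(14893/5000000)) := by linarith
  have he2 : eF (-(3/2)) ≤ (1014127/10000000) * ncdf (-(3/2)) + (-(14893/5000000)) := by linarith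
  have hc := eF_chord (by norm_num) he1 he2 ⟨h1, h2⟩
  have hpos := ncdf_pos α
  have hemax : eF α ≤ (13/100) := by linarith
  have hq := p_le_linear (κ := (4/3)) (e₀ := (2/625)) (by norm_num) h0 hU (hp2 hemax)
  have hA : (2 - 2 * (4/3) * (2/625) / (35811/100000) : ℝ) = (212306/107433) := by norm_num
  have hC : ((4/3) * (2/625) ^ 2 / (35811/100000) : ℝ) = (512/13429125) := by norm_num
  rw [hA, hC] at hq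
  exact ⟨cl1.trans hm1, hm2.trans cu2, hc, by linarith⟩

theorem piece4_7 {F₀ α p : ℝ} (h0 : 0 < F₀) (hU : F₀ ≤ (35811/100000)) (hp1 : p ≤ npdf α ^ 2)
    (hp2 : eF α ≤ (13/100) → p ≤ 2 * eF α - (4/3) * eF α ^ 2 / F₀)
    (h1 : -(3/2) ≤ α) (h2 : α ≤ -(7/5)) :
    (668053/10000000) ≤ ncdf α ∧ ncdf α ≤ (80757/1000000) ∧ eF α ≤ (1214771/10000000) * ncdf α + (-(43191/10000000)) ∧ p ≤ (238703/1000000) * ncdf α + (-(2101/250000)) := by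
  obtain ⟨-, pu1, cl1, cu1⟩ := k150
  obtain ⟨-, pu2, cl2, cu2⟩ := k140
  have hm1 : ncdf (-(3/2)) ≤ ncdf α := strictMono_ncdf.monotone h1
  have hm2 : ncdf α ≤ ncdf (-(7/5)) := strictMono_ncdf.monotone h2
  have e1 : eF (-(3/2)) ≤ (75924216431/20000000000000) :=
    (eF_le_of_bounds (by norm_num) pu1 cl1).trans (by norm_num)
  have e2 : eF (-(7/5)) ≤ (686344336467/125000000000000) :=
    (eF_le_of_bounds (by norm_num) pu2 cl2).trans (by norm_num)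
  have he1 : eF (-(3/2)) ≤ (1214771/10000000) * ncdf (-(3/2)) + (-(43191/10000000)) := by linarith
  have he2 : eF (-(7/5)) ≤ (1214771/10000000) * ncdf (-(7/5)) + (-(43191/10000000)) := by linarith
  have hc := eF_chord (by norm_num) he1 he2 ⟨h1, h2⟩
  have hpos := ncdf_pos α
  have hemax : eF α ≤ (13/100) := by linarith
  have hq := p_le_linear (κ := (4/3)) (e₀ := (47/10000)) (by norm_num) h0 hU (hp2 hemax)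
  have hA : (2 - 2 * (4/3) * (47/10000) / (35811/100000) : ℝ) = (211106/107433) := by norm_num
  have hC : ((4/3) * (47/10000) ^ 2 / (35811/100000) : ℝ) = (2209/26858250) := by norm_num
  rw [hA, hC] at hq
  exact ⟨cl1.trans hm1, hm2.trans cu2, hc, by linarith⟩

theorem piece4_8 {F₀ α p : ℝ} (h0 : 0 < F₀) (hU : F₀ ≤ (35811/100000)) (hp1 : p ≤ npdf α ^ 2)
    (hp2 : eF α ≤ (13/100) → p ≤ 2 * eF α - (4/3) * eF α ^ 2 / F₀)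
    (h1 : -(7/5) ≤ α) (h2 : α ≤ -(13/10)) :
    (201887/2500000) ≤ ncdf α ∧ ncdf α ≤ (121001/1250000) ∧ eF α ≤ (360243/2500000) * ncdf α + (-(61457/10000000)) ∧ p ≤ (140503/500000) * ncdf α + (-(11817/1000000)) := by
  obtain ⟨-, pu1, cl1, cu1⟩ := k140
  obtain ⟨-, pu2, cl2, cu2⟩ := k130
  have hm1 : ncdf (-(7/5)) ≤ ncdf α := strictMono_ncdf.monotone h1
  have hm2 : ncdf α ≤ ncdf (-(13/10)) := strictMono_ncdf.monotone h2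
  have e1 : eF (-(7/5)) ≤ (686344336467/125000000000000) :=
    (eF_le_of_bounds (by norm_num) pu1 cl1).trans (by norm_num)
  have e2 : eF (-(13/10)) ≤ (3901317787323/500000000000000) :=
    (eF_le_of_bounds (by norm_num) pu2 cl2).trans (by norm_num)
  have he1 : eF (-(7/5)) ≤ (360243/2500000) * ncdf (-(7/5)) + (-(61457/10000000)) := by linarith
  have he2 : eF (-(13/10)) ≤ (360243/2500000) * ncdf (-(13/10)) + (-(61457/10000000)) := by linarith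
  have hc := eF_chord (by norm_num) he1 he2 ⟨h1, h2⟩
  have hpos := ncdf_pos α
  have hemax : eF α ≤ (13/100) := by linarith
  have hq := p_le_linear (κ := (4/3)) (e₀ := (67/10000)) (by norm_num) h0 hU (hp2 hemax)
  have hA : (2 - 2 * (4/3) * (67/10000) / (35811/100000) : ℝ) = (209506/107433) := by norm_num
  have hC : ((4/3) * (67/10000) ^ 2 / (35811/100000) : ℝ) = (4489/26858250) := by norm_num
  rw [hA, hC] at hq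
  exact ⟨cl1.trans hm1, hm2.trans cu2, hc, by linarith⟩

theorem piece4_9 {F₀ α p : ℝ} (h0 : 0 < F₀) (hU : F₀ ≤ (35811/100000)) (hp1 : p ≤ npdf α ^ 2)
    (hp2 : eF α ≤ (13/100) → p ≤ 2 * eF α - (4/3) * eF α ^ 2 / F₀)
    (h1 : -(13/10) ≤ α) (h2 : α ≤ -(6/5)) :
    (967987/10000000) ≤ ncdf α ∧ ncdf α ≤ (11507/100000) ∧ eF α ≤ (169261/1000000) * ncdf α + (-(10727/1250000)) ∧ p ≤ (13067/40000) * ncdf α + (-(16233/1000000)) := by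
  obtain ⟨-, pu1, cl1, cu1⟩ := k130
  obtain ⟨-, pu2, cl2, cu2⟩ := k120
  have hm1 : ncdf (-(13/10)) ≤ ncdf α := strictMono_ncdf.monotone h1
  have hm2 : ncdf α ≤ ncdf (-(6/5)) := strictMono_ncdf.monotone h2
  have e1 : eF (-(13/10)) ≤ (3901317787323/500000000000000) :=
    (eF_le_of_bounds (by norm_num) pu1 cl1).trans (by norm_num)
  have e2 : eF (-(6/5)) ≤ (1089491428057/100000000000000) :=
    (eF_le_of_bounds (by norm_num) pu2 cl2).trans (by norm_num)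
  have he1 : eF (-(13/10)) ≤ (169261/1000000) * ncdf (-(13/10)) + (-(10727/1250000)) := by linarith
  have he2 : eF (-(6/5)) ≤ (169261/1000000) * ncdf (-(6/5)) + (-(10727/1250000)) := by linarith
  have hc := eF_chord (by norm_num) he1 he2 ⟨h1, h2⟩
  have hpos := ncdf_pos α
  have hemax : eF α ≤ (13/100) := by linarith
  have hq := p_le_linear (κ := (4/3)) (e₀ := (47/5000)) (by norm_num) h0 hU (hp2 hemax)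
  have hA : (2 - 2 * (4/3) * (47/5000) / (35811/100000) : ℝ) = (207346/107433) := by norm_num
  have hC : ((4/3) * (47/5000) ^ 2 / (35811/100000) : ℝ) = (4418/13429125) := by norm_num
  rw [hA, hC] at hq
  exact ⟨cl1.trans hm1, hm2.trans cu2, hc, by linarith⟩

theorem piece4_10 {F₀ α p : ℝ} (h0 : 0 < F₀) (hU : F₀ ≤ (35811/100000)) (hp1 : p ≤ npdf α ^ 2)
    (hp2 : eF α ≤ (13/100) → p ≤ 2 * eF α - (4/3) * eF α ^ 2 / F₀)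
    (h1 : -(6/5) ≤ α) (h2 : α ≤ -(11/10)) :
    (28767/250000) ≤ ncdf α ∧ ncdf α ≤ (169583/1250000) ∧ eF α ≤ (1968639/10000000) * ncdf α + (-(58789/5000000)) ∧ p ≤ (374671/1000000) * ncdf α + (-(5437/250000)) := by
  obtain ⟨-, pu1, cl1, cu1⟩ := k120
  obtain ⟨-, pu2, cl2, cu2⟩ := k110
  have hm1 : ncdf (-(6/5)) ≤ ncdf α := strictMono_ncdf.monotone h1
  have hm2 : ncdf α ≤ ncdf (-(11/10)) := strictMono_ncdf.monotone h2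
  have e1 : eF (-(6/5)) ≤ (1089491428057/100000000000000) :=
    (eF_le_of_bounds (by norm_num) pu1 cl1).trans (by norm_num)
  have e2 : eF (-(11/10)) ≤ (934350044847/62500000000000) :=
    (eF_le_of_bounds (by norm_num) pu2 cl2).trans (by norm_num)
  have he1 : eF (-(6/5)) ≤ (1968639/10000000) * ncdf (-(6/5)) + (-(58789/5000000)) := by linarith
  have he2 : eF (-(11/10)) ≤ (1968639/10000000) * ncdf (-(11/10)) + (-(58789/5000000)) := by linarith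
  have hc := eF_chord (by norm_num) he1 he2 ⟨h1, h2⟩
  have hpos := ncdf_pos α
  have hemax : eF α ≤ (13/100) := by linarith
  have hq := p_le_linear (κ := (4/3)) (e₀ := (13/1000)) (by norm_num) h0 hU (hp2 hemax)
  have hA : (2 - 2 * (4/3) * (13/1000) / (35811/100000) : ℝ) = (204466/107433) := by norm_num
  have hC : ((4/3) * (13/1000) ^ 2 / (35811/100000) : ℝ) = (338/537165) := by norm_num
  rw [hA, hC] at hq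
  exact ⟨cl1.trans hm1, hm2.trans cu2, hc, by linarith⟩

theorem piece4_11 {F₀ α p : ℝ} (h0 : 0 < F₀) (hU : F₀ ≤ (35811/100000)) (hp1 : p ≤ npdf α ^ 2)
    (hp2 : eF α ≤ (13/100) → p ≤ 2 * eF α - (4/3) * eF α ^ 2 / F₀)
    (h1 : -(11/10) ≤ α) (h2 : α ≤ -1) :
    (339161/2500000) ≤ ncdf α ∧ ncdf α ≤ (317311/2000000) ∧ eF α ≤ (14167/62500) * ncdf α + (-(158017/10000000)) ∧ p ≤ (423637/1000000) * ncdf α + (-(28379/1000000)) := by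
  obtain ⟨-, pu1, cl1, cu1⟩ := k110
  obtain ⟨-, pu2, cl2, cu2⟩ := k100
  have hm1 : ncdf (-(11/10)) ≤ ncdf α := strictMono_ncdf.monotone h1
  have hm2 : ncdf α ≤ ncdf (-1) := strictMono_ncdf.monotone h2
  have e1 : eF (-(11/10)) ≤ (934350044847/62500000000000) :=
    (eF_le_of_bounds (by norm_num) pu1 cl1).trans (by norm_num)
  have e2 : eF (-1) ≤ (1008031531479/50000000000000) :=
    (eF_le_of_bounds (by norm_num) pu2 cl2).trans (by norm_num)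
  have he1 : eF (-(11/10)) ≤ (14167/62500) * ncdf (-(11/10)) + (-(158017/10000000)) := by linarith
  have he2 : eF (-1) ≤ (14167/62500) * ncdf (-1) + (-(158017/10000000)) := by linarith
  have hc := eF_chord (by norm_num) he1 he2 ⟨h1, h2⟩
  have hpos := ncdf_pos α
  have hemax : eF α ≤ (13/100) := by linarith
  have hq := p_le_linear (κ := (4/3)) (e₀ := (11/625)) (by norm_num) h0 hU (hp2 hemax)
  have hA : (2 - 2 * (4/3) * (11/625) / (35811/100000) : ℝ) = (200786/107433) := by norm_num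
  have hC : ((4/3) * (11/625) ^ 2 / (35811/100000) : ℝ) = (15488/13429125) := by norm_num
  rw [hA, hC] at hq
  exact ⟨cl1.trans hm1, hm2.trans cu2, hc, by linarith⟩

theorem piece4_12 {F₀ α p : ℝ} (h0 : 0 < F₀) (hU : F₀ ≤ (35811/100000)) (hp1 : p ≤ npdf α ^ 2)
    (hp2 : eF α ≤ (13/100) → p ≤ 2 * eF α - (4/3) * eF α ^ 2 / F₀)
    (h1 : -1 ≤ α) (h2 : α ≤ -(19/20)) :
    (1586537/10000000) ≤ ncdf α ∧ ncdf α ≤ (427641/2500000) ∧ eF α ≤ (2500341/10000000) * ncdf α + (-(97541/5000000)) ∧ p ≤ (11487/25000) * ncdf α + (-(213/6250)) := by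
  obtain ⟨-, pu1, cl1, cu1⟩ := k100
  obtain ⟨-, pu2, cl2, cu2⟩ := k095
  have hm1 : ncdf (-1) ≤ ncdf α := strictMono_ncdf.monotone h1
  have hm2 : ncdf α ≤ ncdf (-(19/20)) := strictMono_ncdf.monotone h2
  have e1 : eF (-1) ≤ (1008031531479/50000000000000) :=
    (eF_le_of_bounds (by norm_num) pu1 cl1).trans (by norm_num)
  have e2 : eF (-(19/20)) ≤ (23261303495747/1000000000000000) :=
    (eF_le_of_bounds (by norm_num) pu2 cl2).trans (by norm_num)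
  have he1 : eF (-1) ≤ (2500341/10000000) * ncdf (-1) + (-(97541/5000000)) := by linarith
  have he2 : eF (-(19/20)) ≤ (2500341/10000000) * ncdf (-(19/20)) + (-(97541/5000000)) := by linarith
  have hc := eF_chord (by norm_num) he1 he2 ⟨h1, h2⟩
  have hpos := ncdf_pos α
  have hemax : eF α ≤ (13/100) := by linarith
  have hq := p_le_linear (κ := (4/3)) (e₀ := (109/5000)) (by norm_num) h0 hU (hp2 hemax)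
  have hA : (2 - 2 * (4/3) * (109/5000) / (35811/100000) : ℝ) = (197426/107433) := by norm_num
  have hC : ((4/3) * (109/5000) ^ 2 / (35811/100000) : ℝ) = (23762/13429125) := by norm_num
  rw [hA, hC] at hq
  exact ⟨cl1.trans hm1, hm2.trans cu2, hc, by linarith⟩

theorem piece4_13 {F₀ α p : ℝ} (h0 : 0 < F₀) (hU : F₀ ≤ (35811/100000)) (hp1 : p ≤ npdf α ^ 2)
    (hp2 : eF α ≤ (13/100) → p ≤ 2 * eF α - (4/3) * eF α ^ 2 / F₀)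
    (h1 : -(19/20) ≤ α) (h2 : α ≤ -(9/10)) :
    (1710547/10000000) ≤ ncdf α ∧ ncdf α ≤ (460151/2500000) ∧ eF α ≤ (2662799/10000000) * ncdf α + (-(222871/10000000)) ∧ p ≤ (482989/1000000) * ncdf α + (-(19049/500000)) ∧ p ≤ (96543/200000) * ncdf α + (-(18023/1000000)) ∧ p ≤ (119739/250000) * ncdf α + (-(17353/1000000)) := by
  obtain ⟨-, pu1, cl1, cu1⟩ := k095
  obtain ⟨-, pu2, cl2, cu2⟩ := k090
  have hm1 : ncdf (-(19/20)) ≤ ncdf α := strictMono_ncdf.monotone h1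
  have hm2 : ncdf α ≤ ncdf (-(9/10)) := strictMono_ncdf.monotone h2
  have e1 : eF (-(19/20)) ≤ (23261303495747/1000000000000000) :=
    (eF_le_of_bounds (by norm_num) pu1 cl1).trans (by norm_num)
  have e2 : eF (-(9/10)) ≤ (52195326329/1953125000000) :=
    (eF_le_of_bounds (by norm_num) pu2 cl2).trans (by norm_num)
  have he1 : eF (-(19/20)) ≤ (2662799/10000000) * ncdf (-(19/20)) + (-(222871/10000000)) := by linarith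
  have he2 : eF (-(9/10)) ≤ (2662799/10000000) * ncdf (-(9/10)) + (-(222871/10000000)) := by linarith
  have hc := eF_chord (by norm_num) he1 he2 ⟨h1, h2⟩
  have hpos := ncdf_pos α
  have hemax : eF α ≤ (13/100) := by linarith
  have hq := p_le_linear (κ := (4/3)) (e₀ := (1/40)) (by norm_num) h0 hU (hp2 hemax)
  have hA : (2 - 2 * (4/3) * (1/40) / (35811/100000) : ℝ) = (194866/107433) := by norm_num
  have hC : ((4/3) * (1/40) ^ 2 / (35811/100000) : ℝ) = (250/107433) := by norm_num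
  rw [hA, hC] at hq
  have hα : -1 ≤ α := by linarith
  exact ⟨cl1.trans hm1, hm2.trans cu2, hc, by linarith, hp1.trans (tang_k095 hα), hp1.trans (tang_k090 hα)⟩

theorem piece4_14 {F₀ α p : ℝ} (h0 : 0 < F₀) (hU : F₀ ≤ (35811/100000)) (hp1 : p ≤ npdf α ^ 2)
    (hp2 : eF α ≤ (13/100) → p ≤ 2 * eF α - (4/3) * eF α ^ 2 / F₀)
    (h1 : -(9/10) ≤ α) (h2 : α ≤ -(17/20)) :
    (1840587/10000000) ≤ ncdf α ∧ ncdf α ≤ (494157/2500000) ∧ eF α ≤ (2828347/10000000) * ncdf α + (-(253341/10000000)) ∧ p ≤ (63153/125000) * ncdf α + (-(42187/1000000)) ∧ p ≤ (119739/250000) * ncdf α + (-(17353/1000000)) ∧ p ≤ (472577/1000000) * ncdf α + (-(16133/1000000)) := by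
  obtain ⟨-, pu1, cl1, cu1⟩ := k090
  obtain ⟨-, pu2, cl2, cu2⟩ := k085
  have hm1 : ncdf (-(9/10)) ≤ ncdf α := strictMono_ncdf.monotone h1
  have hm2 : ncdf α ≤ ncdf (-(17/20)) := strictMono_ncdf.monotone h2
  have e1 : eF (-(9/10)) ≤ (52195326329/1953125000000) :=
    (eF_le_of_bounds (by norm_num) pu1 cl1).trans (by norm_num)
  have e2 : eF (-(17/20)) ≤ (955352050009/31250000000000) :=
    (eF_le_of_bounds (by norm_num) pu2 cl2).trans (by norm_num)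
  have he1 : eF (-(9/10)) ≤ (2828347/10000000) * ncdf (-(9/10)) + (-(253341/10000000)) := by linarith
  have he2 : eF (-(17/20)) ≤ (2828347/10000000) * ncdf (-(17/20)) + (-(253341/10000000)) := by linarith
  have hc := eF_chord (by norm_num) he1 he2 ⟨h1, h2⟩
  have hpos := ncdf_pos α
  have hemax : eF α ≤ (13/100) := by linarith
  have hq := p_le_linear (κ := (4/3)) (e₀ := (287/10000)) (by norm_num) h0 hU (hp2 hemax)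
  have hA : (2 - 2 * (4/3) * (287/10000) / (35811/100000) : ℝ) = (191906/107433) := by norm_num
  have hC : ((4/3) * (287/10000) ^ 2 / (35811/100000) : ℝ) = (82369/26858250) := by norm_num
  rw [hA, hC] at hq
  have hα : -1 ≤ α := by linarith
  exact ⟨cl1.trans hm1, hm2.trans cu2, hc, by linarith, hp1.trans (tang_k090 hα), hp1.trans (tang_k085 hα)⟩

theorem piece4_15 {F₀ α p : ℝ} (h0 : 0 < F₀) (hU : F₀ ≤ (35811/100000)) (hp1 : p ≤ npdf α ^ 2)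
    (hp2 : eF α ≤ (13/100) → p ≤ 2 * eF α - (4/3) * eF α ^ 2 / F₀)
    (h1 : -(17/20) ≤ α) (h2 : α ≤ -(4/5)) :
    (494153/2500000) ≤ ncdf α ∧ ncdf α ≤ (2118557/10000000) ∧ eF α ≤ (2996293/10000000) * ncdf α + (-(143269/5000000)) ∧ p ≤ (526299/1000000) * ncdf α + (-(46349/1000000)) ∧ p ≤ (472577/1000000) * ncdf α + (-(16133/1000000)) ∧ p ≤ (463509/1000000) * ncdf α + (-(14273/1000000)) := by
  obtain ⟨-, pu1, cl1, cu1⟩ := k085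
  obtain ⟨-, pu2, cl2, cu2⟩ := k080
  have hm1 : ncdf (-(17/20)) ≤ ncdf α := strictMono_ncdf.monotone h1
  have hm2 : ncdf α ≤ ncdf (-(4/5)) := strictMono_ncdf.monotone h2
  have e1 : eF (-(17/20)) ≤ (955352050009/31250000000000) :=
    (eF_le_of_bounds (by norm_num) pu1 cl1).trans (by norm_num)
  have e2 : eF (-(4/5)) ≤ (17411936712849/500000000000000) :=
    (eF_le_of_bounds (by norm_num) pu2 cl2).trans (by norm_num)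
  have he1 : eF (-(17/20)) ≤ (2996293/10000000) * ncdf (-(17/20)) + (-(143269/5000000)) := by linarith
  have he2 : eF (-(4/5)) ≤ (2996293/10000000) * ncdf (-(4/5)) + (-(143269/5000000)) := by linarith
  have hc := eF_chord (by norm_num) he1 he2 ⟨h1, h2⟩
  have hpos := ncdf_pos α
  have hemax : eF α ≤ (13/100) := by linarith
  have hq := p_le_linear (κ := (4/3)) (e₀ := (327/10000)) (by norm_num) h0 hU (hp2 hemax)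
  have hA : (2 - 2 * (4/3) * (327/10000) / (35811/100000) : ℝ) = (62902/35811) := by norm_num
  have hC : ((4/3) * (327/10000) ^ 2 / (35811/100000) : ℝ) = (11881/2984250) := by norm_num
  rw [hA, hC] at hq
  have hα : -1 ≤ α := by linarith
  exact ⟨cl1.trans hm1, hm2.trans cu2, hc, by linarith, hp1.trans (tang_k085 hα), hp1.trans (tang_k080 hα)⟩

theorem piece4_16 {F₀ α p : ℝ} (h0 : 0 < F₀) (hU : F₀ ≤ (35811/100000)) (hp1 : p ≤ npdf α ^ 2)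
    (hp2 : eF α ≤ (13/100) → p ≤ 2 * eF α - (4/3) * eF α ^ 2 / F₀)
    (h1 : -(4/5) ≤ α) (h2 : α ≤ -(3/4)) :
    (2118541/10000000) ≤ ncdf α ∧ ncdf α ≤ (566569/2500000) ∧ eF α ≤ (3165631/10000000) * ncdf α + (-(322413/10000000)) ∧ p ≤ (136359/250000) * ncdf α + (-(50399/1000000)) ∧ p ≤ (463509/1000000) * ncdf α + (-(14273/1000000)) ∧ p ≤ (451709/1000000) * ncdf α + (-(11683/1000000)) := by
  obtain ⟨-, pu1, cl1, cu1⟩ := k080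
  obtain ⟨-, pu2, cl2, cu2⟩ := k075
  have hm1 : ncdf (-(4/5)) ≤ ncdf α := strictMono_ncdf.monotone h1
  have hm2 : ncdf α ≤ ncdf (-(3/4)) := strictMono_ncdf.monotone h2
  have e1 : eF (-(4/5)) ≤ (17411936712849/500000000000000) :=
    (eF_le_of_bounds (by norm_num) pu1 cl1).trans (by norm_num)
  have e2 : eF (-(3/4)) ≤ (3950014301343/100000000000000) :=
    (eF_le_of_bounds (by norm_num) pu2 cl2).trans (by norm_num)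
  have he1 : eF (-(4/5)) ≤ (3165631/10000000) * ncdf (-(4/5)) + (-(322413/10000000)) := by linarith
  have he2 : eF (-(3/4)) ≤ (3165631/10000000) * ncdf (-(3/4)) + (-(322413/10000000)) := by linarith
  have hc := eF_chord (by norm_num) he1 he2 ⟨h1, h2⟩
  have hpos := ncdf_pos α
  have hemax : eF α ≤ (13/100) := by linarith
  have hq := p_le_linear (κ := (4/3)) (e₀ := (93/2500)) (by norm_num) h0 hU (hp2 hemax)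
  have hA : (2 - 2 * (4/3) * (93/2500) / (35811/100000) : ℝ) = (61702/35811) := by norm_num
  have hC : ((4/3) * (93/2500) ^ 2 / (35811/100000) : ℝ) = (7688/1492125) := by norm_num
  rw [hA, hC] at hq
  have hα : -1 ≤ α := by linarith
  exact ⟨cl1.trans hm1, hm2.trans cu2, hc, by linarith, hp1.trans (tang_k080 hα), hp1.trans (tang_k075 hα)⟩

theorem piece4_17 {F₀ α p : ℝ} (h0 : 0 < F₀) (hU : F₀ ≤ (35811/100000)) (hp1 : p ≤ npdf α ^ 2)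
    (hp2 : eF α ≤ (13/100) → p ≤ 2 * eF α - (4/3) * eF α ^ 2 / F₀)
    (h1 : -(3/4) ≤ α) (h2 : α ≤ -(7/10)) :
    (2266261/10000000) ≤ ncdf α ∧ ncdf α ≤ (2419639/10000000) ∧ eF α ≤ (66709/200000) * ncdf α + (-(180449/5000000)) ∧ p ≤ (22501/40000) * ncdf α + (-(27133/500000)) ∧ p ≤ (451709/1000000) * ncdf α + (-(11683/1000000)) ∧ p ≤ (218579/500000) * ncdf α + (-(8271/1000000)) := by
  obtain ⟨-, pu1, cl1, cu1⟩ := k075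
  obtain ⟨-, pu2, cl2, cu2⟩ := k070
  have hm1 : ncdf (-(3/4)) ≤ ncdf α := strictMono_ncdf.monotone h1
  have hm2 : ncdf α ≤ ncdf (-(7/10)) := strictMono_ncdf.monotone h2
  have e1 : eF (-(3/4)) ≤ (3950014301343/100000000000000) :=
    (eF_le_of_bounds (by norm_num) pu1 cl1).trans (by norm_num)
  have e2 : eF (-(7/10)) ≤ (8923104251943/200000000000000) :=
    (eF_le_of_bounds (by norm_num) pu2 cl2).trans (by norm_num)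
  have he1 : eF (-(3/4)) ≤ (66709/200000) * ncdf (-(3/4)) + (-(180449/5000000)) := by linarith
  have he2 : eF (-(7/10)) ≤ (66709/200000) * ncdf (-(7/10)) + (-(180449/5000000)) := by linarith
  have hc := eF_chord (by norm_num) he1 he2 ⟨h1, h2⟩
  have hpos := ncdf_pos α
  have hemax : eF α ≤ (13/100) := by linarith
  have hq := p_le_linear (κ := (4/3)) (e₀ := (421/10000)) (by norm_num) h0 hU (hp2 hemax)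
  have hA : (2 - 2 * (4/3) * (421/10000) / (35811/100000) : ℝ) = (181186/107433) := by norm_num
  have hC : ((4/3) * (421/10000) ^ 2 / (35811/100000) : ℝ) = (177241/26858250) := by norm_num
  rw [hA, hC] at hq
  have hα : -1 ≤ α := by linarith
  exact ⟨cl1.trans hm1, hm2.trans cu2, hc, by linarith, hp1.trans (tang_k075 hα), hp1.trans (tang_k070 hα)⟩

theorem piece4_18 {F₀ α p : ℝ} (h0 : 0 < F₀) (hU : F₀ ≤ (35811/100000)) (hp1 : p ≤ npdf α ^ 2)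
    (hp2 : eF α ≤ (13/100) → p ≤ 2 * eF α - (4/3) * eF α ^ 2 / F₀)
    (h1 : -(7/10) ≤ α) (h2 : α ≤ -(13/20)) :
    (19357/80000) ≤ ncdf α ∧ ncdf α ≤ (2578463/10000000) ∧ eF α ≤ (3504731/10000000) * ncdf α + (-(200929/5000000)) ∧ p ≤ (288621/500000) * ncdf α + (-(28911/500000)) ∧ p ≤ (218579/500000) * ncdf α + (-(8271/1000000)) ∧ p ≤ (209933/500000) * ncdf α + (-(3947/1000000)) := by
  obtain ⟨-, pu1, cl1, cu1⟩ := k070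
  obtain ⟨-, pu2, cl2, cu2⟩ := k065
  have hm1 : ncdf (-(7/10)) ≤ ncdf α := strictMono_ncdf.monotone h1
  have hm2 : ncdf α ≤ ncdf (-(13/20)) := strictMono_ncdf.monotone h2
  have e1 : eF (-(7/10)) ≤ (8923104251943/200000000000000) :=
    (eF_le_of_bounds (by norm_num) pu1 cl1).trans (by norm_num)
  have e2 : eF (-(13/20)) ≤ (5018190883679/100000000000000) :=
    (eF_le_of_bounds (by norm_num) pu2 cl2).trans (by norm_num)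
  have he1 : eF (-(7/10)) ≤ (3504731/10000000) * ncdf (-(7/10)) + (-(200929/5000000)) := by linarith
  have he2 : eF (-(13/20)) ≤ (3504731/10000000) * ncdf (-(13/20)) + (-(200929/5000000)) := by linarith
  have hc := eF_chord (by norm_num) he1 he2 ⟨h1, h2⟩
  have hpos := ncdf_pos α
  have hemax : eF α ≤ (13/100) := by linarith
  have hq := p_le_linear (κ := (4/3)) (e₀ := (237/5000)) (by norm_num) h0 hU (hp2 hemax)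
  have hA : (2 - 2 * (4/3) * (237/5000) / (35811/100000) : ℝ) = (58982/35811) := by norm_num
  have hC : ((4/3) * (237/5000) ^ 2 / (35811/100000) : ℝ) = (12482/1492125) := by norm_num
  rw [hA, hC] at hq
  have hα : -1 ≤ α := by linarith
  exact ⟨cl1.trans hm1, hm2.trans cu2, hc, by linarith, hp1.trans (tang_k070 hα), hp1.trans (tang_k065 hα)⟩

theorem piece4_19 {F₀ α p : ℝ} (h0 : 0 < F₀) (hU : F₀ ≤ (35811/100000)) (hp1 : p ≤ npdf α ^ 2)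
    (hp2 : eF α ≤ (13/100) → p ≤ 2 * eF α - (4/3) * eF α ^ 2 / F₀)
    (h1 : -(13/20) ≤ α) (h2 : α ≤ -(3/5)) :
    (51569/200000) ≤ ncdf α ∧ ncdf α ≤ (2742533/10000000) ∧ eF α ≤ (3672161/10000000) * ncdf α + (-(445029/10000000)) ∧ p ≤ (588959/1000000) * ncdf α + (-(30419/500000)) ∧ p ≤ (209933/500000) * ncdf α + (-(3947/1000000)) ∧ p ≤ (6248/15625) * ncdf α + (11/8000) := by
  obtain ⟨-, pu1, cl1, cu1⟩ := k065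
  obtain ⟨-, pu2, cl2, cu2⟩ := k060
  have hm1 : ncdf (-(13/20)) ≤ ncdf α := strictMono_ncdf.monotone h1
  have hm2 : ncdf α ≤ ncdf (-(3/5)) := strictMono_ncdf.monotone h2
  have e1 : eF (-(13/20)) ≤ (5018190883679/100000000000000) :=
    (eF_le_of_bounds (by norm_num) pu1 cl1).trans (by norm_num)
  have e2 : eF (-(3/5)) ≤ (14051714775331/250000000000000) :=
    (eF_le_of_bounds (by norm_num) pu2 cl2).trans (by norm_num)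
  have he1 : eF (-(13/20)) ≤ (3672161/10000000) * ncdf (-(13/20)) + (-(445029/10000000)) := by linarith
  have he2 : eF (-(3/5)) ≤ (3672161/10000000) * ncdf (-(3/5)) + (-(445029/10000000)) := by linarith
  have hc := eF_chord (by norm_num) he1 he2 ⟨h1, h2⟩
  have hpos := ncdf_pos α
  have hemax : eF α ≤ (13/100) := by linarith
  have hq := p_le_linear (κ := (4/3)) (e₀ := (133/2500)) (by norm_num) h0 hU (hp2 hemax)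
  have hA : (2 - 2 * (4/3) * (133/2500) / (35811/100000) : ℝ) = (172306/107433) := by norm_num
  have hC : ((4/3) * (133/2500) ^ 2 / (35811/100000) : ℝ) = (141512/13429125) := by norm_num
  rw [hA, hC] at hq
  have hα : -1 ≤ α := by linarith
  exact ⟨cl1.trans hm1, hm2.trans cu2, hc, by linarith, hp1.trans (tang_k065 hα), hp1.trans (tang_k060 hα)⟩

theorem piece4_20 {F₀ α p : ℝ} (h0 : 0 < F₀) (hU : F₀ ≤ (35811/100000)) (hp1 : p ≤ npdf α ^ 2)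
    (hp2 : eF α ≤ (13/100) → p ≤ 2 * eF α - (4/3) * eF α ^ 2 / F₀)
    (h1 : -(3/5) ≤ α) (h2 : α ≤ -(11/20)) :
    (2742521/10000000) ≤ ncdf α ∧ ncdf α ≤ (2911599/10000000) ∧ eF α ≤ (153463/400000) * ncdf α + (-(12253/250000)) ∧ p ≤ (59733/100000) * ncdf α + (-(63127/1000000)) ∧ p ≤ (6248/15625) * ncdf α + (11/8000) ∧ p ≤ (9431/25000) * ncdf α + (243/31250) := by
  obtain ⟨-, pu1, cl1, cu1⟩ := k060
  obtain ⟨-, pu2, cl2, cu2⟩ := k055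
  have hm1 : ncdf (-(3/5)) ≤ ncdf α := strictMono_ncdf.monotone h1
  have hm2 : ncdf α ≤ ncdf (-(11/20)) := strictMono_ncdf.monotone h2
  have e1 : eF (-(3/5)) ≤ (14051714775331/250000000000000) :=
    (eF_le_of_bounds (by norm_num) pu1 cl1).trans (by norm_num)
  have e2 : eF (-(11/20)) ≤ (62693202121921/1000000000000000) :=
    (eF_le_of_bounds (by norm_num) pu2 cl2).trans (by norm_num)
  have he1 : eF (-(3/5)) ≤ (153463/400000) * ncdf (-(3/5)) + (-(12253/250000)) := by linarith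
  have he2 : eF (-(11/20)) ≤ (153463/400000) * ncdf (-(11/20)) + (-(12253/250000)) := by linarith
  have hc := eF_chord (by norm_num) he1 he2 ⟨h1, h2⟩
  have hpos := ncdf_pos α
  have hemax : eF α ≤ (13/100) := by linarith
  have hq := p_le_linear (κ := (4/3)) (e₀ := (119/2000)) (by norm_num) h0 hU (hp2 hemax)
  have hA : (2 - 2 * (4/3) * (119/2000) / (35811/100000) : ℝ) = (167266/107433) := by norm_num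
  have hC : ((4/3) * (119/2000) ^ 2 / (35811/100000) : ℝ) = (14161/1074330) := by norm_num
  rw [hA, hC] at hq
  have hα : -1 ≤ α := by linarith
  exact ⟨cl1.trans hm1, hm2.trans cu2, hc, by linarith, hp1.trans (tang_k060 hα), hp1.trans (tang_k055 hα)⟩

theorem piece4_21 {F₀ α p : ℝ} (h0 : 0 < F₀) (hU : F₀ ≤ (35811/100000)) (hp1 : p ≤ npdf α ^ 2)
    (hp2 : eF α ≤ (13/100) → p ≤ 2 * eF α - (4/3) * eF α ^ 2 / F₀)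
    (h1 : -(11/20) ≤ α) (h2 : α ≤ -(13/25)) :
    (2911587/10000000) ≤ ncdf α ∧ ncdf α ≤ (75383/250000) ∧ eF α ≤ (3964859/10000000) * ncdf α + (-(527471/10000000)) ∧ p ≤ (120331/200000) * ncdf α + (-(64407/1000000)) ∧ p ≤ (9431/25000) * ncdf α + (243/31250) ∧ p ≤ (181217/500000) * ncdf α + (3041/250000) := by
  obtain ⟨-, pu1, cl1, cu1⟩ := k055
  obtain ⟨-, pu2, cl2, cu2⟩ := k052
  have hm1 : ncdf (-(11/20)) ≤ ncdf α := strictMono_ncdf.monotone h1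
  have hm2 : ncdf α ≤ ncdf (-(13/25)) := strictMono_ncdf.monotone h2
  have e1 : eF (-(11/20)) ≤ (62693202121921/1000000000000000) :=
    (eF_le_of_bounds (by norm_num) pu1 cl1).trans (by norm_num)
  have e2 : eF (-(13/25)) ≤ (41753520708507/625000000000000) :=
    (eF_le_of_bounds (by norm_num) pu2 cl2).trans (by norm_num)
  have he1 : eF (-(11/20)) ≤ (3964859/10000000) * ncdf (-(11/20)) + (-(527471/10000000)) := by linarith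
  have he2 : eF (-(13/25)) ≤ (3964859/10000000) * ncdf (-(13/25)) + (-(527471/10000000)) := by linarith
  have hc := eF_chord (by norm_num) he1 he2 ⟨h1, h2⟩
  have hpos := ncdf_pos α
  have hemax : eF α ≤ (13/100) := by linarith
  have hq := p_le_linear (κ := (4/3)) (e₀ := (81/1250)) (by norm_num) h0 hU (hp2 hemax)
  have hA : (2 - 2 * (4/3) * (81/1250) / (35811/100000) : ℝ) = (6038/3979) := by norm_num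
  have hC : ((4/3) * (81/1250) ^ 2 / (35811/100000) : ℝ) = (7776/497375) := by norm_num
  rw [hA, hC] at hq
  have hα : -1 ≤ α := by linarith
  exact ⟨cl1.trans hm1, hm2.trans cu2, hc, by linarith, hp1.trans (tang_k055 hα), hp1.trans (tang_k052 hα)⟩

theorem piece4_22 {F₀ α p : ℝ} (h0 : 0 < F₀) (hU : F₀ ≤ (35811/100000)) (hp1 : p ≤ npdf α ^ 2)
    (hp2 : eF α ≤ (13/100) → p ≤ 2 * eF α - (4/3) * eF α ^ 2 / F₀)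
    (h1 : -(13/25) ≤ α) (h2 : α ≤ -(1/2)) :
    (3015309/10000000) ≤ ncdf α ∧ ncdf α ≤ (3085377/10000000) ∧ eF α ≤ (4043349/10000000) * ncdf α + (-(275569/5000000)) ∧ p ≤ (603027/1000000) * ncdf α + (-(16207/250000)) ∧ p ≤ (181217/500000) * ncdf α + (3041/250000) ∧ p ≤ (352067/1000000) * ncdf α + (15327/1000000) := by
  obtain ⟨-, pu1, cl1, cu1⟩ := k052
  obtain ⟨-, pu2, cl2, cu2⟩ := k050
  have hm1 : ncdf (-(13/25)) ≤ ncdf α := strictMono_ncdf.monotone h1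
  have hm2 : ncdf α ≤ ncdf (-(1/2)) := strictMono_ncdf.monotone h2
  have e1 : eF (-(13/25)) ≤ (41753520708507/625000000000000) :=
    (eF_le_of_bounds (by norm_num) pu1 cl1).trans (by norm_num)
  have e2 : eF (-(1/2)) ≤ (13927664464599/200000000000000) :=
    (eF_le_of_bounds (by norm_num) pu2 cl2).trans (by norm_num)
  have he1 : eF (-(13/25)) ≤ (4043349/10000000) * ncdf (-(13/25)) + (-(275569/5000000)) := by linarith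
  have he2 : eF (-(1/2)) ≤ (4043349/10000000) * ncdf (-(1/2)) + (-(275569/5000000)) := by linarith
  have hc := eF_chord (by norm_num) he1 he2 ⟨h1, h2⟩
  have hpos := ncdf_pos α
  have hemax : eF α ≤ (13/100) := by linarith
  have hq := p_le_linear (κ := (4/3)) (e₀ := (683/10000)) (by norm_num) h0 hU (hp2 hemax)
  have hA : (2 - 2 * (4/3) * (683/10000) / (35811/100000) : ℝ) = (160226/107433) := by norm_num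
  have hC : ((4/3) * (683/10000) ^ 2 / (35811/100000) : ℝ) = (466489/26858250) := by norm_num
  rw [hA, hC] at hq
  have hα : -1 ≤ α := by linarith
  exact ⟨cl1.trans hm1, hm2.trans cu2, hc, by linarith, hp1.trans (tang_k052 hα), hp1.trans (tang_k050 hα)⟩

theorem piece4_23 {F₀ α p : ℝ} (h0 : 0 < F₀) (hU : F₀ ≤ (35811/100000)) (hp1 : p ≤ npdf α ^ 2)
    (hp2 : eF α ≤ (13/100) → p ≤ 2 * eF α - (4/3) * eF α ^ 2 / F₀)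
    (h1 : -(1/2) ≤ α) (h2 : α ≤ -(12/25)) :
    (3085367/10000000) ≤ ncdf α ∧ ncdf α ≤ (3156139/10000000) ∧ eF α ≤ (4105061/10000000) * ncdf α + (-(285089/5000000)) ∧ p ≤ (75459/125000) * ncdf α + (-(2601/40000)) ∧ p ≤ (352067/1000000) * ncdf α + (15327/1000000) ∧ p ≤ (341313/1000000) * ncdf α + (18683/1000000) := by
  obtain ⟨-, pu1, cl1, cu1⟩ := k050
  obtain ⟨-, pu2, cl2, cu2⟩ := k048
  have hm1 : ncdf (-(1/2)) ≤ ncdf α := strictMono_ncdf.monotone h1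
  have hm2 : ncdf α ≤ ncdf (-(12/25)) := strictMono_ncdf.monotone h2
  have e1 : eF (-(1/2)) ≤ (13927664464599/200000000000000) :=
    (eF_le_of_bounds (by norm_num) pu1 cl1).trans (by norm_num)
  have e2 : eF (-(12/25)) ≤ (181357862637157/2500000000000000) :=
    (eF_le_of_bounds (by norm_num) pu2 cl2).trans (by norm_num)
  have he1 : eF (-(1/2)) ≤ (4105061/10000000) * ncdf (-(1/2)) + (-(285089/5000000)) := by linarith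
  have he2 : eF (-(12/25)) ≤ (4105061/10000000) * ncdf (-(12/25)) + (-(285089/5000000)) := by linarith
  have hc := eF_chord (by norm_num) he1 he2 ⟨h1, h2⟩
  have hpos := ncdf_pos α
  have hemax : eF α ≤ (13/100) := by linarith
  have hq := p_le_linear (κ := (4/3)) (e₀ := (711/10000)) (by norm_num) h0 hU (hp2 hemax)
  have hA : (2 - 2 * (4/3) * (711/10000) / (35811/100000) : ℝ) = (17554/11937) := by norm_num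
  have hC : ((4/3) * (711/10000) ^ 2 / (35811/100000) : ℝ) = (18723/994750) := by norm_num
  rw [hA, hC] at hq
  have hα : -1 ≤ α := by linarith
  exact ⟨cl1.trans hm1, hm2.trans cu2, hc, by linarith, hp1.trans (tang_k050 hα), hp1.trans (tang_k048 hα)⟩

theorem piece4_24 {F₀ α p : ℝ} (h0 : 0 < F₀) (hU : F₀ ≤ (35811/100000)) (hp1 : p ≤ npdf α ^ 2)
    (hp2 : eF α ≤ (13/100) → p ≤ 2 * eF α - (4/3) * eF α ^ 2 / F₀)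
    (h1 : -(12/25) ≤ α) (h2 : α ≤ -(9/20)) :
    (3156129/10000000) ≤ ncdf α ∧ ncdf α ≤ (1631777/5000000) ∧ eF α ≤ (2090343/5000000) * ncdf α + (-(297023/5000000)) ∧ p ≤ (301637/500000) * ncdf α + (-(64889/1000000)) ∧ p ≤ (341313/1000000) * ncdf α + (18683/1000000) ∧ p ≤ (81119/250000) * ncdf α + (3011/125000) := by
  obtain ⟨-, pu1, cl1, cu1⟩ := k048
  obtain ⟨-, pu2, cl2, cu2⟩ := k045
  have hm1 : ncdf (-(12/25)) ≤ ncdf α := strictMono_ncdf.monotone h1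
  have hm2 : ncdf α ≤ ncdf (-(9/20)) := strictMono_ncdf.monotone h2
  have e1 : eF (-(12/25)) ≤ (181357862637157/2500000000000000) :=
    (eF_le_of_bounds (by norm_num) pu1 cl1).trans (by norm_num)
  have e2 : eF (-(9/20)) ≤ (300913393347/3906250000000) :=
    (eF_le_of_bounds (by norm_num) pu2 cl2).trans (by norm_num)
  have he1 : eF (-(12/25)) ≤ (2090343/5000000) * ncdf (-(12/25)) + (-(297023/5000000)) := by linarith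
  have he2 : eF (-(9/20)) ≤ (2090343/5000000) * ncdf (-(9/20)) + (-(297023/5000000)) := by linarith
  have hc := eF_chord (by norm_num) he1 he2 ⟨h1, h2⟩
  have hpos := ncdf_pos α
  have hemax : eF α ≤ (13/100) := by linarith
  have hq := p_le_linear (κ := (4/3)) (e₀ := (187/2500)) (by norm_num) h0 hU (hp2 hemax)
  have hA : (2 - 2 * (4/3) * (187/2500) / (35811/100000) : ℝ) = (155026/107433) := by norm_num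
  have hC : ((4/3) * (187/2500) ^ 2 / (35811/100000) : ℝ) = (279752/13429125) := by norm_num
  rw [hA, hC] at hq
  have hα : -1 ≤ α := by linarith
  exact ⟨cl1.trans hm1, hm2.trans cu2, hc, by linarith, hp1.trans (tang_k048 hα), hp1.trans (tang_k045 hα)⟩

theorem piece4_25 {F₀ α p : ℝ} (h0 : 0 < F₀) (hU : F₀ ≤ (35811/100000)) (hp1 : p ≤ npdf α ^ 2)
    (hp2 : eF α ≤ (13/100) → p ≤ 2 * eF α - (4/3) * eF α ^ 2 / F₀)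
    (h1 : -(9/20) ≤ α) (h2 : α ≤ -(2/5)) :
    (407943/1250000) ≤ ncdf α ∧ ncdf α ≤ (430723/1250000) ∧ eF α ≤ (537163/1250000) * ncdf α + (-(126421/2000000)) ∧ p ≤ (300131/500000) * ncdf α + (-(31933/500000)) ∧ p ≤ (81119/250000) * ncdf α + (3011/125000) ∧ p ≤ (147309/500000) * ncdf α + (34107/1000000) := by
  obtain ⟨-, pu1, cl1, cu1⟩ := k045
  obtain ⟨-, pu2, cl2, cu2⟩ := k040
  have hm1 : ncdf (-(9/20)) ≤ ncdf α := strictMono_ncdf.monotone h1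
  have hm2 : ncdf α ≤ ncdf (-(2/5)) := strictMono_ncdf.monotone h2
  have e1 : eF (-(9/20)) ≤ (300913393347/3906250000000) :=
    (eF_le_of_bounds (by norm_num) pu1 cl1).trans (by norm_num)
  have e2 : eF (-(2/5)) ≤ (530405301309/6250000000000) :=
    (eF_le_of_bounds (by norm_num) pu2 cl2).trans (by norm_num)
  have he1 : eF (-(9/20)) ≤ (537163/1250000) * ncdf (-(9/20)) + (-(126421/2000000)) := by linarith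
  have he2 : eF (-(2/5)) ≤ (537163/1250000) * ncdf (-(2/5)) + (-(126421/2000000)) := by linarith
  have hc := eF_chord (by norm_num) he1 he2 ⟨h1, h2⟩
  have hpos := ncdf_pos α
  have hemax : eF α ≤ (13/100) := by linarith
  have hq := p_le_linear (κ := (4/3)) (e₀ := (81/1000)) (by norm_num) h0 hU (hp2 hemax)
  have hA : (2 - 2 * (4/3) * (81/1000) / (35811/100000) : ℝ) = (5558/3979) := by norm_num
  have hC : ((4/3) * (81/1000) ^ 2 / (35811/100000) : ℝ) = (486/19895) := by norm_num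
  rw [hA, hC] at hq
  have hα : -1 ≤ α := by linarith
  exact ⟨cl1.trans hm1, hm2.trans cu2, hc, by linarith, hp1.trans (tang_k045 hα), hp1.trans (tang_k040 hα)⟩

theorem piece4_26 {F₀ α p : ℝ} (h0 : 0 < F₀) (hU : F₀ ≤ (35811/100000)) (hp1 : p ≤ npdf α ^ 2)
    (hp2 : eF α ≤ (13/100) → p ≤ 2 * eF α - (4/3) * eF α ^ 2 / F₀)
    (h1 : -(2/5) ≤ α) (h2 : α ≤ -(7/20)) :
    (137831/400000) ≤ ncdf α ∧ ncdf α ≤ (726339/2000000) ∧ eF α ≤ (2217463/5000000) * ncdf α + (-(679527/10000000)) ∧ p ≤ (296533/500000) * ncdf α + (-(30689/500000)) ∧ p ≤ (147309/500000) * ncdf α + (34107/1000000) ∧ p ≤ (26267/100000) * ncdf α + (22707/500000) := by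
  obtain ⟨-, pu1, cl1, cu1⟩ := k040
  obtain ⟨-, pu2, cl2, cu2⟩ := k035
  have hm1 : ncdf (-(2/5)) ≤ ncdf α := strictMono_ncdf.monotone h1
  have hm2 : ncdf α ≤ ncdf (-(7/20)) := strictMono_ncdf.monotone h2
  have e1 : eF (-(2/5)) ≤ (530405301309/6250000000000) :=
    (eF_le_of_bounds (by norm_num) pu1 cl1).trans (by norm_num)
  have e2 : eF (-(7/20)) ≤ (9310990630011/100000000000000) :=
    (eF_le_of_bounds (by norm_num) pu2 cl2).trans (by norm_num)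
  have he1 : eF (-(2/5)) ≤ (2217463/5000000) * ncdf (-(2/5)) + (-(679527/10000000)) := by linarith
  have he2 : eF (-(7/20)) ≤ (2217463/5000000) * ncdf (-(7/20)) + (-(679527/10000000)) := by linarith
  have hc := eF_chord (by norm_num) he1 he2 ⟨h1, h2⟩
  have hpos := ncdf_pos α
  have hemax : eF α ≤ (13/100) := by linarith
  have hq := p_le_linear (κ := (4/3)) (e₀ := (89/1000)) (by norm_num) h0 hU (hp2 hemax)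
  have hA : (2 - 2 * (4/3) * (89/1000) / (35811/100000) : ℝ) = (143666/107433) := by norm_num
  have hC : ((4/3) * (89/1000) ^ 2 / (35811/100000) : ℝ) = (15842/537165) := by norm_num
  rw [hA, hC] at hq
  have hα : -1 ≤ α := by linarith
  exact ⟨cl1.trans hm1, hm2.trans cu2, hc, by linarith, hp1.trans (tang_k040 hα), hp1.trans (tang_k035 hα)⟩

theorem piece4_27 {F₀ α p : ℝ} (h0 : 0 < F₀) (hU : F₀ ≤ (35811/100000)) (hp1 : p ≤ npdf α ^ 2)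
    (hp2 : eF α ≤ (13/100) → p ≤ 2 * eF α - (4/3) * eF α ^ 2 / F₀)
    (h1 : -(7/20) ≤ α) (h2 : α ≤ -(3/10)) :
    (3631687/10000000) ≤ ncdf α ∧ ncdf α ≤ (3820887/10000000) ∧ eF α ≤ (4561871/10000000) * ncdf α + (-(725629/10000000)) ∧ p ≤ (581167/1000000) * ncdf α + (-(7131/125000)) ∧ p ≤ (26267/100000) * ncdf α + (22707/500000) ∧ p ≤ (114417/500000) * ncdf α + (7253/125000) := by
  obtain ⟨-, pu1, cl1, cu1⟩ := k035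
  obtain ⟨-, pu2, cl2, cu2⟩ := k030
  have hm1 : ncdf (-(7/20)) ≤ ncdf α := strictMono_ncdf.monotone h1
  have hm2 : ncdf α ≤ ncdf (-(3/10)) := strictMono_ncdf.monotone h2
  have e1 : eF (-(7/20)) ≤ (9310990630011/100000000000000) :=
    (eF_le_of_bounds (by norm_num) pu1 cl1).trans (by norm_num)
  have e2 : eF (-(3/10)) ≤ (2034812906549/20000000000000) :=
    (eF_le_of_bounds (by norm_num) pu2 cl2).trans (by norm_num)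
  have he1 : eF (-(7/20)) ≤ (4561871/10000000) * ncdf (-(7/20)) + (-(725629/10000000)) := by linarith
  have he2 : eF (-(3/10)) ≤ (4561871/10000000) * ncdf (-(3/10)) + (-(725629/10000000)) := by linarith
  have hc := eF_chord (by norm_num) he1 he2 ⟨h1, h2⟩
  have hpos := ncdf_pos α
  have hemax : eF α ≤ (13/100) := by linarith
  have hq := p_le_linear (κ := (4/3)) (e₀ := (39/400)) (by norm_num) h0 hU (hp2 hemax)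
  have hA : (2 - 2 * (4/3) * (39/400) / (35811/100000) : ℝ) = (45622/35811) := by norm_num
  have hC : ((4/3) * (39/400) ^ 2 / (35811/100000) : ℝ) = (845/23874) := by norm_num
  rw [hA, hC] at hq
  have hα : -1 ≤ α := by linarith
  exact ⟨cl1.trans hm1, hm2.trans cu2, hc, by linarith, hp1.trans (tang_k035 hα), hp1.trans (tang_k030 hα)⟩

theorem piece4_28 {F₀ α p : ℝ} (h0 : 0 < F₀) (hU : F₀ ≤ (35811/100000)) (hp1 : p ≤ npdf α ^ 2)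
    (hp2 : eF α ≤ (13/100) → p ≤ 2 * eF α - (4/3) * eF α ^ 2 / F₀)
    (h1 : -(3/10) ≤ α) (h2 : α ≤ -(1/4)) :
    (47761/125000) ≤ ncdf α ∧ ncdf α ≤ (2006469/5000000) ∧ eF α ≤ (935257/2000000) * ncdf α + (-(153869/2000000)) ∧ p ≤ (114417/500000) * ncdf α + (7253/125000) ∧ p ≤ (38667/200000) * ncdf α + (7193/100000) := by
  obtain ⟨-, pu1, cl1, cu1⟩ := k030
  obtain ⟨-, pu2, cl2, cu2⟩ := k025
  have hm1 : ncdf (-(3/10)) ≤ ncdf α := strictMono_ncdf.monotone h1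
  have hm2 : ncdf α ≤ ncdf (-(1/4)) := strictMono_ncdf.monotone h2
  have e1 : eF (-(3/10)) ≤ (2034812906549/20000000000000) :=
    (eF_le_of_bounds (by norm_num) pu1 cl1).trans (by norm_num)
  have e2 : eF (-(1/4)) ≤ (1107215438857/10000000000000) :=
    (eF_le_of_bounds (by norm_num) pu2 cl2).trans (by norm_num)
  have he1 : eF (-(3/10)) ≤ (935257/2000000) * ncdf (-(3/10)) + (-(153869/2000000)) := by linarith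
  have he2 : eF (-(1/4)) ≤ (935257/2000000) * ncdf (-(1/4)) + (-(153869/2000000)) := by linarith
  have hc := eF_chord (by norm_num) he1 he2 ⟨h1, h2⟩
  have hpos := ncdf_pos α
  have hα : -1 ≤ α := by linarith
  exact ⟨cl1.trans hm1, hm2.trans cu2, hc, hp1.trans (tang_k030 hα), hp1.trans (tang_k025 hα)⟩

theorem piece4_29 {F₀ α p : ℝ} (h0 : 0 < F₀) (hU : F₀ ≤ (35811/100000)) (hp1 : p ≤ npdf α ^ 2)
    (hp2 : eF α ≤ (13/100) → p ≤ 2 * eF α - (4/3) * eF α ^ 2 / F₀)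
    (h1 : -(1/4) ≤ α) (h2 : α ≤ -(1/5)) :
    (1003233/2500000) ≤ ncdf α ∧ ncdf α ≤ (1051851/2500000) ∧ eF α ≤ (298527/625000) * ncdf α + (-(404767/5000000)) ∧ p ≤ (38667/200000) * ncdf α + (7193/100000) ∧ p ≤ (78209/500000) * ncdf α + (17421/200000) := by
  obtain ⟨-, pu1, cl1, cu1⟩ := k025
  obtain ⟨-, pu2, cl2, cu2⟩ := k020
  have hm1 : ncdf (-(1/4)) ≤ ncdf α := strictMono_ncdf.monotone h1
  have hm2 : ncdf α ≤ ncdf (-(1/5)) := strictMono_ncdf.monotone h2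
  have e1 : eF (-(1/4)) ≤ (1107215438857/10000000000000) :=
    (eF_le_of_bounds (by norm_num) pu1 cl1).trans (by norm_num)
  have e2 : eF (-(1/5)) ≤ (15001265802631/125000000000000) :=
    (eF_le_of_bounds (by norm_num) pu2 cl2).trans (by norm_num)
  have he1 : eF (-(1/4)) ≤ (298527/625000) * ncdf (-(1/4)) + (-(404767/5000000)) := by linarith
  have he2 : eF (-(1/5)) ≤ (298527/625000) * ncdf (-(1/5)) + (-(404767/5000000)) := by linarith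
  have hc := eF_chord (by norm_num) he1 he2 ⟨h1, h2⟩
  have hpos := ncdf_pos α
  have hα : -1 ≤ α := by linarith
  exact ⟨cl1.trans hm1, hm2.trans cu2, hc, hp1.trans (tang_k025 hα), hp1.trans (tang_k020 hα)⟩

theorem piece4_30 {F₀ α p : ℝ} (h0 : 0 < F₀) (hU : F₀ ≤ (35811/100000)) (hp1 : p ≤ npdf α ^ 2)
    (hp2 : eF α ≤ (13/100) → p ≤ 2 * eF α - (4/3) * eF α ^ 2 / F₀)
    (h1 : -(1/5) ≤ α) (h2 : α ≤ -(3/20)) :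
    (4207399/10000000) ≤ ncdf α ∧ ncdf α ≤ (275239/625000) ∧ eF α ≤ (972081/2000000) * ncdf α + (-(168973/2000000)) ∧ p ≤ (78209/500000) * ncdf α + (17421/200000) ∧ p ≤ (23669/200000) * ncdf α + (103499/1000000) := by
  obtain ⟨-, pu1, cl1, cu1⟩ := k020
  obtain ⟨-, pu2, cl2, cu2⟩ := k015
  have hm1 : ncdf (-(1/5)) ≤ ncdf α := strictMono_ncdf.monotone h1
  have hm2 : ncdf α ≤ ncdf (-(3/20)) := strictMono_ncdf.monotone h2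
  have e1 : eF (-(1/5)) ≤ (15001265802631/125000000000000) :=
    (eF_le_of_bounds (by norm_num) pu1 cl1).trans (by norm_num)
  have e2 : eF (-(3/20)) ≤ (6477849094509/50000000000000) :=
    (eF_le_of_bounds (by norm_num) pu2 cl2).trans (by norm_num)
  have he1 : eF (-(1/5)) ≤ (972081/2000000) * ncdf (-(1/5)) + (-(168973/2000000)) := by linarith
  have he2 : eF (-(3/20)) ≤ (972081/2000000) * ncdf (-(3/20)) + (-(168973/2000000)) := by linarith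
  have hc := eF_chord (by norm_num) he1 he2 ⟨h1, h2⟩
  have hpos := ncdf_pos α
  have hα : -1 ≤ α := by linarith
  exact ⟨cl1.trans hm1, hm2.trans cu2, hc, hp1.trans (tang_k020 hα), hp1.trans (tang_k015 hα)⟩

theorem piece4_31 {F₀ α p : ℝ} (h0 : 0 < F₀) (hU : F₀ ≤ (35811/100000)) (hp1 : p ≤ npdf α ^ 2)
    (hp2 : eF α ≤ (13/100) → p ≤ 2 * eF α - (4/3) * eF α ^ 2 / F₀)
    (h1 : -(3/20) ≤ α) (h2 : α ≤ -(1/10)) :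
    (220191/500000) ≤ ncdf α ∧ ncdf α ≤ (2300861/5000000) ∧ eF α ≤ (4926257/10000000) * ncdf α + (-(174773/2000000)) ∧ p ≤ (23669/200000) * ncdf α + (103499/1000000) ∧ p ≤ (79391/1000000) * ncdf α + (1513/12500) := by
  obtain ⟨-, pu1, cl1, cu1⟩ := k015
  obtain ⟨-, pu2, cl2, cu2⟩ := k010
  have hm1 : ncdf (-(3/20)) ≤ ncdf α := strictMono_ncdf.monotone h1
  have hm2 : ncdf α ≤ ncdf (-(1/10)) := strictMono_ncdf.monotone h2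
  have e1 : eF (-(3/20)) ≤ (6477849094509/50000000000000) :=
    (eF_le_of_bounds (by norm_num) pu1 cl1).trans (by norm_num)
  have e2 : eF (-(1/10)) ≤ (139305994844073/1000000000000000) :=
    (eF_le_of_bounds (by norm_num) pu2 cl2).trans (by norm_num)
  have he1 : eF (-(3/20)) ≤ (4926257/10000000) * ncdf (-(3/20)) + (-(174773/2000000)) := by linarith
  have he2 : eF (-(1/10)) ≤ (4926257/10000000) * ncdf (-(1/10)) + (-(174773/2000000)) := by linarith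
  have hc := eF_chord (by norm_num) he1 he2 ⟨h1, h2⟩
  have hpos := ncdf_pos α
  have hα : -1 ≤ α := by linarith
  exact ⟨cl1.trans hm1, hm2.trans cu2, hc, hp1.trans (tang_k015 hα), hp1.trans (tang_k010 hα)⟩

theorem piece4_32 {F₀ α p : ℝ} (h0 : 0 < F₀) (hU : F₀ ≤ (35811/100000)) (hp1 : p ≤ npdf α ^ 2)
    (hp2 : eF α ≤ (13/100) → p ≤ 2 * eF α - (4/3) * eF α ^ 2 / F₀)
    (h1 : -(1/10) ≤ α) (h2 : α ≤ -(1/20)) :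
    (4601719/10000000) ≤ ncdf α ∧ ncdf α ≤ (4800613/10000000) ∧ eF α ≤ (4972079/10000000) * ncdf α + (-(894951/10000000)) ∧ p ≤ (79391/1000000) * ncdf α + (1513/12500) ∧ p ≤ (7969/200000) * ncdf α + (8727/62500) := by
  obtain ⟨-, pu1, cl1, cu1⟩ := k010
  obtain ⟨-, pu2, cl2, cu2⟩ := k005
  have hm1 : ncdf (-(1/10)) ≤ ncdf α := strictMono_ncdf.monotone h1
  have hm2 : ncdf α ≤ ncdf (-(1/20)) := strictMono_ncdf.monotone h2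
  have e1 : eF (-(1/10)) ≤ (139305994844073/1000000000000000) :=
    (eF_le_of_bounds (by norm_num) pu1 cl1).trans (by norm_num)
  have e2 : eF (-(1/20)) ≤ (298390123593753/2000000000000000) :=
    (eF_le_of_bounds (by norm_num) pu2 cl2).trans (by norm_num)
  have he1 : eF (-(1/10)) ≤ (4972079/10000000) * ncdf (-(1/10)) + (-(894951/10000000)) := by linarith
  have he2 : eF (-(1/20)) ≤ (4972079/10000000) * ncdf (-(1/20)) + (-(894951/10000000)) := by linarith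
  have hc := eF_chord (by norm_num) he1 he2 ⟨h1, h2⟩
  have hpos := ncdf_pos α
  have hα : -1 ≤ α := by linarith
  exact ⟨cl1.trans hm1, hm2.trans cu2, hc, hp1.trans (tang_k010 hα), hp1.trans (tang_k005 hα)⟩

theorem piece4_33 {F₀ α p : ℝ} (h0 : 0 < F₀) (hU : F₀ ≤ (35811/100000)) (hp1 : p ≤ npdf α ^ 2)
    (hp2 : eF α ≤ (13/100) → p ≤ 2 * eF α - (4/3) * eF α ^ 2 / F₀)
    (h1 : -(1/20) ≤ α) (h2 : α ≤ -0) :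
    (4800611/10000000) ≤ ncdf α ∧ ncdf α ≤ (1/2) ∧ eF α ≤ (499589/1000000) * ncdf α + (-(906381/10000000)) ∧ p ≤ (7969/200000) * ncdf α + (8727/62500) ∧ p ≤ 0 * ncdf α + (159157/1000000) := by
  obtain ⟨-, pu1, cl1, cu1⟩ := k005
  obtain ⟨-, pu2, cl2, cu2⟩ := k000
  have hm1 : ncdf (-(1/20)) ≤ ncdf α := strictMono_ncdf.monotone h1
  have hm2 : ncdf α ≤ ncdf (-0) := strictMono_ncdf.monotone h2
  have e1 : eF (-(1/20)) ≤ (298390123593753/2000000000000000) :=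
    (eF_le_of_bounds (by norm_num) pu1 cl1).trans (by norm_num)
  have e2 : eF (-0) ≤ (155426089/976562500) :=
    (eF_le_of_bounds (by norm_num) pu2 cl2).trans (by norm_num)
  have he1 : eF (-(1/20)) ≤ (499589/1000000) * ncdf (-(1/20)) + (-(906381/10000000)) := by linarith
  have he2 : eF (-0) ≤ (499589/1000000) * ncdf (-0) + (-(906381/10000000)) := by linarith
  have hc := eF_chord (by norm_num) he1 he2 ⟨h1, h2⟩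
  have hpos := ncdf_pos α
  have hα : -1 ≤ α := by linarith
  exact ⟨cl1.trans hm1, hm2.trans cu2, hc, hp1.trans (tang_k005 hα), hp1.trans (tang_k000 hα)⟩

theorem top4 {α p : ℝ} (hp1 : p ≤ npdf α ^ 2) (h1 : 0 ≤ α) :
    (1/2) ≤ ncdf α ∧ ncdf α ≤ 1 ∧ p ≤ (159157/1000000) := by
  have hm : ncdf 0 ≤ ncdf α := strictMono_ncdf.monotone h1
  have h0 : (1/2 : ℝ) ≤ ncdf 0 := by
    have h3 := Qs_le_ncdf (N := 1) (x := 0) le_rfl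
    rw [Qs_zero] at h3
    linarith
  have hα : -1 ≤ α := by linarith
  have h5 := hp1.trans (tang_k000 hα)
  exact ⟨by linarith, ncdf_le_one α, by linarith⟩

theorem cell4_of {F₀ α p : ℝ} (h0 : 0 < F₀) (hU : F₀ ≤ (35811/100000)) (hp1 : p ≤ npdf α ^ 2)
    (hp2 : eF α ≤ (13/100) → p ≤ 2 * eF α - (4/3) * eF α ^ 2 / F₀) :
    Cell4 (ncdf α) p (eF α) := by
  rcases le_total α (-(21/10)) with h | hl0
  · exact Or.inl (tiny4 h0 hp2 h)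
  rcases le_total α (-2) with h | hl1
  · exact Or.inr (Or.inl (piece4_1 h0 hU hp1 hp2 hl0 h))
  rcases le_total α (-(19/10)) with h | hl2
  · exact Or.inr (Or.inr (Or.inl (piece4_2 h0 hU hp1 hp2 hl1 h)))
  rcases le_total α (-(9/5)) with h | hl3
  · exact Or.inr (Or.inr (Or.inr (Or.inl (piece4_3 h0 hU hp1 hp2 hl2 h))))
  rcases le_total α (-(17/10)) with h | hl4
  · exact Or.inr (Or.inr (Or.inr (Or.inr (Or.inl (piece4_4 h0 hU hp1 hp2 hl3 h)))))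
  rcases le_total α (-(8/5)) with h | hl5
  · exact Or.inr (Or.inr (Or.inr (Or.inr (Or.inr (Or.inl (piece4_5 h0 hU hp1 hp2 hl4 h))))))
  rcases le_total α (-(3/2)) with h | hl6
  · exact Or.inr (Or.inr (Or.inr (Or.inr (Or.inr (Or.inr (Or.inl (piece4_6 h0 hU hp1 hp2 hl5 h)))))))
  rcases le_total α (-(7/5)) with h | hl7
  · exact Or.inr (Or.inr (Or.inr (Or.inr (Or.inr (Or.inr (Or.inr (Or.inl (piece4_7 h0 hU hp1 hp2 hl6 h))))))))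
  rcases le_total α (-(13/10)) with h | hl8
  · exact Or.inr (Or.inr (Or.inr (Or.inr (Or.inr (Or.inr (Or.inr (Or.inr (Or.inl (piece4_8 h0 hU hp1 hp2 hl7 h)))))))))
  rcases le_total α (-(6/5)) with h | hl9
  · exact Or.inr (Or.inr (Or.inr (Or.inr (Or.inr (Or.inr (Or.inr (Or.inr (Or.inr (Or.inl (piece4_9 h0 hU hp1 hp2 hl8 h))))))))))
  rcases le_total α (-(11/10)) with h | hl10
  · exact Or.inr (Or.inr (Or.inr (Or.inr (Or.inr (Or.inr (Or.inr (Or.inr (Or.inr (Or.inr (Or.inl (piece4_10 h0 hU hp1 hp2 hl9 h)))))))))))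
  rcases le_total α (-1) with h | hl11
  · exact Or.inr (Or.inr (Or.inr (Or.inr (Or.inr (Or.inr (Or.inr (Or.inr (Or.inr (Or.inr (Or.inr (Or.inl (piece4_11 h0 hU hp1 hp2 hl10 h))))))))))))
  rcases le_total α (-(19/20)) with h | hl12
  · exact Or.inr (Or.inr (Or.inr (Or.inr (Or.inr (Or.inr (Or.inr (Or.inr (Or.inr (Or.inr (Or.inr (Or.inr (Or.inl (piece4_12 h0 hU hp1 hp2 hl11 h)))))))))))))
  rcases le_total α (-(9/10)) with h | hl13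
  · exact Or.inr (Or.inr (Or.inr (Or.inr (Or.inr (Or.inr (Or.inr (Or.inr (Or.inr (Or.inr (Or.inr (Or.inr (Or.inr (Or.inl (piece4_13 h0 hU hp1 hp2 hl12 h))))))))))))))
  rcases le_total α (-(17/20)) with h | hl14
  · exact Or.inr (Or.inr (Or.inr (Or.inr (Or.inr (Or.inr (Or.inr (Or.inr (Or.inr (Or.inr (Or.inr (Or.inr (Or.inr (Or.inr (Or.inl (piece4_14 h0 hU hp1 hp2 hl13 h)))))))))))))))
  rcases le_total α (-(4/5)) with h | hl15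
  · exact Or.inr (Or.inr (Or.inr (Or.inr (Or.inr (Or.inr (Or.inr (Or.inr (Or.inr (Or.inr (Or.inr (Or.inr (Or.inr (Or.inr (Or.inr (Or.inl (piece4_15 h0 hU hp1 hp2 hl14 h))))))))))))))))
  rcases le_total α (-(3/4)) with h | hl16
  · exact Or.inr (Or.inr (Or.inr (Or.inr (Or.inr (Or.inr (Or.inr (Or.inr (Or.inr (Or.inr (Or.inr (Or.inr (Or.inr (Or.inr (Or.inr (Or.inr (Or.inl (piece4_16 h0 hU hp1 hp2 hl15 h)))))))))))))))))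
  rcases le_total α (-(7/10)) with h | hl17
  · exact Or.inr (Or.inr (Or.inr (Or.inr (Or.inr (Or.inr (Or.inr (Or.inr (Or.inr (Or.inr (Or.inr (Or.inr (Or.inr (Or.inr (Or.inr (Or.inr (Or.inr (Or.inl (piece4_17 h0 hU hp1 hp2 hl16 h))))))))))))))))))
  rcases le_total α (-(13/20)) with h | hl18
  · exact Or.inr (Or.inr (Or.inr (Or.inr (Or.inr (Or.inr (Or.inr (Or.inr (Or.inr (Or.inr (Or.inr (Or.inr (Or.inr (Or.inr (Or.inr (Or.inr (Or.inr (Or.inr (Or.inl (piece4_18 h0 hU hp1 hp2 hl17 h)))))))))))))))))))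
  rcases le_total α (-(3/5)) with h | hl19
  · exact Or.inr (Or.inr (Or.inr (Or.inr (Or.inr (Or.inr (Or.inr (Or.inr (Or.inr (Or.inr (Or.inr (Or.inr (Or.inr (Or.inr (Or.inr (Or.inr (Or.inr (Or.inr (Or.inr (Or.inl (piece4_19 h0 hU hp1 hp2 hl18 h))))))))))))))))))))
  rcases le_total α (-(11/20)) with h | hl20
  · exact Or.inr (Or.inr (Or.inr (Or.inr (Or.inr (Or.inr (Or.inr (Or.inr (Or.inr (Or.inr (Or.inr (Or.inr (Or.inr (Or.inr (Or.inr (Or.inr (Or.inr (Or.inr (Or.inr (Or.inr (Or.inl (piece4_20 h0 hU hp1 hp2 hl19 h)))))))))))))))))))))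
  rcases le_total α (-(13/25)) with h | hl21
  · exact Or.inr (Or.inr (Or.inr (Or.inr (Or.inr (Or.inr (Or.inr (Or.inr (Or.inr (Or.inr (Or.inr (Or.inr (Or.inr (Or.inr (Or.inr (Or.inr (Or.inr (Or.inr (Or.inr (Or.inr (Or.inr (Or.inl (piece4_21 h0 hU hp1 hp2 hl20 h))))))))))))))))))))))
  rcases le_total α (-(1/2)) with h | hl22
  · exact Or.inr (Or.inr (Or.inr (Or.inr (Or.inr (Or.inr (Or.inr (Or.inr (Or.inr (Or.inr (Or.inr (Or.inr (Or.inr (Or.inr (Or.inr (Or.inr (Or.inr (Or.inr (Or.inr (Or.inr (Or.inr (Or.inr (Or.inl (piece4_22 h0 hU hp1 hp2 hl21 h)))))))))))))))))))))))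
  rcases le_total α (-(12/25)) with h | hl23
  · exact Or.inr (Or.inr (Or.inr (Or.inr (Or.inr (Or.inr (Or.inr (Or.inr (Or.inr (Or.inr (Or.inr (Or.inr (Or.inr (Or.inr (Or.inr (Or.inr (Or.inr (Or.inr (Or.inr (Or.inr (Or.inr (Or.inr (Or.inr (Or.inl (piece4_23 h0 hU hp1 hp2 hl22 h))))))))))))))))))))))))
  rcases le_total α (-(9/20)) with h | hl24
  · exact Or.inr (Or.inr (Or.inr (Or.inr (Or.inr (Or.inr (Or.inr (Or.inr (Or.inr (Or.inr (Or.inr (Or.inr (Or.inr (Or.inr (Or.inr (Or.inr (Or.inr (Or.inr (Or.inr (Or.inr (Or.inr (Or.inr (Or.inr (Or.inr (Or.inl (piece4_24 h0 hU hp1 hp2 hl23 h)))))))))))))))))))))))))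
  rcases le_total α (-(2/5)) with h | hl25
  · exact Or.inr (Or.inr (Or.inr (Or.inr (Or.inr (Or.inr (Or.inr (Or.inr (Or.inr (Or.inr (Or.inr (Or.inr (Or.inr (Or.inr (Or.inr (Or.inr (Or.inr (Or.inr (Or.inr (Or.inr (Or.inr (Or.inr (Or.inr (Or.inr (Or.inr (Or.inl (piece4_25 h0 hU hp1 hp2 hl24 h))))))))))))))))))))))))))
  rcases le_total α (-(7/20)) with h | hl26
  · exact Or.inr (Or.inr (Or.inr (Or.inr (Or.inr (Or.inr (Or.inr (Or.inr (Or.inr (Or.inr (Or.inr (Or.inr (Or.inr (Or.inr (Or.inr (Or.inr (Or.inr (Or.inr (Or.inr (Or.inr (Or.inr (Or.inr (Or.inr (Or.inr (Or.inr (Or.inr (Or.inl (piece4_26 h0 hU hp1 hp2 hl25 h)))))))))))))))))))))))))))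
  rcases le_total α (-(3/10)) with h | hl27
  · exact Or.inr (Or.inr (Or.inr (Or.inr (Or.inr (Or.inr (Or.inr (Or.inr (Or.inr (Or.inr (Or.inr (Or.inr (Or.inr (Or.inr (Or.inr (Or.inr (Or.inr (Or.inr (Or.inr (Or.inr (Or.inr (Or.inr (Or.inr (Or.inr (Or.inr (Or.inr (Or.inr (Or.inl (piece4_27 h0 hU hp1 hp2 hl26 h))))))))))))))))))))))))))))
  rcases le_total α (-(1/4)) with h | hl28
  · exact Or.inr (Or.inr (Or.inr (Or.inr (Or.inr (Or.inr (Or.inr (Or.inr (Or.inr (Or.inr (Or.inr (Or.inr (Or.inr (Or.inr (Or.inr (Or.inr (Or.inr (Or.inr (Or.inr (Or.inr (Or.inr (Or.inr (Or.inr (Or.inr (Or.inr (Or.inr (Or.inr (Or.inr (Or.inl (piece4_28 h0 hU hp1 hp2 hl27 h)))))))))))))))))))))))))))))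
  rcases le_total α (-(1/5)) with h | hl29
  · exact Or.inr (Or.inr (Or.inr (Or.inr (Or.inr (Or.inr (Or.inr (Or.inr (Or.inr (Or.inr (Or.inr (Or.inr (Or.inr (Or.inr (Or.inr (Or.inr (Or.inr (Or.inr (Or.inr (Or.inr (Or.inr (Or.inr (Or.inr (Or.inr (Or.inr (Or.inr (Or.inr (Or.inr (Or.inr (Or.inl (piece4_29 h0 hU hp1 hp2 hl28 h))))))))))))))))))))))))))))))
  rcases le_total α (-(3/20)) with h | hl30
  · exact Or.inr (Or.inr (Or.inr (Or.inr (Or.inr (Or.inr (Or.inr (Or.inr (Or.inr (Or.inr (Or.inr (Or.inr (Or.inr (Or.inr (Or.inr (Or.inr (Or.inr (Or.inr (Or.inr (Or.inr (Or.inr (Or.inr (Or.inr (Or.inr (Or.inr (Or.inr (Or.inr (Or.inr (Or.inr (Or.inr (Or.inl (piece4_30 h0 hU hp1 hp2 hl29 h)))))))))))))))))))))))))))))))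
  rcases le_total α (-(1/10)) with h | hl31
  · exact Or.inr (Or.inr (Or.inr (Or.inr (Or.inr (Or.inr (Or.inr (Or.inr (Or.inr (Or.inr (Or.inr (Or.inr (Or.inr (Or.inr (Or.inr (Or.inr (Or.inr (Or.inr (Or.inr (Or.inr (Or.inr (Or.inr (Or.inr (Or.inr (Or.inr (Or.inr (Or.inr (Or.inr (Or.inr (Or.inr (Or.inr (Or.inl (piece4_31 h0 hU hp1 hp2 hl30 h))))))))))))))))))))))))))))))))
  rcases le_total α (-(1/20)) with h | hl32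
  · exact Or.inr (Or.inr (Or.inr (Or.inr (Or.inr (Or.inr (Or.inr (Or.inr (Or.inr (Or.inr (Or.inr (Or.inr (Or.inr (Or.inr (Or.inr (Or.inr (Or.inr (Or.inr (Or.inr (Or.inr (Or.inr (Or.inr (Or.inr (Or.inr (Or.inr (Or.inr (Or.inr (Or.inr (Or.inr (Or.inr (Or.inr (Or.inr (Or.inl (piece4_32 h0 hU hp1 hp2 hl31 h)))))))))))))))))))))))))))))))))
  rcases le_total α (-0) with h | hl33
  · exact Or.inr (Or.inr (Or.inr (Or.inr (Or.inr (Or.inr (Or.inr (Or.inr (Or.inr (Or.inr (Or.inr (Or.inr (Or.inr (Or.inr (Or.inr (Or.inr (Or.inr (Or.inr (Or.inr (Or.inr (Or.inr (Or.inr (Or.inr (Or.inr (Or.inr (Or.inr (Or.inr (Or.inr (Or.inr (Or.inr (Or.inr (Or.inr (Or.inr (Or.inl (piece4_33 h0 hU hp1 hp2 hl32 h))))))))))))))))))))))))))))))))))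
  exact Or.inr (Or.inr (Or.inr (Or.inr (Or.inr (Or.inr (Or.inr (Or.inr (Or.inr (Or.inr (Or.inr (Or.inr (Or.inr (Or.inr (Or.inr (Or.inr (Or.inr (Or.inr (Or.inr (Or.inr (Or.inr (Or.inr (Or.inr (Or.inr (Or.inr (Or.inr (Or.inr (Or.inr (Or.inr (Or.inr (Or.inr (Or.inr (Or.inr (Or.inr (top4 hp1 (by simpa using hl33)))))))))))))))))))))))))))))))))))

theorem cell4_pos {a p e : ℝ} (h : Cell4 a p e) : 0 < a := by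
  rcases h with ⟨h3, h4, h5, h6⟩ | ⟨h3, h4, he, t0⟩ | ⟨h3, h4, he, t0⟩ | ⟨h3, h4, he, t0⟩ | ⟨h3, h4, he, t0⟩ | ⟨h3, h4, he, t0⟩ | ⟨h3, h4, he, t0⟩ | ⟨h3, h4, he, t0⟩ | ⟨h3, h4, he, t0⟩ | ⟨h3, h4, he, t0⟩ | ⟨h3, h4, he, t0⟩ | ⟨h3, h4, he, t0⟩ | ⟨h3, h4, he, t0⟩ | ⟨h3, h4, he, t0, t1, t2⟩ | ⟨h3, h4, he, t0, t1, t2⟩ | ⟨h3, h4, he, t0, t1, t2⟩ | ⟨h3, h4, he, t0, t1, t2⟩ | ⟨h3, h4, he, t0, t1, t2⟩ | ⟨h3, h4, he, t0, t1, t2⟩ | ⟨h3, h4, he, t0, t1, t2⟩ | ⟨h3, h4, he, t0, t1, t2⟩ | ⟨h3, h4, he, t0, t1, t2⟩ | ⟨h3, h4, he, t0, t1, t2⟩ | ⟨h3, h4, he, t0, t1, t2⟩ | ⟨h3, h4, he, t0, t1, t2⟩ | ⟨h3, h4, he, t0, t1, t2⟩ | ⟨h3, h4, he, t0, t1, t2⟩ | ⟨h3, h4, he, t0, t1, t2⟩ | ⟨h3, h4, he, t0, t1⟩ | ⟨h3, h4, he, t0, t1⟩ | ⟨h3, h4, he, t0, t1⟩ | ⟨h3, h4, he, t0, t1⟩ | ⟨h3, h4, he, t0, t1⟩ | ⟨h3, h4, he, t0, t1⟩ | ⟨h3,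 h4, t0⟩
  all_goals linarith

theorem line4_L3h {a p e : ℝ} (h : Cell4 a p e) (h1 : a ≤ (9/50)) : p ≤ (135667/500000) * a := by
  rcases h with ⟨h3, h4, h5, h6⟩ | ⟨h3, h4, he, t0⟩ | ⟨h3, h4, he, t0⟩ | ⟨h3, h4, he, t0⟩ | ⟨h3, h4, he, t0⟩ | ⟨h3, h4, he, t0⟩ | ⟨h3, h4, he, t0⟩ | ⟨h3, h4, he, t0⟩ | ⟨h3, h4, he, t0⟩ | ⟨h3, h4, he, t0⟩ | ⟨h3, h4, he, t0⟩ | ⟨h3, h4, he, t0⟩ | ⟨h3, h4, he, t0⟩ | ⟨h3, h4, he, t0, t1, t2⟩ | ⟨h3, h4, he, t0, t1, t2⟩ | ⟨h3, h4, he, t0, t1, t2⟩ | ⟨h3, h4, he, t0, t1, t2⟩ | ⟨h3, h4, he, t0, t1, t2⟩ | ⟨h3, h4, he, t0, t1, t2⟩ | ⟨h3, h4, he, t0, t1, t2⟩ | ⟨h3, h4, he, t0, t1, t2⟩ | ⟨h3, h4, he, t0, t1, t2⟩ | ⟨h3, h4, he, t0, t1, t2⟩ | ⟨h3, h4, he, t0, t1, t2⟩ | ⟨h3, h4, he, t0, t1, t2⟩ | ⟨h3, h4, he, t0, t1, t2⟩ | ⟨h3, h4, he, t0, t1, t2⟩ | ⟨h3, h4, he, t0, t1, t2⟩ | ⟨h3, h4, he,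 t0, t1⟩ | ⟨h3, h4, he, t0, t1⟩ | ⟨h3, h4, he, t0, t1⟩ | ⟨h3, h4, he, t0, t1⟩ | ⟨h3, h4, he, t0, t1⟩ | ⟨h3, h4, he, t0, t1⟩ | ⟨h3, h4, t0⟩
  all_goals linarith

theorem line4_L3o {a p e : ℝ} (h : Cell4 a p e) : p ≤ (135667/500000) * a + (10587/250000) := by
  rcases h with ⟨h3, h4, h5, h6⟩ | ⟨h3, h4, he, t0⟩ | ⟨h3, h4, he, t0⟩ | ⟨h3, h4, he, t0⟩ | ⟨h3, h4, he, t0⟩ | ⟨h3, h4, he, t0⟩ | ⟨h3, h4, he, t0⟩ | ⟨h3, h4, he, t0⟩ | ⟨h3, h4, he, t0⟩ | ⟨h3, h4, he, t0⟩ | ⟨h3, h4, he, t0⟩ | ⟨h3, h4, he, t0⟩ | ⟨h3, h4, he, t0⟩ | ⟨h3, h4, he, t0, t1, t2⟩ | ⟨h3, h4, he, t0, t1, t2⟩ | ⟨h3, h4, he, t0, t1, t2⟩ | ⟨h3, h4, he, t0, t1, t2⟩ | ⟨h3, h4, he, t0, t1, t2⟩ | ⟨h3, h4, he, t0, t1, t2⟩ | ⟨h3, h4, he, t0, t1, t2⟩ | ⟨h3, h4, he, t0, t1, t2⟩ | ⟨h3, h4, he, t0, t1, t2⟩ | ⟨h3, h4, he, t0, t1, t2⟩ | ⟨h3, h4, he, t0, t1,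 t2⟩ | ⟨h3, h4, he, t0, t1, t2⟩ | ⟨h3, h4, he, t0, t1, t2⟩ | ⟨h3, h4, he, t0, t1, t2⟩ | ⟨h3, h4, he, t0, t1, t2⟩ | ⟨h3, h4, he, t0, t1⟩ | ⟨h3, h4, he, t0, t1⟩ | ⟨h3, h4, he, t0, t1⟩ | ⟨h3, h4, he, t0, t1⟩ | ⟨h3, h4, he, t0, t1⟩ | ⟨h3, h4, he, t0, t1⟩ | ⟨h3, h4, t0⟩
  all_goals linarith

theorem line4_mid {a p e : ℝ} (h : Cell4 a p e) (h1 : (9/50) ≤ a) : p ≤ (117/200) * a + (-(56459/1000000)) := by
  rcases h with ⟨h3, h4, h5, h6⟩ | ⟨h3, h4, he, t0⟩ | ⟨h3, h4, he, t0⟩ | ⟨h3, h4, he, t0⟩ | ⟨h3, h4, he, t0⟩ | ⟨h3, h4, he, t0⟩ | ⟨h3, h4, he, t0⟩ | ⟨h3, h4, he, t0⟩ | ⟨h3, h4, he, t0⟩ | ⟨h3, h4, he, t0⟩ | ⟨h3, h4, he, t0⟩ | ⟨h3, h4, he, t0⟩ | ⟨h3, h4, he, t0⟩ | ⟨h3, h4, he, t0, t1, t2⟩ | ⟨h3, h4, he, t0, t1, t2⟩ | ⟨h3, h4, he, t0, t1, t2⟩ | ⟨h3, h4, he, t0, t1, t2⟩ | ⟨h3, h4, he, t0, t1, t2⟩ | ⟨h3, h4, he,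 t0, t1, t2⟩ | ⟨h3, h4, he, t0, t1, t2⟩ | ⟨h3, h4, he, t0, t1, t2⟩ | ⟨h3, h4, he, t0, t1, t2⟩ | ⟨h3, h4, he, t0, t1, t2⟩ | ⟨h3, h4, he, t0, t1, t2⟩ | ⟨h3, h4, he, t0, t1, t2⟩ | ⟨h3, h4, he, t0, t1, t2⟩ | ⟨h3, h4, he, t0, t1, t2⟩ | ⟨h3, h4, he, t0, t1, t2⟩ | ⟨h3, h4, he, t0, t1⟩ | ⟨h3, h4, he, t0, t1⟩ | ⟨h3, h4, he, t0, t1⟩ | ⟨h3, h4, he, t0, t1⟩ | ⟨h3, h4, he, t0, t1⟩ | ⟨h3, h4, he, t0, t1⟩ | ⟨h3, h4, t0⟩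
  all_goals linarith

theorem line4_hom {a p e : ℝ} (h : Cell4 a p e) : p ≤ (117/200) * a := by
  rcases h with ⟨h3, h4, h5, h6⟩ | ⟨h3, h4, he, t0⟩ | ⟨h3, h4, he, t0⟩ | ⟨h3, h4, he, t0⟩ | ⟨h3, h4, he, t0⟩ | ⟨h3, h4, he, t0⟩ | ⟨h3, h4, he, t0⟩ | ⟨h3, h4, he, t0⟩ | ⟨h3, h4, he, t0⟩ | ⟨h3, h4, he, t0⟩ | ⟨h3, h4, he, t0⟩ | ⟨h3, h4, he, t0⟩ | ⟨h3, h4, he, t0⟩ | ⟨h3, h4, he, t0, t1, t2⟩ | ⟨h3, h4, he, t0, t1, t2⟩ | ⟨h3, h4, he, t0, t1, t2⟩ | ⟨h3, h4, he, t0, t1, t2⟩ | ⟨h3, h4, he, t0, t1, t2⟩ | ⟨h3, h4, he, t0, t1, t2⟩ | ⟨h3, h4, he, t0, t1, t2⟩ | ⟨h3, h4, he, t0, t1, t2⟩ | ⟨h3, h4, he, t0, t1, t2⟩ | ⟨h3, h4, he, t0, t1, t2⟩ | ⟨h3, h4, he, t0, t1, t2⟩ | ⟨h3, h4, he, t0, t1, t2⟩ | ⟨h3, h4, he, t0, t1, t2⟩ | ⟨h3, h4, he, t0, t1, t2⟩ | ⟨h3, h4, he, t0, t1, t2⟩ | ⟨h3, h4, he, t0, t1⟩ | ⟨h3, h4, he, t0, t1⟩ |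 ⟨h3, h4, he, t0, t1⟩ | ⟨h3, h4, he, t0, t1⟩ | ⟨h3, h4, he, t0, t1⟩ | ⟨h3, h4, he, t0, t1⟩ | ⟨h3, h4, t0⟩
  all_goals linarith

theorem line4_pm {a p e : ℝ} (h : Cell4 a p e) : p ≤ (159157/1000000) := by
  rcases h with ⟨h3, h4, h5, h6⟩ | ⟨h3, h4, he, t0⟩ | ⟨h3, h4, he, t0⟩ | ⟨h3, h4, he, t0⟩ | ⟨h3, h4, he, t0⟩ | ⟨h3, h4, he, t0⟩ | ⟨h3, h4, he, t0⟩ | ⟨h3, h4, he, t0⟩ | ⟨h3, h4, he, t0⟩ | ⟨h3, h4, he, t0⟩ | ⟨h3, h4, he, t0⟩ | ⟨h3, h4, he, t0⟩ | ⟨h3, h4, he, t0⟩ | ⟨h3, h4, he, t0, t1, t2⟩ | ⟨h3, h4, he, t0, t1, t2⟩ | ⟨h3, h4, he, t0, t1, t2⟩ | ⟨h3, h4, he, t0, t1, t2⟩ | ⟨h3, h4, he, t0, t1, t2⟩ | ⟨h3, h4, he, t0, t1, t2⟩ | ⟨h3, h4, he, t0, t1, t2⟩ | ⟨h3, h4, he, t0, t1, t2⟩ | ⟨h3, h4, he, t0, t1, t2⟩ | ⟨h3, h4, he, t0, t1, t2⟩ | ⟨h3, h4, he, t0, t1, t2⟩ | ⟨h3, h4, he, t0, t1, t2⟩ | ⟨h3, h4, he, t0, t1,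 t2⟩ | ⟨h3, h4, he, t0, t1, t2⟩ | ⟨h3, h4, he, t0, t1, t2⟩ | ⟨h3, h4, he, t0, t1⟩ | ⟨h3, h4, he, t0, t1⟩ | ⟨h3, h4, he, t0, t1⟩ | ⟨h3, h4, he, t0, t1⟩ | ⟨h3, h4, he, t0, t1⟩ | ⟨h3, h4, he, t0, t1⟩ | ⟨h3, h4, t0⟩
  all_goals linarith

theorem line4_low {a p e : ℝ} (h : Cell4 a p e) : p ≤ (9/50) * a + (19353/250000) := by
  rcases h with ⟨h3, h4, h5, h6⟩ | ⟨h3, h4, he, t0⟩ | ⟨h3, h4, he, t0⟩ | ⟨h3, h4, he, t0⟩ | ⟨h3, h4, he, t0⟩ | ⟨h3, h4, he, t0⟩ | ⟨h3, h4, he, t0⟩ | ⟨h3, h4, he, t0⟩ | ⟨h3, h4, he, t0⟩ | ⟨h3, h4, he, t0⟩ | ⟨h3, h4, he, t0⟩ | ⟨h3, h4, he, t0⟩ | ⟨h3, h4, he, t0⟩ | ⟨h3, h4, he, t0, t1, t2⟩ | ⟨h3, h4, he, t0, t1, t2⟩ | ⟨h3, h4, he, t0, t1, t2⟩ | ⟨h3, h4, he, t0, t1, t2⟩ | ⟨h3, h4, he, t0, t1, t2⟩ | ⟨h3, h4, he, t0, t1, t2⟩ | ⟨h3, h4, he, t0, t1, t2⟩ | ⟨h3, h4, he, t0, t1, t2⟩ | ⟨h3, h4,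 he, t0, t1, t2⟩ | ⟨h3, h4, he, t0, t1, t2⟩ | ⟨h3, h4, he, t0, t1, t2⟩ | ⟨h3, h4, he, t0, t1, t2⟩ | ⟨h3, h4, he, t0, t1, t2⟩ | ⟨h3, h4, he, t0, t1, t2⟩ | ⟨h3, h4, he, t0, t1, t2⟩ | ⟨h3, h4, he, t0, t1⟩ | ⟨h3, h4, he, t0, t1⟩ | ⟨h3, h4, he, t0, t1⟩ | ⟨h3, h4, he, t0, t1⟩ | ⟨h3, h4, he, t0, t1⟩ | ⟨h3, h4, he, t0, t1⟩ | ⟨h3, h4, t0⟩
  all_goals linarith

theorem line4_lowh {a p e : ℝ} (h : Cell4 a p e) (h1 : a ≤ (2/25)) : p ≤ (9/50) * a + 0 := by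
  rcases h with ⟨h3, h4, h5, h6⟩ | ⟨h3, h4, he, t0⟩ | ⟨h3, h4, he, t0⟩ | ⟨h3, h4, he, t0⟩ | ⟨h3, h4, he, t0⟩ | ⟨h3, h4, he, t0⟩ | ⟨h3, h4, he, t0⟩ | ⟨h3, h4, he, t0⟩ | ⟨h3, h4, he, t0⟩ | ⟨h3, h4, he, t0⟩ | ⟨h3, h4, he, t0⟩ | ⟨h3, h4, he, t0⟩ | ⟨h3, h4, he, t0⟩ | ⟨h3, h4, he, t0, t1, t2⟩ | ⟨h3, h4, he, t0, t1, t2⟩ | ⟨h3, h4, he, t0, t1, t2⟩ | ⟨h3, h4, he, t0, t1, t2⟩ | ⟨h3, h4, he, t0, t1, t2⟩ | ⟨h3, h4, he, t0, t1, t2⟩ | ⟨h3, h4, he, t0, t1, t2⟩ | ⟨h3, h4, he, t0, t1, t2⟩ | ⟨h3, h4, he, t0, t1, t2⟩ | ⟨h3, h4, he, t0, t1, t2⟩ | ⟨h3, h4, he, t0, t1, t2⟩ | ⟨h3, h4, he, t0, t1, t2⟩ | ⟨h3, h4, he, t0, t1, t2⟩ | ⟨h3, h4, he, t0, t1, t2⟩ | ⟨h3, h4, he, t0, t1, t2⟩ | ⟨h3, h4, he, t0, t1⟩ | ⟨h3, h4, he, t0, t1⟩ | ⟨h3, h4, he, t0, t1⟩ | ⟨h3, h4, he, t0, t1⟩ | ⟨h3, h4, he, t0, t1⟩ | ⟨h3, h4, he, t0, t1⟩ | ⟨h3,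 h4, t0⟩
  all_goals linarith

theorem eG4 {a p e : ℝ} (h : Cell4 a p e) (h1 : (9/50) ≤ a) (h2 : a < (1/2)) : e + (7/20) * p ≤ (-(5359/100000)) + (27/50) * a := by
  rcases h with ⟨h3, h4, h5, h6⟩ | ⟨h3, h4, he, t0⟩ | ⟨h3, h4, he, t0⟩ | ⟨h3, h4, he, t0⟩ | ⟨h3, h4, he, t0⟩ | ⟨h3, h4, he, t0⟩ | ⟨h3, h4, he, t0⟩ | ⟨h3, h4, he, t0⟩ | ⟨h3, h4, he, t0⟩ | ⟨h3, h4, he, t0⟩ | ⟨h3, h4, he, t0⟩ | ⟨h3, h4, he, t0⟩ | ⟨h3, h4, he, t0⟩ | ⟨h3, h4, he, t0, t1, t2⟩ | ⟨h3, h4, he, t0, t1, t2⟩ | ⟨h3, h4, he, t0, t1, t2⟩ | ⟨h3, h4, he, t0, t1, t2⟩ | ⟨h3, h4, he, t0, t1, t2⟩ | ⟨h3, h4, he, t0, t1, t2⟩ | ⟨h3, h4, he, t0, t1, t2⟩ | ⟨h3, h4, he, t0, t1, t2⟩ | ⟨h3, h4, he, t0, t1, t2⟩ | ⟨h3, h4, he, t0, t1, t2⟩ | ⟨h3, h4, he, t0, t1, t2⟩ | ⟨h3, h4, he, t0, t1, t2⟩ | ⟨h3, h4, he, t0, t1, t2⟩ | ⟨h3, h4, he, t0, t1, t2⟩ | ⟨h3,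 h4, he, t0, t1, t2⟩ | ⟨h3, h4, he, t0, t1⟩ | ⟨h3, h4, he, t0, t1⟩ | ⟨h3, h4, he, t0, t1⟩ | ⟨h3, h4, he, t0, t1⟩ | ⟨h3, h4, he, t0, t1⟩ | ⟨h3, h4, he, t0, t1⟩ | ⟨h3, h4, t0⟩
  all_goals linarith

theorem line4_su0 {a p e : ℝ} (h : Cell4 a p e) (h1 : a ≤ (1/20)) : p ≤ (217/50000) := by
  rcases h with ⟨h3, h4, h5, h6⟩ | ⟨h3, h4, he, t0⟩ | ⟨h3, h4, he, t0⟩ | ⟨h3, h4, he, t0⟩ | ⟨h3, h4, he, t0⟩ | ⟨h3, h4, he, t0⟩ | ⟨h3, h4, he, t0⟩ | ⟨h3, h4, he, t0⟩ | ⟨h3, h4, he, t0⟩ | ⟨h3, h4, he, t0⟩ | ⟨h3, h4, he, t0⟩ | ⟨h3, h4, he, t0⟩ | ⟨h3, h4, he, t0⟩ | ⟨h3, h4, he, t0, t1, t2⟩ | ⟨h3, h4, he, t0, t1, t2⟩ | ⟨h3, h4, he, t0, t1, t2⟩ | ⟨h3, h4, he, t0, t1, t2⟩ | ⟨h3, h4, he, t0, t1, t2⟩ | ⟨h3, h4, he, t0, t1, t2⟩ | ⟨h3, h4, he, t0, t1, t2⟩ | ⟨h3, h4, he, t0, t1, t2⟩ | ⟨h3, h4, he, t0, t1, t2⟩ | ⟨h3, h4, he, t0, t1,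 t2⟩ | ⟨h3, h4, he, t0, t1, t2⟩ | ⟨h3, h4, he, t0, t1, t2⟩ | ⟨h3, h4, he, t0, t1, t2⟩ | ⟨h3, h4, he, t0, t1, t2⟩ | ⟨h3, h4, he, t0, t1, t2⟩ | ⟨h3, h4, he, t0, t1⟩ | ⟨h3, h4, he, t0, t1⟩ | ⟨h3, h4, he, t0, t1⟩ | ⟨h3, h4, he, t0, t1⟩ | ⟨h3, h4, he, t0, t1⟩ | ⟨h3, h4, he, t0, t1⟩ | ⟨h3, h4, t0⟩
  all_goals linarith

theorem line4_su1 {a p e : ℝ} (h : Cell4 a p e) (h1 : a ≤ (13/200)) : p ≤ (359/50000) := by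
  rcases h with ⟨h3, h4, h5, h6⟩ | ⟨h3, h4, he, t0⟩ | ⟨h3, h4, he, t0⟩ | ⟨h3, h4, he, t0⟩ | ⟨h3, h4, he, t0⟩ | ⟨h3, h4, he, t0⟩ | ⟨h3, h4, he, t0⟩ | ⟨h3, h4, he, t0⟩ | ⟨h3, h4, he, t0⟩ | ⟨h3, h4, he, t0⟩ | ⟨h3, h4, he, t0⟩ | ⟨h3, h4, he, t0⟩ | ⟨h3, h4, he, t0⟩ | ⟨h3, h4, he, t0, t1, t2⟩ | ⟨h3, h4, he, t0, t1, t2⟩ | ⟨h3, h4, he, t0, t1, t2⟩ | ⟨h3, h4, he, t0, t1, t2⟩ | ⟨h3, h4, he, t0, t1, t2⟩ | ⟨h3, h4, he, t0, t1, t2⟩ | ⟨h3, h4, he, t0, t1, t2⟩ | ⟨h3, h4, he, t0, t1, t2⟩ | ⟨h3, h4, he, t0, t1, t2⟩ | ⟨h3, h4, he, t0, t1, t2⟩ | ⟨h3, h4, he, t0, t1, t2⟩ | ⟨h3, h4, he, t0, t1, t2⟩ | ⟨h3, h4, he, t0, t1, t2⟩ | ⟨h3, h4, he, t0, t1, t2⟩ | ⟨h3, h4, he, t0, t1, t2⟩ | ⟨h3, h4, he, t0, t1⟩ | ⟨h3, h4, he, t0, t1⟩ | ⟨h3, h4, he, t0, t1⟩ | ⟨h3, h4, he, t0, t1⟩ | ⟨h3, h4, he, t0, t1⟩ | ⟨h3, h4, he, t0, t1⟩ | ⟨h3,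 h4, t0⟩
  all_goals linarith

theorem line4_su2 {a p e : ℝ} (h : Cell4 a p e) (h1 : a ≤ (2/25)) : p ≤ (107/10000) := by
  rcases h with ⟨h3, h4, h5, h6⟩ | ⟨h3, h4, he, t0⟩ | ⟨h3, h4, he, t0⟩ | ⟨h3, h4, he, t0⟩ | ⟨h3, h4, he, t0⟩ | ⟨h3, h4, he, t0⟩ | ⟨h3, h4, he, t0⟩ | ⟨h3, h4, he, t0⟩ | ⟨h3, h4, he, t0⟩ | ⟨h3, h4, he, t0⟩ | ⟨h3, h4, he, t0⟩ | ⟨h3, h4, he, t0⟩ | ⟨h3, h4, he, t0⟩ | ⟨h3, h4, he, t0, t1, t2⟩ | ⟨h3, h4, he, t0, t1, t2⟩ | ⟨h3, h4, he, t0, t1, t2⟩ | ⟨h3, h4, he, t0, t1, t2⟩ | ⟨h3, h4, he, t0, t1, t2⟩ | ⟨h3, h4, he, t0, t1, t2⟩ | ⟨h3, h4, he, t0, t1, t2⟩ | ⟨h3, h4, he, t0, t1, t2⟩ | ⟨h3, h4, he, t0, t1, t2⟩ | ⟨h3, h4, he, t0, t1, t2⟩ | ⟨h3, h4, he, t0, t1, t2⟩ | ⟨h3, h4, he, t0, t1, t2⟩ | ⟨h3, h4, he, t0, t1, t2⟩ | ⟨h3, h4, he, t0, t1, t2⟩ | ⟨h3, h4, he, t0, t1, t2⟩ | ⟨h3, h4, he, t0, t1⟩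 | ⟨h3, h4, he, t0, t1⟩ | ⟨h3, h4, he, t0, t1⟩ | ⟨h3, h4, he, t0, t1⟩ | ⟨h3, h4, he, t0, t1⟩ | ⟨h3, h4, he, t0, t1⟩ | ⟨h3, h4, t0⟩
  all_goals linarith

theorem pl4_0 {a p e : ℝ} (h : Cell4 a p e) (h1 : (2/25) ≤ a) (h2 : a ≤ (9/100)) : p ≤ (27813/100000) * a + (-(5779/500000)) := by
  rcases h with ⟨h3, h4, h5, h6⟩ | ⟨h3, h4, he, t0⟩ | ⟨h3, h4, he, t0⟩ | ⟨h3, h4, he, t0⟩ | ⟨h3, h4, he, t0⟩ | ⟨h3, h4, he, t0⟩ | ⟨h3, h4, he, t0⟩ | ⟨h3, h4, he, t0⟩ | ⟨h3, h4, he, t0⟩ | ⟨h3, h4, he, t0⟩ | ⟨h3, h4, he, t0⟩ | ⟨h3, h4, he, t0⟩ | ⟨h3, h4, he, t0⟩ | ⟨h3, h4, he, t0, t1, t2⟩ | ⟨h3, h4, he, t0, t1, t2⟩ | ⟨h3, h4, he, t0, t1, t2⟩ | ⟨h3, h4, he, t0, t1, t2⟩ | ⟨h3, h4, he, t0, t1, t2⟩ | ⟨h3, h4, he, t0, t1, t2⟩ | ⟨h3, h4, he, t0, t1, t2⟩ | ⟨h3, h4, he, t0, t1, t2⟩ | ⟨h3, h4, he, t0, t1, t2⟩ | ⟨h3, h4, he, t0, t1,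 t2⟩ | ⟨h3, h4, he, t0, t1, t2⟩ | ⟨h3, h4, he, t0, t1, t2⟩ | ⟨h3, h4, he, t0, t1, t2⟩ | ⟨h3, h4, he, t0, t1, t2⟩ | ⟨h3, h4, he, t0, t1, t2⟩ | ⟨h3, h4, he, t0, t1⟩ | ⟨h3, h4, he, t0, t1⟩ | ⟨h3, h4, he, t0, t1⟩ | ⟨h3, h4, he, t0, t1⟩ | ⟨h3, h4, he, t0, t1⟩ | ⟨h3, h4, he, t0, t1⟩ | ⟨h3, h4, t0⟩
  all_goals linarith

theorem pl4_1 {a p e : ℝ} (h : Cell4 a p e) (h1 : (9/100) ≤ a) (h2 : a ≤ (1/10)) : p ≤ (2961/10000) * a + (-(527/40000)) := by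
  rcases h with ⟨h3, h4, h5, h6⟩ | ⟨h3, h4, he, t0⟩ | ⟨h3, h4, he, t0⟩ | ⟨h3, h4, he, t0⟩ | ⟨h3, h4, he, t0⟩ | ⟨h3, h4, he, t0⟩ | ⟨h3, h4, he, t0⟩ | ⟨h3, h4, he, t0⟩ | ⟨h3, h4, he, t0⟩ | ⟨h3, h4, he, t0⟩ | ⟨h3, h4, he, t0⟩ | ⟨h3, h4, he, t0⟩ | ⟨h3, h4, he, t0⟩ | ⟨h3, h4, he, t0, t1, t2⟩ | ⟨h3, h4, he, t0, t1, t2⟩ | ⟨h3, h4, he, t0, t1, t2⟩ | ⟨h3, h4, he, t0, t1, t2⟩ | ⟨h3, h4, he, t0, t1, t2⟩ | ⟨h3, h4, he, t0, t1, t2⟩ | ⟨h3, h4, he, t0, t1, t2⟩ | ⟨h3, h4, he, t0, t1, t2⟩ | ⟨h3, h4, he, t0, t1, t2⟩ | ⟨h3, h4, he, t0, t1, t2⟩ | ⟨h3, h4, he, t0, t1, t2⟩ | ⟨h3, h4, he, t0, t1, t2⟩ | ⟨h3, h4, he, t0, t1, t2⟩ | ⟨h3, h4, he, t0, t1, t2⟩ | ⟨h3, h4, he, t0, t1, t2⟩ | ⟨h3, h4, he, t0, t1⟩ | ⟨h3, h4, he, t0, t1⟩ | ⟨h3, h4, he, t0, t1⟩ | ⟨h3, h4, he, t0, t1⟩ | ⟨h3, h4, he, t0, t1⟩ | ⟨h3, h4, he, t0, t1⟩ | ⟨h3,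 h4, t0⟩
  all_goals linarith

theorem pl4_2 {a p e : ℝ} (h : Cell4 a p e) (h1 : (1/10) ≤ a) (h2 : a ≤ (11/100)) : p ≤ (8167/25000) * a + (-(16233/1000000)) := by
  rcases h with ⟨h3, h4, h5, h6⟩ | ⟨h3, h4, he, t0⟩ | ⟨h3, h4, he, t0⟩ | ⟨h3, h4, he, t0⟩ | ⟨h3, h4, he, t0⟩ | ⟨h3, h4, he, t0⟩ | ⟨h3, h4, he, t0⟩ | ⟨h3, h4, he, t0⟩ | ⟨h3, h4, he, t0⟩ | ⟨h3, h4, he, t0⟩ | ⟨h3, h4, he, t0⟩ | ⟨h3, h4, he, t0⟩ | ⟨h3, h4, he, t0⟩ | ⟨h3, h4, he, t0, t1, t2⟩ | ⟨h3, h4, he, t0, t1, t2⟩ | ⟨h3, h4, he, t0, t1, t2⟩ | ⟨h3, h4, he, t0, t1, t2⟩ | ⟨h3, h4, he, t0, t1, t2⟩ | ⟨h3, h4, he, t0, t1, t2⟩ | ⟨h3, h4, he, t0, t1, t2⟩ | ⟨h3, h4, he, t0, t1, t2⟩ | ⟨h3, h4, he, t0, t1, t2⟩ | ⟨h3, h4, he, t0, t1, t2⟩ | ⟨h3, h4, he, t0, t1, t2⟩ | ⟨h3, h4, he, t0, t1, t2⟩ | ⟨h3, h4, he, t0, t1, t2⟩ | ⟨h3, h4, he, t0, t1, t2⟩ | ⟨h3, h4,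 he, t0, t1, t2⟩ | ⟨h3, h4, he, t0, t1⟩ | ⟨h3, h4, he, t0, t1⟩ | ⟨h3, h4, he, t0, t1⟩ | ⟨h3, h4, he, t0, t1⟩ | ⟨h3, h4, he, t0, t1⟩ | ⟨h3, h4, he, t0, t1⟩ | ⟨h3, h4, t0⟩
  all_goals linarith

theorem pl4_3 {a p e : ℝ} (h : Cell4 a p e) (h1 : (11/100) ≤ a) (h2 : a ≤ (3/25)) : p ≤ (35113/100000) * a + (-(18923/1000000)) := by
  rcases h with ⟨h3, h4, h5, h6⟩ | ⟨h3, h4, he, t0⟩ | ⟨h3, h4, he, t0⟩ | ⟨h3, h4, he, t0⟩ | ⟨h3, h4, he, t0⟩ | ⟨h3, h4, he, t0⟩ | ⟨h3, h4, he, t0⟩ | ⟨h3, h4, he, t0⟩ | ⟨h3, h4, he, t0⟩ | ⟨h3, h4, he, t0⟩ | ⟨h3, h4, he, t0⟩ | ⟨h3, h4, he, t0⟩ | ⟨h3, h4, he, t0⟩ | ⟨h3, h4, he, t0, t1, t2⟩ | ⟨h3, h4, he, t0, t1, t2⟩ | ⟨h3, h4, he, t0, t1, t2⟩ | ⟨h3, h4, he, t0, t1, t2⟩ | ⟨h3, h4, he, t0, t1, t2⟩ | ⟨h3, h4, he, t0, t1, t2⟩ | ⟨h3, h4, he, t0, t1, t2⟩ | ⟨h3, h4, he, t0, t1, t2⟩ | ⟨h3,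 h4, he, t0, t1, t2⟩ | ⟨h3, h4, he, t0, t1, t2⟩ | ⟨h3, h4, he, t0, t1, t2⟩ | ⟨h3, h4, he, t0, t1, t2⟩ | ⟨h3, h4, he, t0, t1, t2⟩ | ⟨h3, h4, he, t0, t1, t2⟩ | ⟨h3, h4, he, t0, t1, t2⟩ | ⟨h3, h4, he, t0, t1⟩ | ⟨h3, h4, he, t0, t1⟩ | ⟨h3, h4, he, t0, t1⟩ | ⟨h3, h4, he, t0, t1⟩ | ⟨h3, h4, he, t0, t1⟩ | ⟨h3, h4, he, t0, t1⟩ | ⟨h3, h4, t0⟩
  all_goals linarith

theorem pl4_4 {a p e : ℝ} (h : Cell4 a p e) (h1 : (3/25) ≤ a) (h2 : a ≤ (13/100)) : p ≤ (9367/25000) * a + (-(21749/1000000)) := by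
  rcases h with ⟨h3, h4, h5, h6⟩ | ⟨h3, h4, he, t0⟩ | ⟨h3, h4, he, t0⟩ | ⟨h3, h4, he, t0⟩ | ⟨h3, h4, he, t0⟩ | ⟨h3, h4, he, t0⟩ | ⟨h3, h4, he, t0⟩ | ⟨h3, h4, he, t0⟩ | ⟨h3, h4, he, t0⟩ | ⟨h3, h4, he, t0⟩ | ⟨h3, h4, he, t0⟩ | ⟨h3, h4, he, t0⟩ | ⟨h3, h4, he, t0⟩ | ⟨h3, h4, he, t0, t1, t2⟩ | ⟨h3, h4, he, t0, t1, t2⟩ | ⟨h3, h4, he, t0, t1, t2⟩ | ⟨h3, h4, he, t0, t1, t2⟩ | ⟨h3, h4, he, t0, t1, t2⟩ | ⟨h3, h4, he, t0, t1, t2⟩ | ⟨h3, h4, he, t0, t1, t2⟩ | ⟨h3, h4, he, t0, t1, t2⟩ | ⟨h3, h4, he, t0, t1, t2⟩ | ⟨h3, h4, he, t0, t1, t2⟩ | ⟨h3, h4, he, t0, t1, t2⟩ | ⟨h3, h4, he, t0, t1, t2⟩ | ⟨h3, h4, he, t0, t1, t2⟩ | ⟨h3, h4, he, t0, t1, t2⟩ | ⟨h3, h4, he, t0, t1, t2⟩ | ⟨h3, h4, he, t0, t1⟩ | ⟨h3, h4, he, t0, t1⟩ | ⟨h3, h4, he, t0, t1⟩ | ⟨h3, h4, he, t0, t1⟩ | ⟨h3, h4, he, t0, t1⟩ | ⟨h3, h4, he, t0, t1⟩ | ⟨h3,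 h4, t0⟩
  all_goals linarith

theorem pl4_5 {a p e : ℝ} (h : Cell4 a p e) (h1 : (13/100) ≤ a) (h2 : a ≤ (7/50)) : p ≤ (3971/10000) * a + (-(24663/1000000)) := by
  rcases h with ⟨h3, h4, h5, h6⟩ | ⟨h3, h4, he, t0⟩ | ⟨h3, h4, he, t0⟩ | ⟨h3, h4, he, t0⟩ | ⟨h3, h4, he, t0⟩ | ⟨h3, h4, he, t0⟩ | ⟨h3, h4, he, t0⟩ | ⟨h3, h4, he, t0⟩ | ⟨h3, h4, he, t0⟩ | ⟨h3, h4, he, t0⟩ | ⟨h3, h4, he, t0⟩ | ⟨h3, h4, he, t0⟩ | ⟨h3, h4, he, t0⟩ | ⟨h3, h4, he, t0, t1, t2⟩ | ⟨h3, h4, he, t0, t1, t2⟩ | ⟨h3, h4, he, t0, t1, t2⟩ | ⟨h3, h4, he, t0, t1, t2⟩ | ⟨h3, h4, he, t0, t1, t2⟩ | ⟨h3, h4, he, t0, t1, t2⟩ | ⟨h3, h4, he, t0, t1, t2⟩ | ⟨h3, h4, he, t0, t1, t2⟩ | ⟨h3, h4, he, t0, t1, t2⟩ | ⟨h3, h4, he, t0, t1, t2⟩ | ⟨h3, h4, he, t0, t1, t2⟩ | ⟨h3, h4, he, t0, t1, t2⟩ | ⟨h3, h4, he, t0, t1, t2⟩ | ⟨h3, h4, he, t0, t1, t2⟩ | ⟨h3, h4,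 he, t0, t1, t2⟩ | ⟨h3, h4, he, t0, t1⟩ | ⟨h3, h4, he, t0, t1⟩ | ⟨h3, h4, he, t0, t1⟩ | ⟨h3, h4, he, t0, t1⟩ | ⟨h3, h4, he, t0, t1⟩ | ⟨h3, h4, he, t0, t1⟩ | ⟨h3, h4, t0⟩
  all_goals linarith

theorem pl4_6 {a p e : ℝ} (h : Cell4 a p e) (h1 : (7/50) ≤ a) (h2 : a ≤ (3/20)) : p ≤ (10591/25000) * a + (-(28379/1000000)) := by
  rcases h with ⟨h3, h4, h5, h6⟩ | ⟨h3, h4, he, t0⟩ | ⟨h3, h4, he, t0⟩ | ⟨h3, h4, he, t0⟩ | ⟨h3, h4, he, t0⟩ | ⟨h3, h4, he, t0⟩ | ⟨h3, h4, he, t0⟩ | ⟨h3, h4, he, t0⟩ | ⟨h3, h4, he, t0⟩ | ⟨h3, h4, he, t0⟩ | ⟨h3, h4, he, t0⟩ | ⟨h3, h4, he, t0⟩ | ⟨h3, h4, he, t0⟩ | ⟨h3, h4, he, t0, t1, t2⟩ | ⟨h3, h4, he, t0, t1, t2⟩ | ⟨h3, h4, he, t0, t1, t2⟩ | ⟨h3, h4, he, t0, t1, t2⟩ | ⟨h3, h4, he, t0, t1, t2⟩ | ⟨h3, h4, he, t0, t1, t2⟩ | ⟨h3, h4, he, t0, t1, t2⟩ | ⟨h3, h4, he, t0, t1, t2⟩ | ⟨h3, h4,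 he, t0, t1, t2⟩ | ⟨h3, h4, he, t0, t1, t2⟩ | ⟨h3, h4, he, t0, t1, t2⟩ | ⟨h3, h4, he, t0, t1, t2⟩ | ⟨h3, h4, he, t0, t1, t2⟩ | ⟨h3, h4, he, t0, t1, t2⟩ | ⟨h3, h4, he, t0, t1, t2⟩ | ⟨h3, h4, he, t0, t1⟩ | ⟨h3, h4, he, t0, t1⟩ | ⟨h3, h4, he, t0, t1⟩ | ⟨h3, h4, he, t0, t1⟩ | ⟨h3, h4, he, t0, t1⟩ | ⟨h3, h4, he, t0, t1⟩ | ⟨h3, h4, t0⟩
  all_goals linarith

theorem pl4_7 {a p e : ℝ} (h : Cell4 a p e) (h1 : (3/20) ≤ a) (h2 : a ≤ (4/25)) : p ≤ (42703/100000) * a + (-(28887/1000000)) := by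
  rcases h with ⟨h3, h4, h5, h6⟩ | ⟨h3, h4, he, t0⟩ | ⟨h3, h4, he, t0⟩ | ⟨h3, h4, he, t0⟩ | ⟨h3, h4, he, t0⟩ | ⟨h3, h4, he, t0⟩ | ⟨h3, h4, he, t0⟩ | ⟨h3, h4, he, t0⟩ | ⟨h3, h4, he, t0⟩ | ⟨h3, h4, he, t0⟩ | ⟨h3, h4, he, t0⟩ | ⟨h3, h4, he, t0⟩ | ⟨h3, h4, he, t0⟩ | ⟨h3, h4, he, t0, t1, t2⟩ | ⟨h3, h4, he, t0, t1, t2⟩ | ⟨h3, h4, he, t0, t1, t2⟩ | ⟨h3, h4, he, t0, t1, t2⟩ | ⟨h3, h4, he, t0, t1, t2⟩ | ⟨h3, h4, he, t0, t1, t2⟩ | ⟨h3, h4, he, t0, t1, t2⟩ | ⟨h3, h4, he, t0, t1, t2⟩ | ⟨h3, h4, he, t0, t1, t2⟩ | ⟨h3, h4, he, t0, t1, t2⟩ | ⟨h3, h4, he, t0, t1, t2⟩ | ⟨h3, h4, he, t0, t1, t2⟩ | ⟨h3, h4, he, t0, t1, t2⟩ | ⟨h3, h4, he, t0, t1, t2⟩ | ⟨h3, h4, he, t0, t1, t2⟩ | ⟨h3, h4, he, t0, t1⟩ | ⟨h3, h4, he, t0, t1⟩ | ⟨h3, h4, he, t0, t1⟩ | ⟨h3, h4, he, t0, t1⟩ | ⟨h3, h4, he, t0, t1⟩ | ⟨h3, h4, he, t0, t1⟩ | ⟨h3,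 h4, t0⟩
  all_goals linarith

theorem pl4_8 {a p e : ℝ} (h : Cell4 a p e) (h1 : (4/25) ≤ a) (h2 : a ≤ (9/50)) : p ≤ (47017/100000) * a + (-(3579/100000)) := by
  rcases h with ⟨h3, h4, h5, h6⟩ | ⟨h3, h4, he, t0⟩ | ⟨h3, h4, he, t0⟩ | ⟨h3, h4, he, t0⟩ | ⟨h3, h4, he, t0⟩ | ⟨h3, h4, he, t0⟩ | ⟨h3, h4, he, t0⟩ | ⟨h3, h4, he, t0⟩ | ⟨h3, h4, he, t0⟩ | ⟨h3, h4, he, t0⟩ | ⟨h3, h4, he, t0⟩ | ⟨h3, h4, he, t0⟩ | ⟨h3, h4, he, t0⟩ | ⟨h3, h4, he, t0, t1, t2⟩ | ⟨h3, h4, he, t0, t1, t2⟩ | ⟨h3, h4, he, t0, t1, t2⟩ | ⟨h3, h4, he, t0, t1, t2⟩ | ⟨h3, h4, he, t0, t1, t2⟩ | ⟨h3, h4, he, t0, t1, t2⟩ | ⟨h3, h4, he, t0, t1, t2⟩ | ⟨h3, h4, he, t0, t1, t2⟩ | ⟨h3, h4, he, t0, t1, t2⟩ | ⟨h3, h4, he, t0, t1, t2⟩ | ⟨h3, h4, he, t0, t1, t2⟩ | ⟨h3, h4, he, t0, t1, t2⟩ | ⟨h3, h4, he, t0, t1, t2⟩ | ⟨h3, h4, he, t0, t1, t2⟩ | ⟨h3, h4,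 he, t0, t1, t2⟩ | ⟨h3, h4, he, t0, t1⟩ | ⟨h3, h4, he, t0, t1⟩ | ⟨h3, h4, he, t0, t1⟩ | ⟨h3, h4, he, t0, t1⟩ | ⟨h3, h4, he, t0, t1⟩ | ⟨h3, h4, he, t0, t1⟩ | ⟨h3, h4, t0⟩
  all_goals linarith

theorem pl4_9 {a p e : ℝ} (h : Cell4 a p e) (h1 : (9/50) ≤ a) (h2 : a ≤ (1/5)) : p ≤ (25177/50000) * a + (-(41797/1000000)) := by
  rcases h with ⟨h3, h4, h5, h6⟩ | ⟨h3, h4, he, t0⟩ | ⟨h3, h4, he, t0⟩ | ⟨h3, h4, he, t0⟩ | ⟨h3, h4, he, t0⟩ | ⟨h3, h4, he, t0⟩ | ⟨h3, h4, he, t0⟩ | ⟨h3, h4, he, t0⟩ | ⟨h3, h4, he, t0⟩ | ⟨h3, h4, he, t0⟩ | ⟨h3, h4, he, t0⟩ | ⟨h3, h4, he, t0⟩ | ⟨h3, h4, he, t0⟩ | ⟨h3, h4, he, t0, t1, t2⟩ | ⟨h3, h4, he, t0, t1, t2⟩ | ⟨h3, h4, he, t0, t1, t2⟩ | ⟨h3, h4, he, t0, t1, t2⟩ | ⟨h3, h4, he, t0, t1, t2⟩ | ⟨h3, h4, he, t0, t1, t2⟩ | ⟨h3, h4, he, t0, t1, t2⟩ | ⟨h3, h4, he, t0, t1, t2⟩ | ⟨h3, h4,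 he, t0, t1, t2⟩ | ⟨h3, h4, he, t0, t1, t2⟩ | ⟨h3, h4, he, t0, t1, t2⟩ | ⟨h3, h4, he, t0, t1, t2⟩ | ⟨h3, h4, he, t0, t1, t2⟩ | ⟨h3, h4, he, t0, t1, t2⟩ | ⟨h3, h4, he, t0, t1, t2⟩ | ⟨h3, h4, he, t0, t1⟩ | ⟨h3, h4, he, t0, t1⟩ | ⟨h3, h4, he, t0, t1⟩ | ⟨h3, h4, he, t0, t1⟩ | ⟨h3, h4, he, t0, t1⟩ | ⟨h3, h4, he, t0, t1⟩ | ⟨h3, h4, t0⟩
  all_goals linarith

theorem pl4_10 {a p e : ℝ} (h : Cell4 a p e) (h1 : (1/5) ≤ a) (h2 : a ≤ (11/50)) : p ≤ (53431/100000) * a + (-(47951/1000000)) := by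
  rcases h with ⟨h3, h4, h5, h6⟩ | ⟨h3, h4, he, t0⟩ | ⟨h3, h4, he, t0⟩ | ⟨h3, h4, he, t0⟩ | ⟨h3, h4, he, t0⟩ | ⟨h3, h4, he, t0⟩ | ⟨h3, h4, he, t0⟩ | ⟨h3, h4, he, t0⟩ | ⟨h3, h4, he, t0⟩ | ⟨h3, h4, he, t0⟩ | ⟨h3, h4, he, t0⟩ | ⟨h3, h4, he, t0⟩ | ⟨h3, h4, he, t0⟩ | ⟨h3, h4, he, t0, t1, t2⟩ | ⟨h3, h4, he, t0, t1, t2⟩ | ⟨h3, h4, he, t0, t1, t2⟩ | ⟨h3, h4, he, t0, t1, t2⟩ | ⟨h3, h4, he, t0, t1, t2⟩ | ⟨h3, h4, he, t0, t1, t2⟩ | ⟨h3, h4, he, t0, t1, t2⟩ | ⟨h3, h4, he, t0, t1, t2⟩ | ⟨h3, h4, he, t0, t1, t2⟩ | ⟨h3, h4, he, t0, t1, t2⟩ | ⟨h3, h4, he, t0, t1, t2⟩ | ⟨h3, h4, he, t0, t1, t2⟩ | ⟨h3, h4, he, t0, t1, t2⟩ | ⟨h3, h4, he, t0, t1, t2⟩ | ⟨h3, h4, he, t0, t1, t2⟩ | ⟨h3, h4, he, t0, t1⟩ | ⟨h3, h4, he, t0, t1⟩ | ⟨h3, h4, he, t0, t1⟩ | ⟨h3, h4, he, t0, t1⟩ | ⟨h3, h4, he, t0, t1⟩ | ⟨h3, h4, he, t0, t1⟩ | ⟨h3,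 h4, t0⟩
  all_goals linarith

theorem pl4_11 {a p e : ℝ} (h : Cell4 a p e) (h1 : (11/50) ≤ a) (h2 : a ≤ (1/4)) : p ≤ (28153/50000) * a + (-(13569/250000)) := by
  rcases h with ⟨h3, h4, h5, h6⟩ | ⟨h3, h4, he, t0⟩ | ⟨h3, h4, he, t0⟩ | ⟨h3, h4, he, t0⟩ | ⟨h3, h4, he, t0⟩ | ⟨h3, h4, he, t0⟩ | ⟨h3, h4, he, t0⟩ | ⟨h3, h4, he, t0⟩ | ⟨h3, h4, he, t0⟩ | ⟨h3, h4, he, t0⟩ | ⟨h3, h4, he, t0⟩ | ⟨h3, h4, he, t0⟩ | ⟨h3, h4, he, t0⟩ | ⟨h3, h4, he, t0, t1, t2⟩ | ⟨h3, h4, he, t0, t1, t2⟩ | ⟨h3, h4, he, t0, t1, t2⟩ | ⟨h3, h4, he, t0, t1, t2⟩ | ⟨h3, h4, he, t0, t1, t2⟩ | ⟨h3, h4, he, t0, t1, t2⟩ | ⟨h3, h4, he, t0, t1, t2⟩ | ⟨h3, h4, he, t0, t1, t2⟩ | ⟨h3, h4, he, t0, t1, t2⟩ | ⟨h3, h4, he, t0, t1, t2⟩ | ⟨h3, h4, he, t0, t1, t2⟩ | ⟨h3, h4, he, t0, t1, t2⟩ | ⟨h3, h4, he, t0, t1, t2⟩ | ⟨h3, h4, he, t0, t1, t2⟩ | ⟨h3, h4,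 he, t0, t1, t2⟩ | ⟨h3, h4, he, t0, t1⟩ | ⟨h3, h4, he, t0, t1⟩ | ⟨h3, h4, he, t0, t1⟩ | ⟨h3, h4, he, t0, t1⟩ | ⟨h3, h4, he, t0, t1⟩ | ⟨h3, h4, he, t0, t1⟩ | ⟨h3, h4, t0⟩
  all_goals linarith

theorem eA4_0 {a p e : ℝ} (h : Cell4 a p e) (h1 : (9/50) ≤ a) (h2 : a < (1/2)) : e + 2 * p ≤ (-(4733/100000)) + (59/50) * a := by
  rcases h with ⟨h3, h4, h5, h6⟩ | ⟨h3, h4, he, t0⟩ | ⟨h3, h4, he, t0⟩ | ⟨h3, h4, he, t0⟩ | ⟨h3, h4, he, t0⟩ | ⟨h3, h4, he, t0⟩ | ⟨h3, h4, he, t0⟩ | ⟨h3, h4, he, t0⟩ | ⟨h3, h4, he, t0⟩ | ⟨h3, h4, he, t0⟩ | ⟨h3, h4, he, t0⟩ | ⟨h3, h4, he, t0⟩ | ⟨h3, h4, he, t0⟩ | ⟨h3, h4, he, t0, t1, t2⟩ | ⟨h3, h4, he, t0, t1, t2⟩ | ⟨h3, h4, he, t0, t1, t2⟩ | ⟨h3, h4, he, t0, t1, t2⟩ | ⟨h3, h4, he, t0, t1, t2⟩ | ⟨h3, h4, he, t0, t1, t2⟩ | ⟨h3, h4, he, t0, t1, t2⟩ | ⟨h3, h4, he, t0, t1, t2⟩ | ⟨h3, h4,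 he, t0, t1, t2⟩ | ⟨h3, h4, he, t0, t1, t2⟩ | ⟨h3, h4, he, t0, t1, t2⟩ | ⟨h3, h4, he, t0, t1, t2⟩ | ⟨h3, h4, he, t0, t1, t2⟩ | ⟨h3, h4, he, t0, t1, t2⟩ | ⟨h3, h4, he, t0, t1, t2⟩ | ⟨h3, h4, he, t0, t1⟩ | ⟨h3, h4, he, t0, t1⟩ | ⟨h3, h4, he, t0, t1⟩ | ⟨h3, h4, he, t0, t1⟩ | ⟨h3, h4, he, t0, t1⟩ | ⟨h3, h4, he, t0, t1⟩ | ⟨h3, h4, t0⟩
  all_goals linarith

theorem eB4_0 {a p e : ℝ} (h : Cell4 a p e) (h1 : (9/50) ≤ a) (h2 : a ≤ (1/5)) : e + 2 * p ≤ (-(869/10000)) + (59/50) * a := by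
  rcases h with ⟨h3, h4, h5, h6⟩ | ⟨h3, h4, he, t0⟩ | ⟨h3, h4, he, t0⟩ | ⟨h3, h4, he, t0⟩ | ⟨h3, h4, he, t0⟩ | ⟨h3, h4, he, t0⟩ | ⟨h3, h4, he, t0⟩ | ⟨h3, h4, he, t0⟩ | ⟨h3, h4, he, t0⟩ | ⟨h3, h4, he, t0⟩ | ⟨h3, h4, he, t0⟩ | ⟨h3, h4, he, t0⟩ | ⟨h3, h4, he, t0⟩ | ⟨h3, h4, he, t0, t1, t2⟩ | ⟨h3, h4, he, t0, t1, t2⟩ | ⟨h3, h4, he, t0, t1, t2⟩ | ⟨h3, h4, he, t0, t1, t2⟩ | ⟨h3, h4, he, t0, t1, t2⟩ | ⟨h3, h4, he, t0, t1, t2⟩ | ⟨h3, h4, he, t0, t1, t2⟩ | ⟨h3, h4, he, t0, t1, t2⟩ | ⟨h3, h4, he, t0, t1, t2⟩ | ⟨h3, h4, he, t0, t1, t2⟩ | ⟨h3, h4, he, t0, t1, t2⟩ | ⟨h3, h4, he, t0, t1, t2⟩ | ⟨h3, h4, he, t0, t1, t2⟩ | ⟨h3, h4, he, t0, t1, t2⟩ | ⟨h3, h4, he, t0, t1, t2⟩ | ⟨h3, h4, he, t0, t1⟩ | ⟨h3, h4, he, t0, t1⟩ | ⟨h3, h4, he, t0, t1⟩ | ⟨h3, h4, he, t0, t1⟩ | ⟨h3, h4, he, t0, t1⟩ | ⟨h3, h4, he, t0, t1⟩ | ⟨h3,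 h4, t0⟩
  all_goals linarith

theorem eA4_1 {a p e : ℝ} (h : Cell4 a p e) (h1 : (1/5) ≤ a) (h2 : a < (1/2)) : e + (7/10) * p ≤ (-(2683/50000)) + (17/25) * a := by
  rcases h with ⟨h3, h4, h5, h6⟩ | ⟨h3, h4, he, t0⟩ | ⟨h3, h4, he, t0⟩ | ⟨h3, h4, he, t0⟩ | ⟨h3, h4, he, t0⟩ | ⟨h3, h4, he, t0⟩ | ⟨h3, h4, he, t0⟩ | ⟨h3, h4, he, t0⟩ | ⟨h3, h4, he, t0⟩ | ⟨h3, h4, he, t0⟩ | ⟨h3, h4, he, t0⟩ | ⟨h3, h4, he, t0⟩ | ⟨h3, h4, he, t0⟩ | ⟨h3, h4, he, t0, t1, t2⟩ | ⟨h3, h4, he, t0, t1, t2⟩ | ⟨h3, h4, he, t0, t1, t2⟩ | ⟨h3, h4, he, t0, t1, t2⟩ | ⟨h3, h4, he, t0, t1, t2⟩ | ⟨h3, h4, he, t0, t1, t2⟩ | ⟨h3, h4, he, t0, t1, t2⟩ | ⟨h3, h4, he, t0, t1, t2⟩ | ⟨h3, h4, he, t0, t1, t2⟩ | ⟨h3, h4, he, t0, t1, t2⟩ | ⟨h3, h4, he, t0, t1, t2⟩ | ⟨h3, h4, he, t0, t1, t2⟩ | ⟨h3, h4, he, t0, t1, t2⟩ | ⟨h3, h4, he, t0, t1, t2⟩ | ⟨h3,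 h4, he, t0, t1, t2⟩ | ⟨h3, h4, he, t0, t1⟩ | ⟨h3, h4, he, t0, t1⟩ | ⟨h3, h4, he, t0, t1⟩ | ⟨h3, h4, he, t0, t1⟩ | ⟨h3, h4, he, t0, t1⟩ | ⟨h3, h4, he, t0, t1⟩ | ⟨h3, h4, t0⟩
  all_goals linarith

theorem eB4_1 {a p e : ℝ} (h : Cell4 a p e) (h1 : (1/5) ≤ a) (h2 : a ≤ (11/50)) : e + (7/10) * p ≤ (-(6347/100000)) + (17/25) * a := by
  rcases h with ⟨h3, h4, h5, h6⟩ | ⟨h3, h4, he, t0⟩ | ⟨h3, h4, he, t0⟩ | ⟨h3, h4, he, t0⟩ | ⟨h3, h4, he, t0⟩ | ⟨h3, h4, he, t0⟩ | ⟨h3, h4, he, t0⟩ | ⟨h3, h4, he, t0⟩ | ⟨h3, h4, he, t0⟩ | ⟨h3, h4, he, t0⟩ | ⟨h3, h4, he, t0⟩ | ⟨h3, h4, he, t0⟩ | ⟨h3, h4, he, t0⟩ | ⟨h3, h4, he, t0, t1, t2⟩ | ⟨h3, h4, he, t0, t1, t2⟩ | ⟨h3, h4, he, t0, t1, t2⟩ | ⟨h3, h4, he, t0, t1, t2⟩ | ⟨h3, h4, he, t0, t1, t2⟩ | ⟨h3, h4, he, t0, t1, t2⟩ | ⟨h3, h4, he, t0, t1, t2⟩ | ⟨h3, h4, he, t0, t1, t2⟩ |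 ⟨h3, h4, he, t0, t1, t2⟩ | ⟨h3, h4, he, t0, t1, t2⟩ | ⟨h3, h4, he, t0, t1, t2⟩ | ⟨h3, h4, he, t0, t1, t2⟩ | ⟨h3, h4, he, t0, t1, t2⟩ | ⟨h3, h4, he, t0, t1, t2⟩ | ⟨h3, h4, he, t0, t1, t2⟩ | ⟨h3, h4, he, t0, t1⟩ | ⟨h3, h4, he, t0, t1⟩ | ⟨h3, h4, he, t0, t1⟩ | ⟨h3, h4, he, t0, t1⟩ | ⟨h3, h4, he, t0, t1⟩ | ⟨h3, h4, he, t0, t1⟩ | ⟨h3, h4, t0⟩
  all_goals linarith

theorem eA4_2 {a p e : ℝ} (h : Cell4 a p e) (h1 : (11/50) ≤ a) (h2 : a < (1/2)) : e + (2/5) * p ≤ (-(1073/20000)) + (14/25) * a := by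
  rcases h with ⟨h3, h4, h5, h6⟩ | ⟨h3, h4, he, t0⟩ | ⟨h3, h4, he, t0⟩ | ⟨h3, h4, he, t0⟩ | ⟨h3, h4, he, t0⟩ | ⟨h3, h4, he, t0⟩ | ⟨h3, h4, he, t0⟩ | ⟨h3, h4, he, t0⟩ | ⟨h3, h4, he, t0⟩ | ⟨h3, h4, he, t0⟩ | ⟨h3, h4, he, t0⟩ | ⟨h3, h4, he, t0⟩ | ⟨h3, h4, he, t0⟩ | ⟨h3, h4, he, t0, t1, t2⟩ | ⟨h3, h4, he, t0, t1, t2⟩ | ⟨h3, h4, he, t0, t1, t2⟩ | ⟨h3, h4, he, t0, t1, t2⟩ | ⟨h3, h4, he, t0, t1, t2⟩ | ⟨h3, h4, he, t0, t1, t2⟩ | ⟨h3, h4, he, t0, t1, t2⟩ | ⟨h3, h4, he, t0, t1, t2⟩ | ⟨h3, h4, he, t0, t1, t2⟩ | ⟨h3, h4, he, t0, t1, t2⟩ | ⟨h3, h4, he, t0, t1, t2⟩ | ⟨h3, h4, he, t0, t1, t2⟩ | ⟨h3, h4, he, t0, t1, t2⟩ | ⟨h3, h4, he, t0, t1, t2⟩ | ⟨h3, h4, he, t0, t1, t2⟩ | ⟨h3, h4, he, t0, t1⟩ | ⟨h3, h4, he, t0, t1⟩ | ⟨h3, h4, he, t0, t1⟩ | ⟨h3, h4, he, t0, t1⟩ | ⟨h3, h4, he, t0, t1⟩ | ⟨h3, h4, he, t0, t1⟩ | ⟨h3,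 h4, t0⟩
  all_goals linarith

theorem eB4_2 {a p e : ℝ} (h : Cell4 a p e) (h1 : (11/50) ≤ a) (h2 : a ≤ (6/25)) : e + (2/5) * p ≤ (-(1159/20000)) + (14/25) * a := by
  rcases h with ⟨h3, h4, h5, h6⟩ | ⟨h3, h4, he, t0⟩ | ⟨h3, h4, he, t0⟩ | ⟨h3, h4, he, t0⟩ | ⟨h3, h4, he, t0⟩ | ⟨h3, h4, he, t0⟩ | ⟨h3, h4, he, t0⟩ | ⟨h3, h4, he, t0⟩ | ⟨h3, h4, he, t0⟩ | ⟨h3, h4, he, t0⟩ | ⟨h3, h4, he, t0⟩ | ⟨h3, h4, he, t0⟩ | ⟨h3, h4, he, t0⟩ | ⟨h3, h4, he, t0, t1, t2⟩ | ⟨h3, h4, he, t0, t1, t2⟩ | ⟨h3, h4, he, t0, t1, t2⟩ | ⟨h3, h4, he, t0, t1, t2⟩ | ⟨h3, h4, he, t0, t1, t2⟩ | ⟨h3, h4, he, t0, t1, t2⟩ | ⟨h3, h4, he, t0, t1, t2⟩ | ⟨h3, h4, he, t0, t1, t2⟩ | ⟨h3, h4, he, t0, t1, t2⟩ | ⟨h3, h4, he, t0, t1, t2⟩ | ⟨h3, h4, he, t0, t1, t2⟩ | ⟨h3, h4, he, t0, t1, t2⟩ | ⟨h3, h4, he, t0, t1, t2⟩ | ⟨h3, h4, he, t0, t1, t2⟩ | ⟨h3,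 h4, he, t0, t1, t2⟩ | ⟨h3, h4, he, t0, t1⟩ | ⟨h3, h4, he, t0, t1⟩ | ⟨h3, h4, he, t0, t1⟩ | ⟨h3, h4, he, t0, t1⟩ | ⟨h3, h4, he, t0, t1⟩ | ⟨h3, h4, he, t0, t1⟩ | ⟨h3, h4, t0⟩
  all_goals linarith

theorem eA4_3 {a p e : ℝ} (h : Cell4 a p e) (h1 : (6/25) ≤ a) (h2 : a < (1/2)) : e + (1/4) * p ≤ (-(6003/100000)) + (13/25) * a := by
  rcases h with ⟨h3, h4, h5, h6⟩ | ⟨h3, h4, he, t0⟩ | ⟨h3, h4, he, t0⟩ | ⟨h3, h4, he, t0⟩ | ⟨h3, h4, he, t0⟩ | ⟨h3, h4, he, t0⟩ | ⟨h3, h4, he, t0⟩ | ⟨h3, h4, he, t0⟩ | ⟨h3, h4, he, t0⟩ | ⟨h3, h4, he, t0⟩ | ⟨h3, h4, he, t0⟩ | ⟨h3, h4, he, t0⟩ | ⟨h3, h4, he, t0⟩ | ⟨h3, h4, he, t0, t1, t2⟩ | ⟨h3, h4, he, t0, t1, t2⟩ | ⟨h3, h4, he, t0, t1, t2⟩ | ⟨h3, h4, he, t0, t1, t2⟩ | ⟨h3, h4, he, t0, t1, t2⟩ | ⟨h3, h4, he, t0, t1, t2⟩ | ⟨h3, h4, he, t0, t1, t2⟩ | ⟨h3, h4, he, t0, t1, t2⟩ | ⟨h3,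 h4, he, t0, t1, t2⟩ | ⟨h3, h4, he, t0, t1, t2⟩ | ⟨h3, h4, he, t0, t1, t2⟩ | ⟨h3, h4, he, t0, t1, t2⟩ | ⟨h3, h4, he, t0, t1, t2⟩ | ⟨h3, h4, he, t0, t1, t2⟩ | ⟨h3, h4, he, t0, t1, t2⟩ | ⟨h3, h4, he, t0, t1⟩ | ⟨h3, h4, he, t0, t1⟩ | ⟨h3, h4, he, t0, t1⟩ | ⟨h3, h4, he, t0, t1⟩ | ⟨h3, h4, he, t0, t1⟩ | ⟨h3, h4, he, t0, t1⟩ | ⟨h3, h4, t0⟩
  all_goals linarith

theorem eB4_3 {a p e : ℝ} (h : Cell4 a p e) (h1 : (6/25) ≤ a) (h2 : a ≤ (13/50)) : e + (1/4) * p ≤ (-(1213/20000)) + (13/25) * a := by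
  rcases h with ⟨h3, h4, h5, h6⟩ | ⟨h3, h4, he, t0⟩ | ⟨h3, h4, he, t0⟩ | ⟨h3, h4, he, t0⟩ | ⟨h3, h4, he, t0⟩ | ⟨h3, h4, he, t0⟩ | ⟨h3, h4, he, t0⟩ | ⟨h3, h4, he, t0⟩ | ⟨h3, h4, he, t0⟩ | ⟨h3, h4, he, t0⟩ | ⟨h3, h4, he, t0⟩ | ⟨h3, h4, he, t0⟩ | ⟨h3, h4, he, t0⟩ | ⟨h3, h4, he, t0, t1, t2⟩ | ⟨h3, h4, he, t0, t1, t2⟩ | ⟨h3, h4, he, t0, t1, t2⟩ | ⟨h3, h4, he, t0, t1, t2⟩ | ⟨h3, h4, he, t0, t1, t2⟩ | ⟨h3, h4, he, t0, t1, t2⟩ | ⟨h3, h4, he, t0, t1, t2⟩ | ⟨h3, h4, he, t0, t1, t2⟩ | ⟨h3, h4, he, t0, t1, t2⟩ | ⟨h3, h4, he, t0, t1, t2⟩ | ⟨h3, h4, he, t0, t1, t2⟩ | ⟨h3, h4, he, t0, t1, t2⟩ | ⟨h3, h4, he, t0, t1, t2⟩ | ⟨h3, h4, he, t0, t1, t2⟩ | ⟨h3, h4, he, t0, t1, t2⟩ | ⟨h3, h4, he, t0, t1⟩ | ⟨h3, h4, he, t0, t1⟩ | ⟨h3, h4, he, t0, t1⟩ | ⟨h3, h4, he, t0, t1⟩ | ⟨h3, h4, he, t0, t1⟩ | ⟨h3, h4, he, t0, t1⟩ | ⟨h3,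 h4, t0⟩
  all_goals linarith

theorem eA4_4 {a p e : ℝ} (h : Cell4 a p e) (h1 : (13/50) ≤ a) (h2 : a < (1/2)) : e + (1/4) * p ≤ (-(6003/100000)) + (13/25) * a := by
  rcases h with ⟨h3, h4, h5, h6⟩ | ⟨h3, h4, he, t0⟩ | ⟨h3, h4, he, t0⟩ | ⟨h3, h4, he, t0⟩ | ⟨h3, h4, he, t0⟩ | ⟨h3, h4, he, t0⟩ | ⟨h3, h4, he, t0⟩ | ⟨h3, h4, he, t0⟩ | ⟨h3, h4, he, t0⟩ | ⟨h3, h4, he, t0⟩ | ⟨h3, h4, he, t0⟩ | ⟨h3, h4, he, t0⟩ | ⟨h3, h4, he, t0⟩ | ⟨h3, h4, he, t0, t1, t2⟩ | ⟨h3, h4, he, t0, t1, t2⟩ | ⟨h3, h4, he, t0, t1, t2⟩ | ⟨h3, h4, he, t0, t1, t2⟩ | ⟨h3, h4, he, t0, t1, t2⟩ | ⟨h3, h4, he, t0, t1, t2⟩ | ⟨h3, h4, he, t0, t1, t2⟩ | ⟨h3, h4, he, t0, t1, t2⟩ | ⟨h3, h4, he, t0, t1, t2⟩ | ⟨h3, h4, he, t0, t1, t2⟩ | ⟨h3, h4, he, t0, t1, t2⟩ | ⟨h3, h4, he, t0, t1, t2⟩ | ⟨h3, h4, he, t0, t1, t2⟩ | ⟨h3, h4, he, t0, t1, t2⟩ | ⟨h3,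 h4, he, t0, t1, t2⟩ | ⟨h3, h4, he, t0, t1⟩ | ⟨h3, h4, he, t0, t1⟩ | ⟨h3, h4, he, t0, t1⟩ | ⟨h3, h4, he, t0, t1⟩ | ⟨h3, h4, he, t0, t1⟩ | ⟨h3, h4, he, t0, t1⟩ | ⟨h3, h4, t0⟩
  all_goals linarith

theorem eB4_4 {a p e : ℝ} (h : Cell4 a p e) (h1 : (13/50) ≤ a) (h2 : a ≤ (7/25)) : e + (1/4) * p ≤ (-(1223/20000)) + (13/25) * a := by
  rcases h with ⟨h3, h4, h5, h6⟩ | ⟨h3, h4, he, t0⟩ | ⟨h3, h4, he, t0⟩ | ⟨h3, h4, he, t0⟩ | ⟨h3, h4, he, t0⟩ | ⟨h3, h4, he, t0⟩ | ⟨h3, h4, he, t0⟩ | ⟨h3, h4, he, t0⟩ | ⟨h3, h4, he, t0⟩ | ⟨h3, h4, he, t0⟩ | ⟨h3, h4, he, t0⟩ | ⟨h3, h4, he, t0⟩ | ⟨h3, h4, he, t0⟩ | ⟨h3, h4, he, t0, t1, t2⟩ | ⟨h3, h4, he, t0, t1, t2⟩ | ⟨h3, h4, he, t0, t1, t2⟩ | ⟨h3, h4, he, t0, t1, t2⟩ | ⟨h3, h4, he, t0, t1, t2⟩ | ⟨h3, h4, he, t0, t1, t2⟩ | ⟨h3, h4, he, t0, t1, t2⟩ | ⟨h3, h4, he, t0, t1, t2⟩ |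 ⟨h3, h4, he, t0, t1, t2⟩ | ⟨h3, h4, he, t0, t1, t2⟩ | ⟨h3, h4, he, t0, t1, t2⟩ | ⟨h3, h4, he, t0, t1, t2⟩ | ⟨h3, h4, he, t0, t1, t2⟩ | ⟨h3, h4, he, t0, t1, t2⟩ | ⟨h3, h4, he, t0, t1, t2⟩ | ⟨h3, h4, he, t0, t1⟩ | ⟨h3, h4, he, t0, t1⟩ | ⟨h3, h4, he, t0, t1⟩ | ⟨h3, h4, he, t0, t1⟩ | ⟨h3, h4, he, t0, t1⟩ | ⟨h3, h4, he, t0, t1⟩ | ⟨h3, h4, t0⟩
  all_goals linarith

theorem eA4_5 {a p e : ℝ} (h : Cell4 a p e) (h1 : (7/25) ≤ a) (h2 : a < (1/2)) : e + (1/5) * p ≤ (-(1659/25000)) + (13/25) * a := by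
  rcases h with ⟨h3, h4, h5, h6⟩ | ⟨h3, h4, he, t0⟩ | ⟨h3, h4, he, t0⟩ | ⟨h3, h4, he, t0⟩ | ⟨h3, h4, he, t0⟩ | ⟨h3, h4, he, t0⟩ | ⟨h3, h4, he, t0⟩ | ⟨h3, h4, he, t0⟩ | ⟨h3, h4, he, t0⟩ | ⟨h3, h4, he, t0⟩ | ⟨h3, h4, he, t0⟩ | ⟨h3, h4, he, t0⟩ | ⟨h3, h4, he, t0⟩ | ⟨h3, h4, he, t0, t1, t2⟩ | ⟨h3, h4, he, t0, t1, t2⟩ | ⟨h3, h4, he, t0, t1, t2⟩ | ⟨h3, h4, he, t0, t1, t2⟩ | ⟨h3, h4, he, t0, t1, t2⟩ | ⟨h3, h4, he, t0, t1, t2⟩ | ⟨h3, h4, he, t0, t1, t2⟩ | ⟨h3, h4, he, t0, t1, t2⟩ | ⟨h3, h4, he, t0, t1, t2⟩ | ⟨h3, h4, he, t0, t1, t2⟩ | ⟨h3, h4, he, t0, t1, t2⟩ | ⟨h3, h4, he, t0, t1, t2⟩ | ⟨h3, h4, he, t0, t1, t2⟩ | ⟨h3, h4, he, t0, t1, t2⟩ | ⟨h3, h4, he, t0, t1, t2⟩ | ⟨h3, h4, he, t0, t1⟩ | ⟨h3, h4, he, t0, t1⟩ | ⟨h3, h4, he, t0, t1⟩ | ⟨h3, h4, he, t0, t1⟩ | ⟨h3, h4, he, t0, t1⟩ | ⟨h3, h4, he, t0, t1⟩ | ⟨h3,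 h4, t0⟩
  all_goals linarith

theorem eB4_5 {a p e : ℝ} (h : Cell4 a p e) (h1 : (7/25) ≤ a) (h2 : a ≤ (3/10)) : e + (1/5) * p ≤ (-(1659/25000)) + (13/25) * a := by
  rcases h with ⟨h3, h4, h5, h6⟩ | ⟨h3, h4, he, t0⟩ | ⟨h3, h4, he, t0⟩ | ⟨h3, h4, he, t0⟩ | ⟨h3, h4, he, t0⟩ | ⟨h3, h4, he, t0⟩ | ⟨h3, h4, he, t0⟩ | ⟨h3, h4, he, t0⟩ | ⟨h3, h4, he, t0⟩ | ⟨h3, h4, he, t0⟩ | ⟨h3, h4, he, t0⟩ | ⟨h3, h4, he, t0⟩ | ⟨h3, h4, he, t0⟩ | ⟨h3, h4, he, t0, t1, t2⟩ | ⟨h3, h4, he, t0, t1, t2⟩ | ⟨h3, h4, he, t0, t1, t2⟩ | ⟨h3, h4, he, t0, t1, t2⟩ | ⟨h3, h4, he, t0, t1, t2⟩ | ⟨h3, h4, he, t0, t1, t2⟩ | ⟨h3, h4, he, t0, t1, t2⟩ | ⟨h3, h4, he, t0, t1, t2⟩ | ⟨h3, h4, he, t0, t1, t2⟩ | ⟨h3, h4, he, t0, t1, t2⟩ | ⟨h3, h4, he, t0, t1, t2⟩ | ⟨h3, h4, he, t0, t1, t2⟩ | ⟨h3, h4, he, t0, t1, t2⟩ | ⟨h3, h4, he, t0, t1, t2⟩ | ⟨h3,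 h4, he, t0, t1, t2⟩ | ⟨h3, h4, he, t0, t1⟩ | ⟨h3, h4, he, t0, t1⟩ | ⟨h3, h4, he, t0, t1⟩ | ⟨h3, h4, he, t0, t1⟩ | ⟨h3, h4, he, t0, t1⟩ | ⟨h3, h4, he, t0, t1⟩ | ⟨h3, h4, t0⟩
  all_goals linarith

theorem eA4_6 {a p e : ℝ} (h : Cell4 a p e) (h1 : (3/10) ≤ a) (h2 : a < (1/2)) : e + 0 * p ≤ (-(389/5000)) + (12/25) * a := by
  rcases h with ⟨h3, h4, h5, h6⟩ | ⟨h3, h4, he, t0⟩ | ⟨h3, h4, he, t0⟩ | ⟨h3, h4, he, t0⟩ | ⟨h3, h4, he, t0⟩ | ⟨h3, h4, he, t0⟩ | ⟨h3, h4, he, t0⟩ | ⟨h3, h4, he, t0⟩ | ⟨h3, h4, he, t0⟩ | ⟨h3, h4, he, t0⟩ | ⟨h3, h4, he, t0⟩ | ⟨h3, h4, he, t0⟩ | ⟨h3, h4, he, t0⟩ | ⟨h3, h4, he, t0, t1, t2⟩ | ⟨h3, h4, he, t0, t1, t2⟩ | ⟨h3, h4, he, t0, t1, t2⟩ | ⟨h3, h4, he, t0, t1, t2⟩ | ⟨h3, h4, he, t0, t1, t2⟩ | ⟨h3, h4, he, t0, t1, t2⟩ | ⟨h3, h4, he, t0, t1, t2⟩ | ⟨h3, h4, he, t0, t1, t2⟩ | ⟨h3, h4,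 he, t0, t1, t2⟩ | ⟨h3, h4, he, t0, t1, t2⟩ | ⟨h3, h4, he, t0, t1, t2⟩ | ⟨h3, h4, he, t0, t1, t2⟩ | ⟨h3, h4, he, t0, t1, t2⟩ | ⟨h3, h4, he, t0, t1, t2⟩ | ⟨h3, h4, he, t0, t1, t2⟩ | ⟨h3, h4, he, t0, t1⟩ | ⟨h3, h4, he, t0, t1⟩ | ⟨h3, h4, he, t0, t1⟩ | ⟨h3, h4, he, t0, t1⟩ | ⟨h3, h4, he, t0, t1⟩ | ⟨h3, h4, he, t0, t1⟩ | ⟨h3, h4, t0⟩
  all_goals linarith

theorem eB4_6 {a p e : ℝ} (h : Cell4 a p e) (h1 : (3/10) ≤ a) (h2 : a ≤ (1/3)) : e + 0 * p ≤ (-(389/5000)) + (12/25) * a := by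
  rcases h with ⟨h3, h4, h5, h6⟩ | ⟨h3, h4, he, t0⟩ | ⟨h3, h4, he, t0⟩ | ⟨h3, h4, he, t0⟩ | ⟨h3, h4, he, t0⟩ | ⟨h3, h4, he, t0⟩ | ⟨h3, h4, he, t0⟩ | ⟨h3, h4, he, t0⟩ | ⟨h3, h4, he, t0⟩ | ⟨h3, h4, he, t0⟩ | ⟨h3, h4, he, t0⟩ | ⟨h3, h4, he, t0⟩ | ⟨h3, h4, he, t0⟩ | ⟨h3, h4, he, t0, t1, t2⟩ | ⟨h3, h4, he, t0, t1, t2⟩ | ⟨h3, h4, he, t0, t1, t2⟩ | ⟨h3, h4, he, t0, t1, t2⟩ | ⟨h3, h4, he, t0, t1, t2⟩ | ⟨h3, h4, he, t0, t1, t2⟩ | ⟨h3, h4, he, t0, t1, t2⟩ | ⟨h3, h4, he, t0, t1, t2⟩ | ⟨h3, h4, he, t0, t1, t2⟩ | ⟨h3, h4, he, t0, t1, t2⟩ | ⟨h3, h4, he, t0, t1, t2⟩ | ⟨h3, h4, he, t0, t1, t2⟩ | ⟨h3, h4, he, t0, t1, t2⟩ | ⟨h3, h4, he, t0, t1, t2⟩ | ⟨h3, h4, he, t0, t1, t2⟩ | ⟨h3, h4, he, t0, t1⟩ | ⟨h3, h4, he, t0, t1⟩ | ⟨h3, h4, he, t0, t1⟩ | ⟨h3, h4, he, t0, t1⟩ | ⟨h3, h4, he, t0, t1⟩ | ⟨h3, h4, he, t0, t1⟩ | ⟨h3,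 h4, t0⟩
  all_goals linarith

end Vale.Agent.Lib.P226
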