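import Vale.Agent.Lib.P226.Knots

/-!
The finite table for the constant 5/4 in the deletion bound.
-/

open MeasureTheory ProbabilityTheory Real Set
open scoped RealInnerProductSpace ENNReal NNReal Pointwise

namespace Vale.Agent.Lib.P226

/-- The finite description of the admissible pairs `(Φ(α), p)`. -/
def Cell5 (a p : ℝ) : Prop :=
  (0 < a ∧ a ≤ (22331/1250000) ∧ p ≤ 2 * a ^ 2 ∧ p ≤ (22331/625000) * a) ∨
  ((178623/10000000) ≤ a ∧ a ≤ (45501/2000000) ∧ p ≤ (35557/500000) * a + (-(7/10000))) ∨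
  ((5687/250000) ≤ a ∧ a ≤ (287169/10000000) ∧ p ≤ (17859/200000) * a + (-(557/500000))) ∨
  ((57429/2000000) ≤ a ∧ a ≤ (359307/10000000) ∧ p ≤ (55499/500000) * a + (-(1737/1000000))) ∨
  ((359283/10000000) ≤ a ∧ a ≤ (222829/5000000) ∧ p ≤ (17077/125000) * a + (-(2657/1000000))) ∨
  ((222817/5000000) ≤ a ∧ a ≤ (547997/10000000) ∧ p ≤ (83207/500000) * a + (-(249/62500))) ∨
  ((547973/10000000) ≤ a ∧ a ≤ (167019/2500000) ∧ p ≤ (2507/12500) * a + (-(2927/500000))) ∨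
  ((668053/10000000) ≤ a ∧ a ≤ (80757/1000000) ∧ p ≤ (238969/1000000) * a + (-(8419/1000000))) ∨
  ((201887/2500000) ≤ a ∧ a ≤ (121001/1250000) ∧ p ≤ (56291/200000) * a + (-(11847/1000000))) ∨
  ((967987/10000000) ≤ a ∧ a ≤ (11507/100000) ∧ p ≤ (65483/200000) * a + (-(16291/1000000))) ∨
  ((28767/250000) ≤ a ∧ a ≤ (169583/1250000) ∧ p ≤ (187931/500000) * a + (-(10929/500000))) ∨
  ((339161/2500000) ≤ a ∧ a ≤ (317311/2000000) ∧ p ≤ (212747/500000) * a + (-(1429/50000))) ∨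
  ((1586537/10000000) ≤ a ∧ a ≤ (427641/2500000) ∧ p ≤ (462017/1000000) * a + (-(8597/250000))) ∨
  ((1710547/10000000) ≤ a ∧ a ≤ (460151/2500000) ∧ p ≤ (486087/1000000) * a + (-(19251/500000))) ∨
  ((1840587/10000000) ≤ a ∧ a ≤ (494157/2500000) ∧ p ≤ (254501/500000) * a + (-(42717/1000000))) ∨
  ((494153/2500000) ≤ a ∧ a ≤ (2118557/10000000) ∧ p ≤ (530859/1000000) * a + (-(23517/500000))) ∨
  ((2118541/10000000) ≤ a ∧ a ≤ (566569/2500000) ∧ p ≤ (137729/250000) * a + (-(51279/1000000))) ∨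
  ((2266261/10000000) ≤ a ∧ a ≤ (2419639/10000000) ∧ p ≤ (28453/50000) * a + (-(11077/200000))) ∨
  ((19357/80000) ≤ a ∧ a ≤ (2578463/10000000) ∧ p ≤ (292487/500000) * a + (-(59231/1000000))) ∨
  ((51569/200000) ≤ a ∧ a ≤ (2742533/10000000) ∧ p ≤ (598051/1000000) * a + (-(31299/500000))) ∨
  ((2742521/10000000) ≤ a ∧ a ≤ (2911599/10000000) ∧ p ≤ (303977/500000) * a + (-(16327/250000))) ∨
  ((2911587/10000000) ≤ a ∧ a ≤ (75383/250000) ∧ p ≤ (153403/250000) * a + (-(2679/40000))) ∨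
  ((3015309/10000000) ≤ a ∧ a ≤ (3085377/10000000) ∧ p ≤ (15397/25000) * a + (-(13533/200000))) ∨
  ((3085367/10000000) ≤ a ∧ a ≤ (3156139/10000000) ∧ p ≤ (77157/125000) * a + (-(68089/1000000))) ∨
  ((3156129/10000000) ≤ a ∧ a ≤ 1 ∧ p ≤ (341313/1000000) * a + (18683/1000000) ∧ p ≤ (81119/250000) * a + (3011/125000) ∧ p ≤ (147309/500000) * a + (34107/1000000) ∧ p ≤ (26267/100000) * a + (22707/500000) ∧ p ≤ (114417/500000) * a + (7253/125000) ∧ p ≤ (38667/200000) * a + (7193/100000) ∧ p ≤ (78209/500000) * a + (17421/200000) ∧ p ≤ (23669/200000) * a + (103499/1000000) ∧ p ≤ (79391/1000000) * a + (1513/12500) ∧ p ≤ (7969/200000) * a + (8727/62500) ∧ p ≤ 0 * a + (159157/1000000))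

theorem tiny5 {F₀ α p : ℝ} (h0 : 0 < F₀)
    (hp2 : eF α ≤ (7/50) → p ≤ 2 * eF α - (5/4) * eF α ^ 2 / F₀) (h1 : α ≤ -(21/10)) :
    0 < ncdf α ∧ ncdf α ≤ (22331/1250000) ∧ p ≤ 2 * ncdf α ^ 2 ∧ p ≤ (22331/625000) * ncdf α := by
  obtain ⟨-, -, -, cu⟩ := k210
  have hm := strictMono_ncdf.monotone h1
  have ha := ncdf_pos α
  have hle : ncdf α ≤ (22331/1250000) := by linarith
  have he := eF_le_sq α
  have hsq : ncdf α ^ 2 ≤ (22331/1250000) * ncdf α := by nlinarith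
  have hemax : eF α ≤ (7/50) := by nlinarith
  have hq := hp2 hemax
  have hpos : 0 ≤ (5/4) * eF α ^ 2 / F₀ := by positivity
  exact ⟨ha, hle, by linarith, by linarith⟩

theorem piece5_1 {F₀ α p : ℝ} (h0 : 0 < F₀) (hU : F₀ ≤ (35811/100000))
    (hp2 : eF α ≤ (7/50) → p ≤ 2 * eF α - (5/4) * eF α ^ 2 / F₀)
    (h1 : -(21/10) ≤ α) (h2 : α ≤ -2) :
    (178623/10000000) ≤ ncdf α ∧ ncdf α ≤ (45501/2000000) ∧ p ≤ (35557/500000) * ncdf α + (-(7/10000)) := by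
  obtain ⟨-, pu1, cl1, cu1⟩ := k210
  obtain ⟨-, pu2, cl2, cu2⟩ := k200
  have hm1 : ncdf (-(21/10)) ≤ ncdf α := strictMono_ncdf.monotone h1
  have hm2 : ncdf α ≤ ncdf (-2) := strictMono_ncdf.monotone h2
  have e1 : eF (-(21/10)) ≤ (284710863573/1000000000000000) :=
    (eF_le_of_bounds (by norm_num) pu1 cl1).trans (by norm_num)
  have e2 : eF (-2) ≤ (45867229089/100000000000000) :=
    (eF_le_of_bounds (by norm_num) pu2 cl2).trans (by norm_num)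
  have he1 : eF (-(21/10)) ≤ (356063/10000000) * ncdf (-(21/10)) + (-(439/1250000)) := by linarith
  have he2 : eF (-2) ≤ (356063/10000000) * ncdf (-2) + (-(439/1250000)) := by linarith
  have hc := eF_chord (by norm_num) he1 he2 ⟨h1, h2⟩
  have hemax : eF α ≤ (7/50) := by linarith
  have hq := p_le_linear (κ := (5/4)) (e₀ := (1/2500)) (by norm_num) h0 hU (hp2 hemax)
  have hA : (2 - 2 * (5/4) * (1/2500) / (35811/100000) : ℝ) = (71522/35811) := by norm_num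
  have hC : ((5/4) * (1/2500) ^ 2 / (35811/100000) : ℝ) = (1/1790550) := by norm_num
  rw [hA, hC] at hq
  have hpos := ncdf_pos α
  exact ⟨by linarith, by linarith, by linarith⟩

theorem piece5_2 {F₀ α p : ℝ} (h0 : 0 < F₀) (hU : F₀ ≤ (35811/100000))
    (hp2 : eF α ≤ (7/50) → p ≤ 2 * eF α - (5/4) * eF α ^ 2 / F₀)
    (h1 : -2 ≤ α) (h2 : α ≤ -(19/10)) :
    (5687/250000) ≤ ncdf α ∧ ncdf α ≤ (287169/10000000) ∧ p ≤ (17859/200000) * ncdf α + (-(557/500000)) := by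
  obtain ⟨-, pu1, cl1, cu1⟩ := k200
  obtain ⟨-, pu2, cl2, cu2⟩ := k190
  have hm1 : ncdf (-2) ≤ ncdf α := strictMono_ncdf.monotone h1
  have hm2 : ncdf α ≤ ncdf (-(19/10)) := strictMono_ncdf.monotone h2
  have e1 : eF (-2) ≤ (45867229089/100000000000000) :=
    (eF_le_of_bounds (by norm_num) pu1 cl1).trans (by norm_num)
  have e2 : eF (-(19/10)) ≤ (145123784531/200000000000000) :=
    (eF_le_of_bounds (by norm_num) pu2 cl2).trans (by norm_num)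
  have he1 : eF (-2) ≤ (44741/1000000) * ncdf (-2) + (-(559/1000000)) := by linarith
  have he2 : eF (-(19/10)) ≤ (44741/1000000) * ncdf (-(19/10)) + (-(559/1000000)) := by linarith
  have hc := eF_chord (by norm_num) he1 he2 ⟨h1, h2⟩
  have hemax : eF α ≤ (7/50) := by linarith
  have hq := p_le_linear (κ := (5/4)) (e₀ := (3/5000)) (by norm_num) h0 hU (hp2 hemax)
  have hA : (2 - 2 * (5/4) * (3/5000) / (35811/100000) : ℝ) = (23824/11937) := by norm_num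
  have hC : ((5/4) * (3/5000) ^ 2 / (35811/100000) : ℝ) = (1/795800) := by norm_num
  rw [hA, hC] at hq
  have hpos := ncdf_pos α
  exact ⟨by linarith, by linarith, by linarith⟩

theorem piece5_3 {F₀ α p : ℝ} (h0 : 0 < F₀) (hU : F₀ ≤ (35811/100000))
    (hp2 : eF α ≤ (7/50) → p ≤ 2 * eF α - (5/4) * eF α ^ 2 / F₀)
    (h1 : -(19/10) ≤ α) (h2 : α ≤ -(9/5)) :
    (57429/2000000) ≤ ncdf α ∧ ncdf α ≤ (359307/10000000) ∧ p ≤ (55499/500000) * ncdf α + (-(1737/1000000)) := by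
  obtain ⟨-, pu1, cl1, cu1⟩ := k190
  obtain ⟨-, pu2, cl2, cu2⟩ := k180
  have hm1 : ncdf (-(19/10)) ≤ ncdf α := strictMono_ncdf.monotone h1
  have hm2 : ncdf α ≤ ncdf (-(9/5)) := strictMono_ncdf.monotone h2
  have e1 : eF (-(19/10)) ≤ (145123784531/200000000000000) :=
    (eF_le_of_bounds (by norm_num) pu1 cl1).trans (by norm_num)
  have e2 : eF (-(9/5)) ≤ (56368920089/50000000000000) :=
    (eF_le_of_bounds (by norm_num) pu2 cl2).trans (by norm_num)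
  have he1 : eF (-(19/10)) ≤ (139233/2500000) * ncdf (-(19/10)) + (-(1747/2000000)) := by linarith
  have he2 : eF (-(9/5)) ≤ (139233/2500000) * ncdf (-(9/5)) + (-(1747/2000000)) := by linarith
  have hc := eF_chord (by norm_num) he1 he2 ⟨h1, h2⟩
  have hemax : eF α ≤ (7/50) := by linarith
  have hq := p_le_linear (κ := (5/4)) (e₀ := (1/1000)) (by norm_num) h0 hU (hp2 hemax)
  have hA : (2 - 2 * (5/4) * (1/1000) / (35811/100000) : ℝ) = (71372/35811) := by norm_num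
  have hC : ((5/4) * (1/1000) ^ 2 / (35811/100000) : ℝ) = (1/286488) := by norm_num
  rw [hA, hC] at hq
  have hpos := ncdf_pos α
  exact ⟨by linarith, by linarith, by linarith⟩

theorem piece5_4 {F₀ α p : ℝ} (h0 : 0 < F₀) (hU : F₀ ≤ (35811/100000))
    (hp2 : eF α ≤ (7/50) → p ≤ 2 * eF α - (5/4) * eF α ^ 2 / F₀)
    (h1 : -(9/5) ≤ α) (h2 : α ≤ -(17/10)) :
    (359283/10000000) ≤ ncdf α ∧ ncdf α ≤ (222829/5000000) ∧ p ≤ (17077/125000) * ncdf α + (-(2657/1000000)) := by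
  obtain ⟨-, pu1, cl1, cu1⟩ := k180
  obtain ⟨-, pu2, cl2, cu2⟩ := k170
  have hm1 : ncdf (-(9/5)) ≤ ncdf α := strictMono_ncdf.monotone h1
  have hm2 : ncdf α ≤ ncdf (-(17/10)) := strictMono_ncdf.monotone h2
  have e1 : eF (-(9/5)) ≤ (56368920089/50000000000000) :=
    (eF_le_of_bounds (by norm_num) pu1 cl1).trans (by norm_num)
  have e2 : eF (-(17/10)) ≤ (86016356007/50000000000000) :=
    (eF_le_of_bounds (by norm_num) pu2 cl2).trans (by norm_num)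
  have he1 : eF (-(9/5)) ≤ (686673/10000000) * ncdf (-(9/5)) + (-(13397/10000000)) := by linarith
  have he2 : eF (-(17/10)) ≤ (686673/10000000) * ncdf (-(17/10)) + (-(13397/10000000)) := by linarith
  have hc := eF_chord (by norm_num) he1 he2 ⟨h1, h2⟩
  have hemax : eF α ≤ (7/50) := by linarith
  have hq := p_le_linear (κ := (5/4)) (e₀ := (3/2000)) (by norm_num) h0 hU (hp2 hemax)
  have hA : (2 - 2 * (5/4) * (3/2000) / (35811/100000) : ℝ) = (23749/11937) := by norm_num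
  have hC : ((5/4) * (3/2000) ^ 2 / (35811/100000) : ℝ) = (1/127328) := by norm_num
  rw [hA, hC] at hq
  have hpos := ncdf_pos α
  exact ⟨by linarith, by linarith, by linarith⟩

theorem piece5_5 {F₀ α p : ℝ} (h0 : 0 < F₀) (hU : F₀ ≤ (35811/100000))
    (hp2 : eF α ≤ (7/50) → p ≤ 2 * eF α - (5/4) * eF α ^ 2 / F₀)
    (h1 : -(17/10) ≤ α) (h2 : α ≤ -(8/5)) :
    (222817/5000000) ≤ ncdf α ∧ ncdf α ≤ (547997/10000000) ∧ p ≤ (83207/500000) * ncdf α + (-(249/62500)) := by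
  obtain ⟨-, pu1, cl1, cu1⟩ := k170
  obtain ⟨-, pu2, cl2, cu2⟩ := k160
  have hm1 : ncdf (-(17/10)) ≤ ncdf α := strictMono_ncdf.monotone h1
  have hm2 : ncdf α ≤ ncdf (-(8/5)) := strictMono_ncdf.monotone h2
  have e1 : eF (-(17/10)) ≤ (86016356007/50000000000000) :=
    (eF_le_of_bounds (by norm_num) pu1 cl1).trans (by norm_num)
  have e2 : eF (-(8/5)) ≤ (322305975801/125000000000000) :=
    (eF_le_of_bounds (by norm_num) pu2 cl2).trans (by norm_num)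
  have he1 : eF (-(17/10)) ≤ (209627/2500000) * ncdf (-(17/10)) + (-(20163/10000000)) := by linarith
  have he2 : eF (-(8/5)) ≤ (209627/2500000) * ncdf (-(8/5)) + (-(20163/10000000)) := by linarith
  have hc := eF_chord (by norm_num) he1 he2 ⟨h1, h2⟩
  have hemax : eF α ≤ (7/50) := by linarith
  have hq := p_le_linear (κ := (5/4)) (e₀ := (11/5000)) (by norm_num) h0 hU (hp2 hemax)
  have hA : (2 - 2 * (5/4) * (11/5000) / (35811/100000) : ℝ) = (71072/35811) := by norm_num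
  have hC : ((5/4) * (11/5000) ^ 2 / (35811/100000) : ℝ) = (121/7162200) := by norm_num
  rw [hA, hC] at hq
  have hpos := ncdf_pos α
  exact ⟨by linarith, by linarith, by linarith⟩

theorem piece5_6 {F₀ α p : ℝ} (h0 : 0 < F₀) (hU : F₀ ≤ (35811/100000))
    (hp2 : eF α ≤ (7/50) → p ≤ 2 * eF α - (5/4) * eF α ^ 2 / F₀)
    (h1 : -(8/5) ≤ α) (h2 : α ≤ -(3/2)) :
    (547973/10000000) ≤ ncdf α ∧ ncdf α ≤ (167019/2500000) ∧ p ≤ (2507/12500) * ncdf α + (-(2927/500000)) := by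
  obtain ⟨-, pu1, cl1, cu1⟩ := k160
  obtain ⟨-, pu2, cl2, cu2⟩ := k150
  have hm1 : ncdf (-(8/5)) ≤ ncdf α := strictMono_ncdf.monotone h1
  have hm2 : ncdf α ≤ ncdf (-(3/2)) := strictMono_ncdf.monotone h2
  have e1 : eF (-(8/5)) ≤ (322305975801/125000000000000) :=
    (eF_le_of_bounds (by norm_num) pu1 cl1).trans (by norm_num)
  have e2 : eF (-(3/2)) ≤ (75924216431/20000000000000) :=
    (eF_le_of_bounds (by norm_num) pu2 cl2).trans (by norm_num)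
  have he1 : eF (-(8/5)) ≤ (1014127/10000000) * ncdf (-(8/5)) + (-(14893/5000000)) := by linarith
  have he2 : eF (-(3/2)) ≤ (1014127/10000000) * ncdf (-(3/2)) + (-(14893/5000000)) := by linarith
  have hc := eF_chord (by norm_num) he1 he2 ⟨h1, h2⟩
  have hemax : eF α ≤ (7/50) := by linarith
  have hq := p_le_linear (κ := (5/4)) (e₀ := (2/625)) (by norm_num) h0 hU (hp2 hemax)
  have hA : (2 - 2 * (5/4) * (2/625) / (35811/100000) : ℝ) = (70822/35811) := by norm_num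
  have hC : ((5/4) * (2/625) ^ 2 / (35811/100000) : ℝ) = (32/895275) := by norm_num
  rw [hA, hC] at hq
  have hpos := ncdf_pos α
  exact ⟨by linarith, by linarith, by linarith⟩

theorem piece5_7 {F₀ α p : ℝ} (h0 : 0 < F₀) (hU : F₀ ≤ (35811/100000))
    (hp2 : eF α ≤ (7/50) → p ≤ 2 * eF α - (5/4) * eF α ^ 2 / F₀)
    (h1 : -(3/2) ≤ α) (h2 : α ≤ -(7/5)) :
    (668053/10000000) ≤ ncdf α ∧ ncdf α ≤ (80757/1000000) ∧ p ≤ (238969/1000000) * ncdf α + (-(8419/1000000)) := by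
  obtain ⟨-, pu1, cl1, cu1⟩ := k150
  obtain ⟨-, pu2, cl2, cu2⟩ := k140
  have hm1 : ncdf (-(3/2)) ≤ ncdf α := strictMono_ncdf.monotone h1
  have hm2 : ncdf α ≤ ncdf (-(7/5)) := strictMono_ncdf.monotone h2
  have e1 : eF (-(3/2)) ≤ (75924216431/20000000000000) :=
    (eF_le_of_bounds (by norm_num) pu1 cl1).trans (by norm_num)
  have e2 : eF (-(7/5)) ≤ (686344336467/125000000000000) :=
    (eF_le_of_bounds (by norm_num) pu2 cl2).trans (by norm_num)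
  have he1 : eF (-(3/2)) ≤ (1214771/10000000) * ncdf (-(3/2)) + (-(43191/10000000)) := by linarith
  have he2 : eF (-(7/5)) ≤ (1214771/10000000) * ncdf (-(7/5)) + (-(43191/10000000)) := by linarith
  have hc := eF_chord (by norm_num) he1 he2 ⟨h1, h2⟩
  have hemax : eF α ≤ (7/50) := by linarith
  have hq := p_le_linear (κ := (5/4)) (e₀ := (47/10000)) (by norm_num) h0 hU (hp2 hemax)
  have hA : (2 - 2 * (5/4) * (47/10000) / (35811/100000) : ℝ) = (70447/35811) := by norm_num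
  have hC : ((5/4) * (47/10000) ^ 2 / (35811/100000) : ℝ) = (2209/28648800) := by norm_num
  rw [hA, hC] at hq
  have hpos := ncdf_pos α
  exact ⟨by linarith, by linarith, by linarith⟩

theorem piece5_8 {F₀ α p : ℝ} (h0 : 0 < F₀) (hU : F₀ ≤ (35811/100000))
    (hp2 : eF α ≤ (7/50) → p ≤ 2 * eF α - (5/4) * eF α ^ 2 / F₀)
    (h1 : -(7/5) ≤ α) (h2 : α ≤ -(13/10)) :
    (201887/2500000) ≤ ncdf α ∧ ncdf α ≤ (121001/1250000) ∧ p ≤ (56291/200000) * ncdf α + (-(11847/1000000)) := by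
  obtain ⟨-, pu1, cl1, cu1⟩ := k140
  obtain ⟨-, pu2, cl2, cu2⟩ := k130
  have hm1 : ncdf (-(7/5)) ≤ ncdf α := strictMono_ncdf.monotone h1
  have hm2 : ncdf α ≤ ncdf (-(13/10)) := strictMono_ncdf.monotone h2
  have e1 : eF (-(7/5)) ≤ (686344336467/125000000000000) :=
    (eF_le_of_bounds (by norm_num) pu1 cl1).trans (by norm_num)
  have e2 : eF (-(13/10)) ≤ (3901317787323/500000000000000) :=
    (eF_le_of_bounds (by norm_num) pu2 cl2).trans (by norm_num)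
  have he1 : eF (-(7/5)) ≤ (360243/2500000) * ncdf (-(7/5)) + (-(61457/10000000)) := by linarith
  have he2 : eF (-(13/10)) ≤ (360243/2500000) * ncdf (-(13/10)) + (-(61457/10000000)) := by linarith
  have hc := eF_chord (by norm_num) he1 he2 ⟨h1, h2⟩
  have hemax : eF α ≤ (7/50) := by linarith
  have hq := p_le_linear (κ := (5/4)) (e₀ := (67/10000)) (by norm_num) h0 hU (hp2 hemax)
  have hA : (2 - 2 * (5/4) * (67/10000) / (35811/100000) : ℝ) = (69947/35811) := by norm_num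
  have hC : ((5/4) * (67/10000) ^ 2 / (35811/100000) : ℝ) = (4489/28648800) := by norm_num
  rw [hA, hC] at hq
  have hpos := ncdf_pos α
  exact ⟨by linarith, by linarith, by linarith⟩

theorem piece5_9 {F₀ α p : ℝ} (h0 : 0 < F₀) (hU : F₀ ≤ (35811/100000))
    (hp2 : eF α ≤ (7/50) → p ≤ 2 * eF α - (5/4) * eF α ^ 2 / F₀)
    (h1 : -(13/10) ≤ α) (h2 : α ≤ -(6/5)) :
    (967987/10000000) ≤ ncdf α ∧ ncdf α ≤ (11507/100000) ∧ p ≤ (65483/200000) * ncdf α + (-(16291/1000000)) := by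
  obtain ⟨-, pu1, cl1, cu1⟩ := k130
  obtain ⟨-, pu2, cl2, cu2⟩ := k120
  have hm1 : ncdf (-(13/10)) ≤ ncdf α := strictMono_ncdf.monotone h1
  have hm2 : ncdf α ≤ ncdf (-(6/5)) := strictMono_ncdf.monotone h2
  have e1 : eF (-(13/10)) ≤ (3901317787323/500000000000000) :=
    (eF_le_of_bounds (by norm_num) pu1 cl1).trans (by norm_num)
  have e2 : eF (-(6/5)) ≤ (1089491428057/100000000000000) :=
    (eF_le_of_bounds (by norm_num) pu2 cl2).trans (by norm_num)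
  have he1 : eF (-(13/10)) ≤ (169261/1000000) * ncdf (-(13/10)) + (-(10727/1250000)) := by linarith
  have he2 : eF (-(6/5)) ≤ (169261/1000000) * ncdf (-(6/5)) + (-(10727/1250000)) := by linarith
  have hc := eF_chord (by norm_num) he1 he2 ⟨h1, h2⟩
  have hemax : eF α ≤ (7/50) := by linarith
  have hq := p_le_linear (κ := (5/4)) (e₀ := (47/5000)) (by norm_num) h0 hU (hp2 hemax)
  have hA : (2 - 2 * (5/4) * (47/5000) / (35811/100000) : ℝ) = (69272/35811) := by norm_num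
  have hC : ((5/4) * (47/5000) ^ 2 / (35811/100000) : ℝ) = (2209/7162200) := by norm_num
  rw [hA, hC] at hq
  have hpos := ncdf_pos α
  exact ⟨by linarith, by linarith, by linarith⟩

theorem piece5_10 {F₀ α p : ℝ} (h0 : 0 < F₀) (hU : F₀ ≤ (35811/100000))
    (hp2 : eF α ≤ (7/50) → p ≤ 2 * eF α - (5/4) * eF α ^ 2 / F₀)
    (h1 : -(6/5) ≤ α) (h2 : α ≤ -(11/10)) :
    (28767/250000) ≤ ncdf α ∧ ncdf α ≤ (169583/1250000) ∧ p ≤ (187931/500000) * ncdf α + (-(10929/500000)) := by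
  obtain ⟨-, pu1, cl1, cu1⟩ := k120
  obtain ⟨-, pu2, cl2, cu2⟩ := k110
  have hm1 : ncdf (-(6/5)) ≤ ncdf α := strictMono_ncdf.monotone h1
  have hm2 : ncdf α ≤ ncdf (-(11/10)) := strictMono_ncdf.monotone h2
  have e1 : eF (-(6/5)) ≤ (1089491428057/100000000000000) :=
    (eF_le_of_bounds (by norm_num) pu1 cl1).trans (by norm_num)
  have e2 : eF (-(11/10)) ≤ (934350044847/62500000000000) :=
    (eF_le_of_bounds (by norm_num) pu2 cl2).trans (by norm_num)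
  have he1 : eF (-(6/5)) ≤ (1968639/10000000) * ncdf (-(6/5)) + (-(58789/5000000)) := by linarith
  have he2 : eF (-(11/10)) ≤ (1968639/10000000) * ncdf (-(11/10)) + (-(58789/5000000)) := by linarith
  have hc := eF_chord (by norm_num) he1 he2 ⟨h1, h2⟩
  have hemax : eF α ≤ (7/50) := by linarith
  have hq := p_le_linear (κ := (5/4)) (e₀ := (13/1000)) (by norm_num) h0 hU (hp2 hemax)
  have hA : (2 - 2 * (5/4) * (13/1000) / (35811/100000) : ℝ) = (68372/35811) := by norm_num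
  have hC : ((5/4) * (13/1000) ^ 2 / (35811/100000) : ℝ) = (169/286488) := by norm_num
  rw [hA, hC] at hq
  have hpos := ncdf_pos α
  exact ⟨by linarith, by linarith, by linarith⟩

theorem piece5_11 {F₀ α p : ℝ} (h0 : 0 < F₀) (hU : F₀ ≤ (35811/100000))
    (hp2 : eF α ≤ (7/50) → p ≤ 2 * eF α - (5/4) * eF α ^ 2 / F₀)
    (h1 : -(11/10) ≤ α) (h2 : α ≤ -1) :
    (339161/2500000) ≤ ncdf α ∧ ncdf α ≤ (317311/2000000) ∧ p ≤ (212747/500000) * ncdf α + (-(1429/50000)) := by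
  obtain ⟨-, pu1, cl1, cu1⟩ := k110
  obtain ⟨-, pu2, cl2, cu2⟩ := k100
  have hm1 : ncdf (-(11/10)) ≤ ncdf α := strictMono_ncdf.monotone h1
  have hm2 : ncdf α ≤ ncdf (-1) := strictMono_ncdf.monotone h2
  have e1 : eF (-(11/10)) ≤ (934350044847/62500000000000) :=
    (eF_le_of_bounds (by norm_num) pu1 cl1).trans (by norm_num)
  have e2 : eF (-1) ≤ (1008031531479/50000000000000) :=
    (eF_le_of_bounds (by norm_num) pu2 cl2).trans (by norm_num)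
  have he1 : eF (-(11/10)) ≤ (14167/62500) * ncdf (-(11/10)) + (-(158017/10000000)) := by linarith
  have he2 : eF (-1) ≤ (14167/62500) * ncdf (-1) + (-(158017/10000000)) := by linarith
  have hc := eF_chord (by norm_num) he1 he2 ⟨h1, h2⟩
  have hemax : eF α ≤ (7/50) := by linarith
  have hq := p_le_linear (κ := (5/4)) (e₀ := (11/625)) (by norm_num) h0 hU (hp2 hemax)
  have hA : (2 - 2 * (5/4) * (11/625) / (35811/100000) : ℝ) = (67222/35811) := by norm_num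
  have hC : ((5/4) * (11/625) ^ 2 / (35811/100000) : ℝ) = (968/895275) := by norm_num
  rw [hA, hC] at hq
  have hpos := ncdf_pos α
  exact ⟨by linarith, by linarith, by linarith⟩

theorem piece5_12 {F₀ α p : ℝ} (h0 : 0 < F₀) (hU : F₀ ≤ (35811/100000))
    (hp2 : eF α ≤ (7/50) → p ≤ 2 * eF α - (5/4) * eF α ^ 2 / F₀)
    (h1 : -1 ≤ α) (h2 : α ≤ -(19/20)) :
    (1586537/10000000) ≤ ncdf α ∧ ncdf α ≤ (427641/2500000) ∧ p ≤ (462017/1000000) * ncdf α + (-(8597/250000)) := by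
  obtain ⟨-, pu1, cl1, cu1⟩ := k100
  obtain ⟨-, pu2, cl2, cu2⟩ := k095
  have hm1 : ncdf (-1) ≤ ncdf α := strictMono_ncdf.monotone h1
  have hm2 : ncdf α ≤ ncdf (-(19/20)) := strictMono_ncdf.monotone h2
  have e1 : eF (-1) ≤ (1008031531479/50000000000000) :=
    (eF_le_of_bounds (by norm_num) pu1 cl1).trans (by norm_num)
  have e2 : eF (-(19/20)) ≤ (23261303495747/1000000000000000) :=
    (eF_le_of_bounds (by norm_num) pu2 cl2).trans (by norm_num)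
  have he1 : eF (-1) ≤ (2500341/10000000) * ncdf (-1) + (-(97541/5000000)) := by linarith
  have he2 : eF (-(19/20)) ≤ (2500341/10000000) * ncdf (-(19/20)) + (-(97541/5000000)) := by linarith
  have hc := eF_chord (by norm_num) he1 he2 ⟨h1, h2⟩
  have hemax : eF α ≤ (7/50) := by linarith
  have hq := p_le_linear (κ := (5/4)) (e₀ := (109/5000)) (by norm_num) h0 hU (hp2 hemax)
  have hA : (2 - 2 * (5/4) * (109/5000) / (35811/100000) : ℝ) = (66172/35811) := by norm_num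
  have hC : ((5/4) * (109/5000) ^ 2 / (35811/100000) : ℝ) = (11881/7162200) := by norm_num
  rw [hA, hC] at hq
  have hpos := ncdf_pos α
  exact ⟨by linarith, by linarith, by linarith⟩

theorem piece5_13 {F₀ α p : ℝ} (h0 : 0 < F₀) (hU : F₀ ≤ (35811/100000))
    (hp2 : eF α ≤ (7/50) → p ≤ 2 * eF α - (5/4) * eF α ^ 2 / F₀)
    (h1 : -(19/20) ≤ α) (h2 : α ≤ -(9/10)) :
    (1710547/10000000) ≤ ncdf α ∧ ncdf α ≤ (460151/2500000) ∧ p ≤ (486087/1000000) * ncdf α + (-(19251/500000)) := by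
  obtain ⟨-, pu1, cl1, cu1⟩ := k095
  obtain ⟨-, pu2, cl2, cu2⟩ := k090
  have hm1 : ncdf (-(19/20)) ≤ ncdf α := strictMono_ncdf.monotone h1
  have hm2 : ncdf α ≤ ncdf (-(9/10)) := strictMono_ncdf.monotone h2
  have e1 : eF (-(19/20)) ≤ (23261303495747/1000000000000000) :=
    (eF_le_of_bounds (by norm_num) pu1 cl1).trans (by norm_num)
  have e2 : eF (-(9/10)) ≤ (52195326329/1953125000000) :=
    (eF_le_of_bounds (by norm_num) pu2 cl2).trans (by norm_num)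
  have he1 : eF (-(19/20)) ≤ (2662799/10000000) * ncdf (-(19/20)) + (-(222871/10000000)) := by linarith
  have he2 : eF (-(9/10)) ≤ (2662799/10000000) * ncdf (-(9/10)) + (-(222871/10000000)) := by linarith
  have hc := eF_chord (by norm_num) he1 he2 ⟨h1, h2⟩
  have hemax : eF α ≤ (7/50) := by linarith
  have hq := p_le_linear (κ := (5/4)) (e₀ := (1/40)) (by norm_num) h0 hU (hp2 hemax)
  have hA : (2 - 2 * (5/4) * (1/40) / (35811/100000) : ℝ) = (65372/35811) := by norm_num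
  have hC : ((5/4) * (1/40) ^ 2 / (35811/100000) : ℝ) = (625/286488) := by norm_num
  rw [hA, hC] at hq
  have hpos := ncdf_pos α
  exact ⟨by linarith, by linarith, by linarith⟩

theorem piece5_14 {F₀ α p : ℝ} (h0 : 0 < F₀) (hU : F₀ ≤ (35811/100000))
    (hp2 : eF α ≤ (7/50) → p ≤ 2 * eF α - (5/4) * eF α ^ 2 / F₀)
    (h1 : -(9/10) ≤ α) (h2 : α ≤ -(17/20)) :
    (1840587/10000000) ≤ ncdf α ∧ ncdf α ≤ (494157/2500000) ∧ p ≤ (254501/500000) * ncdf α + (-(42717/1000000)) := by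
  obtain ⟨-, pu1, cl1, cu1⟩ := k090
  obtain ⟨-, pu2, cl2, cu2⟩ := k085
  have hm1 : ncdf (-(9/10)) ≤ ncdf α := strictMono_ncdf.monotone h1
  have hm2 : ncdf α ≤ ncdf (-(17/20)) := strictMono_ncdf.monotone h2
  have e1 : eF (-(9/10)) ≤ (52195326329/1953125000000) :=
    (eF_le_of_bounds (by norm_num) pu1 cl1).trans (by norm_num)
  have e2 : eF (-(17/20)) ≤ (955352050009/31250000000000) :=
    (eF_le_of_bounds (by norm_num) pu2 cl2).trans (by norm_num)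
  have he1 : eF (-(9/10)) ≤ (2828347/10000000) * ncdf (-(9/10)) + (-(253341/10000000)) := by linarith
  have he2 : eF (-(17/20)) ≤ (2828347/10000000) * ncdf (-(17/20)) + (-(253341/10000000)) := by linarith
  have hc := eF_chord (by norm_num) he1 he2 ⟨h1, h2⟩
  have hemax : eF α ≤ (7/50) := by linarith
  have hq := p_le_linear (κ := (5/4)) (e₀ := (287/10000)) (by norm_num) h0 hU (hp2 hemax)
  have hA : (2 - 2 * (5/4) * (287/10000) / (35811/100000) : ℝ) = (64447/35811) := by norm_num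
  have hC : ((5/4) * (287/10000) ^ 2 / (35811/100000) : ℝ) = (82369/28648800) := by norm_num
  rw [hA, hC] at hq
  have hpos := ncdf_pos α
  exact ⟨by linarith, by linarith, by linarith⟩

theorem piece5_15 {F₀ α p : ℝ} (h0 : 0 < F₀) (hU : F₀ ≤ (35811/100000))
    (hp2 : eF α ≤ (7/50) → p ≤ 2 * eF α - (5/4) * eF α ^ 2 / F₀)
    (h1 : -(17/20) ≤ α) (h2 : α ≤ -(4/5)) :
    (494153/2500000) ≤ ncdf α ∧ ncdf α ≤ (2118557/10000000) ∧ p ≤ (530859/1000000) * ncdf α + (-(23517/500000)) := by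
  obtain ⟨-, pu1, cl1, cu1⟩ := k085
  obtain ⟨-, pu2, cl2, cu2⟩ := k080
  have hm1 : ncdf (-(17/20)) ≤ ncdf α := strictMono_ncdf.monotone h1
  have hm2 : ncdf α ≤ ncdf (-(4/5)) := strictMono_ncdf.monotone h2
  have e1 : eF (-(17/20)) ≤ (955352050009/31250000000000) :=
    (eF_le_of_bounds (by norm_num) pu1 cl1).trans (by norm_num)
  have e2 : eF (-(4/5)) ≤ (17411936712849/500000000000000) :=
    (eF_le_of_bounds (by norm_num) pu2 cl2).trans (by norm_num)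
  have he1 : eF (-(17/20)) ≤ (2996293/10000000) * ncdf (-(17/20)) + (-(143269/5000000)) := by linarith
  have he2 : eF (-(4/5)) ≤ (2996293/10000000) * ncdf (-(4/5)) + (-(143269/5000000)) := by linarith
  have hc := eF_chord (by norm_num) he1 he2 ⟨h1, h2⟩
  have hemax : eF α ≤ (7/50) := by linarith
  have hq := p_le_linear (κ := (5/4)) (e₀ := (327/10000)) (by norm_num) h0 hU (hp2 hemax)
  have hA : (2 - 2 * (5/4) * (327/10000) / (35811/100000) : ℝ) = (21149/11937) := by norm_num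
  have hC : ((5/4) * (327/10000) ^ 2 / (35811/100000) : ℝ) = (11881/3183200) := by norm_num
  rw [hA, hC] at hq
  have hpos := ncdf_pos α
  exact ⟨by linarith, by linarith, by linarith⟩

theorem piece5_16 {F₀ α p : ℝ} (h0 : 0 < F₀) (hU : F₀ ≤ (35811/100000))
    (hp2 : eF α ≤ (7/50) → p ≤ 2 * eF α - (5/4) * eF α ^ 2 / F₀)
    (h1 : -(4/5) ≤ α) (h2 : α ≤ -(3/4)) :
    (2118541/10000000) ≤ ncdf α ∧ ncdf α ≤ (566569/2500000) ∧ p ≤ (137729/250000) * ncdf α + (-(51279/1000000)) := by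
  obtain ⟨-, pu1, cl1, cu1⟩ := k080
  obtain ⟨-, pu2, cl2, cu2⟩ := k075
  have hm1 : ncdf (-(4/5)) ≤ ncdf α := strictMono_ncdf.monotone h1
  have hm2 : ncdf α ≤ ncdf (-(3/4)) := strictMono_ncdf.monotone h2
  have e1 : eF (-(4/5)) ≤ (17411936712849/500000000000000) :=
    (eF_le_of_bounds (by norm_num) pu1 cl1).trans (by norm_num)
  have e2 : eF (-(3/4)) ≤ (3950014301343/100000000000000) :=
    (eF_le_of_bounds (by norm_num) pu2 cl2).trans (by norm_num)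
  have he1 : eF (-(4/5)) ≤ (3165631/10000000) * ncdf (-(4/5)) + (-(322413/10000000)) := by linarith
  have he2 : eF (-(3/4)) ≤ (3165631/10000000) * ncdf (-(3/4)) + (-(322413/10000000)) := by linarith
  have hc := eF_chord (by norm_num) he1 he2 ⟨h1, h2⟩
  have hemax : eF α ≤ (7/50) := by linarith
  have hq := p_le_linear (κ := (5/4)) (e₀ := (93/2500)) (by norm_num) h0 hU (hp2 hemax)
  have hA : (2 - 2 * (5/4) * (93/2500) / (35811/100000) : ℝ) = (20774/11937) := by norm_num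
  have hC : ((5/4) * (93/2500) ^ 2 / (35811/100000) : ℝ) = (961/198950) := by norm_num
  rw [hA, hC] at hq
  have hpos := ncdf_pos α
  exact ⟨by linarith, by linarith, by linarith⟩

theorem piece5_17 {F₀ α p : ℝ} (h0 : 0 < F₀) (hU : F₀ ≤ (35811/100000))
    (hp2 : eF α ≤ (7/50) → p ≤ 2 * eF α - (5/4) * eF α ^ 2 / F₀)
    (h1 : -(3/4) ≤ α) (h2 : α ≤ -(7/10)) :
    (2266261/10000000) ≤ ncdf α ∧ ncdf α ≤ (2419639/10000000) ∧ p ≤ (28453/50000) * ncdf α + (-(11077/200000)) := by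
  obtain ⟨-, pu1, cl1, cu1⟩ := k075
  obtain ⟨-, pu2, cl2, cu2⟩ := k070
  have hm1 : ncdf (-(3/4)) ≤ ncdf α := strictMono_ncdf.monotone h1
  have hm2 : ncdf α ≤ ncdf (-(7/10)) := strictMono_ncdf.monotone h2
  have e1 : eF (-(3/4)) ≤ (3950014301343/100000000000000) :=
    (eF_le_of_bounds (by norm_num) pu1 cl1).trans (by norm_num)
  have e2 : eF (-(7/10)) ≤ (8923104251943/200000000000000) :=
    (eF_le_of_bounds (by norm_num) pu2 cl2).trans (by norm_num)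
  have he1 : eF (-(3/4)) ≤ (66709/200000) * ncdf (-(3/4)) + (-(180449/5000000)) := by linarith
  have he2 : eF (-(7/10)) ≤ (66709/200000) * ncdf (-(7/10)) + (-(180449/5000000)) := by linarith
  have hc := eF_chord (by norm_num) he1 he2 ⟨h1, h2⟩
  have hemax : eF α ≤ (7/50) := by linarith
  have hq := p_le_linear (κ := (5/4)) (e₀ := (421/10000)) (by norm_num) h0 hU (hp2 hemax)
  have hA : (2 - 2 * (5/4) * (421/10000) / (35811/100000) : ℝ) = (61097/35811) := by norm_num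
  have hC : ((5/4) * (421/10000) ^ 2 / (35811/100000) : ℝ) = (177241/28648800) := by norm_num
  rw [hA, hC] at hq
  have hpos := ncdf_pos α
  exact ⟨by linarith, by linarith, by linarith⟩

theorem piece5_18 {F₀ α p : ℝ} (h0 : 0 < F₀) (hU : F₀ ≤ (35811/100000))
    (hp2 : eF α ≤ (7/50) → p ≤ 2 * eF α - (5/4) * eF α ^ 2 / F₀)
    (h1 : -(7/10) ≤ α) (h2 : α ≤ -(13/20)) :
    (19357/80000) ≤ ncdf α ∧ ncdf α ≤ (2578463/10000000) ∧ p ≤ (292487/500000) * ncdf α + (-(59231/1000000)) := by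
  obtain ⟨-, pu1, cl1, cu1⟩ := k070
  obtain ⟨-, pu2, cl2, cu2⟩ := k065
  have hm1 : ncdf (-(7/10)) ≤ ncdf α := strictMono_ncdf.monotone h1
  have hm2 : ncdf α ≤ ncdf (-(13/20)) := strictMono_ncdf.monotone h2
  have e1 : eF (-(7/10)) ≤ (8923104251943/200000000000000) :=
    (eF_le_of_bounds (by norm_num) pu1 cl1).trans (by norm_num)
  have e2 : eF (-(13/20)) ≤ (5018190883679/100000000000000) :=
    (eF_le_of_bounds (by norm_num) pu2 cl2).trans (by norm_num)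
  have he1 : eF (-(7/10)) ≤ (3504731/10000000) * ncdf (-(7/10)) + (-(200929/5000000)) := by linarith
  have he2 : eF (-(13/20)) ≤ (3504731/10000000) * ncdf (-(13/20)) + (-(200929/5000000)) := by linarith
  have hc := eF_chord (by norm_num) he1 he2 ⟨h1, h2⟩
  have hemax : eF α ≤ (7/50) := by linarith
  have hq := p_le_linear (κ := (5/4)) (e₀ := (237/5000)) (by norm_num) h0 hU (hp2 hemax)
  have hA : (2 - 2 * (5/4) * (237/5000) / (35811/100000) : ℝ) = (19924/11937) := by norm_num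
  have hC : ((5/4) * (237/5000) ^ 2 / (35811/100000) : ℝ) = (6241/795800) := by norm_num
  rw [hA, hC] at hq
  have hpos := ncdf_pos α
  exact ⟨by linarith, by linarith, by linarith⟩

theorem piece5_19 {F₀ α p : ℝ} (h0 : 0 < F₀) (hU : F₀ ≤ (35811/100000))
    (hp2 : eF α ≤ (7/50) → p ≤ 2 * eF α - (5/4) * eF α ^ 2 / F₀)
    (h1 : -(13/20) ≤ α) (h2 : α ≤ -(3/5)) :
    (51569/200000) ≤ ncdf α ∧ ncdf α ≤ (2742533/10000000) ∧ p ≤ (598051/1000000) * ncdf α + (-(31299/500000)) := by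
  obtain ⟨-, pu1, cl1, cu1⟩ := k065
  obtain ⟨-, pu2, cl2, cu2⟩ := k060
  have hm1 : ncdf (-(13/20)) ≤ ncdf α := strictMono_ncdf.monotone h1
  have hm2 : ncdf α ≤ ncdf (-(3/5)) := strictMono_ncdf.monotone h2
  have e1 : eF (-(13/20)) ≤ (5018190883679/100000000000000) :=
    (eF_le_of_bounds (by norm_num) pu1 cl1).trans (by norm_num)
  have e2 : eF (-(3/5)) ≤ (14051714775331/250000000000000) :=
    (eF_le_of_bounds (by norm_num) pu2 cl2).trans (by norm_num)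
  have he1 : eF (-(13/20)) ≤ (3672161/10000000) * ncdf (-(13/20)) + (-(445029/10000000)) := by linarith
  have he2 : eF (-(3/5)) ≤ (3672161/10000000) * ncdf (-(3/5)) + (-(445029/10000000)) := by linarith
  have hc := eF_chord (by norm_num) he1 he2 ⟨h1, h2⟩
  have hemax : eF α ≤ (7/50) := by linarith
  have hq := p_le_linear (κ := (5/4)) (e₀ := (133/2500)) (by norm_num) h0 hU (hp2 hemax)
  have hA : (2 - 2 * (5/4) * (133/2500) / (35811/100000) : ℝ) = (58322/35811) := by norm_num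
  have hC : ((5/4) * (133/2500) ^ 2 / (35811/100000) : ℝ) = (17689/1790550) := by norm_num
  rw [hA, hC] at hq
  have hpos := ncdf_pos α
  exact ⟨by linarith, by linarith, by linarith⟩

theorem piece5_20 {F₀ α p : ℝ} (h0 : 0 < F₀) (hU : F₀ ≤ (35811/100000))
    (hp2 : eF α ≤ (7/50) → p ≤ 2 * eF α - (5/4) * eF α ^ 2 / F₀)
    (h1 : -(3/5) ≤ α) (h2 : α ≤ -(11/20)) :
    (2742521/10000000) ≤ ncdf α ∧ ncdf α ≤ (2911599/10000000) ∧ p ≤ (303977/500000) * ncdf α + (-(16327/250000)) := by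
  obtain ⟨-, pu1, cl1, cu1⟩ := k060
  obtain ⟨-, pu2, cl2, cu2⟩ := k055
  have hm1 : ncdf (-(3/5)) ≤ ncdf α := strictMono_ncdf.monotone h1
  have hm2 : ncdf α ≤ ncdf (-(11/20)) := strictMono_ncdf.monotone h2
  have e1 : eF (-(3/5)) ≤ (14051714775331/250000000000000) :=
    (eF_le_of_bounds (by norm_num) pu1 cl1).trans (by norm_num)
  have e2 : eF (-(11/20)) ≤ (62693202121921/1000000000000000) :=
    (eF_le_of_bounds (by norm_num) pu2 cl2).trans (by norm_num)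
  have he1 : eF (-(3/5)) ≤ (153463/400000) * ncdf (-(3/5)) + (-(12253/250000)) := by linarith
  have he2 : eF (-(11/20)) ≤ (153463/400000) * ncdf (-(11/20)) + (-(12253/250000)) := by linarith
  have hc := eF_chord (by norm_num) he1 he2 ⟨h1, h2⟩
  have hemax : eF α ≤ (7/50) := by linarith
  have hq := p_le_linear (κ := (5/4)) (e₀ := (119/2000)) (by norm_num) h0 hU (hp2 hemax)
  have hA : (2 - 2 * (5/4) * (119/2000) / (35811/100000) : ℝ) = (56747/35811) := by norm_num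
  have hC : ((5/4) * (119/2000) ^ 2 / (35811/100000) : ℝ) = (14161/1145952) := by norm_num
  rw [hA, hC] at hq
  have hpos := ncdf_pos α
  exact ⟨by linarith, by linarith, by linarith⟩

theorem piece5_21 {F₀ α p : ℝ} (h0 : 0 < F₀) (hU : F₀ ≤ (35811/100000))
    (hp2 : eF α ≤ (7/50) → p ≤ 2 * eF α - (5/4) * eF α ^ 2 / F₀)
    (h1 : -(11/20) ≤ α) (h2 : α ≤ -(13/25)) :
    (2911587/10000000) ≤ ncdf α ∧ ncdf α ≤ (75383/250000) ∧ p ≤ (153403/250000) * ncdf α + (-(2679/40000)) := by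
  obtain ⟨-, pu1, cl1, cu1⟩ := k055
  obtain ⟨-, pu2, cl2, cu2⟩ := k052
  have hm1 : ncdf (-(11/20)) ≤ ncdf α := strictMono_ncdf.monotone h1
  have hm2 : ncdf α ≤ ncdf (-(13/25)) := strictMono_ncdf.monotone h2
  have e1 : eF (-(11/20)) ≤ (62693202121921/1000000000000000) :=
    (eF_le_of_bounds (by norm_num) pu1 cl1).trans (by norm_num)
  have e2 : eF (-(13/25)) ≤ (41753520708507/625000000000000) :=
    (eF_le_of_bounds (by norm_num) pu2 cl2).trans (by norm_num)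
  have he1 : eF (-(11/20)) ≤ (3964859/10000000) * ncdf (-(11/20)) + (-(527471/10000000)) := by linarith
  have he2 : eF (-(13/25)) ≤ (3964859/10000000) * ncdf (-(13/25)) + (-(527471/10000000)) := by linarith
  have hc := eF_chord (by norm_num) he1 he2 ⟨h1, h2⟩
  have hemax : eF α ≤ (7/50) := by linarith
  have hq := p_le_linear (κ := (5/4)) (e₀ := (81/1250)) (by norm_num) h0 hU (hp2 hemax)
  have hA : (2 - 2 * (5/4) * (81/1250) / (35811/100000) : ℝ) = (6158/3979) := by norm_num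
  have hC : ((5/4) * (81/1250) ^ 2 / (35811/100000) : ℝ) = (1458/99475) := by norm_num
  rw [hA, hC] at hq
  have hpos := ncdf_pos α
  exact ⟨by linarith, by linarith, by linarith⟩

theorem piece5_22 {F₀ α p : ℝ} (h0 : 0 < F₀) (hU : F₀ ≤ (35811/100000))
    (hp2 : eF α ≤ (7/50) → p ≤ 2 * eF α - (5/4) * eF α ^ 2 / F₀)
    (h1 : -(13/25) ≤ α) (h2 : α ≤ -(1/2)) :
    (3015309/10000000) ≤ ncdf α ∧ ncdf α ≤ (3085377/10000000) ∧ p ≤ (15397/25000) * ncdf α + (-(13533/200000)) := by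
  obtain ⟨-, pu1, cl1, cu1⟩ := k052
  obtain ⟨-, pu2, cl2, cu2⟩ := k050
  have hm1 : ncdf (-(13/25)) ≤ ncdf α := strictMono_ncdf.monotone h1
  have hm2 : ncdf α ≤ ncdf (-(1/2)) := strictMono_ncdf.monotone h2
  have e1 : eF (-(13/25)) ≤ (41753520708507/625000000000000) :=
    (eF_le_of_bounds (by norm_num) pu1 cl1).trans (by norm_num)
  have e2 : eF (-(1/2)) ≤ (13927664464599/200000000000000) :=
    (eF_le_of_bounds (by norm_num) pu2 cl2).trans (by norm_num)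
  have he1 : eF (-(13/25)) ≤ (4043349/10000000) * ncdf (-(13/25)) + (-(275569/5000000)) := by linarith
  have he2 : eF (-(1/2)) ≤ (4043349/10000000) * ncdf (-(1/2)) + (-(275569/5000000)) := by linarith
  have hc := eF_chord (by norm_num) he1 he2 ⟨h1, h2⟩
  have hemax : eF α ≤ (7/50) := by linarith
  have hq := p_le_linear (κ := (5/4)) (e₀ := (683/10000)) (by norm_num) h0 hU (hp2 hemax)
  have hA : (2 - 2 * (5/4) * (683/10000) / (35811/100000) : ℝ) = (54547/35811) := by norm_num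
  have hC : ((5/4) * (683/10000) ^ 2 / (35811/100000) : ℝ) = (466489/28648800) := by norm_num
  rw [hA, hC] at hq
  have hpos := ncdf_pos α
  exact ⟨by linarith, by linarith, by linarith⟩

theorem piece5_23 {F₀ α p : ℝ} (h0 : 0 < F₀) (hU : F₀ ≤ (35811/100000))
    (hp2 : eF α ≤ (7/50) → p ≤ 2 * eF α - (5/4) * eF α ^ 2 / F₀)
    (h1 : -(1/2) ≤ α) (h2 : α ≤ -(12/25)) :
    (3085367/10000000) ≤ ncdf α ∧ ncdf α ≤ (3156139/10000000) ∧ p ≤ (77157/125000) * ncdf α + (-(68089/1000000)) := by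
  obtain ⟨-, pu1, cl1, cu1⟩ := k050
  obtain ⟨-, pu2, cl2, cu2⟩ := k048
  have hm1 : ncdf (-(1/2)) ≤ ncdf α := strictMono_ncdf.monotone h1
  have hm2 : ncdf α ≤ ncdf (-(12/25)) := strictMono_ncdf.monotone h2
  have e1 : eF (-(1/2)) ≤ (13927664464599/200000000000000) :=
    (eF_le_of_bounds (by norm_num) pu1 cl1).trans (by norm_num)
  have e2 : eF (-(12/25)) ≤ (181357862637157/2500000000000000) :=
    (eF_le_of_bounds (by norm_num) pu2 cl2).trans (by norm_num)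
  have he1 : eF (-(1/2)) ≤ (4105061/10000000) * ncdf (-(1/2)) + (-(285089/5000000)) := by linarith
  have he2 : eF (-(12/25)) ≤ (4105061/10000000) * ncdf (-(12/25)) + (-(285089/5000000)) := by linarith
  have hc := eF_chord (by norm_num) he1 he2 ⟨h1, h2⟩
  have hemax : eF α ≤ (7/50) := by linarith
  have hq := p_le_linear (κ := (5/4)) (e₀ := (711/10000)) (by norm_num) h0 hU (hp2 hemax)
  have hA : (2 - 2 * (5/4) * (711/10000) / (35811/100000) : ℝ) = (5983/3979) := by norm_num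
  have hC : ((5/4) * (711/10000) ^ 2 / (35811/100000) : ℝ) = (56169/3183200) := by norm_num
  rw [hA, hC] at hq
  have hpos := ncdf_pos α
  exact ⟨by linarith, by linarith, by linarith⟩

theorem top5 {α p : ℝ} (hp1 : p ≤ npdf α ^ 2) (h1 : -(12/25) ≤ α) :
    (3156129/10000000) ≤ ncdf α ∧ ncdf α ≤ 1 ∧ p ≤ (341313/1000000) * ncdf α + (18683/1000000) ∧ p ≤ (81119/250000) * ncdf α + (3011/125000) ∧ p ≤ (147309/500000) * ncdf α + (34107/1000000) ∧ p ≤ (26267/100000) * ncdf α + (22707/500000) ∧ p ≤ (114417/500000) * ncdf α + (7253/125000) ∧ p ≤ (38667/200000) * ncdf α + (7193/100000) ∧ p ≤ (78209/500000) * ncdf α + (17421/200000) ∧ p ≤ (23669/200000) * ncdf α + (103499/1000000) ∧ p ≤ (79391/1000000) * ncdf α + (1513/12500) ∧ p ≤ (7969/200000) * ncdf α + (8727/62500) ∧ p ≤ 0 * ncdf α + (159157/1000000) := by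
  obtain ⟨-, -, cl, -⟩ := k048
  have hm : ncdf (-(12/25)) ≤ ncdf α := strictMono_ncdf.monotone h1
  have hα : -1 ≤ α := by linarith
  exact ⟨by linarith, ncdf_le_one α, hp1.trans (tang_k048 hα), hp1.trans (tang_k045 hα), hp1.trans (tang_k040 hα), hp1.trans (tang_k035 hα), hp1.trans (tang_k030 hα), hp1.trans (tang_k025 hα), hp1.trans (tang_k020 hα), hp1.trans (tang_k015 hα), hp1.trans (tang_k010 hα), hp1.trans (tang_k005 hα), hp1.trans (tang_k000 hα)⟩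

theorem cell5_of {F₀ α p : ℝ} (h0 : 0 < F₀) (hU : F₀ ≤ (35811/100000)) (hp1 : p ≤ npdf α ^ 2)
    (hp2 : eF α ≤ (7/50) → p ≤ 2 * eF α - (5/4) * eF α ^ 2 / F₀) : Cell5 (ncdf α) p := by
  rcases le_total α (-(21/10)) with h | hl0
  · exact Or.inl (tiny5 h0 hp2 h)
  rcases le_total α (-2) with h | hl1
  · exact Or.inr (Or.inl (piece5_1 h0 hU hp2 hl0 h))
  rcases le_total α (-(19/10)) with h | hl2
  · exact Or.inr (Or.inr (Or.inl (piece5_2 h0 hU hp2 hl1 h)))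
  rcases le_total α (-(9/5)) with h | hl3
  · exact Or.inr (Or.inr (Or.inr (Or.inl (piece5_3 h0 hU hp2 hl2 h))))
  rcases le_total α (-(17/10)) with h | hl4
  · exact Or.inr (Or.inr (Or.inr (Or.inr (Or.inl (piece5_4 h0 hU hp2 hl3 h)))))
  rcases le_total α (-(8/5)) with h | hl5
  · exact Or.inr (Or.inr (Or.inr (Or.inr (Or.inr (Or.inl (piece5_5 h0 hU hp2 hl4 h))))))
  rcases le_total α (-(3/2)) with h | hl6
  · exact Or.inr (Or.inr (Or.inr (Or.inr (Or.inr (Or.inr (Or.inl (piece5_6 h0 hU hp2 hl5 h)))))))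
  rcases le_total α (-(7/5)) with h | hl7
  · exact Or.inr (Or.inr (Or.inr (Or.inr (Or.inr (Or.inr (Or.inr (Or.inl (piece5_7 h0 hU hp2 hl6 h))))))))
  rcases le_total α (-(13/10)) with h | hl8
  · exact Or.inr (Or.inr (Or.inr (Or.inr (Or.inr (Or.inr (Or.inr (Or.inr (Or.inl (piece5_8 h0 hU hp2 hl7 h)))))))))
  rcases le_total α (-(6/5)) with h | hl9
  · exact Or.inr (Or.inr (Or.inr (Or.inr (Or.inr (Or.inr (Or.inr (Or.inr (Or.inr (Or.inl (piece5_9 h0 hU hp2 hl8 h))))))))))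
  rcases le_total α (-(11/10)) with h | hl10
  · exact Or.inr (Or.inr (Or.inr (Or.inr (Or.inr (Or.inr (Or.inr (Or.inr (Or.inr (Or.inr (Or.inl (piece5_10 h0 hU hp2 hl9 h)))))))))))
  rcases le_total α (-1) with h | hl11
  · exact Or.inr (Or.inr (Or.inr (Or.inr (Or.inr (Or.inr (Or.inr (Or.inr (Or.inr (Or.inr (Or.inr (Or.inl (piece5_11 h0 hU hp2 hl10 h))))))))))))
  rcases le_total α (-(19/20)) with h | hl12
  · exact Or.inr (Or.inr (Or.inr (Or.inr (Or.inr (Or.inr (Or.inr (Or.inr (Or.inr (Or.inr (Or.inr (Or.inr (Or.inl (piece5_12 h0 hU hp2 hl11 h)))))))))))))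
  rcases le_total α (-(9/10)) with h | hl13
  · exact Or.inr (Or.inr (Or.inr (Or.inr (Or.inr (Or.inr (Or.inr (Or.inr (Or.inr (Or.inr (Or.inr (Or.inr (Or.inr (Or.inl (piece5_13 h0 hU hp2 hl12 h))))))))))))))
  rcases le_total α (-(17/20)) with h | hl14
  · exact Or.inr (Or.inr (Or.inr (Or.inr (Or.inr (Or.inr (Or.inr (Or.inr (Or.inr (Or.inr (Or.inr (Or.inr (Or.inr (Or.inr (Or.inl (piece5_14 h0 hU hp2 hl13 h)))))))))))))))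
  rcases le_total α (-(4/5)) with h | hl15
  · exact Or.inr (Or.inr (Or.inr (Or.inr (Or.inr (Or.inr (Or.inr (Or.inr (Or.inr (Or.inr (Or.inr (Or.inr (Or.inr (Or.inr (Or.inr (Or.inl (piece5_15 h0 hU hp2 hl14 h))))))))))))))))
  rcases le_total α (-(3/4)) with h | hl16
  · exact Or.inr (Or.inr (Or.inr (Or.inr (Or.inr (Or.inr (Or.inr (Or.inr (Or.inr (Or.inr (Or.inr (Or.inr (Or.inr (Or.inr (Or.inr (Or.inr (Or.inl (piece5_16 h0 hU hp2 hl15 h)))))))))))))))))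
  rcases le_total α (-(7/10)) with h | hl17
  · exact Or.inr (Or.inr (Or.inr (Or.inr (Or.inr (Or.inr (Or.inr (Or.inr (Or.inr (Or.inr (Or.inr (Or.inr (Or.inr (Or.inr (Or.inr (Or.inr (Or.inr (Or.inl (piece5_17 h0 hU hp2 hl16 h))))))))))))))))))
  rcases le_total α (-(13/20)) with h | hl18
  · exact Or.inr (Or.inr (Or.inr (Or.inr (Or.inr (Or.inr (Or.inr (Or.inr (Or.inr (Or.inr (Or.inr (Or.inr (Or.inr (Or.inr (Or.inr (Or.inr (Or.inr (Or.inr (Or.inl (piece5_18 h0 hU hp2 hl17 h)))))))))))))))))))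
  rcases le_total α (-(3/5)) with h | hl19
  · exact Or.inr (Or.inr (Or.inr (Or.inr (Or.inr (Or.inr (Or.inr (Or.inr (Or.inr (Or.inr (Or.inr (Or.inr (Or.inr (Or.inr (Or.inr (Or.inr (Or.inr (Or.inr (Or.inr (Or.inl (piece5_19 h0 hU hp2 hl18 h))))))))))))))))))))
  rcases le_total α (-(11/20)) with h | hl20
  · exact Or.inr (Or.inr (Or.inr (Or.inr (Or.inr (Or.inr (Or.inr (Or.inr (Or.inr (Or.inr (Or.inr (Or.inr (Or.inr (Or.inr (Or.inr (Or.inr (Or.inr (Or.inr (Or.inr (Or.inr (Or.inl (piece5_20 h0 hU hp2 hl19 h)))))))))))))))))))))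
  rcases le_total α (-(13/25)) with h | hl21
  · exact Or.inr (Or.inr (Or.inr (Or.inr (Or.inr (Or.inr (Or.inr (Or.inr (Or.inr (Or.inr (Or.inr (Or.inr (Or.inr (Or.inr (Or.inr (Or.inr (Or.inr (Or.inr (Or.inr (Or.inr (Or.inr (Or.inl (piece5_21 h0 hU hp2 hl20 h))))))))))))))))))))))
  rcases le_total α (-(1/2)) with h | hl22
  · exact Or.inr (Or.inr (Or.inr (Or.inr (Or.inr (Or.inr (Or.inr (Or.inr (Or.inr (Or.inr (Or.inr (Or.inr (Or.inr (Or.inr (Or.inr (Or.inr (Or.inr (Or.inr (Or.inr (Or.inr (Or.inr (Or.inr (Or.inl (piece5_22 h0 hU hp2 hl21 h)))))))))))))))))))))))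
  rcases le_total α (-(12/25)) with h | hl23
  · exact Or.inr (Or.inr (Or.inr (Or.inr (Or.inr (Or.inr (Or.inr (Or.inr (Or.inr (Or.inr (Or.inr (Or.inr (Or.inr (Or.inr (Or.inr (Or.inr (Or.inr (Or.inr (Or.inr (Or.inr (Or.inr (Or.inr (Or.inr (Or.inl (piece5_23 h0 hU hp2 hl22 h))))))))))))))))))))))))
  exact Or.inr (Or.inr (Or.inr (Or.inr (Or.inr (Or.inr (Or.inr (Or.inr (Or.inr (Or.inr (Or.inr (Or.inr (Or.inr (Or.inr (Or.inr (Or.inr (Or.inr (Or.inr (Or.inr (Or.inr (Or.inr (Or.inr (Or.inr (Or.inr (top5 hp1 hl23))))))))))))))))))))))))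

theorem line5_L2h {a p : ℝ} (h : Cell5 a p) (h2 : a ≤ (23/100)) : p ≤ (5129/15625) * a := by
  rcases h with ⟨h3, h4, h5, h6⟩ | ⟨h3, h4, h5⟩ | ⟨h3, h4, h5⟩ | ⟨h3, h4, h5⟩ | ⟨h3, h4, h5⟩ | ⟨h3, h4, h5⟩ | ⟨h3, h4, h5⟩ | ⟨h3, h4, h5⟩ | ⟨h3, h4, h5⟩ | ⟨h3, h4, h5⟩ | ⟨h3, h4, h5⟩ | ⟨h3, h4, h5⟩ | ⟨h3, h4, h5⟩ | ⟨h3, h4, h5⟩ | ⟨h3, h4, h5⟩ | ⟨h3, h4, h5⟩ | ⟨h3, h4, h5⟩ | ⟨h3, h4, h5⟩ | ⟨h3, h4, h5⟩ | ⟨h3, h4, h5⟩ | ⟨h3, h4, h5⟩ | ⟨h3, h4, h5⟩ | ⟨h3, h4, h5⟩ | ⟨h3, h4, h5⟩ | ⟨h3, h4, t0, t1, t2, t3, t4, t5, t6, t7, t8, t9, t10⟩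
  all_goals linarith

theorem line5_L2o {a p : ℝ} (h : Cell5 a p) : p ≤ (5129/15625) * a + (5781/250000) := by
  rcases h with ⟨h3, h4, h5, h6⟩ | ⟨h3, h4, h5⟩ | ⟨h3, h4, h5⟩ | ⟨h3, h4, h5⟩ | ⟨h3, h4, h5⟩ | ⟨h3, h4, h5⟩ | ⟨h3, h4, h5⟩ | ⟨h3, h4, h5⟩ | ⟨h3, h4, h5⟩ | ⟨h3, h4, h5⟩ | ⟨h3, h4, h5⟩ | ⟨h3, h4, h5⟩ | ⟨h3, h4, h5⟩ | ⟨h3, h4, h5⟩ | ⟨h3, h4, h5⟩ | ⟨h3, h4, h5⟩ | ⟨h3, h4, h5⟩ | ⟨h3, h4, h5⟩ | ⟨h3, h4, h5⟩ | ⟨h3, h4, h5⟩ | ⟨h3, h4, h5⟩ | ⟨h3, h4, h5⟩ | ⟨h3, h4, h5⟩ | ⟨h3, h4, h5⟩ | ⟨h3, h4, t0, t1, t2, t3, t4, t5, t6, t7, t8, t9, t10⟩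
  all_goals linarith

theorem line5_L3h {a p : ℝ} (h : Cell5 a p) (h2 : a ≤ (9/50)) : p ≤ (272187/1000000) * a := by
  rcases h with ⟨h3, h4, h5, h6⟩ | ⟨h3, h4, h5⟩ | ⟨h3, h4, h5⟩ | ⟨h3, h4, h5⟩ | ⟨h3, h4, h5⟩ | ⟨h3, h4, h5⟩ | ⟨h3, h4, h5⟩ | ⟨h3, h4, h5⟩ | ⟨h3, h4, h5⟩ | ⟨h3, h4, h5⟩ | ⟨h3, h4, h5⟩ | ⟨h3, h4, h5⟩ | ⟨h3, h4, h5⟩ | ⟨h3, h4, h5⟩ | ⟨h3, h4, h5⟩ | ⟨h3, h4, h5⟩ | ⟨h3, h4, h5⟩ | ⟨h3, h4, h5⟩ | ⟨h3, h4, h5⟩ | ⟨h3, h4, h5⟩ | ⟨h3, h4, h5⟩ | ⟨h3, h4, h5⟩ | ⟨h3, h4, h5⟩ | ⟨h3, h4, h5⟩ | ⟨h3, h4, t0, t1, t2, t3, t4, t5, t6, t7, t8, t9, t10⟩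
  all_goals linarith

theorem line5_L3o {a p : ℝ} (h : Cell5 a p) : p ≤ (272187/1000000) * a + (21023/500000) := by
  rcases h with ⟨h3, h4, h5, h6⟩ | ⟨h3, h4, h5⟩ | ⟨h3, h4, h5⟩ | ⟨h3, h4, h5⟩ | ⟨h3, h4, h5⟩ | ⟨h3, h4, h5⟩ | ⟨h3, h4, h5⟩ | ⟨h3, h4, h5⟩ | ⟨h3, h4, h5⟩ | ⟨h3, h4, h5⟩ | ⟨h3, h4, h5⟩ | ⟨h3, h4, h5⟩ | ⟨h3, h4, h5⟩ | ⟨h3, h4, h5⟩ | ⟨h3, h4, h5⟩ | ⟨h3, h4, h5⟩ | ⟨h3, h4, h5⟩ | ⟨h3, h4, h5⟩ | ⟨h3, h4, h5⟩ | ⟨h3, h4, h5⟩ | ⟨h3, h4, h5⟩ | ⟨h3, h4, h5⟩ | ⟨h3, h4, h5⟩ | ⟨h3, h4, h5⟩ | ⟨h3, h4, t0, t1, t2, t3, t4, t5, t6, t7, t8, t9, t10⟩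
  all_goals linarith

theorem line5_T0 {a p : ℝ} (h : Cell5 a p) : p ≤ (3/5) * a := by
  rcases h with ⟨h3, h4, h5, h6⟩ | ⟨h3, h4, h5⟩ | ⟨h3, h4, h5⟩ | ⟨h3, h4, h5⟩ | ⟨h3, h4, h5⟩ | ⟨h3, h4, h5⟩ | ⟨h3, h4, h5⟩ | ⟨h3, h4, h5⟩ | ⟨h3, h4, h5⟩ | ⟨h3, h4, h5⟩ | ⟨h3, h4, h5⟩ | ⟨h3, h4, h5⟩ | ⟨h3, h4, h5⟩ | ⟨h3, h4, h5⟩ | ⟨h3, h4, h5⟩ | ⟨h3, h4, h5⟩ | ⟨h3, h4, h5⟩ | ⟨h3, h4, h5⟩ | ⟨h3, h4, h5⟩ | ⟨h3, h4, h5⟩ | ⟨h3, h4, h5⟩ | ⟨h3, h4, h5⟩ | ⟨h3, h4, h5⟩ | ⟨h3, h4, h5⟩ | ⟨h3, h4, t0, t1, t2, t3, t4, t5, t6, t7, t8, t9, t10⟩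
  all_goals linarith

theorem line5_mu {a p : ℝ} (h : Cell5 a p) (h1 : (23/100) ≤ a) : p ≤ (3/5) * a + (-(1/16)) := by
  rcases h with ⟨h3, h4, h5, h6⟩ | ⟨h3, h4, h5⟩ | ⟨h3, h4, h5⟩ | ⟨h3, h4, h5⟩ | ⟨h3, h4, h5⟩ | ⟨h3, h4, h5⟩ | ⟨h3, h4, h5⟩ | ⟨h3, h4, h5⟩ | ⟨h3, h4, h5⟩ | ⟨h3, h4, h5⟩ | ⟨h3, h4, h5⟩ | ⟨h3, h4, h5⟩ | ⟨h3, h4, h5⟩ | ⟨h3, h4, h5⟩ | ⟨h3, h4, h5⟩ | ⟨h3, h4, h5⟩ | ⟨h3, h4, h5⟩ | ⟨h3, h4, h5⟩ | ⟨h3, h4, h5⟩ | ⟨h3, h4, h5⟩ | ⟨h3, h4, h5⟩ | ⟨h3, h4, h5⟩ | ⟨h3, h4, h5⟩ | ⟨h3, h4, h5⟩ | ⟨h3, h4, t0, t1, t2, t3, t4, t5, t6, t7, t8, t9, t10⟩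
  all_goals linarith

theorem line5_kink {a p : ℝ} (h : Cell5 a p) : p ≤ (39/115) * a + (11323/575000) := by
  rcases h with ⟨h3, h4, h5, h6⟩ | ⟨h3, h4, h5⟩ | ⟨h3, h4, h5⟩ | ⟨h3, h4, h5⟩ | ⟨h3, h4, h5⟩ | ⟨h3, h4, h5⟩ | ⟨h3, h4, h5⟩ | ⟨h3, h4, h5⟩ | ⟨h3, h4, h5⟩ | ⟨h3, h4, h5⟩ | ⟨h3, h4, h5⟩ | ⟨h3, h4, h5⟩ | ⟨h3, h4, h5⟩ | ⟨h3, h4, h5⟩ | ⟨h3, h4, h5⟩ | ⟨h3, h4, h5⟩ | ⟨h3, h4, h5⟩ | ⟨h3, h4, h5⟩ | ⟨h3, h4, h5⟩ | ⟨h3, h4, h5⟩ | ⟨h3, h4, h5⟩ | ⟨h3, h4, h5⟩ | ⟨h3, h4, h5⟩ | ⟨h3, h4, h5⟩ | ⟨h3, h4, t0, t1, t2, t3, t4, t5, t6, t7, t8, t9, t10⟩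
  all_goals linarith

theorem line5_pmax {a p : ℝ} (h : Cell5 a p) : p ≤ (3979/25000) := by
  rcases h with ⟨h3, h4, h5, h6⟩ | ⟨h3, h4, h5⟩ | ⟨h3, h4, h5⟩ | ⟨h3, h4, h5⟩ | ⟨h3, h4, h5⟩ | ⟨h3, h4, h5⟩ | ⟨h3, h4, h5⟩ | ⟨h3, h4, h5⟩ | ⟨h3, h4, h5⟩ | ⟨h3, h4, h5⟩ | ⟨h3, h4, h5⟩ | ⟨h3, h4, h5⟩ | ⟨h3, h4, h5⟩ | ⟨h3, h4, h5⟩ | ⟨h3, h4, h5⟩ | ⟨h3, h4, h5⟩ | ⟨h3, h4, h5⟩ | ⟨h3, h4, h5⟩ | ⟨h3, h4, h5⟩ | ⟨h3, h4, h5⟩ | ⟨h3, h4, h5⟩ | ⟨h3, h4, h5⟩ | ⟨h3, h4, h5⟩ | ⟨h3, h4, h5⟩ | ⟨h3, h4, t0, t1, t2, t3, t4, t5, t6, t7, t8, t9, t10⟩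
  all_goals linarith

theorem line5_Tz0 {a p : ℝ} (h : Cell5 a p) (h1 : (9/50) ≤ a) (h2 : a ≤ (1/5)) : p ≤ (3/5) * a + (-(11801/200000)) := by
  rcases h with ⟨h3, h4, h5, h6⟩ | ⟨h3, h4, h5⟩ | ⟨h3, h4, h5⟩ | ⟨h3, h4, h5⟩ | ⟨h3, h4, h5⟩ | ⟨h3, h4, h5⟩ | ⟨h3, h4, h5⟩ | ⟨h3, h4, h5⟩ | ⟨h3, h4, h5⟩ | ⟨h3, h4, h5⟩ | ⟨h3, h4, h5⟩ | ⟨h3, h4, h5⟩ | ⟨h3, h4, h5⟩ | ⟨h3, h4, h5⟩ | ⟨h3, h4, h5⟩ | ⟨h3, h4, h5⟩ | ⟨h3, h4, h5⟩ | ⟨h3, h4, h5⟩ | ⟨h3, h4, h5⟩ | ⟨h3, h4, h5⟩ | ⟨h3, h4, h5⟩ | ⟨h3, h4, h5⟩ | ⟨h3, h4, h5⟩ | ⟨h3, h4, h5⟩ | ⟨h3, h4, t0, t1, t2, t3, t4, t5, t6, t7, t8, t9, t10⟩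
  all_goals linarith

theorem line5_p30 {a p : ℝ} (h : Cell5 a p) (h1 : (9/50) ≤ a) (h2 : a ≤ (1/5)) : p ≤ (29569/500000) := by
  rcases h with ⟨h3, h4, h5, h6⟩ | ⟨h3, h4, h5⟩ | ⟨h3, h4, h5⟩ | ⟨h3, h4, h5⟩ | ⟨h3, h4, h5⟩ | ⟨h3, h4, h5⟩ | ⟨h3, h4, h5⟩ | ⟨h3, h4, h5⟩ | ⟨h3, h4, h5⟩ | ⟨h3, h4, h5⟩ | ⟨h3, h4, h5⟩ | ⟨h3, h4, h5⟩ | ⟨h3, h4, h5⟩ | ⟨h3, h4, h5⟩ | ⟨h3, h4, h5⟩ | ⟨h3, h4, h5⟩ | ⟨h3, h4, h5⟩ | ⟨h3, h4, h5⟩ | ⟨h3, h4, h5⟩ | ⟨h3, h4, h5⟩ | ⟨h3, h4, h5⟩ | ⟨h3, h4, h5⟩ | ⟨h3, h4, h5⟩ | ⟨h3, h4, h5⟩ | ⟨h3, h4, t0, t1, t2, t3, t4, t5, t6, t7, t8, t9, t10⟩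
  all_goals linarith

theorem line5_Am0 {a p : ℝ} (h : Cell5 a p) (h1 : (7/40) ≤ a) (h2 : a ≤ (1/5)) : p ≤ (3/5) * a + (-(28953/500000)) := by
  rcases h with ⟨h3, h4, h5, h6⟩ | ⟨h3, h4, h5⟩ | ⟨h3, h4, h5⟩ | ⟨h3, h4, h5⟩ | ⟨h3, h4, h5⟩ | ⟨h3, h4, h5⟩ | ⟨h3, h4, h5⟩ | ⟨h3, h4, h5⟩ | ⟨h3, h4, h5⟩ | ⟨h3, h4, h5⟩ | ⟨h3, h4, h5⟩ | ⟨h3, h4, h5⟩ | ⟨h3, h4, h5⟩ | ⟨h3, h4, h5⟩ | ⟨h3, h4, h5⟩ | ⟨h3, h4, h5⟩ | ⟨h3, h4, h5⟩ | ⟨h3, h4, h5⟩ | ⟨h3, h4, h5⟩ | ⟨h3, h4, h5⟩ | ⟨h3, h4, h5⟩ | ⟨h3, h4, h5⟩ | ⟨h3, h4, h5⟩ | ⟨h3, h4, h5⟩ | ⟨h3, h4, t0, t1, t2, t3, t4, t5, t6, t7, t8, t9, t10⟩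
  all_goals linarith

theorem line5_r20 {a p : ℝ} (h : Cell5 a p) (h2 : a ≤ (7/40)) : p ≤ (23907/89845) * a := by
  rcases h with ⟨h3, h4, h5, h6⟩ | ⟨h3, h4, h5⟩ | ⟨h3, h4, h5⟩ | ⟨h3, h4, h5⟩ | ⟨h3, h4, h5⟩ | ⟨h3, h4, h5⟩ | ⟨h3, h4, h5⟩ | ⟨h3, h4, h5⟩ | ⟨h3, h4, h5⟩ | ⟨h3, h4, h5⟩ | ⟨h3, h4, h5⟩ | ⟨h3, h4, h5⟩ | ⟨h3, h4, h5⟩ | ⟨h3, h4, h5⟩ | ⟨h3, h4, h5⟩ | ⟨h3, h4, h5⟩ | ⟨h3, h4, h5⟩ | ⟨h3, h4, h5⟩ | ⟨h3, h4, h5⟩ | ⟨h3, h4, h5⟩ | ⟨h3, h4, h5⟩ | ⟨h3, h4, h5⟩ | ⟨h3, h4, h5⟩ | ⟨h3, h4, h5⟩ | ⟨h3, h4, t0, t1, t2, t3, t4, t5, t6, t7, t8, t9, t10⟩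
  all_goals linarith

theorem line5_lowh0 {a p : ℝ} (h : Cell5 a p) (h2 : a ≤ (7/40)) : p ≤ (66519/250000) * a := by
  rcases h with ⟨h3, h4, h5, h6⟩ | ⟨h3, h4, h5⟩ | ⟨h3, h4, h5⟩ | ⟨h3, h4, h5⟩ | ⟨h3, h4, h5⟩ | ⟨h3, h4, h5⟩ | ⟨h3, h4, h5⟩ | ⟨h3, h4, h5⟩ | ⟨h3, h4, h5⟩ | ⟨h3, h4, h5⟩ | ⟨h3, h4, h5⟩ | ⟨h3, h4, h5⟩ | ⟨h3, h4, h5⟩ | ⟨h3, h4, h5⟩ | ⟨h3, h4, h5⟩ | ⟨h3, h4, h5⟩ | ⟨h3, h4, h5⟩ | ⟨h3, h4, h5⟩ | ⟨h3, h4, h5⟩ | ⟨h3, h4, h5⟩ | ⟨h3, h4, h5⟩ | ⟨h3, h4, h5⟩ | ⟨h3, h4, h5⟩ | ⟨h3, h4, h5⟩ | ⟨h3, h4, t0, t1, t2, t3, t4, t5, t6, t7, t8, t9, t10⟩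
  all_goals linarith

theorem line5_lowo0 {a p : ℝ} (h : Cell5 a p) : p ≤ (66519/250000) * a + (44209/1000000) := by
  rcases h with ⟨h3, h4, h5, h6⟩ | ⟨h3, h4, h5⟩ | ⟨h3, h4, h5⟩ | ⟨h3, h4, h5⟩ | ⟨h3, h4, h5⟩ | ⟨h3, h4, h5⟩ | ⟨h3, h4, h5⟩ | ⟨h3, h4, h5⟩ | ⟨h3, h4, h5⟩ | ⟨h3, h4, h5⟩ | ⟨h3, h4, h5⟩ | ⟨h3, h4, h5⟩ | ⟨h3, h4, h5⟩ | ⟨h3, h4, h5⟩ | ⟨h3, h4, h5⟩ | ⟨h3, h4, h5⟩ | ⟨h3, h4, h5⟩ | ⟨h3, h4, h5⟩ | ⟨h3, h4, h5⟩ | ⟨h3, h4, h5⟩ | ⟨h3, h4, h5⟩ | ⟨h3, h4, h5⟩ | ⟨h3, h4, h5⟩ | ⟨h3, h4, h5⟩ | ⟨h3, h4, t0, t1, t2, t3, t4, t5, t6, t7, t8, t9, t10⟩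
  all_goals linarith

theorem line5_Tz1 {a p : ℝ} (h : Cell5 a p) (h1 : (1/5) ≤ a) (h2 : a ≤ (23/100)) : p ≤ (3/5) * a + (-(60861/1000000)) := by
  rcases h with ⟨h3, h4, h5, h6⟩ | ⟨h3, h4, h5⟩ | ⟨h3, h4, h5⟩ | ⟨h3, h4, h5⟩ | ⟨h3, h4, h5⟩ | ⟨h3, h4, h5⟩ | ⟨h3, h4, h5⟩ | ⟨h3, h4, h5⟩ | ⟨h3, h4, h5⟩ | ⟨h3, h4, h5⟩ | ⟨h3, h4, h5⟩ | ⟨h3, h4, h5⟩ | ⟨h3, h4, h5⟩ | ⟨h3, h4, h5⟩ | ⟨h3, h4, h5⟩ | ⟨h3, h4, h5⟩ | ⟨h3, h4, h5⟩ | ⟨h3, h4, h5⟩ | ⟨h3, h4, h5⟩ | ⟨h3, h4, h5⟩ | ⟨h3, h4, h5⟩ | ⟨h3, h4, h5⟩ | ⟨h3, h4, h5⟩ | ⟨h3, h4, h5⟩ | ⟨h3, h4, t0, t1, t2, t3, t4, t5, t6, t7, t8, t9, t10⟩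
  all_goals linarith

theorem line5_p31 {a p : ℝ} (h : Cell5 a p) (h1 : (1/5) ≤ a) (h2 : a ≤ (23/100)) : p ≤ (75499/1000000) := by
  rcases h with ⟨h3, h4, h5, h6⟩ | ⟨h3, h4, h5⟩ | ⟨h3, h4, h5⟩ | ⟨h3, h4, h5⟩ | ⟨h3, h4, h5⟩ | ⟨h3, h4, h5⟩ | ⟨h3, h4, h5⟩ | ⟨h3, h4, h5⟩ | ⟨h3, h4, h5⟩ | ⟨h3, h4, h5⟩ | ⟨h3, h4, h5⟩ | ⟨h3, h4, h5⟩ | ⟨h3, h4, h5⟩ | ⟨h3, h4, h5⟩ | ⟨h3, h4, h5⟩ | ⟨h3, h4, h5⟩ | ⟨h3, h4, h5⟩ | ⟨h3, h4, h5⟩ | ⟨h3, h4, h5⟩ | ⟨h3, h4, h5⟩ | ⟨h3, h4, h5⟩ | ⟨h3, h4, h5⟩ | ⟨h3, h4, h5⟩ | ⟨h3, h4, h5⟩ | ⟨h3, h4, t0, t1, t2, t3, t4, t5, t6, t7, t8, t9, t10⟩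
  all_goals linarith

theorem line5_Am1 {a p : ℝ} (h : Cell5 a p) (h1 : (4/25) ≤ a) (h2 : a ≤ (23/100)) : p ≤ (3/5) * a + (-(1121/20000)) := by
  rcases h with ⟨h3, h4, h5, h6⟩ | ⟨h3, h4, h5⟩ | ⟨h3, h4, h5⟩ | ⟨h3, h4, h5⟩ | ⟨h3, h4, h5⟩ | ⟨h3, h4, h5⟩ | ⟨h3, h4, h5⟩ | ⟨h3, h4, h5⟩ | ⟨h3, h4, h5⟩ | ⟨h3, h4, h5⟩ | ⟨h3, h4, h5⟩ | ⟨h3, h4, h5⟩ | ⟨h3, h4, h5⟩ | ⟨h3, h4, h5⟩ | ⟨h3, h4, h5⟩ | ⟨h3, h4, h5⟩ | ⟨h3, h4, h5⟩ | ⟨h3, h4, h5⟩ | ⟨h3, h4, h5⟩ | ⟨h3, h4, h5⟩ | ⟨h3, h4, h5⟩ | ⟨h3, h4, h5⟩ | ⟨h3, h4, h5⟩ | ⟨h3, h4, h5⟩ | ⟨h3, h4, t0, t1, t2, t3, t4, t5, t6, t7, t8, t9, t10⟩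
  all_goals linarith

theorem line5_r21 {a p : ℝ} (h : Cell5 a p) (h2 : a ≤ (4/25)) : p ≤ (10503/42505) * a := by
  rcases h with ⟨h3, h4, h5, h6⟩ | ⟨h3, h4, h5⟩ | ⟨h3, h4, h5⟩ | ⟨h3, h4, h5⟩ | ⟨h3, h4, h5⟩ | ⟨h3, h4, h5⟩ | ⟨h3, h4, h5⟩ | ⟨h3, h4, h5⟩ | ⟨h3, h4, h5⟩ | ⟨h3, h4, h5⟩ | ⟨h3, h4, h5⟩ | ⟨h3, h4, h5⟩ | ⟨h3, h4, h5⟩ | ⟨h3, h4, h5⟩ | ⟨h3, h4, h5⟩ | ⟨h3, h4, h5⟩ | ⟨h3, h4, h5⟩ | ⟨h3, h4, h5⟩ | ⟨h3, h4, h5⟩ | ⟨h3, h4, h5⟩ | ⟨h3, h4, h5⟩ | ⟨h3, h4, h5⟩ | ⟨h3, h4, h5⟩ | ⟨h3, h4, h5⟩ | ⟨h3, h4, t0, t1, t2, t3, t4, t5, t6, t7, t8, t9, t10⟩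
  all_goals linarith

theorem line5_lowh1 {a p : ℝ} (h : Cell5 a p) (h2 : a ≤ (4/25)) : p ≤ (61773/250000) * a := by
  rcases h with ⟨h3, h4, h5, h6⟩ | ⟨h3, h4, h5⟩ | ⟨h3, h4, h5⟩ | ⟨h3, h4, h5⟩ | ⟨h3, h4, h5⟩ | ⟨h3, h4, h5⟩ | ⟨h3, h4, h5⟩ | ⟨h3, h4, h5⟩ | ⟨h3, h4, h5⟩ | ⟨h3, h4, h5⟩ | ⟨h3, h4, h5⟩ | ⟨h3, h4, h5⟩ | ⟨h3, h4, h5⟩ | ⟨h3, h4, h5⟩ | ⟨h3, h4, h5⟩ | ⟨h3, h4, h5⟩ | ⟨h3, h4, h5⟩ | ⟨h3, h4, h5⟩ | ⟨h3, h4, h5⟩ | ⟨h3, h4, h5⟩ | ⟨h3, h4, h5⟩ | ⟨h3, h4, h5⟩ | ⟨h3, h4, h5⟩ | ⟨h3, h4, h5⟩ | ⟨h3, h4, t0, t1, t2, t3, t4, t5, t6, t7, t8, t9, t10⟩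
  all_goals linarith

theorem line5_lowo1 {a p : ℝ} (h : Cell5 a p) : p ≤ (61773/250000) * a + (2561/50000) := by
  rcases h with ⟨h3, h4, h5, h6⟩ | ⟨h3, h4, h5⟩ | ⟨h3, h4, h5⟩ | ⟨h3, h4, h5⟩ | ⟨h3, h4, h5⟩ | ⟨h3, h4, h5⟩ | ⟨h3, h4, h5⟩ | ⟨h3, h4, h5⟩ | ⟨h3, h4, h5⟩ | ⟨h3, h4, h5⟩ | ⟨h3, h4, h5⟩ | ⟨h3, h4, h5⟩ | ⟨h3, h4, h5⟩ | ⟨h3, h4, h5⟩ | ⟨h3, h4, h5⟩ | ⟨h3, h4, h5⟩ | ⟨h3, h4, h5⟩ | ⟨h3, h4, h5⟩ | ⟨h3, h4, h5⟩ | ⟨h3, h4, h5⟩ | ⟨h3, h4, h5⟩ | ⟨h3, h4, h5⟩ | ⟨h3, h4, h5⟩ | ⟨h3, h4, h5⟩ | ⟨h3, h4, t0, t1, t2, t3, t4, t5, t6, t7, t8, t9, t10⟩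
  all_goals linarith

theorem line5_Am2 {a p : ℝ} (h : Cell5 a p) (h1 : (3/20) ≤ a) : p ≤ (3/5) * a + (-(54411/1000000)) := by
  rcases h with ⟨h3, h4, h5, h6⟩ | ⟨h3, h4, h5⟩ | ⟨h3, h4, h5⟩ | ⟨h3, h4, h5⟩ | ⟨h3, h4, h5⟩ | ⟨h3, h4, h5⟩ | ⟨h3, h4, h5⟩ | ⟨h3, h4, h5⟩ | ⟨h3, h4, h5⟩ | ⟨h3, h4, h5⟩ | ⟨h3, h4, h5⟩ | ⟨h3, h4, h5⟩ | ⟨h3, h4, h5⟩ | ⟨h3, h4, h5⟩ | ⟨h3, h4, h5⟩ | ⟨h3, h4, h5⟩ | ⟨h3, h4, h5⟩ | ⟨h3, h4, h5⟩ | ⟨h3, h4, h5⟩ | ⟨h3, h4, h5⟩ | ⟨h3, h4, h5⟩ | ⟨h3, h4, h5⟩ | ⟨h3, h4, h5⟩ | ⟨h3, h4, h5⟩ | ⟨h3, h4, t0, t1, t2, t3, t4, t5, t6, t7, t8, t9, t10⟩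
  all_goals linarith

theorem line5_r22 {a p : ℝ} (h : Cell5 a p) (h2 : a ≤ (3/20)) : p ≤ (6437/27395) * a := by
  rcases h with ⟨h3, h4, h5, h6⟩ | ⟨h3, h4, h5⟩ | ⟨h3, h4, h5⟩ | ⟨h3, h4, h5⟩ | ⟨h3, h4, h5⟩ | ⟨h3, h4, h5⟩ | ⟨h3, h4, h5⟩ | ⟨h3, h4, h5⟩ | ⟨h3, h4, h5⟩ | ⟨h3, h4, h5⟩ | ⟨h3, h4, h5⟩ | ⟨h3, h4, h5⟩ | ⟨h3, h4, h5⟩ | ⟨h3, h4, h5⟩ | ⟨h3, h4, h5⟩ | ⟨h3, h4, h5⟩ | ⟨h3, h4, h5⟩ | ⟨h3, h4, h5⟩ | ⟨h3, h4, h5⟩ | ⟨h3, h4, h5⟩ | ⟨h3, h4, h5⟩ | ⟨h3, h4, h5⟩ | ⟨h3, h4, h5⟩ | ⟨h3, h4, h5⟩ | ⟨h3, h4, t0, t1, t2, t3, t4, t5, t6, t7, t8, t9, t10⟩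
  all_goals linarith

theorem line5_lowh2 {a p : ℝ} (h : Cell5 a p) (h2 : a ≤ (3/20)) : p ≤ (234961/1000000) * a := by
  rcases h with ⟨h3, h4, h5, h6⟩ | ⟨h3, h4, h5⟩ | ⟨h3, h4, h5⟩ | ⟨h3, h4, h5⟩ | ⟨h3, h4, h5⟩ | ⟨h3, h4, h5⟩ | ⟨h3, h4, h5⟩ | ⟨h3, h4, h5⟩ | ⟨h3, h4, h5⟩ | ⟨h3, h4, h5⟩ | ⟨h3, h4, h5⟩ | ⟨h3, h4, h5⟩ | ⟨h3, h4, h5⟩ | ⟨h3, h4, h5⟩ | ⟨h3, h4, h5⟩ | ⟨h3, h4, h5⟩ | ⟨h3, h4, h5⟩ | ⟨h3, h4, h5⟩ | ⟨h3, h4, h5⟩ | ⟨h3, h4, h5⟩ | ⟨h3, h4, h5⟩ | ⟨h3, h4, h5⟩ | ⟨h3, h4, h5⟩ | ⟨h3, h4, h5⟩ | ⟨h3, h4, t0, t1, t2, t3, t4, t5, t6, t7, t8, t9, t10⟩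
  all_goals linarith

theorem line5_lowo2 {a p : ℝ} (h : Cell5 a p) : p ≤ (234961/1000000) * a + (55741/1000000) := by
  rcases h with ⟨h3, h4, h5, h6⟩ | ⟨h3, h4, h5⟩ | ⟨h3, h4, h5⟩ | ⟨h3, h4, h5⟩ | ⟨h3, h4, h5⟩ | ⟨h3, h4, h5⟩ | ⟨h3, h4, h5⟩ | ⟨h3, h4, h5⟩ | ⟨h3, h4, h5⟩ | ⟨h3, h4, h5⟩ | ⟨h3, h4, h5⟩ | ⟨h3, h4, h5⟩ | ⟨h3, h4, h5⟩ | ⟨h3, h4, h5⟩ | ⟨h3, h4, h5⟩ | ⟨h3, h4, h5⟩ | ⟨h3, h4, h5⟩ | ⟨h3, h4, h5⟩ | ⟨h3, h4, h5⟩ | ⟨h3, h4, h5⟩ | ⟨h3, h4, h5⟩ | ⟨h3, h4, h5⟩ | ⟨h3, h4, h5⟩ | ⟨h3, h4, h5⟩ | ⟨h3, h4, t0, t1, t2, t3, t4, t5, t6, t7, t8, t9, t10⟩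
  all_goals linarith

theorem star5 {a x : ℝ} (h : Cell5 a (x ^ 2)) (hx : 0 ≤ x) (ha : a ≤ (7/40)) :
    arctan (x / (4/25)) ≤ (15989/1000) * ((3/5) * a - x ^ 2) := by
  rcases h with ⟨h3, h4, h5, h6⟩ | ⟨h3, h4, h5⟩ | ⟨h3, h4, h5⟩ | ⟨h3, h4, h5⟩ | ⟨h3, h4, h5⟩ | ⟨h3, h4, h5⟩ | ⟨h3, h4, h5⟩ | ⟨h3, h4, h5⟩ | ⟨h3, h4, h5⟩ | ⟨h3, h4, h5⟩ | ⟨h3, h4, h5⟩ | ⟨h3, h4, h5⟩ | ⟨h3, h4, h5⟩ | ⟨h3, h4, h5⟩ | ⟨h3, h4, h5⟩ | ⟨h3, h4, h5⟩ | ⟨h3, h4, h5⟩ | ⟨h3, h4, h5⟩ | ⟨h3, h4, h5⟩ | ⟨h3, h4, h5⟩ | ⟨h3, h4, h5⟩ | ⟨h3, h4, h5⟩ | ⟨h3, h4, h5⟩ | ⟨h3, h4, h5⟩ | ⟨h3, h4, t0, t1, t2, t3, t4, t5, t6, t7, t8, t9, t10⟩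
  · have h7 := arctan_div_le (c := (70711/50000)) (V := (4/25)) hx h3.le (by norm_num) (by norm_num) (by norm_num) h5
    linarith
  · have h7 := arctan_le_tangent_sq (x := x) (x₀ := (7/250)) (V := (4/25)) hx (by norm_num) (by norm_num)
    have h8 := arctan_le_pade (y := (7/250) / (4/25)) (by norm_num)
    have h9 : ((7/250) / (4/25) * (945 + 735 * ((7/250) / (4/25)) ^ 2 + 64 * ((7/250) / (4/25)) ^ 4) /
        (945 + 1050 * ((7/250) / (4/25)) ^ 2 + 225 * ((7/250) / (4/25)) ^ 4) : ℝ) ≤ (86623/500000) := by norm_num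
    have h10 : ((4/25) / (2 * (7/250) * ((4/25) ^ 2 + (7/250) ^ 2)) : ℝ) = (1250000/11543) := by norm_num
    rw [h10] at h7
    nlinarith
  · have h7 := arctan_le_tangent_sq (x := x) (x₀ := (7/200)) (V := (4/25)) hx (by norm_num) (by norm_num)
    have h8 := arctan_le_pade (y := (7/200) / (4/25)) (by norm_num)
    have h9 : ((7/200) / (4/25) * (945 + 735 * ((7/200) / (4/25)) ^ 2 + 64 * ((7/200) / (4/25)) ^ 4) /
        (945 + 1050 * ((7/200) / (4/25)) ^ 2 + 225 * ((7/200) / (4/25)) ^ 4) : ℝ) ≤ (107679/500000) := by norm_num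
    have h10 : ((4/25) / (2 * (7/200) * ((4/25) ^ 2 + (7/200) ^ 2)) : ℝ) = (640000/7511) := by norm_num
    rw [h10] at h7
    nlinarith
  · have h7 := arctan_le_tangent_sq (x := x) (x₀ := (11/250)) (V := (4/25)) hx (by norm_num) (by norm_num)
    have h8 := arctan_le_pade (y := (11/250) / (4/25)) (by norm_num)
    have h9 : ((11/250) / (4/25) * (945 + 735 * ((11/250) / (4/25)) ^ 2 + 64 * ((11/250) / (4/25)) ^ 4) /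
        (945 + 1050 * ((11/250) / (4/25)) ^ 2 + 225 * ((11/250) / (4/25)) ^ 4) : ℝ) ≤ (268367/1000000) := by norm_num
    have h10 : ((4/25) / (2 * (11/250) * ((4/25) ^ 2 + (11/250) ^ 2)) : ℝ) = (1250000/18931) := by norm_num
    rw [h10] at h7
    nlinarith
  · have h7 := arctan_le_tangent_sq (x := x) (x₀ := (27/500)) (V := (4/25)) hx (by norm_num) (by norm_num)
    have h8 := arctan_le_pade (y := (27/500) / (4/25)) (by norm_num)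
    have h9 : ((27/500) / (4/25) * (945 + 735 * ((27/500) / (4/25)) ^ 2 + 64 * ((27/500) / (4/25)) ^ 4) /
        (945 + 1050 * ((27/500) / (4/25)) ^ 2 + 225 * ((27/500) / (4/25)) ^ 4) : ℝ) ≤ (40687/125000) := by norm_num
    have h10 : ((4/25) / (2 * (27/500) * ((4/25) ^ 2 + (27/500) ^ 2)) : ℝ) = (10000000/192483) := by norm_num
    rw [h10] at h7
    nlinarith
  · have h7 := arctan_le_tangent_sq (x := x) (x₀ := (33/500)) (V := (4/25)) hx (by norm_num) (by norm_num)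
    have h8 := arctan_le_pade (y := (33/500) / (4/25)) (by norm_num)
    have h9 : ((33/500) / (4/25) * (945 + 735 * ((33/500) / (4/25)) ^ 2 + 64 * ((33/500) / (4/25)) ^ 4) /
        (945 + 1050 * ((33/500) / (4/25)) ^ 2 + 225 * ((33/500) / (4/25)) ^ 4) : ℝ) ≤ (97809/250000) := by norm_num
    have h10 : ((4/25) / (2 * (33/500) * ((4/25) ^ 2 + (33/500) ^ 2)) : ℝ) = (10000000/247137) := by norm_num
    rw [h10] at h7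
    nlinarith
  · have h7 := arctan_le_tangent_sq (x := x) (x₀ := (2/25)) (V := (4/25)) hx (by norm_num) (by norm_num)
    have h8 := arctan_le_pade (y := (2/25) / (4/25)) (by norm_num)
    have h9 : ((2/25) / (4/25) * (945 + 735 * ((2/25) / (4/25)) ^ 2 + 64 * ((2/25) / (4/25)) ^ 4) /
        (945 + 1050 * ((2/25) / (4/25)) ^ 2 + 225 * ((2/25) / (4/25)) ^ 4) : ℝ) ≤ (14489/31250) := by norm_num
    have h10 : ((4/25) / (2 * (2/25) * ((4/25) ^ 2 + (2/25) ^ 2)) : ℝ) = (125/4) := by norm_num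
    rw [h10] at h7
    nlinarith
  · have h7 := arctan_le_tangent_sq (x := x) (x₀ := (12/125)) (V := (4/25)) hx (by norm_num) (by norm_num)
    have h8 := arctan_le_pade (y := (12/125) / (4/25)) (by norm_num)
    have h9 : ((12/125) / (4/25) * (945 + 735 * ((12/125) / (4/25)) ^ 2 + 64 * ((12/125) / (4/25)) ^ 4) /
        (945 + 1050 * ((12/125) / (4/25)) ^ 2 + 225 * ((12/125) / (4/25)) ^ 4) : ℝ) ≤ (270211/500000) := by norm_num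
    have h10 : ((4/25) / (2 * (12/125) * ((4/25) ^ 2 + (12/125) ^ 2)) : ℝ) = (78125/3264) := by norm_num
    rw [h10] at h7
    nlinarith
  · have h7 := arctan_le_tangent_sq (x := x) (x₀ := (23/200)) (V := (4/25)) hx (by norm_num) (by norm_num)
    have h8 := arctan_le_pade (y := (23/200) / (4/25)) (by norm_num)
    have h9 : ((23/200) / (4/25) * (945 + 735 * ((23/200) / (4/25)) ^ 2 + 64 * ((23/200) / (4/25)) ^ 4) /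
        (945 + 1050 * ((23/200) / (4/25)) ^ 2 + 225 * ((23/200) / (4/25)) ^ 4) : ℝ) ≤ (155803/250000) := by norm_num
    have h10 : ((4/25) / (2 * (23/200) * ((4/25) ^ 2 + (23/200) ^ 2)) : ℝ) = (640000/35719) := by norm_num
    rw [h10] at h7
    nlinarith
  · have h7 := arctan_le_tangent_sq (x := x) (x₀ := (17/125)) (V := (4/25)) hx (by norm_num) (by norm_num)
    have h8 := arctan_le_pade (y := (17/125) / (4/25)) (by norm_num)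
    have h9 : ((17/125) / (4/25) * (945 + 735 * ((17/125) / (4/25)) ^ 2 + 64 * ((17/125) / (4/25)) ^ 4) /
        (945 + 1050 * ((17/125) / (4/25)) ^ 2 + 225 * ((17/125) / (4/25)) ^ 4) : ℝ) ≤ (140909/200000) := by norm_num
    have h10 : ((4/25) / (2 * (17/125) * ((4/25) ^ 2 + (17/125) ^ 2)) : ℝ) = (156250/11713) := by norm_num
    rw [h10] at h7
    nlinarith
  · have h7 := arctan_le_tangent_sq (x := x) (x₀ := (159/1000)) (V := (4/25)) hx (by norm_num) (by norm_num)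
    have h8 := arctan_le_pade (y := (159/1000) / (4/25)) (by norm_num)
    have h9 : ((159/1000) / (4/25) * (945 + 735 * ((159/1000) / (4/25)) ^ 2 + 64 * ((159/1000) / (4/25)) ^ 4) /
        (945 + 1050 * ((159/1000) / (4/25)) ^ 2 + 225 * ((159/1000) / (4/25)) ^ 4) : ℝ) ≤ (391221/500000) := by norm_num
    have h10 : ((4/25) / (2 * (159/1000) * ((4/25) ^ 2 + (159/1000) ^ 2)) : ℝ) = (80000000/8090079) := by norm_num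
    rw [h10] at h7
    nlinarith
  · have h7 := arctan_le_tangent_sq (x := x) (x₀ := (37/200)) (V := (4/25)) hx (by norm_num) (by norm_num)
    have h8 := arctan_le_pade (y := (37/200) / (4/25)) (by norm_num)
    have h9 : ((37/200) / (4/25) * (945 + 735 * ((37/200) / (4/25)) ^ 2 + 64 * ((37/200) / (4/25)) ^ 4) /
        (945 + 1050 * ((37/200) / (4/25)) ^ 2 + 225 * ((37/200) / (4/25)) ^ 4) : ℝ) ≤ (858293/1000000) := by norm_num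
    have h10 : ((4/25) / (2 * (37/200) * ((4/25) ^ 2 + (37/200) ^ 2)) : ℝ) = (640000/88541) := by norm_num
    rw [h10] at h7
    nlinarith
  · have h7 := arctan_le_tangent_sq (x := x) (x₀ := (41/200)) (V := (4/25)) hx (by norm_num) (by norm_num)
    have h8 := arctan_le_pade (y := (41/200) / (4/25)) (by norm_num)
    have h9 : ((41/200) / (4/25) * (945 + 735 * ((41/200) / (4/25)) ^ 2 + 64 * ((41/200) / (4/25)) ^ 4) /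
        (945 + 1050 * ((41/200) / (4/25)) ^ 2 + 225 * ((41/200) / (4/25)) ^ 4) : ℝ) ≤ (909211/1000000) := by norm_num
    have h10 : ((4/25) / (2 * (41/200) * ((4/25) ^ 2 + (41/200) ^ 2)) : ℝ) = (128000/22181) := by norm_num
    rw [h10] at h7
    nlinarith
  · have h7 := arctan_le_tangent_sq (x := x) (x₀ := (107/500)) (V := (4/25)) hx (by norm_num) (by norm_num)
    have h8 := arctan_le_pade (y := (107/500) / (4/25)) (by norm_num)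
    have h9 : ((107/500) / (4/25) * (945 + 735 * ((107/500) / (4/25)) ^ 2 + 64 * ((107/500) / (4/25)) ^ 4) /
        (945 + 1050 * ((107/500) / (4/25)) ^ 2 + 225 * ((107/500) / (4/25)) ^ 4) : ℝ) ≤ (465159/500000) := by norm_num
    have h10 : ((4/25) / (2 * (107/500) * ((4/25) ^ 2 + (107/500) ^ 2)) : ℝ) = (10000000/1909843) := by norm_num
    rw [h10] at h7
    nlinarith
  · exfalso; linarith
  · exfalso; linarith
  · exfalso; linarith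
  · exfalso; linarith
  · exfalso; linarith
  · exfalso; linarith
  · exfalso; linarith
  · exfalso; linarith
  · exfalso; linarith
  · exfalso; linarith
  · exfalso; linarith

end Vale.Agent.Lib.P226
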