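import Vale.Agent.Lib.P226.Knots

/-!
The finite table for the constant 6/5 in the deletion bound.
-/

open MeasureTheory ProbabilityTheory Real Set
open scoped RealInnerProductSpace ENNReal NNReal Pointwise

namespace Vale.Agent.Lib.P226

/-- The finite description of the admissible pairs `(Φ(α), p)`. -/
def Cell6 (a p : ℝ) : Prop :=
  (0 < a ∧ a ≤ (22331/1250000) ∧ p ≤ 2 * a ^ 2 ∧ p ≤ (22331/625000) * a) ∨
  ((178623/10000000) ≤ a ∧ a ≤ (45501/2000000) ∧ p ≤ (35559/500000) * a + (-(7/10000))) ∨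
  ((5687/250000) ≤ a ∧ a ≤ (287169/10000000) ∧ p ≤ (89303/1000000) * a + (-(557/500000))) ∨
  ((57429/2000000) ≤ a ∧ a ≤ (359307/10000000) ∧ p ≤ (55507/500000) * a + (-(1737/1000000))) ∨
  ((359283/10000000) ≤ a ∧ a ≤ (222829/5000000) ∧ p ≤ (27329/200000) * a + (-(1329/500000))) ∨
  ((222817/5000000) ≤ a ∧ a ≤ (547997/10000000) ∧ p ≤ (83233/500000) * a + (-(1993/500000))) ∨
  ((547973/10000000) ≤ a ∧ a ≤ (167019/2500000) ∧ p ≤ (200651/1000000) * a + (-(5859/1000000))) ∨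
  ((668053/10000000) ≤ a ∧ a ≤ (80757/1000000) ∧ p ≤ (29891/125000) * a + (-(2107/250000))) ∨
  ((201887/2500000) ≤ a ∧ a ≤ (121001/1250000) ∧ p ≤ (11269/40000) * a + (-(2373/200000))) ∨
  ((967987/10000000) ≤ a ∧ a ≤ (11507/100000) ∧ p ≤ (327859/1000000) * a + (-(8163/500000))) ∨
  ((28767/250000) ≤ a ∧ a ≤ (169583/1250000) ∧ p ≤ (376577/1000000) * a + (-(5481/250000))) ∨
  ((339161/2500000) ≤ a ∧ a ≤ (317311/2000000) ∧ p ≤ (26663/62500) * a + (-(28701/1000000))) ∨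
  ((1586537/10000000) ≤ a ∧ a ≤ (427641/2500000) ∧ p ≤ (463539/1000000) * a + (-(34573/1000000))) ∨
  ((1710547/10000000) ≤ a ∧ a ≤ (460151/2500000) ∧ p ≤ (243973/500000) * a + (-(7749/200000))) ∨
  ((1840587/10000000) ≤ a ∧ a ≤ (494157/2500000) ∧ p ≤ (511269/1000000) * a + (-(8607/200000))) ∨
  ((494153/2500000) ≤ a ∧ a ≤ (2118557/10000000) ∧ p ≤ (106719/200000) * a + (-(11861/250000))) ∨
  ((2118541/10000000) ≤ a ∧ a ≤ (566569/2500000) ∧ p ≤ (110841/200000) * a + (-(51807/1000000))) ∨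
  ((2266261/10000000) ≤ a ∧ a ≤ (2419639/10000000) ∧ p ≤ (572981/1000000) * a + (-(56057/1000000))) ∨
  ((19357/80000) ≤ a ∧ a ≤ (2578463/10000000) ∧ p ≤ (589613/1000000) * a + (-(60077/1000000))) ∨
  ((51569/200000) ≤ a ∧ a ≤ (2742533/10000000) ∧ p ≤ (301753/500000) * a + (-(31827/500000))) ∨
  ((2742521/10000000) ≤ a ∧ a ≤ (2911599/10000000) ∧ p ≤ (76791/125000) * a + (-(8327/125000))) ∨
  ((2911587/10000000) ≤ a ∧ a ≤ (75383/250000) ∧ p ≤ (310393/500000) * a + (-(17129/250000))) ∨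
  ((3015309/10000000) ≤ a ∧ a ≤ (3085377/10000000) ∧ p ≤ (623591/1000000) * a + (-(8671/125000))) ∨
  ((3085367/10000000) ≤ a ∧ a ≤ 1 ∧ p ≤ (352067/1000000) * a + (15327/1000000) ∧ p ≤ (341313/1000000) * a + (18683/1000000) ∧ p ≤ (81119/250000) * a + (3011/125000) ∧ p ≤ (147309/500000) * a + (34107/1000000) ∧ p ≤ (26267/100000) * a + (22707/500000) ∧ p ≤ (114417/500000) * a + (7253/125000) ∧ p ≤ (38667/200000) * a + (7193/100000) ∧ p ≤ (78209/500000) * a + (17421/200000) ∧ p ≤ (23669/200000) * a + (103499/1000000) ∧ p ≤ (79391/1000000) * a + (1513/12500) ∧ p ≤ (7969/200000) * a + (8727/62500) ∧ p ≤ 0 * a + (159157/1000000))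

theorem tiny6 {F₀ α p : ℝ} (h0 : 0 < F₀)
    (hp2 : eF α ≤ (7/50) → p ≤ 2 * eF α - (6/5) * eF α ^ 2 / F₀) (h1 : α ≤ -(21/10)) :
    0 < ncdf α ∧ ncdf α ≤ (22331/1250000) ∧ p ≤ 2 * ncdf α ^ 2 ∧ p ≤ (22331/625000) * ncdf α := by
  obtain ⟨-, -, -, cu⟩ := k210
  have hm := strictMono_ncdf.monotone h1
  have ha := ncdf_pos α
  have hle : ncdf α ≤ (22331/1250000) := by linarith
  have he := eF_le_sq α
  have hsq : ncdf α ^ 2 ≤ (22331/1250000) * ncdf α := by nlinarith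
  have hemax : eF α ≤ (7/50) := by nlinarith
  have hq := hp2 hemax
  have hpos : 0 ≤ (6/5) * eF α ^ 2 / F₀ := by positivity
  exact ⟨ha, hle, by linarith, by linarith⟩

theorem piece6_1 {F₀ α p : ℝ} (h0 : 0 < F₀) (hU : F₀ ≤ (35811/100000))
    (hp2 : eF α ≤ (7/50) → p ≤ 2 * eF α - (6/5) * eF α ^ 2 / F₀)
    (h1 : -(21/10) ≤ α) (h2 : α ≤ -2) :
    (178623/10000000) ≤ ncdf α ∧ ncdf α ≤ (45501/2000000) ∧ p ≤ (35559/500000) * ncdf α + (-(7/10000)) := by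
  obtain ⟨-, pu1, cl1, cu1⟩ := k210
  obtain ⟨-, pu2, cl2, cu2⟩ := k200
  have hm1 : ncdf (-(21/10)) ≤ ncdf α := strictMono_ncdf.monotone h1
  have hm2 : ncdf α ≤ ncdf (-2) := strictMono_ncdf.monotone h2
  have e1 : eF (-(21/10)) ≤ (284710863573/1000000000000000) :=
    (eF_le_of_bounds (by norm_num) pu1 cl1).trans (by norm_num)
  have e2 : eF (-2) ≤ (45867229089/100000000000000) :=
    (eF_le_of_bounds (by norm_num) pu2 cl2).trans (by norm_num)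
  have he1 : eF (-(21/10)) ≤ (356063/10000000) * ncdf (-(21/10)) + (-(439/1250000)) := by linarith
  have he2 : eF (-2) ≤ (356063/10000000) * ncdf (-2) + (-(439/1250000)) := by linarith
  have hc := eF_chord (by norm_num) he1 he2 ⟨h1, h2⟩
  have hemax : eF α ≤ (7/50) := by linarith
  have hq := p_le_linear (κ := (6/5)) (e₀ := (1/2500)) (by norm_num) h0 hU (hp2 hemax)
  have hA : (2 - 2 * (6/5) * (1/2500) / (35811/100000) : ℝ) = (23842/11937) := by norm_num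
  have hC : ((6/5) * (1/2500) ^ 2 / (35811/100000) : ℝ) = (4/7460625) := by norm_num
  rw [hA, hC] at hq
  have hpos := ncdf_pos α
  exact ⟨by linarith, by linarith, by linarith⟩

theorem piece6_2 {F₀ α p : ℝ} (h0 : 0 < F₀) (hU : F₀ ≤ (35811/100000))
    (hp2 : eF α ≤ (7/50) → p ≤ 2 * eF α - (6/5) * eF α ^ 2 / F₀)
    (h1 : -2 ≤ α) (h2 : α ≤ -(19/10)) :
    (5687/250000) ≤ ncdf α ∧ ncdf α ≤ (287169/10000000) ∧ p ≤ (89303/1000000) * ncdf α + (-(557/500000)) := by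
  obtain ⟨-, pu1, cl1, cu1⟩ := k200
  obtain ⟨-, pu2, cl2, cu2⟩ := k190
  have hm1 : ncdf (-2) ≤ ncdf α := strictMono_ncdf.monotone h1
  have hm2 : ncdf α ≤ ncdf (-(19/10)) := strictMono_ncdf.monotone h2
  have e1 : eF (-2) ≤ (45867229089/100000000000000) :=
    (eF_le_of_bounds (by norm_num) pu1 cl1).trans (by norm_num)
  have e2 : eF (-(19/10)) ≤ (145123784531/200000000000000) :=
    (eF_le_of_bounds (by norm_num) pu2 cl2).trans (by norm_num)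
  have he1 : eF (-2) ≤ (44741/1000000) * ncdf (-2) + (-(559/1000000)) := by linarith
  have he2 : eF (-(19/10)) ≤ (44741/1000000) * ncdf (-(19/10)) + (-(559/1000000)) := by linarith
  have hc := eF_chord (by norm_num) he1 he2 ⟨h1, h2⟩
  have hemax : eF α ≤ (7/50) := by linarith
  have hq := p_le_linear (κ := (6/5)) (e₀ := (3/5000)) (by norm_num) h0 hU (hp2 hemax)
  have hA : (2 - 2 * (6/5) * (3/5000) / (35811/100000) : ℝ) = (7942/3979) := by norm_num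
  have hC : ((6/5) * (3/5000) ^ 2 / (35811/100000) : ℝ) = (3/2486875) := by norm_num
  rw [hA, hC] at hq
  have hpos := ncdf_pos α
  exact ⟨by linarith, by linarith, by linarith⟩

theorem piece6_3 {F₀ α p : ℝ} (h0 : 0 < F₀) (hU : F₀ ≤ (35811/100000))
    (hp2 : eF α ≤ (7/50) → p ≤ 2 * eF α - (6/5) * eF α ^ 2 / F₀)
    (h1 : -(19/10) ≤ α) (h2 : α ≤ -(9/5)) :
    (57429/2000000) ≤ ncdf α ∧ ncdf α ≤ (359307/10000000) ∧ p ≤ (55507/500000) * ncdf α + (-(1737/1000000)) := by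
  obtain ⟨-, pu1, cl1, cu1⟩ := k190
  obtain ⟨-, pu2, cl2, cu2⟩ := k180
  have hm1 : ncdf (-(19/10)) ≤ ncdf α := strictMono_ncdf.monotone h1
  have hm2 : ncdf α ≤ ncdf (-(9/5)) := strictMono_ncdf.monotone h2
  have e1 : eF (-(19/10)) ≤ (145123784531/200000000000000) :=
    (eF_le_of_bounds (by norm_num) pu1 cl1).trans (by norm_num)
  have e2 : eF (-(9/5)) ≤ (56368920089/50000000000000) :=
    (eF_le_of_bounds (by norm_num) pu2 cl2).trans (by norm_num)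
  have he1 : eF (-(19/10)) ≤ (139233/2500000) * ncdf (-(19/10)) + (-(1747/2000000)) := by linarith
  have he2 : eF (-(9/5)) ≤ (139233/2500000) * ncdf (-(9/5)) + (-(1747/2000000)) := by linarith
  have hc := eF_chord (by norm_num) he1 he2 ⟨h1, h2⟩
  have hemax : eF α ≤ (7/50) := by linarith
  have hq := p_le_linear (κ := (6/5)) (e₀ := (1/1000)) (by norm_num) h0 hU (hp2 hemax)
  have hA : (2 - 2 * (6/5) * (1/1000) / (35811/100000) : ℝ) = (23794/11937) := by norm_num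
  have hC : ((6/5) * (1/1000) ^ 2 / (35811/100000) : ℝ) = (1/298425) := by norm_num
  rw [hA, hC] at hq
  have hpos := ncdf_pos α
  exact ⟨by linarith, by linarith, by linarith⟩

theorem piece6_4 {F₀ α p : ℝ} (h0 : 0 < F₀) (hU : F₀ ≤ (35811/100000))
    (hp2 : eF α ≤ (7/50) → p ≤ 2 * eF α - (6/5) * eF α ^ 2 / F₀)
    (h1 : -(9/5) ≤ α) (h2 : α ≤ -(17/10)) :
    (359283/10000000) ≤ ncdf α ∧ ncdf α ≤ (222829/5000000) ∧ p ≤ (27329/200000) * ncdf α + (-(1329/500000)) := by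
  obtain ⟨-, pu1, cl1, cu1⟩ := k180
  obtain ⟨-, pu2, cl2, cu2⟩ := k170
  have hm1 : ncdf (-(9/5)) ≤ ncdf α := strictMono_ncdf.monotone h1
  have hm2 : ncdf α ≤ ncdf (-(17/10)) := strictMono_ncdf.monotone h2
  have e1 : eF (-(9/5)) ≤ (56368920089/50000000000000) :=
    (eF_le_of_bounds (by norm_num) pu1 cl1).trans (by norm_num)
  have e2 : eF (-(17/10)) ≤ (86016356007/50000000000000) :=
    (eF_le_of_bounds (by norm_num) pu2 cl2).trans (by norm_num)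
  have he1 : eF (-(9/5)) ≤ (686673/10000000) * ncdf (-(9/5)) + (-(13397/10000000)) := by linarith
  have he2 : eF (-(17/10)) ≤ (686673/10000000) * ncdf (-(17/10)) + (-(13397/10000000)) := by linarith
  have hc := eF_chord (by norm_num) he1 he2 ⟨h1, h2⟩
  have hemax : eF α ≤ (7/50) := by linarith
  have hq := p_le_linear (κ := (6/5)) (e₀ := (3/2000)) (by norm_num) h0 hU (hp2 hemax)
  have hA : (2 - 2 * (6/5) * (3/2000) / (35811/100000) : ℝ) = (7918/3979) := by norm_num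
  have hC : ((6/5) * (3/2000) ^ 2 / (35811/100000) : ℝ) = (3/397900) := by norm_num
  rw [hA, hC] at hq
  have hpos := ncdf_pos α
  exact ⟨by linarith, by linarith, by linarith⟩

theorem piece6_5 {F₀ α p : ℝ} (h0 : 0 < F₀) (hU : F₀ ≤ (35811/100000))
    (hp2 : eF α ≤ (7/50) → p ≤ 2 * eF α - (6/5) * eF α ^ 2 / F₀)
    (h1 : -(17/10) ≤ α) (h2 : α ≤ -(8/5)) :
    (222817/5000000) ≤ ncdf α ∧ ncdf α ≤ (547997/10000000) ∧ p ≤ (83233/500000) * ncdf α + (-(1993/500000)) := by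
  obtain ⟨-, pu1, cl1, cu1⟩ := k170
  obtain ⟨-, pu2, cl2, cu2⟩ := k160
  have hm1 : ncdf (-(17/10)) ≤ ncdf α := strictMono_ncdf.monotone h1
  have hm2 : ncdf α ≤ ncdf (-(8/5)) := strictMono_ncdf.monotone h2
  have e1 : eF (-(17/10)) ≤ (86016356007/50000000000000) :=
    (eF_le_of_bounds (by norm_num) pu1 cl1).trans (by norm_num)
  have e2 : eF (-(8/5)) ≤ (322305975801/125000000000000) :=
    (eF_le_of_bounds (by norm_num) pu2 cl2).trans (by norm_num)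
  have he1 : eF (-(17/10)) ≤ (209627/2500000) * ncdf (-(17/10)) + (-(20163/10000000)) := by linarith
  have he2 : eF (-(8/5)) ≤ (209627/2500000) * ncdf (-(8/5)) + (-(20163/10000000)) := by linarith
  have hc := eF_chord (by norm_num) he1 he2 ⟨h1, h2⟩
  have hemax : eF α ≤ (7/50) := by linarith
  have hq := p_le_linear (κ := (6/5)) (e₀ := (11/5000)) (by norm_num) h0 hU (hp2 hemax)
  have hA : (2 - 2 * (6/5) * (11/5000) / (35811/100000) : ℝ) = (23698/11937) := by norm_num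
  have hC : ((6/5) * (11/5000) ^ 2 / (35811/100000) : ℝ) = (121/7460625) := by norm_num
  rw [hA, hC] at hq
  have hpos := ncdf_pos α
  exact ⟨by linarith, by linarith, by linarith⟩

theorem piece6_6 {F₀ α p : ℝ} (h0 : 0 < F₀) (hU : F₀ ≤ (35811/100000))
    (hp2 : eF α ≤ (7/50) → p ≤ 2 * eF α - (6/5) * eF α ^ 2 / F₀)
    (h1 : -(8/5) ≤ α) (h2 : α ≤ -(3/2)) :
    (547973/10000000) ≤ ncdf α ∧ ncdf α ≤ (167019/2500000) ∧ p ≤ (200651/1000000) * ncdf α + (-(5859/1000000)) := by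
  obtain ⟨-, pu1, cl1, cu1⟩ := k160
  obtain ⟨-, pu2, cl2, cu2⟩ := k150
  have hm1 : ncdf (-(8/5)) ≤ ncdf α := strictMono_ncdf.monotone h1
  have hm2 : ncdf α ≤ ncdf (-(3/2)) := strictMono_ncdf.monotone h2
  have e1 : eF (-(8/5)) ≤ (322305975801/125000000000000) :=
    (eF_le_of_bounds (by norm_num) pu1 cl1).trans (by norm_num)
  have e2 : eF (-(3/2)) ≤ (75924216431/20000000000000) :=
    (eF_le_of_bounds (by norm_num) pu2 cl2).trans (by norm_num)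
  have he1 : eF (-(8/5)) ≤ (1014127/10000000) * ncdf (-(8/5)) + (-(14893/5000000)) := by linarith
  have he2 : eF (-(3/2)) ≤ (1014127/10000000) * ncdf (-(3/2)) + (-(14893/5000000)) := by linarith
  have hc := eF_chord (by norm_num) he1 he2 ⟨h1, h2⟩
  have hemax : eF α ≤ (7/50) := by linarith
  have hq := p_le_linear (κ := (6/5)) (e₀ := (2/625)) (by norm_num) h0 hU (hp2 hemax)
  have hA : (2 - 2 * (6/5) * (2/625) / (35811/100000) : ℝ) = (23618/11937) := by norm_num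
  have hC : ((6/5) * (2/625) ^ 2 / (35811/100000) : ℝ) = (256/7460625) := by norm_num
  rw [hA, hC] at hq
  have hpos := ncdf_pos α
  exact ⟨by linarith, by linarith, by linarith⟩

theorem piece6_7 {F₀ α p : ℝ} (h0 : 0 < F₀) (hU : F₀ ≤ (35811/100000))
    (hp2 : eF α ≤ (7/50) → p ≤ 2 * eF α - (6/5) * eF α ^ 2 / F₀)
    (h1 : -(3/2) ≤ α) (h2 : α ≤ -(7/5)) :
    (668053/10000000) ≤ ncdf α ∧ ncdf α ≤ (80757/1000000) ∧ p ≤ (29891/125000) * ncdf α + (-(2107/250000)) := by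
  obtain ⟨-, pu1, cl1, cu1⟩ := k150
  obtain ⟨-, pu2, cl2, cu2⟩ := k140
  have hm1 : ncdf (-(3/2)) ≤ ncdf α := strictMono_ncdf.monotone h1
  have hm2 : ncdf α ≤ ncdf (-(7/5)) := strictMono_ncdf.monotone h2
  have e1 : eF (-(3/2)) ≤ (75924216431/20000000000000) :=
    (eF_le_of_bounds (by norm_num) pu1 cl1).trans (by norm_num)
  have e2 : eF (-(7/5)) ≤ (686344336467/125000000000000) :=
    (eF_le_of_bounds (by norm_num) pu2 cl2).trans (by norm_num)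
  have he1 : eF (-(3/2)) ≤ (1214771/10000000) * ncdf (-(3/2)) + (-(43191/10000000)) := by linarith
  have he2 : eF (-(7/5)) ≤ (1214771/10000000) * ncdf (-(7/5)) + (-(43191/10000000)) := by linarith
  have hc := eF_chord (by norm_num) he1 he2 ⟨h1, h2⟩
  have hemax : eF α ≤ (7/50) := by linarith
  have hq := p_le_linear (κ := (6/5)) (e₀ := (47/10000)) (by norm_num) h0 hU (hp2 hemax)
  have hA : (2 - 2 * (6/5) * (47/10000) / (35811/100000) : ℝ) = (23498/11937) := by norm_num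
  have hC : ((6/5) * (47/10000) ^ 2 / (35811/100000) : ℝ) = (2209/29842500) := by norm_num
  rw [hA, hC] at hq
  have hpos := ncdf_pos α
  exact ⟨by linarith, by linarith, by linarith⟩

theorem piece6_8 {F₀ α p : ℝ} (h0 : 0 < F₀) (hU : F₀ ≤ (35811/100000))
    (hp2 : eF α ≤ (7/50) → p ≤ 2 * eF α - (6/5) * eF α ^ 2 / F₀)
    (h1 : -(7/5) ≤ α) (h2 : α ≤ -(13/10)) :
    (201887/2500000) ≤ ncdf α ∧ ncdf α ≤ (121001/1250000) ∧ p ≤ (11269/40000) * ncdf α + (-(2373/200000)) := by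
  obtain ⟨-, pu1, cl1, cu1⟩ := k140
  obtain ⟨-, pu2, cl2, cu2⟩ := k130
  have hm1 : ncdf (-(7/5)) ≤ ncdf α := strictMono_ncdf.monotone h1
  have hm2 : ncdf α ≤ ncdf (-(13/10)) := strictMono_ncdf.monotone h2
  have e1 : eF (-(7/5)) ≤ (686344336467/125000000000000) :=
    (eF_le_of_bounds (by norm_num) pu1 cl1).trans (by norm_num)
  have e2 : eF (-(13/10)) ≤ (3901317787323/500000000000000) :=
    (eF_le_of_bounds (by norm_num) pu2 cl2).trans (by norm_num)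
  have he1 : eF (-(7/5)) ≤ (360243/2500000) * ncdf (-(7/5)) + (-(61457/10000000)) := by linarith
  have he2 : eF (-(13/10)) ≤ (360243/2500000) * ncdf (-(13/10)) + (-(61457/10000000)) := by linarith
  have hc := eF_chord (by norm_num) he1 he2 ⟨h1, h2⟩
  have hemax : eF α ≤ (7/50) := by linarith
  have hq := p_le_linear (κ := (6/5)) (e₀ := (67/10000)) (by norm_num) h0 hU (hp2 hemax)
  have hA : (2 - 2 * (6/5) * (67/10000) / (35811/100000) : ℝ) = (23338/11937) := by norm_num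
  have hC : ((6/5) * (67/10000) ^ 2 / (35811/100000) : ℝ) = (4489/29842500) := by norm_num
  rw [hA, hC] at hq
  have hpos := ncdf_pos α
  exact ⟨by linarith, by linarith, by linarith⟩

theorem piece6_9 {F₀ α p : ℝ} (h0 : 0 < F₀) (hU : F₀ ≤ (35811/100000))
    (hp2 : eF α ≤ (7/50) → p ≤ 2 * eF α - (6/5) * eF α ^ 2 / F₀)
    (h1 : -(13/10) ≤ α) (h2 : α ≤ -(6/5)) :
    (967987/10000000) ≤ ncdf α ∧ ncdf α ≤ (11507/100000) ∧ p ≤ (327859/1000000) * ncdf α + (-(8163/500000)) := by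
  obtain ⟨-, pu1, cl1, cu1⟩ := k130
  obtain ⟨-, pu2, cl2, cu2⟩ := k120
  have hm1 : ncdf (-(13/10)) ≤ ncdf α := strictMono_ncdf.monotone h1
  have hm2 : ncdf α ≤ ncdf (-(6/5)) := strictMono_ncdf.monotone h2
  have e1 : eF (-(13/10)) ≤ (3901317787323/500000000000000) :=
    (eF_le_of_bounds (by norm_num) pu1 cl1).trans (by norm_num)
  have e2 : eF (-(6/5)) ≤ (1089491428057/100000000000000) :=
    (eF_le_of_bounds (by norm_num) pu2 cl2).trans (by norm_num)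
  have he1 : eF (-(13/10)) ≤ (169261/1000000) * ncdf (-(13/10)) + (-(10727/1250000)) := by linarith
  have he2 : eF (-(6/5)) ≤ (169261/1000000) * ncdf (-(6/5)) + (-(10727/1250000)) := by linarith
  have hc := eF_chord (by norm_num) he1 he2 ⟨h1, h2⟩
  have hemax : eF α ≤ (7/50) := by linarith
  have hq := p_le_linear (κ := (6/5)) (e₀ := (47/5000)) (by norm_num) h0 hU (hp2 hemax)
  have hA : (2 - 2 * (6/5) * (47/5000) / (35811/100000) : ℝ) = (23122/11937) := by norm_num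
  have hC : ((6/5) * (47/5000) ^ 2 / (35811/100000) : ℝ) = (2209/7460625) := by norm_num
  rw [hA, hC] at hq
  have hpos := ncdf_pos α
  exact ⟨by linarith, by linarith, by linarith⟩

theorem piece6_10 {F₀ α p : ℝ} (h0 : 0 < F₀) (hU : F₀ ≤ (35811/100000))
    (hp2 : eF α ≤ (7/50) → p ≤ 2 * eF α - (6/5) * eF α ^ 2 / F₀)
    (h1 : -(6/5) ≤ α) (h2 : α ≤ -(11/10)) :
    (28767/250000) ≤ ncdf α ∧ ncdf α ≤ (169583/1250000) ∧ p ≤ (376577/1000000) * ncdf α + (-(5481/250000)) := by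
  obtain ⟨-, pu1, cl1, cu1⟩ := k120
  obtain ⟨-, pu2, cl2, cu2⟩ := k110
  have hm1 : ncdf (-(6/5)) ≤ ncdf α := strictMono_ncdf.monotone h1
  have hm2 : ncdf α ≤ ncdf (-(11/10)) := strictMono_ncdf.monotone h2
  have e1 : eF (-(6/5)) ≤ (1089491428057/100000000000000) :=
    (eF_le_of_bounds (by norm_num) pu1 cl1).trans (by norm_num)
  have e2 : eF (-(11/10)) ≤ (934350044847/62500000000000) :=
    (eF_le_of_bounds (by norm_num) pu2 cl2).trans (by norm_num)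
  have he1 : eF (-(6/5)) ≤ (1968639/10000000) * ncdf (-(6/5)) + (-(58789/5000000)) := by linarith
  have he2 : eF (-(11/10)) ≤ (1968639/10000000) * ncdf (-(11/10)) + (-(58789/5000000)) := by linarith
  have hc := eF_chord (by norm_num) he1 he2 ⟨h1, h2⟩
  have hemax : eF α ≤ (7/50) := by linarith
  have hq := p_le_linear (κ := (6/5)) (e₀ := (13/1000)) (by norm_num) h0 hU (hp2 hemax)
  have hA : (2 - 2 * (6/5) * (13/1000) / (35811/100000) : ℝ) = (22834/11937) := by norm_num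
  have hC : ((6/5) * (13/1000) ^ 2 / (35811/100000) : ℝ) = (169/298425) := by norm_num
  rw [hA, hC] at hq
  have hpos := ncdf_pos α
  exact ⟨by linarith, by linarith, by linarith⟩

theorem piece6_11 {F₀ α p : ℝ} (h0 : 0 < F₀) (hU : F₀ ≤ (35811/100000))
    (hp2 : eF α ≤ (7/50) → p ≤ 2 * eF α - (6/5) * eF α ^ 2 / F₀)
    (h1 : -(11/10) ≤ α) (h2 : α ≤ -1) :
    (339161/2500000) ≤ ncdf α ∧ ncdf α ≤ (317311/2000000) ∧ p ≤ (26663/62500) * ncdf α + (-(28701/1000000)) := by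
  obtain ⟨-, pu1, cl1, cu1⟩ := k110
  obtain ⟨-, pu2, cl2, cu2⟩ := k100
  have hm1 : ncdf (-(11/10)) ≤ ncdf α := strictMono_ncdf.monotone h1
  have hm2 : ncdf α ≤ ncdf (-1) := strictMono_ncdf.monotone h2
  have e1 : eF (-(11/10)) ≤ (934350044847/62500000000000) :=
    (eF_le_of_bounds (by norm_num) pu1 cl1).trans (by norm_num)
  have e2 : eF (-1) ≤ (1008031531479/50000000000000) :=
    (eF_le_of_bounds (by norm_num) pu2 cl2).trans (by norm_num)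
  have he1 : eF (-(11/10)) ≤ (14167/62500) * ncdf (-(11/10)) + (-(158017/10000000)) := by linarith
  have he2 : eF (-1) ≤ (14167/62500) * ncdf (-1) + (-(158017/10000000)) := by linarith
  have hc := eF_chord (by norm_num) he1 he2 ⟨h1, h2⟩
  have hemax : eF α ≤ (7/50) := by linarith
  have hq := p_le_linear (κ := (6/5)) (e₀ := (11/625)) (by norm_num) h0 hU (hp2 hemax)
  have hA : (2 - 2 * (6/5) * (11/625) / (35811/100000) : ℝ) = (22466/11937) := by norm_num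
  have hC : ((6/5) * (11/625) ^ 2 / (35811/100000) : ℝ) = (7744/7460625) := by norm_num
  rw [hA, hC] at hq
  have hpos := ncdf_pos α
  exact ⟨by linarith, by linarith, by linarith⟩

theorem piece6_12 {F₀ α p : ℝ} (h0 : 0 < F₀) (hU : F₀ ≤ (35811/100000))
    (hp2 : eF α ≤ (7/50) → p ≤ 2 * eF α - (6/5) * eF α ^ 2 / F₀)
    (h1 : -1 ≤ α) (h2 : α ≤ -(19/20)) :
    (1586537/10000000) ≤ ncdf α ∧ ncdf α ≤ (427641/2500000) ∧ p ≤ (463539/1000000) * ncdf α + (-(34573/1000000)) := by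
  obtain ⟨-, pu1, cl1, cu1⟩ := k100
  obtain ⟨-, pu2, cl2, cu2⟩ := k095
  have hm1 : ncdf (-1) ≤ ncdf α := strictMono_ncdf.monotone h1
  have hm2 : ncdf α ≤ ncdf (-(19/20)) := strictMono_ncdf.monotone h2
  have e1 : eF (-1) ≤ (1008031531479/50000000000000) :=
    (eF_le_of_bounds (by norm_num) pu1 cl1).trans (by norm_num)
  have e2 : eF (-(19/20)) ≤ (23261303495747/1000000000000000) :=
    (eF_le_of_bounds (by norm_num) pu2 cl2).trans (by norm_num)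
  have he1 : eF (-1) ≤ (2500341/10000000) * ncdf (-1) + (-(97541/5000000)) := by linarith
  have he2 : eF (-(19/20)) ≤ (2500341/10000000) * ncdf (-(19/20)) + (-(97541/5000000)) := by linarith
  have hc := eF_chord (by norm_num) he1 he2 ⟨h1, h2⟩
  have hemax : eF α ≤ (7/50) := by linarith
  have hq := p_le_linear (κ := (6/5)) (e₀ := (109/5000)) (by norm_num) h0 hU (hp2 hemax)
  have hA : (2 - 2 * (6/5) * (109/5000) / (35811/100000) : ℝ) = (22130/11937) := by norm_num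
  have hC : ((6/5) * (109/5000) ^ 2 / (35811/100000) : ℝ) = (11881/7460625) := by norm_num
  rw [hA, hC] at hq
  have hpos := ncdf_pos α
  exact ⟨by linarith, by linarith, by linarith⟩

theorem piece6_13 {F₀ α p : ℝ} (h0 : 0 < F₀) (hU : F₀ ≤ (35811/100000))
    (hp2 : eF α ≤ (7/50) → p ≤ 2 * eF α - (6/5) * eF α ^ 2 / F₀)
    (h1 : -(19/20) ≤ α) (h2 : α ≤ -(9/10)) :
    (1710547/10000000) ≤ ncdf α ∧ ncdf α ≤ (460151/2500000) ∧ p ≤ (243973/500000) * ncdf α + (-(7749/200000)) := by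
  obtain ⟨-, pu1, cl1, cu1⟩ := k095
  obtain ⟨-, pu2, cl2, cu2⟩ := k090
  have hm1 : ncdf (-(19/20)) ≤ ncdf α := strictMono_ncdf.monotone h1
  have hm2 : ncdf α ≤ ncdf (-(9/10)) := strictMono_ncdf.monotone h2
  have e1 : eF (-(19/20)) ≤ (23261303495747/1000000000000000) :=
    (eF_le_of_bounds (by norm_num) pu1 cl1).trans (by norm_num)
  have e2 : eF (-(9/10)) ≤ (52195326329/1953125000000) :=
    (eF_le_of_bounds (by norm_num) pu2 cl2).trans (by norm_num)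
  have he1 : eF (-(19/20)) ≤ (2662799/10000000) * ncdf (-(19/20)) + (-(222871/10000000)) := by linarith
  have he2 : eF (-(9/10)) ≤ (2662799/10000000) * ncdf (-(9/10)) + (-(222871/10000000)) := by linarith
  have hc := eF_chord (by norm_num) he1 he2 ⟨h1, h2⟩
  have hemax : eF α ≤ (7/50) := by linarith
  have hq := p_le_linear (κ := (6/5)) (e₀ := (1/40)) (by norm_num) h0 hU (hp2 hemax)
  have hA : (2 - 2 * (6/5) * (1/40) / (35811/100000) : ℝ) = (21874/11937) := by norm_num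
  have hC : ((6/5) * (1/40) ^ 2 / (35811/100000) : ℝ) = (25/11937) := by norm_num
  rw [hA, hC] at hq
  have hpos := ncdf_pos α
  exact ⟨by linarith, by linarith, by linarith⟩

theorem piece6_14 {F₀ α p : ℝ} (h0 : 0 < F₀) (hU : F₀ ≤ (35811/100000))
    (hp2 : eF α ≤ (7/50) → p ≤ 2 * eF α - (6/5) * eF α ^ 2 / F₀)
    (h1 : -(9/10) ≤ α) (h2 : α ≤ -(17/20)) :
    (1840587/10000000) ≤ ncdf α ∧ ncdf α ≤ (494157/2500000) ∧ p ≤ (511269/1000000) * ncdf α + (-(8607/200000)) := by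
  obtain ⟨-, pu1, cl1, cu1⟩ := k090
  obtain ⟨-, pu2, cl2, cu2⟩ := k085
  have hm1 : ncdf (-(9/10)) ≤ ncdf α := strictMono_ncdf.monotone h1
  have hm2 : ncdf α ≤ ncdf (-(17/20)) := strictMono_ncdf.monotone h2
  have e1 : eF (-(9/10)) ≤ (52195326329/1953125000000) :=
    (eF_le_of_bounds (by norm_num) pu1 cl1).trans (by norm_num)
  have e2 : eF (-(17/20)) ≤ (955352050009/31250000000000) :=
    (eF_le_of_bounds (by norm_num) pu2 cl2).trans (by norm_num)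
  have he1 : eF (-(9/10)) ≤ (2828347/10000000) * ncdf (-(9/10)) + (-(253341/10000000)) := by linarith
  have he2 : eF (-(17/20)) ≤ (2828347/10000000) * ncdf (-(17/20)) + (-(253341/10000000)) := by linarith
  have hc := eF_chord (by norm_num) he1 he2 ⟨h1, h2⟩
  have hemax : eF α ≤ (7/50) := by linarith
  have hq := p_le_linear (κ := (6/5)) (e₀ := (287/10000)) (by norm_num) h0 hU (hp2 hemax)
  have hA : (2 - 2 * (6/5) * (287/10000) / (35811/100000) : ℝ) = (21578/11937) := by norm_num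
  have hC : ((6/5) * (287/10000) ^ 2 / (35811/100000) : ℝ) = (82369/29842500) := by norm_num
  rw [hA, hC] at hq
  have hpos := ncdf_pos α
  exact ⟨by linarith, by linarith, by linarith⟩

theorem piece6_15 {F₀ α p : ℝ} (h0 : 0 < F₀) (hU : F₀ ≤ (35811/100000))
    (hp2 : eF α ≤ (7/50) → p ≤ 2 * eF α - (6/5) * eF α ^ 2 / F₀)
    (h1 : -(17/20) ≤ α) (h2 : α ≤ -(4/5)) :
    (494153/2500000) ≤ ncdf α ∧ ncdf α ≤ (2118557/10000000) ∧ p ≤ (106719/200000) * ncdf α + (-(11861/250000)) := by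
  obtain ⟨-, pu1, cl1, cu1⟩ := k085
  obtain ⟨-, pu2, cl2, cu2⟩ := k080
  have hm1 : ncdf (-(17/20)) ≤ ncdf α := strictMono_ncdf.monotone h1
  have hm2 : ncdf α ≤ ncdf (-(4/5)) := strictMono_ncdf.monotone h2
  have e1 : eF (-(17/20)) ≤ (955352050009/31250000000000) :=
    (eF_le_of_bounds (by norm_num) pu1 cl1).trans (by norm_num)
  have e2 : eF (-(4/5)) ≤ (17411936712849/500000000000000) :=
    (eF_le_of_bounds (by norm_num) pu2 cl2).trans (by norm_num)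
  have he1 : eF (-(17/20)) ≤ (2996293/10000000) * ncdf (-(17/20)) + (-(143269/5000000)) := by linarith
  have he2 : eF (-(4/5)) ≤ (2996293/10000000) * ncdf (-(4/5)) + (-(143269/5000000)) := by linarith
  have hc := eF_chord (by norm_num) he1 he2 ⟨h1, h2⟩
  have hemax : eF α ≤ (7/50) := by linarith
  have hq := p_le_linear (κ := (6/5)) (e₀ := (327/10000)) (by norm_num) h0 hU (hp2 hemax)
  have hA : (2 - 2 * (6/5) * (327/10000) / (35811/100000) : ℝ) = (7086/3979) := by norm_num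
  have hC : ((6/5) * (327/10000) ^ 2 / (35811/100000) : ℝ) = (35643/9947500) := by norm_num
  rw [hA, hC] at hq
  have hpos := ncdf_pos α
  exact ⟨by linarith, by linarith, by linarith⟩

theorem piece6_16 {F₀ α p : ℝ} (h0 : 0 < F₀) (hU : F₀ ≤ (35811/100000))
    (hp2 : eF α ≤ (7/50) → p ≤ 2 * eF α - (6/5) * eF α ^ 2 / F₀)
    (h1 : -(4/5) ≤ α) (h2 : α ≤ -(3/4)) :
    (2118541/10000000) ≤ ncdf α ∧ ncdf α ≤ (566569/2500000) ∧ p ≤ (110841/200000) * ncdf α + (-(51807/1000000)) := by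
  obtain ⟨-, pu1, cl1, cu1⟩ := k080
  obtain ⟨-, pu2, cl2, cu2⟩ := k075
  have hm1 : ncdf (-(4/5)) ≤ ncdf α := strictMono_ncdf.monotone h1
  have hm2 : ncdf α ≤ ncdf (-(3/4)) := strictMono_ncdf.monotone h2
  have e1 : eF (-(4/5)) ≤ (17411936712849/500000000000000) :=
    (eF_le_of_bounds (by norm_num) pu1 cl1).trans (by norm_num)
  have e2 : eF (-(3/4)) ≤ (3950014301343/100000000000000) :=
    (eF_le_of_bounds (by norm_num) pu2 cl2).trans (by norm_num)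
  have he1 : eF (-(4/5)) ≤ (3165631/10000000) * ncdf (-(4/5)) + (-(322413/10000000)) := by linarith
  have he2 : eF (-(3/4)) ≤ (3165631/10000000) * ncdf (-(3/4)) + (-(322413/10000000)) := by linarith
  have hc := eF_chord (by norm_num) he1 he2 ⟨h1, h2⟩
  have hemax : eF α ≤ (7/50) := by linarith
  have hq := p_le_linear (κ := (6/5)) (e₀ := (93/2500)) (by norm_num) h0 hU (hp2 hemax)
  have hA : (2 - 2 * (6/5) * (93/2500) / (35811/100000) : ℝ) = (6966/3979) := by norm_num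
  have hC : ((6/5) * (93/2500) ^ 2 / (35811/100000) : ℝ) = (11532/2486875) := by norm_num
  rw [hA, hC] at hq
  have hpos := ncdf_pos α
  exact ⟨by linarith, by linarith, by linarith⟩

theorem piece6_17 {F₀ α p : ℝ} (h0 : 0 < F₀) (hU : F₀ ≤ (35811/100000))
    (hp2 : eF α ≤ (7/50) → p ≤ 2 * eF α - (6/5) * eF α ^ 2 / F₀)
    (h1 : -(3/4) ≤ α) (h2 : α ≤ -(7/10)) :
    (2266261/10000000) ≤ ncdf α ∧ ncdf α ≤ (2419639/10000000) ∧ p ≤ (572981/1000000) * ncdf α + (-(56057/1000000)) := by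
  obtain ⟨-, pu1, cl1, cu1⟩ := k075
  obtain ⟨-, pu2, cl2, cu2⟩ := k070
  have hm1 : ncdf (-(3/4)) ≤ ncdf α := strictMono_ncdf.monotone h1
  have hm2 : ncdf α ≤ ncdf (-(7/10)) := strictMono_ncdf.monotone h2
  have e1 : eF (-(3/4)) ≤ (3950014301343/100000000000000) :=
    (eF_le_of_bounds (by norm_num) pu1 cl1).trans (by norm_num)
  have e2 : eF (-(7/10)) ≤ (8923104251943/200000000000000) :=
    (eF_le_of_bounds (by norm_num) pu2 cl2).trans (by norm_num)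
  have he1 : eF (-(3/4)) ≤ (66709/200000) * ncdf (-(3/4)) + (-(180449/5000000)) := by linarith
  have he2 : eF (-(7/10)) ≤ (66709/200000) * ncdf (-(7/10)) + (-(180449/5000000)) := by linarith
  have hc := eF_chord (by norm_num) he1 he2 ⟨h1, h2⟩
  have hemax : eF α ≤ (7/50) := by linarith
  have hq := p_le_linear (κ := (6/5)) (e₀ := (421/10000)) (by norm_num) h0 hU (hp2 hemax)
  have hA : (2 - 2 * (6/5) * (421/10000) / (35811/100000) : ℝ) = (20506/11937) := by norm_num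
  have hC : ((6/5) * (421/10000) ^ 2 / (35811/100000) : ℝ) = (177241/29842500) := by norm_num
  rw [hA, hC] at hq
  have hpos := ncdf_pos α
  exact ⟨by linarith, by linarith, by linarith⟩

theorem piece6_18 {F₀ α p : ℝ} (h0 : 0 < F₀) (hU : F₀ ≤ (35811/100000))
    (hp2 : eF α ≤ (7/50) → p ≤ 2 * eF α - (6/5) * eF α ^ 2 / F₀)
    (h1 : -(7/10) ≤ α) (h2 : α ≤ -(13/20)) :
    (19357/80000) ≤ ncdf α ∧ ncdf α ≤ (2578463/10000000) ∧ p ≤ (589613/1000000) * ncdf α + (-(60077/1000000)) := by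
  obtain ⟨-, pu1, cl1, cu1⟩ := k070
  obtain ⟨-, pu2, cl2, cu2⟩ := k065
  have hm1 : ncdf (-(7/10)) ≤ ncdf α := strictMono_ncdf.monotone h1
  have hm2 : ncdf α ≤ ncdf (-(13/20)) := strictMono_ncdf.monotone h2
  have e1 : eF (-(7/10)) ≤ (8923104251943/200000000000000) :=
    (eF_le_of_bounds (by norm_num) pu1 cl1).trans (by norm_num)
  have e2 : eF (-(13/20)) ≤ (5018190883679/100000000000000) :=
    (eF_le_of_bounds (by norm_num) pu2 cl2).trans (by norm_num)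
  have he1 : eF (-(7/10)) ≤ (3504731/10000000) * ncdf (-(7/10)) + (-(200929/5000000)) := by linarith
  have he2 : eF (-(13/20)) ≤ (3504731/10000000) * ncdf (-(13/20)) + (-(200929/5000000)) := by linarith
  have hc := eF_chord (by norm_num) he1 he2 ⟨h1, h2⟩
  have hemax : eF α ≤ (7/50) := by linarith
  have hq := p_le_linear (κ := (6/5)) (e₀ := (237/5000)) (by norm_num) h0 hU (hp2 hemax)
  have hA : (2 - 2 * (6/5) * (237/5000) / (35811/100000) : ℝ) = (6694/3979) := by norm_num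
  have hC : ((6/5) * (237/5000) ^ 2 / (35811/100000) : ℝ) = (18723/2486875) := by norm_num
  rw [hA, hC] at hq
  have hpos := ncdf_pos α
  exact ⟨by linarith, by linarith, by linarith⟩

theorem piece6_19 {F₀ α p : ℝ} (h0 : 0 < F₀) (hU : F₀ ≤ (35811/100000))
    (hp2 : eF α ≤ (7/50) → p ≤ 2 * eF α - (6/5) * eF α ^ 2 / F₀)
    (h1 : -(13/20) ≤ α) (h2 : α ≤ -(3/5)) :
    (51569/200000) ≤ ncdf α ∧ ncdf α ≤ (2742533/10000000) ∧ p ≤ (301753/500000) * ncdf α + (-(31827/500000)) := by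
  obtain ⟨-, pu1, cl1, cu1⟩ := k065
  obtain ⟨-, pu2, cl2, cu2⟩ := k060
  have hm1 : ncdf (-(13/20)) ≤ ncdf α := strictMono_ncdf.monotone h1
  have hm2 : ncdf α ≤ ncdf (-(3/5)) := strictMono_ncdf.monotone h2
  have e1 : eF (-(13/20)) ≤ (5018190883679/100000000000000) :=
    (eF_le_of_bounds (by norm_num) pu1 cl1).trans (by norm_num)
  have e2 : eF (-(3/5)) ≤ (14051714775331/250000000000000) :=
    (eF_le_of_bounds (by norm_num) pu2 cl2).trans (by norm_num)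
  have he1 : eF (-(13/20)) ≤ (3672161/10000000) * ncdf (-(13/20)) + (-(445029/10000000)) := by linarith
  have he2 : eF (-(3/5)) ≤ (3672161/10000000) * ncdf (-(3/5)) + (-(445029/10000000)) := by linarith
  have hc := eF_chord (by norm_num) he1 he2 ⟨h1, h2⟩
  have hemax : eF α ≤ (7/50) := by linarith
  have hq := p_le_linear (κ := (6/5)) (e₀ := (133/2500)) (by norm_num) h0 hU (hp2 hemax)
  have hA : (2 - 2 * (6/5) * (133/2500) / (35811/100000) : ℝ) = (19618/11937) := by norm_num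
  have hC : ((6/5) * (133/2500) ^ 2 / (35811/100000) : ℝ) = (70756/7460625) := by norm_num
  rw [hA, hC] at hq
  have hpos := ncdf_pos α
  exact ⟨by linarith, by linarith, by linarith⟩

theorem piece6_20 {F₀ α p : ℝ} (h0 : 0 < F₀) (hU : F₀ ≤ (35811/100000))
    (hp2 : eF α ≤ (7/50) → p ≤ 2 * eF α - (6/5) * eF α ^ 2 / F₀)
    (h1 : -(3/5) ≤ α) (h2 : α ≤ -(11/20)) :
    (2742521/10000000) ≤ ncdf α ∧ ncdf α ≤ (2911599/10000000) ∧ p ≤ (76791/125000) * ncdf α + (-(8327/125000)) := by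
  obtain ⟨-, pu1, cl1, cu1⟩ := k060
  obtain ⟨-, pu2, cl2, cu2⟩ := k055
  have hm1 : ncdf (-(3/5)) ≤ ncdf α := strictMono_ncdf.monotone h1
  have hm2 : ncdf α ≤ ncdf (-(11/20)) := strictMono_ncdf.monotone h2
  have e1 : eF (-(3/5)) ≤ (14051714775331/250000000000000) :=
    (eF_le_of_bounds (by norm_num) pu1 cl1).trans (by norm_num)
  have e2 : eF (-(11/20)) ≤ (62693202121921/1000000000000000) :=
    (eF_le_of_bounds (by norm_num) pu2 cl2).trans (by norm_num)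
  have he1 : eF (-(3/5)) ≤ (153463/400000) * ncdf (-(3/5)) + (-(12253/250000)) := by linarith
  have he2 : eF (-(11/20)) ≤ (153463/400000) * ncdf (-(11/20)) + (-(12253/250000)) := by linarith
  have hc := eF_chord (by norm_num) he1 he2 ⟨h1, h2⟩
  have hemax : eF α ≤ (7/50) := by linarith
  have hq := p_le_linear (κ := (6/5)) (e₀ := (119/2000)) (by norm_num) h0 hU (hp2 hemax)
  have hA : (2 - 2 * (6/5) * (119/2000) / (35811/100000) : ℝ) = (19114/11937) := by norm_num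
  have hC : ((6/5) * (119/2000) ^ 2 / (35811/100000) : ℝ) = (14161/1193700) := by norm_num
  rw [hA, hC] at hq
  have hpos := ncdf_pos α
  exact ⟨by linarith, by linarith, by linarith⟩

theorem piece6_21 {F₀ α p : ℝ} (h0 : 0 < F₀) (hU : F₀ ≤ (35811/100000))
    (hp2 : eF α ≤ (7/50) → p ≤ 2 * eF α - (6/5) * eF α ^ 2 / F₀)
    (h1 : -(11/20) ≤ α) (h2 : α ≤ -(13/25)) :
    (2911587/10000000) ≤ ncdf α ∧ ncdf α ≤ (75383/250000) ∧ p ≤ (310393/500000) * ncdf α + (-(17129/250000)) := by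
  obtain ⟨-, pu1, cl1, cu1⟩ := k055
  obtain ⟨-, pu2, cl2, cu2⟩ := k052
  have hm1 : ncdf (-(11/20)) ≤ ncdf α := strictMono_ncdf.monotone h1
  have hm2 : ncdf α ≤ ncdf (-(13/25)) := strictMono_ncdf.monotone h2
  have e1 : eF (-(11/20)) ≤ (62693202121921/1000000000000000) :=
    (eF_le_of_bounds (by norm_num) pu1 cl1).trans (by norm_num)
  have e2 : eF (-(13/25)) ≤ (41753520708507/625000000000000) :=
    (eF_le_of_bounds (by norm_num) pu2 cl2).trans (by norm_num)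
  have he1 : eF (-(11/20)) ≤ (3964859/10000000) * ncdf (-(11/20)) + (-(527471/10000000)) := by linarith
  have he2 : eF (-(13/25)) ≤ (3964859/10000000) * ncdf (-(13/25)) + (-(527471/10000000)) := by linarith
  have hc := eF_chord (by norm_num) he1 he2 ⟨h1, h2⟩
  have hemax : eF α ≤ (7/50) := by linarith
  have hq := p_le_linear (κ := (6/5)) (e₀ := (81/1250)) (by norm_num) h0 hU (hp2 hemax)
  have hA : (2 - 2 * (6/5) * (81/1250) / (35811/100000) : ℝ) = (6230/3979) := by norm_num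
  have hC : ((6/5) * (81/1250) ^ 2 / (35811/100000) : ℝ) = (34992/2486875) := by norm_num
  rw [hA, hC] at hq
  have hpos := ncdf_pos α
  exact ⟨by linarith, by linarith, by linarith⟩

theorem piece6_22 {F₀ α p : ℝ} (h0 : 0 < F₀) (hU : F₀ ≤ (35811/100000))
    (hp2 : eF α ≤ (7/50) → p ≤ 2 * eF α - (6/5) * eF α ^ 2 / F₀)
    (h1 : -(13/25) ≤ α) (h2 : α ≤ -(1/2)) :
    (3015309/10000000) ≤ ncdf α ∧ ncdf α ≤ (3085377/10000000) ∧ p ≤ (623591/1000000) * ncdf α + (-(8671/125000)) := by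
  obtain ⟨-, pu1, cl1, cu1⟩ := k052
  obtain ⟨-, pu2, cl2, cu2⟩ := k050
  have hm1 : ncdf (-(13/25)) ≤ ncdf α := strictMono_ncdf.monotone h1
  have hm2 : ncdf α ≤ ncdf (-(1/2)) := strictMono_ncdf.monotone h2
  have e1 : eF (-(13/25)) ≤ (41753520708507/625000000000000) :=
    (eF_le_of_bounds (by norm_num) pu1 cl1).trans (by norm_num)
  have e2 : eF (-(1/2)) ≤ (13927664464599/200000000000000) :=
    (eF_le_of_bounds (by norm_num) pu2 cl2).trans (by norm_num)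
  have he1 : eF (-(13/25)) ≤ (4043349/10000000) * ncdf (-(13/25)) + (-(275569/5000000)) := by linarith
  have he2 : eF (-(1/2)) ≤ (4043349/10000000) * ncdf (-(1/2)) + (-(275569/5000000)) := by linarith
  have hc := eF_chord (by norm_num) he1 he2 ⟨h1, h2⟩
  have hemax : eF α ≤ (7/50) := by linarith
  have hq := p_le_linear (κ := (6/5)) (e₀ := (683/10000)) (by norm_num) h0 hU (hp2 hemax)
  have hA : (2 - 2 * (6/5) * (683/10000) / (35811/100000) : ℝ) = (18410/11937) := by norm_num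
  have hC : ((6/5) * (683/10000) ^ 2 / (35811/100000) : ℝ) = (466489/29842500) := by norm_num
  rw [hA, hC] at hq
  have hpos := ncdf_pos α
  exact ⟨by linarith, by linarith, by linarith⟩

theorem top6 {α p : ℝ} (hp1 : p ≤ npdf α ^ 2) (h1 : -(1/2) ≤ α) :
    (3085367/10000000) ≤ ncdf α ∧ ncdf α ≤ 1 ∧ p ≤ (352067/1000000) * ncdf α + (15327/1000000) ∧ p ≤ (341313/1000000) * ncdf α + (18683/1000000) ∧ p ≤ (81119/250000) * ncdf α + (3011/125000) ∧ p ≤ (147309/500000) * ncdf α + (34107/1000000) ∧ p ≤ (26267/100000) * ncdf α + (22707/500000) ∧ p ≤ (114417/500000) * ncdf α + (7253/125000) ∧ p ≤ (38667/200000) * ncdf α + (7193/100000) ∧ p ≤ (78209/500000) * ncdf α + (17421/200000) ∧ p ≤ (23669/200000) * ncdf α + (103499/1000000) ∧ p ≤ (79391/1000000) * ncdf α + (1513/12500) ∧ p ≤ (7969/200000) * ncdf α + (8727/62500) ∧ p ≤ 0 * ncdf α + (159157/1000000)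 := by
  obtain ⟨-, -, cl, -⟩ := k050
  have hm : ncdf (-(1/2)) ≤ ncdf α := strictMono_ncdf.monotone h1
  have hα : -1 ≤ α := by linarith
  exact ⟨by linarith, ncdf_le_one α, hp1.trans (tang_k050 hα), hp1.trans (tang_k048 hα), hp1.trans (tang_k045 hα), hp1.trans (tang_k040 hα), hp1.trans (tang_k035 hα), hp1.trans (tang_k030 hα), hp1.trans (tang_k025 hα), hp1.trans (tang_k020 hα), hp1.trans (tang_k015 hα), hp1.trans (tang_k010 hα), hp1.trans (tang_k005 hα), hp1.trans (tang_k000 hα)⟩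

theorem cell6_of {F₀ α p : ℝ} (h0 : 0 < F₀) (hU : F₀ ≤ (35811/100000)) (hp1 : p ≤ npdf α ^ 2)
    (hp2 : eF α ≤ (7/50) → p ≤ 2 * eF α - (6/5) * eF α ^ 2 / F₀) : Cell6 (ncdf α) p := by
  rcases le_total α (-(21/10)) with h | hl0
  · exact Or.inl (tiny6 h0 hp2 h)
  rcases le_total α (-2) with h | hl1
  · exact Or.inr (Or.inl (piece6_1 h0 hU hp2 hl0 h))
  rcases le_total α (-(19/10)) with h | hl2
  · exact Or.inr (Or.inr (Or.inl (piece6_2 h0 hU hp2 hl1 h)))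
  rcases le_total α (-(9/5)) with h | hl3
  · exact Or.inr (Or.inr (Or.inr (Or.inl (piece6_3 h0 hU hp2 hl2 h))))
  rcases le_total α (-(17/10)) with h | hl4
  · exact Or.inr (Or.inr (Or.inr (Or.inr (Or.inl (piece6_4 h0 hU hp2 hl3 h)))))
  rcases le_total α (-(8/5)) with h | hl5
  · exact Or.inr (Or.inr (Or.inr (Or.inr (Or.inr (Or.inl (piece6_5 h0 hU hp2 hl4 h))))))
  rcases le_total α (-(3/2)) with h | hl6
  · exact Or.inr (Or.inr (Or.inr (Or.inr (Or.inr (Or.inr (Or.inl (piece6_6 h0 hU hp2 hl5 h)))))))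
  rcases le_total α (-(7/5)) with h | hl7
  · exact Or.inr (Or.inr (Or.inr (Or.inr (Or.inr (Or.inr (Or.inr (Or.inl (piece6_7 h0 hU hp2 hl6 h))))))))
  rcases le_total α (-(13/10)) with h | hl8
  · exact Or.inr (Or.inr (Or.inr (Or.inr (Or.inr (Or.inr (Or.inr (Or.inr (Or.inl (piece6_8 h0 hU hp2 hl7 h)))))))))
  rcases le_total α (-(6/5)) with h | hl9
  · exact Or.inr (Or.inr (Or.inr (Or.inr (Or.inr (Or.inr (Or.inr (Or.inr (Or.inr (Or.inl (piece6_9 h0 hU hp2 hl8 h))))))))))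
  rcases le_total α (-(11/10)) with h | hl10
  · exact Or.inr (Or.inr (Or.inr (Or.inr (Or.inr (Or.inr (Or.inr (Or.inr (Or.inr (Or.inr (Or.inl (piece6_10 h0 hU hp2 hl9 h)))))))))))
  rcases le_total α (-1) with h | hl11
  · exact Or.inr (Or.inr (Or.inr (Or.inr (Or.inr (Or.inr (Or.inr (Or.inr (Or.inr (Or.inr (Or.inr (Or.inl (piece6_11 h0 hU hp2 hl10 h))))))))))))
  rcases le_total α (-(19/20)) with h | hl12
  · exact Or.inr (Or.inr (Or.inr (Or.inr (Or.inr (Or.inr (Or.inr (Or.inr (Or.inr (Or.inr (Or.inr (Or.inr (Or.inl (piece6_12 h0 hU hp2 hl11 h)))))))))))))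
  rcases le_total α (-(9/10)) with h | hl13
  · exact Or.inr (Or.inr (Or.inr (Or.inr (Or.inr (Or.inr (Or.inr (Or.inr (Or.inr (Or.inr (Or.inr (Or.inr (Or.inr (Or.inl (piece6_13 h0 hU hp2 hl12 h))))))))))))))
  rcases le_total α (-(17/20)) with h | hl14
  · exact Or.inr (Or.inr (Or.inr (Or.inr (Or.inr (Or.inr (Or.inr (Or.inr (Or.inr (Or.inr (Or.inr (Or.inr (Or.inr (Or.inr (Or.inl (piece6_14 h0 hU hp2 hl13 h)))))))))))))))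
  rcases le_total α (-(4/5)) with h | hl15
  · exact Or.inr (Or.inr (Or.inr (Or.inr (Or.inr (Or.inr (Or.inr (Or.inr (Or.inr (Or.inr (Or.inr (Or.inr (Or.inr (Or.inr (Or.inr (Or.inl (piece6_15 h0 hU hp2 hl14 h))))))))))))))))
  rcases le_total α (-(3/4)) with h | hl16
  · exact Or.inr (Or.inr (Or.inr (Or.inr (Or.inr (Or.inr (Or.inr (Or.inr (Or.inr (Or.inr (Or.inr (Or.inr (Or.inr (Or.inr (Or.inr (Or.inr (Or.inl (piece6_16 h0 hU hp2 hl15 h)))))))))))))))))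
  rcases le_total α (-(7/10)) with h | hl17
  · exact Or.inr (Or.inr (Or.inr (Or.inr (Or.inr (Or.inr (Or.inr (Or.inr (Or.inr (Or.inr (Or.inr (Or.inr (Or.inr (Or.inr (Or.inr (Or.inr (Or.inr (Or.inl (piece6_17 h0 hU hp2 hl16 h))))))))))))))))))
  rcases le_total α (-(13/20)) with h | hl18
  · exact Or.inr (Or.inr (Or.inr (Or.inr (Or.inr (Or.inr (Or.inr (Or.inr (Or.inr (Or.inr (Or.inr (Or.inr (Or.inr (Or.inr (Or.inr (Or.inr (Or.inr (Or.inr (Or.inl (piece6_18 h0 hU hp2 hl17 h)))))))))))))))))))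
  rcases le_total α (-(3/5)) with h | hl19
  · exact Or.inr (Or.inr (Or.inr (Or.inr (Or.inr (Or.inr (Or.inr (Or.inr (Or.inr (Or.inr (Or.inr (Or.inr (Or.inr (Or.inr (Or.inr (Or.inr (Or.inr (Or.inr (Or.inr (Or.inl (piece6_19 h0 hU hp2 hl18 h))))))))))))))))))))
  rcases le_total α (-(11/20)) with h | hl20
  · exact Or.inr (Or.inr (Or.inr (Or.inr (Or.inr (Or.inr (Or.inr (Or.inr (Or.inr (Or.inr (Or.inr (Or.inr (Or.inr (Or.inr (Or.inr (Or.inr (Or.inr (Or.inr (Or.inr (Or.inr (Or.inl (piece6_20 h0 hU hp2 hl19 h)))))))))))))))))))))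
  rcases le_total α (-(13/25)) with h | hl21
  · exact Or.inr (Or.inr (Or.inr (Or.inr (Or.inr (Or.inr (Or.inr (Or.inr (Or.inr (Or.inr (Or.inr (Or.inr (Or.inr (Or.inr (Or.inr (Or.inr (Or.inr (Or.inr (Or.inr (Or.inr (Or.inr (Or.inl (piece6_21 h0 hU hp2 hl20 h))))))))))))))))))))))
  rcases le_total α (-(1/2)) with h | hl22
  · exact Or.inr (Or.inr (Or.inr (Or.inr (Or.inr (Or.inr (Or.inr (Or.inr (Or.inr (Or.inr (Or.inr (Or.inr (Or.inr (Or.inr (Or.inr (Or.inr (Or.inr (Or.inr (Or.inr (Or.inr (Or.inr (Or.inr (Or.inl (piece6_22 h0 hU hp2 hl21 h)))))))))))))))))))))))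
  exact Or.inr (Or.inr (Or.inr (Or.inr (Or.inr (Or.inr (Or.inr (Or.inr (Or.inr (Or.inr (Or.inr (Or.inr (Or.inr (Or.inr (Or.inr (Or.inr (Or.inr (Or.inr (Or.inr (Or.inr (Or.inr (Or.inr (Or.inr (top6 hp1 hl22)))))))))))))))))))))))

theorem line6_L2h {a p : ℝ} (h : Cell6 a p) (h2 : a ≤ (23/100)) : p ≤ (65851/200000) * a := by
  rcases h with ⟨h3, h4, h5, h6⟩ | ⟨h3, h4, h5⟩ | ⟨h3, h4, h5⟩ | ⟨h3, h4, h5⟩ | ⟨h3, h4, h5⟩ | ⟨h3, h4, h5⟩ | ⟨h3, h4, h5⟩ | ⟨h3, h4, h5⟩ | ⟨h3, h4, h5⟩ | ⟨h3, h4, h5⟩ | ⟨h3, h4, h5⟩ | ⟨h3, h4, h5⟩ | ⟨h3, h4, h5⟩ | ⟨h3, h4, h5⟩ | ⟨h3, h4, h5⟩ | ⟨h3, h4, h5⟩ | ⟨h3, h4, h5⟩ | ⟨h3, h4, h5⟩ | ⟨h3, h4, h5⟩ | ⟨h3, h4, h5⟩ | ⟨h3, h4, h5⟩ | ⟨h3, h4, h5⟩ | ⟨h3, h4, h5⟩ | ⟨h3, h4, t0, t1, t2, t3, t4, t5, t6, t7, t8, t9, t10, t11⟩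
  all_goals linarith

theorem line6_L2o {a p : ℝ} (h : Cell6 a p) : p ≤ (65851/200000) * a + (11277/500000) := by
  rcases h with ⟨h3, h4, h5, h6⟩ | ⟨h3, h4, h5⟩ | ⟨h3, h4, h5⟩ | ⟨h3, h4, h5⟩ | ⟨h3, h4, h5⟩ | ⟨h3, h4, h5⟩ | ⟨h3, h4, h5⟩ | ⟨h3, h4, h5⟩ | ⟨h3, h4, h5⟩ | ⟨h3, h4, h5⟩ | ⟨h3, h4, h5⟩ | ⟨h3, h4, h5⟩ | ⟨h3, h4, h5⟩ | ⟨h3, h4, h5⟩ | ⟨h3, h4, h5⟩ | ⟨h3, h4, h5⟩ | ⟨h3, h4, h5⟩ | ⟨h3, h4, h5⟩ | ⟨h3, h4, h5⟩ | ⟨h3, h4, h5⟩ | ⟨h3, h4, h5⟩ | ⟨h3, h4, h5⟩ | ⟨h3, h4, h5⟩ | ⟨h3, h4, t0, t1, t2, t3, t4, t5, t6, t7, t8, t9, t10, t11⟩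
  all_goals linarith

theorem line6_L3h {a p : ℝ} (h : Cell6 a p) (h2 : a ≤ (4/25)) : p ≤ (123729/500000) * a := by
  rcases h with ⟨h3, h4, h5, h6⟩ | ⟨h3, h4, h5⟩ | ⟨h3, h4, h5⟩ | ⟨h3, h4, h5⟩ | ⟨h3, h4, h5⟩ | ⟨h3, h4, h5⟩ | ⟨h3, h4, h5⟩ | ⟨h3, h4, h5⟩ | ⟨h3, h4, h5⟩ | ⟨h3, h4, h5⟩ | ⟨h3, h4, h5⟩ | ⟨h3, h4, h5⟩ | ⟨h3, h4, h5⟩ | ⟨h3, h4, h5⟩ | ⟨h3, h4, h5⟩ | ⟨h3, h4, h5⟩ | ⟨h3, h4, h5⟩ | ⟨h3, h4, h5⟩ | ⟨h3, h4, h5⟩ | ⟨h3, h4, h5⟩ | ⟨h3, h4, h5⟩ | ⟨h3, h4, h5⟩ | ⟨h3, h4, h5⟩ | ⟨h3, h4, t0, t1, t2, t3, t4, t5, t6, t7, t8, t9, t10, t11⟩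
  all_goals linarith

theorem line6_L3o {a p : ℝ} (h : Cell6 a p) : p ≤ (123729/500000) * a + (12771/250000) := by
  rcases h with ⟨h3, h4, h5, h6⟩ | ⟨h3, h4, h5⟩ | ⟨h3, h4, h5⟩ | ⟨h3, h4, h5⟩ | ⟨h3, h4, h5⟩ | ⟨h3, h4, h5⟩ | ⟨h3, h4, h5⟩ | ⟨h3, h4, h5⟩ | ⟨h3, h4, h5⟩ | ⟨h3, h4, h5⟩ | ⟨h3, h4, h5⟩ | ⟨h3, h4, h5⟩ | ⟨h3, h4, h5⟩ | ⟨h3, h4, h5⟩ | ⟨h3, h4, h5⟩ | ⟨h3, h4, h5⟩ | ⟨h3, h4, h5⟩ | ⟨h3, h4, h5⟩ | ⟨h3, h4, h5⟩ | ⟨h3, h4, h5⟩ | ⟨h3, h4, h5⟩ | ⟨h3, h4, h5⟩ | ⟨h3, h4, h5⟩ | ⟨h3, h4, t0, t1, t2, t3, t4, t5, t6, t7, t8, t9, t10, t11⟩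
  all_goals linarith

theorem line6_T0 {a p : ℝ} (h : Cell6 a p) : p ≤ (3/5) * a := by
  rcases h with ⟨h3, h4, h5, h6⟩ | ⟨h3, h4, h5⟩ | ⟨h3, h4, h5⟩ | ⟨h3, h4, h5⟩ | ⟨h3, h4, h5⟩ | ⟨h3, h4, h5⟩ | ⟨h3, h4, h5⟩ | ⟨h3, h4, h5⟩ | ⟨h3, h4, h5⟩ | ⟨h3, h4, h5⟩ | ⟨h3, h4, h5⟩ | ⟨h3, h4, h5⟩ | ⟨h3, h4, h5⟩ | ⟨h3, h4, h5⟩ | ⟨h3, h4, h5⟩ | ⟨h3, h4, h5⟩ | ⟨h3, h4, h5⟩ | ⟨h3, h4, h5⟩ | ⟨h3, h4, h5⟩ | ⟨h3, h4, h5⟩ | ⟨h3, h4, h5⟩ | ⟨h3, h4, h5⟩ | ⟨h3, h4, h5⟩ | ⟨h3, h4, t0, t1, t2, t3, t4, t5, t6, t7, t8, t9, t10, t11⟩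
  all_goals linarith

theorem line6_mu {a p : ℝ} (h : Cell6 a p) (h1 : (23/100) ≤ a) : p ≤ (3/5) * a + (-(3823/62500)) := by
  rcases h with ⟨h3, h4, h5, h6⟩ | ⟨h3, h4, h5⟩ | ⟨h3, h4, h5⟩ | ⟨h3, h4, h5⟩ | ⟨h3, h4, h5⟩ | ⟨h3, h4, h5⟩ | ⟨h3, h4, h5⟩ | ⟨h3, h4, h5⟩ | ⟨h3, h4, h5⟩ | ⟨h3, h4, h5⟩ | ⟨h3, h4, h5⟩ | ⟨h3, h4, h5⟩ | ⟨h3, h4, h5⟩ | ⟨h3, h4, h5⟩ | ⟨h3, h4, h5⟩ | ⟨h3, h4, h5⟩ | ⟨h3, h4, h5⟩ | ⟨h3, h4, h5⟩ | ⟨h3, h4, h5⟩ | ⟨h3, h4, h5⟩ | ⟨h3, h4, h5⟩ | ⟨h3, h4, h5⟩ | ⟨h3, h4, h5⟩ | ⟨h3, h4, t0, t1, t2, t3, t4, t5, t6, t7, t8, t9, t10, t11⟩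
  all_goals linarith

theorem line6_kink {a p : ℝ} (h : Cell6 a p) : p ≤ (39/115) * a + (111459/5750000) := by
  rcases h with ⟨h3, h4, h5, h6⟩ | ⟨h3, h4, h5⟩ | ⟨h3, h4, h5⟩ | ⟨h3, h4, h5⟩ | ⟨h3, h4, h5⟩ | ⟨h3, h4, h5⟩ | ⟨h3, h4, h5⟩ | ⟨h3, h4, h5⟩ | ⟨h3, h4, h5⟩ | ⟨h3, h4, h5⟩ | ⟨h3, h4, h5⟩ | ⟨h3, h4, h5⟩ | ⟨h3, h4, h5⟩ | ⟨h3, h4, h5⟩ | ⟨h3, h4, h5⟩ | ⟨h3, h4, h5⟩ | ⟨h3, h4, h5⟩ | ⟨h3, h4, h5⟩ | ⟨h3, h4, h5⟩ | ⟨h3, h4, h5⟩ | ⟨h3, h4, h5⟩ | ⟨h3, h4, h5⟩ | ⟨h3, h4, h5⟩ | ⟨h3, h4, t0, t1, t2, t3, t4, t5, t6, t7, t8, t9, t10, t11⟩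
  all_goals linarith

theorem line6_pmax {a p : ℝ} (h : Cell6 a p) : p ≤ (3979/25000) := by
  rcases h with ⟨h3, h4, h5, h6⟩ | ⟨h3, h4, h5⟩ | ⟨h3, h4, h5⟩ | ⟨h3, h4, h5⟩ | ⟨h3, h4, h5⟩ | ⟨h3, h4, h5⟩ | ⟨h3, h4, h5⟩ | ⟨h3, h4, h5⟩ | ⟨h3, h4, h5⟩ | ⟨h3, h4, h5⟩ | ⟨h3, h4, h5⟩ | ⟨h3, h4, h5⟩ | ⟨h3, h4, h5⟩ | ⟨h3, h4, h5⟩ | ⟨h3, h4, h5⟩ | ⟨h3, h4, h5⟩ | ⟨h3, h4, h5⟩ | ⟨h3, h4, h5⟩ | ⟨h3, h4, h5⟩ | ⟨h3, h4, h5⟩ | ⟨h3, h4, h5⟩ | ⟨h3, h4, h5⟩ | ⟨h3, h4, h5⟩ | ⟨h3, h4, t0, t1, t2, t3, t4, t5, t6, t7, t8, t9, t10, t11⟩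
  all_goals linarith

theorem line6_Tz0 {a p : ℝ} (h : Cell6 a p) (h1 : (4/25) ≤ a) (h2 : a ≤ (1/5)) : p ≤ (3/5) * a + (-(11281/200000)) := by
  rcases h with ⟨h3, h4, h5, h6⟩ | ⟨h3, h4, h5⟩ | ⟨h3, h4, h5⟩ | ⟨h3, h4, h5⟩ | ⟨h3, h4, h5⟩ | ⟨h3, h4, h5⟩ | ⟨h3, h4, h5⟩ | ⟨h3, h4, h5⟩ | ⟨h3, h4, h5⟩ | ⟨h3, h4, h5⟩ | ⟨h3, h4, h5⟩ | ⟨h3, h4, h5⟩ | ⟨h3, h4, h5⟩ | ⟨h3, h4, h5⟩ | ⟨h3, h4, h5⟩ | ⟨h3, h4, h5⟩ | ⟨h3, h4, h5⟩ | ⟨h3, h4, h5⟩ | ⟨h3, h4, h5⟩ | ⟨h3, h4, h5⟩ | ⟨h3, h4, h5⟩ | ⟨h3, h4, h5⟩ | ⟨h3, h4, h5⟩ | ⟨h3, h4, t0, t1, t2, t3, t4, t5, t6, t7, t8, t9, t10, t11⟩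
  all_goals linarith

theorem line6_p30 {a p : ℝ} (h : Cell6 a p) (h1 : (4/25) ≤ a) (h2 : a ≤ (1/5)) : p ≤ (2371/40000) := by
  rcases h with ⟨h3, h4, h5, h6⟩ | ⟨h3, h4, h5⟩ | ⟨h3, h4, h5⟩ | ⟨h3, h4, h5⟩ | ⟨h3, h4, h5⟩ | ⟨h3, h4, h5⟩ | ⟨h3, h4, h5⟩ | ⟨h3, h4, h5⟩ | ⟨h3, h4, h5⟩ | ⟨h3, h4, h5⟩ | ⟨h3, h4, h5⟩ | ⟨h3, h4, h5⟩ | ⟨h3, h4, h5⟩ | ⟨h3, h4, h5⟩ | ⟨h3, h4, h5⟩ | ⟨h3, h4, h5⟩ | ⟨h3, h4, h5⟩ | ⟨h3, h4, h5⟩ | ⟨h3, h4, h5⟩ | ⟨h3, h4, h5⟩ | ⟨h3, h4, h5⟩ | ⟨h3, h4, h5⟩ | ⟨h3, h4, h5⟩ | ⟨h3, h4, t0, t1, t2, t3, t4, t5, t6, t7, t8, t9, t10, t11⟩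
  all_goals linarith

theorem line6_r20 {a p : ℝ} (h : Cell6 a p) (h2 : a ≤ (1/5)) : p ≤ (14643/49405) * a := by
  rcases h with ⟨h3, h4, h5, h6⟩ | ⟨h3, h4, h5⟩ | ⟨h3, h4, h5⟩ | ⟨h3, h4, h5⟩ | ⟨h3, h4, h5⟩ | ⟨h3, h4, h5⟩ | ⟨h3, h4, h5⟩ | ⟨h3, h4, h5⟩ | ⟨h3, h4, h5⟩ | ⟨h3, h4, h5⟩ | ⟨h3, h4, h5⟩ | ⟨h3, h4, h5⟩ | ⟨h3, h4, h5⟩ | ⟨h3, h4, h5⟩ | ⟨h3, h4, h5⟩ | ⟨h3, h4, h5⟩ | ⟨h3, h4, h5⟩ | ⟨h3, h4, h5⟩ | ⟨h3, h4, h5⟩ | ⟨h3, h4, h5⟩ | ⟨h3, h4, h5⟩ | ⟨h3, h4, h5⟩ | ⟨h3, h4, h5⟩ | ⟨h3, h4, t0, t1, t2, t3, t4, t5, t6, t7, t8, t9, t10, t11⟩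
  all_goals linarith

theorem line6_lowh0 {a p : ℝ} (h : Cell6 a p) (h2 : a ≤ (1/5)) : p ≤ (2371/8000) * a := by
  rcases h with ⟨h3, h4, h5, h6⟩ | ⟨h3, h4, h5⟩ | ⟨h3, h4, h5⟩ | ⟨h3, h4, h5⟩ | ⟨h3, h4, h5⟩ | ⟨h3, h4, h5⟩ | ⟨h3, h4, h5⟩ | ⟨h3, h4, h5⟩ | ⟨h3, h4, h5⟩ | ⟨h3, h4, h5⟩ | ⟨h3, h4, h5⟩ | ⟨h3, h4, h5⟩ | ⟨h3, h4, h5⟩ | ⟨h3, h4, h5⟩ | ⟨h3, h4, h5⟩ | ⟨h3, h4, h5⟩ | ⟨h3, h4, h5⟩ | ⟨h3, h4, h5⟩ | ⟨h3, h4, h5⟩ | ⟨h3, h4, h5⟩ | ⟨h3, h4, h5⟩ | ⟨h3, h4, h5⟩ | ⟨h3, h4, h5⟩ | ⟨h3, h4, t0, t1, t2, t3, t4, t5, t6, t7, t8, t9, t10, t11⟩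
  all_goals linarith

theorem line6_lowo0 {a p : ℝ} (h : Cell6 a p) : p ≤ (2371/8000) * a + (16759/500000) := by
  rcases h with ⟨h3, h4, h5, h6⟩ | ⟨h3, h4, h5⟩ | ⟨h3, h4, h5⟩ | ⟨h3, h4, h5⟩ | ⟨h3, h4, h5⟩ | ⟨h3, h4, h5⟩ | ⟨h3, h4, h5⟩ | ⟨h3, h4, h5⟩ | ⟨h3, h4, h5⟩ | ⟨h3, h4, h5⟩ | ⟨h3, h4, h5⟩ | ⟨h3, h4, h5⟩ | ⟨h3, h4, h5⟩ | ⟨h3, h4, h5⟩ | ⟨h3, h4, h5⟩ | ⟨h3, h4, h5⟩ | ⟨h3, h4, h5⟩ | ⟨h3, h4, h5⟩ | ⟨h3, h4, h5⟩ | ⟨h3, h4, h5⟩ | ⟨h3, h4, h5⟩ | ⟨h3, h4, h5⟩ | ⟨h3, h4, h5⟩ | ⟨h3, h4, t0, t1, t2, t3, t4, t5, t6, t7, t8, t9, t10, t11⟩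
  all_goals linarith

theorem line6_Tz1 {a p : ℝ} (h : Cell6 a p) (h1 : (1/5) ≤ a) (h2 : a ≤ (23/100)) : p ≤ (3/5) * a + (-(15181/250000)) := by
  rcases h with ⟨h3, h4, h5, h6⟩ | ⟨h3, h4, h5⟩ | ⟨h3, h4, h5⟩ | ⟨h3, h4, h5⟩ | ⟨h3, h4, h5⟩ | ⟨h3, h4, h5⟩ | ⟨h3, h4, h5⟩ | ⟨h3, h4, h5⟩ | ⟨h3, h4, h5⟩ | ⟨h3, h4, h5⟩ | ⟨h3, h4, h5⟩ | ⟨h3, h4, h5⟩ | ⟨h3, h4, h5⟩ | ⟨h3, h4, h5⟩ | ⟨h3, h4, h5⟩ | ⟨h3, h4, h5⟩ | ⟨h3, h4, h5⟩ | ⟨h3, h4, h5⟩ | ⟨h3, h4, h5⟩ | ⟨h3, h4, h5⟩ | ⟨h3, h4, h5⟩ | ⟨h3, h4, h5⟩ | ⟨h3, h4, h5⟩ | ⟨h3, h4, t0, t1, t2, t3, t4, t5, t6, t7, t8, t9, t10, t11⟩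
  all_goals linarith

theorem line6_p31 {a p : ℝ} (h : Cell6 a p) (h1 : (1/5) ≤ a) (h2 : a ≤ (23/100)) : p ≤ (75729/1000000) := by
  rcases h with ⟨h3, h4, h5, h6⟩ | ⟨h3, h4, h5⟩ | ⟨h3, h4, h5⟩ | ⟨h3, h4, h5⟩ | ⟨h3, h4, h5⟩ | ⟨h3, h4, h5⟩ | ⟨h3, h4, h5⟩ | ⟨h3, h4, h5⟩ | ⟨h3, h4, h5⟩ | ⟨h3, h4, h5⟩ | ⟨h3, h4, h5⟩ | ⟨h3, h4, h5⟩ | ⟨h3, h4, h5⟩ | ⟨h3, h4, h5⟩ | ⟨h3, h4, h5⟩ | ⟨h3, h4, h5⟩ | ⟨h3, h4, h5⟩ | ⟨h3, h4, h5⟩ | ⟨h3, h4, h5⟩ | ⟨h3, h4, h5⟩ | ⟨h3, h4, h5⟩ | ⟨h3, h4, h5⟩ | ⟨h3, h4, h5⟩ | ⟨h3, h4, t0, t1, t2, t3, t4, t5, t6, t7, t8, t9, t10, t11⟩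
  all_goals linarith

theorem line6_Am1 {a p : ℝ} (h : Cell6 a p) (h1 : (9/50) ≤ a) (h2 : a ≤ (23/100)) : p ≤ (3/5) * a + (-(58851/1000000)) := by
  rcases h with ⟨h3, h4, h5, h6⟩ | ⟨h3, h4, h5⟩ | ⟨h3, h4, h5⟩ | ⟨h3, h4, h5⟩ | ⟨h3, h4, h5⟩ | ⟨h3, h4, h5⟩ | ⟨h3, h4, h5⟩ | ⟨h3, h4, h5⟩ | ⟨h3, h4, h5⟩ | ⟨h3, h4, h5⟩ | ⟨h3, h4, h5⟩ | ⟨h3, h4, h5⟩ | ⟨h3, h4, h5⟩ | ⟨h3, h4, h5⟩ | ⟨h3, h4, h5⟩ | ⟨h3, h4, h5⟩ | ⟨h3, h4, h5⟩ | ⟨h3, h4, h5⟩ | ⟨h3, h4, h5⟩ | ⟨h3, h4, h5⟩ | ⟨h3, h4, h5⟩ | ⟨h3, h4, h5⟩ | ⟨h3, h4, h5⟩ | ⟨h3, h4, t0, t1, t2, t3, t4, t5, t6, t7, t8, t9, t10, t11⟩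
  all_goals linarith

theorem line6_r21 {a p : ℝ} (h : Cell6 a p) (h2 : a ≤ (9/50)) : p ≤ (6249/22915) * a := by
  rcases h with ⟨h3, h4, h5, h6⟩ | ⟨h3, h4, h5⟩ | ⟨h3, h4, h5⟩ | ⟨h3, h4, h5⟩ | ⟨h3, h4, h5⟩ | ⟨h3, h4, h5⟩ | ⟨h3, h4, h5⟩ | ⟨h3, h4, h5⟩ | ⟨h3, h4, h5⟩ | ⟨h3, h4, h5⟩ | ⟨h3, h4, h5⟩ | ⟨h3, h4, h5⟩ | ⟨h3, h4, h5⟩ | ⟨h3, h4, h5⟩ | ⟨h3, h4, h5⟩ | ⟨h3, h4, h5⟩ | ⟨h3, h4, h5⟩ | ⟨h3, h4, h5⟩ | ⟨h3, h4, h5⟩ | ⟨h3, h4, h5⟩ | ⟨h3, h4, h5⟩ | ⟨h3, h4, h5⟩ | ⟨h3, h4, h5⟩ | ⟨h3, h4, t0, t1, t2, t3, t4, t5, t6, t7, t8, t9, t10, t11⟩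
  all_goals linarith

theorem line6_lowh1 {a p : ℝ} (h : Cell6 a p) (h2 : a ≤ (9/50)) : p ≤ (34087/125000) * a := by
  rcases h with ⟨h3, h4, h5, h6⟩ | ⟨h3, h4, h5⟩ | ⟨h3, h4, h5⟩ | ⟨h3, h4, h5⟩ | ⟨h3, h4, h5⟩ | ⟨h3, h4, h5⟩ | ⟨h3, h4, h5⟩ | ⟨h3, h4, h5⟩ | ⟨h3, h4, h5⟩ | ⟨h3, h4, h5⟩ | ⟨h3, h4, h5⟩ | ⟨h3, h4, h5⟩ | ⟨h3, h4, h5⟩ | ⟨h3, h4, h5⟩ | ⟨h3, h4, h5⟩ | ⟨h3, h4, h5⟩ | ⟨h3, h4, h5⟩ | ⟨h3, h4, h5⟩ | ⟨h3, h4, h5⟩ | ⟨h3, h4, h5⟩ | ⟨h3, h4, h5⟩ | ⟨h3, h4, h5⟩ | ⟨h3, h4, h5⟩ | ⟨h3, h4, t0, t1, t2, t3, t4, t5, t6, t7, t8, t9, t10, t11⟩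
  all_goals linarith

theorem line6_lowo1 {a p : ℝ} (h : Cell6 a p) : p ≤ (34087/125000) * a + (20933/500000) := by
  rcases h with ⟨h3, h4, h5, h6⟩ | ⟨h3, h4, h5⟩ | ⟨h3, h4, h5⟩ | ⟨h3, h4, h5⟩ | ⟨h3, h4, h5⟩ | ⟨h3, h4, h5⟩ | ⟨h3, h4, h5⟩ | ⟨h3, h4, h5⟩ | ⟨h3, h4, h5⟩ | ⟨h3, h4, h5⟩ | ⟨h3, h4, h5⟩ | ⟨h3, h4, h5⟩ | ⟨h3, h4, h5⟩ | ⟨h3, h4, h5⟩ | ⟨h3, h4, h5⟩ | ⟨h3, h4, h5⟩ | ⟨h3, h4, h5⟩ | ⟨h3, h4, h5⟩ | ⟨h3, h4, h5⟩ | ⟨h3, h4, h5⟩ | ⟨h3, h4, h5⟩ | ⟨h3, h4, h5⟩ | ⟨h3, h4, h5⟩ | ⟨h3, h4, t0, t1, t2, t3, t4, t5, t6, t7, t8, t9, t10, t11⟩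
  all_goals linarith

theorem line6_Am2 {a p : ℝ} (h : Cell6 a p) (h1 : (9/50) ≤ a) : p ≤ (3/5) * a + (-(58407/1000000)) := by
  rcases h with ⟨h3, h4, h5, h6⟩ | ⟨h3, h4, h5⟩ | ⟨h3, h4, h5⟩ | ⟨h3, h4, h5⟩ | ⟨h3, h4, h5⟩ | ⟨h3, h4, h5⟩ | ⟨h3, h4, h5⟩ | ⟨h3, h4, h5⟩ | ⟨h3, h4, h5⟩ | ⟨h3, h4, h5⟩ | ⟨h3, h4, h5⟩ | ⟨h3, h4, h5⟩ | ⟨h3, h4, h5⟩ | ⟨h3, h4, h5⟩ | ⟨h3, h4, h5⟩ | ⟨h3, h4, h5⟩ | ⟨h3, h4, h5⟩ | ⟨h3, h4, h5⟩ | ⟨h3, h4, h5⟩ | ⟨h3, h4, h5⟩ | ⟨h3, h4, h5⟩ | ⟨h3, h4, h5⟩ | ⟨h3, h4, h5⟩ | ⟨h3, h4, t0, t1, t2, t3, t4, t5, t6, t7, t8, t9, t10, t11⟩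
  all_goals linarith

theorem line6_r22 {a p : ℝ} (h : Cell6 a p) (h2 : a ≤ (9/50)) : p ≤ (6249/22915) * a := by
  rcases h with ⟨h3, h4, h5, h6⟩ | ⟨h3, h4, h5⟩ | ⟨h3, h4, h5⟩ | ⟨h3, h4, h5⟩ | ⟨h3, h4, h5⟩ | ⟨h3, h4, h5⟩ | ⟨h3, h4, h5⟩ | ⟨h3, h4, h5⟩ | ⟨h3, h4, h5⟩ | ⟨h3, h4, h5⟩ | ⟨h3, h4, h5⟩ | ⟨h3, h4, h5⟩ | ⟨h3, h4, h5⟩ | ⟨h3, h4, h5⟩ | ⟨h3, h4, h5⟩ | ⟨h3, h4, h5⟩ | ⟨h3, h4, h5⟩ | ⟨h3, h4, h5⟩ | ⟨h3, h4, h5⟩ | ⟨h3, h4, h5⟩ | ⟨h3, h4, h5⟩ | ⟨h3, h4, h5⟩ | ⟨h3, h4, h5⟩ | ⟨h3, h4, t0, t1, t2, t3, t4, t5, t6, t7, t8, t9, t10, t11⟩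
  all_goals linarith

theorem line6_lowh2 {a p : ℝ} (h : Cell6 a p) (h2 : a ≤ (9/50)) : p ≤ (34087/125000) * a := by
  rcases h with ⟨h3, h4, h5, h6⟩ | ⟨h3, h4, h5⟩ | ⟨h3, h4, h5⟩ | ⟨h3, h4, h5⟩ | ⟨h3, h4, h5⟩ | ⟨h3, h4, h5⟩ | ⟨h3, h4, h5⟩ | ⟨h3, h4, h5⟩ | ⟨h3, h4, h5⟩ | ⟨h3, h4, h5⟩ | ⟨h3, h4, h5⟩ | ⟨h3, h4, h5⟩ | ⟨h3, h4, h5⟩ | ⟨h3, h4, h5⟩ | ⟨h3, h4, h5⟩ | ⟨h3, h4, h5⟩ | ⟨h3, h4, h5⟩ | ⟨h3, h4, h5⟩ | ⟨h3, h4, h5⟩ | ⟨h3, h4, h5⟩ | ⟨h3, h4, h5⟩ | ⟨h3, h4, h5⟩ | ⟨h3, h4, h5⟩ | ⟨h3, h4, t0, t1, t2, t3, t4, t5, t6, t7, t8, t9, t10, t11⟩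
  all_goals linarith

theorem line6_lowo2 {a p : ℝ} (h : Cell6 a p) : p ≤ (34087/125000) * a + (20933/500000) := by
  rcases h with ⟨h3, h4, h5, h6⟩ | ⟨h3, h4, h5⟩ | ⟨h3, h4, h5⟩ | ⟨h3, h4, h5⟩ | ⟨h3, h4, h5⟩ | ⟨h3, h4, h5⟩ | ⟨h3, h4, h5⟩ | ⟨h3, h4, h5⟩ | ⟨h3, h4, h5⟩ | ⟨h3, h4, h5⟩ | ⟨h3, h4, h5⟩ | ⟨h3, h4, h5⟩ | ⟨h3, h4, h5⟩ | ⟨h3, h4, h5⟩ | ⟨h3, h4, h5⟩ | ⟨h3, h4, h5⟩ | ⟨h3, h4, h5⟩ | ⟨h3, h4, h5⟩ | ⟨h3, h4, h5⟩ | ⟨h3, h4, h5⟩ | ⟨h3, h4, h5⟩ | ⟨h3, h4, h5⟩ | ⟨h3, h4, h5⟩ | ⟨h3, h4, t0, t1, t2, t3, t4, t5, t6, t7, t8, t9, t10, t11⟩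
  all_goals linarith

theorem star6 {a x : ℝ} (h : Cell6 a (x ^ 2)) (hx : 0 ≤ x) (ha : a ≤ (1/5)) :
    arctan (x / (31/200)) ≤ (83/5) * ((3/5) * a - x ^ 2) := by
  rcases h with ⟨h3, h4, h5, h6⟩ | ⟨h3, h4, h5⟩ | ⟨h3, h4, h5⟩ | ⟨h3, h4, h5⟩ | ⟨h3, h4, h5⟩ | ⟨h3, h4, h5⟩ | ⟨h3, h4, h5⟩ | ⟨h3, h4, h5⟩ | ⟨h3, h4, h5⟩ | ⟨h3, h4, h5⟩ | ⟨h3, h4, h5⟩ | ⟨h3, h4, h5⟩ | ⟨h3, h4, h5⟩ | ⟨h3, h4, h5⟩ | ⟨h3, h4, h5⟩ | ⟨h3, h4, h5⟩ | ⟨h3, h4, h5⟩ | ⟨h3, h4, h5⟩ | ⟨h3, h4, h5⟩ | ⟨h3, h4, h5⟩ | ⟨h3, h4, h5⟩ | ⟨h3, h4, h5⟩ | ⟨h3, h4, h5⟩ | ⟨h3, h4, t0, t1, t2, t3, t4, t5, t6, t7, t8, t9, t10, t11⟩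
  · have h7 := arctan_div_le (c := (70711/50000)) (V := (31/200)) hx h3.le (by norm_num) (by norm_num) (by norm_num) h5
    linarith
  · have h7 := arctan_le_tangent_sq (x := x) (x₀ := (7/250)) (V := (31/200)) hx (by norm_num) (by norm_num)
    have h8 := arctan_le_pade (y := (7/250) / (31/200)) (by norm_num)
    have h9 : ((7/250) / (31/200) * (945 + 735 * ((7/250) / (31/200)) ^ 2 + 64 * ((7/250) / (31/200)) ^ 4) /
        (945 + 1050 * ((7/250) / (31/200)) ^ 2 + 225 * ((7/250) / (31/200)) ^ 4) : ℝ) ≤ (89359/500000) := by norm_num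
    have h10 : ((31/200) / (2 * (7/250) * ((31/200) ^ 2 + (7/250) ^ 2)) : ℝ) = (19375000/173663) := by norm_num
    rw [h10] at h7
    nlinarith
  · have h7 := arctan_le_tangent_sq (x := x) (x₀ := (7/200)) (V := (31/200)) hx (by norm_num) (by norm_num)
    have h8 := arctan_le_pade (y := (7/200) / (31/200)) (by norm_num)
    have h9 : ((7/200) / (31/200) * (945 + 735 * ((7/200) / (31/200)) ^ 2 + 64 * ((7/200) / (31/200)) ^ 4) /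
        (945 + 1050 * ((7/200) / (31/200)) ^ 2 + 225 * ((7/200) / (31/200)) ^ 4) : ℝ) ≤ (111041/500000) := by norm_num
    have h10 : ((31/200) / (2 * (7/200) * ((31/200) ^ 2 + (7/200) ^ 2)) : ℝ) = (62000/707) := by norm_num
    rw [h10] at h7
    nlinarith
  · have h7 := arctan_le_tangent_sq (x := x) (x₀ := (11/250)) (V := (31/200)) hx (by norm_num) (by norm_num)
    have h8 := arctan_le_pade (y := (11/250) / (31/200)) (by norm_num)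
    have h9 : ((11/250) / (31/200) * (945 + 735 * ((11/250) / (31/200)) ^ 2 + 64 * ((11/250) / (31/200)) ^ 4) /
        (945 + 1050 * ((11/250) / (31/200)) ^ 2 + 225 * ((11/250) / (31/200)) ^ 4) : ℝ) ≤ (55319/200000) := by norm_num
    have h10 : ((31/200) / (2 * (11/250) * ((31/200) ^ 2 + (11/250) ^ 2)) : ℝ) = (19375000/285571) := by norm_num
    rw [h10] at h7
    nlinarith
  · have h7 := arctan_le_tangent_sq (x := x) (x₀ := (27/500)) (V := (31/200)) hx (by norm_num) (by norm_num)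
    have h8 := arctan_le_pade (y := (27/500) / (31/200)) (by norm_num)
    have h9 : ((27/500) / (31/200) * (945 + 735 * ((27/500) / (31/200)) ^ 2 + 64 * ((27/500) / (31/200)) ^ 4) /
        (945 + 1050 * ((27/500) / (31/200)) ^ 2 + 225 * ((27/500) / (31/200)) ^ 4) : ℝ) ≤ (167619/500000) := by norm_num
    have h10 : ((31/200) / (2 * (27/500) * ((31/200) ^ 2 + (27/500) ^ 2)) : ℝ) = (38750000/727407) := by norm_num
    rw [h10] at h7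
    nlinarith
  · have h7 := arctan_le_tangent_sq (x := x) (x₀ := (33/500)) (V := (31/200)) hx (by norm_num) (by norm_num)
    have h8 := arctan_le_pade (y := (33/500) / (31/200)) (by norm_num)
    have h9 : ((33/500) / (31/200) * (945 + 735 * ((33/500) / (31/200)) ^ 2 + 64 * ((33/500) / (31/200)) ^ 4) /
        (945 + 1050 * ((33/500) / (31/200)) ^ 2 + 225 * ((33/500) / (31/200)) ^ 4) : ℝ) ≤ (201277/500000) := by norm_num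
    have h10 : ((31/200) / (2 * (33/500) * ((31/200) ^ 2 + (33/500) ^ 2)) : ℝ) = (38750000/936573) := by norm_num
    rw [h10] at h7
    nlinarith
  · have h7 := arctan_le_tangent_sq (x := x) (x₀ := (2/25)) (V := (31/200)) hx (by norm_num) (by norm_num)
    have h8 := arctan_le_pade (y := (2/25) / (31/200)) (by norm_num)
    have h9 : ((2/25) / (31/200) * (945 + 735 * ((2/25) / (31/200)) ^ 2 + 64 * ((2/25) / (31/200)) ^ 4) /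
        (945 + 1050 * ((2/25) / (31/200)) ^ 2 + 225 * ((2/25) / (31/200)) ^ 4) : ℝ) ≤ (119117/250000) := by norm_num
    have h10 : ((31/200) / (2 * (2/25) * ((31/200) ^ 2 + (2/25) ^ 2)) : ℝ) = (38750/1217) := by norm_num
    rw [h10] at h7
    nlinarith
  · have h7 := arctan_le_tangent_sq (x := x) (x₀ := (12/125)) (V := (31/200)) hx (by norm_num) (by norm_num)
    have h8 := arctan_le_pade (y := (12/125) / (31/200)) (by norm_num)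
    have h9 : ((12/125) / (31/200) * (945 + 735 * ((12/125) / (31/200)) ^ 2 + 64 * ((12/125) / (31/200)) ^ 4) /
        (945 + 1050 * ((12/125) / (31/200)) ^ 2 + 225 * ((12/125) / (31/200)) ^ 4) : ℝ) ≤ (554533/1000000) := by norm_num
    have h10 : ((31/200) / (2 * (12/125) * ((31/200) ^ 2 + (12/125) ^ 2)) : ℝ) = (2421875/99723) := by norm_num
    rw [h10] at h7
    nlinarith
  · have h7 := arctan_le_tangent_sq (x := x) (x₀ := (23/200)) (V := (31/200)) hx (by norm_num) (by norm_num)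
    have h8 := arctan_le_pade (y := (23/200) / (31/200)) (by norm_num)
    have h9 : ((23/200) / (31/200) * (945 + 735 * ((23/200) / (31/200)) ^ 2 + 64 * ((23/200) / (31/200)) ^ 4) /
        (945 + 1050 * ((23/200) / (31/200)) ^ 2 + 225 * ((23/200) / (31/200)) ^ 4) : ℝ) ≤ (9974/15625) := by norm_num
    have h10 : ((31/200) / (2 * (23/200) * ((31/200) ^ 2 + (23/200) ^ 2)) : ℝ) = (62000/3427) := by norm_num
    rw [h10] at h7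
    nlinarith
  · have h7 := arctan_le_tangent_sq (x := x) (x₀ := (17/125)) (V := (31/200)) hx (by norm_num) (by norm_num)
    have h8 := arctan_le_pade (y := (17/125) / (31/200)) (by norm_num)
    have h9 : ((17/125) / (31/200) * (945 + 735 * ((17/125) / (31/200)) ^ 2 + 64 * ((17/125) / (31/200)) ^ 4) /
        (945 + 1050 * ((17/125) / (31/200)) ^ 2 + 225 * ((17/125) / (31/200)) ^ 4) : ℝ) ≤ (144053/200000) := by norm_num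
    have h10 : ((31/200) / (2 * (17/125) * ((31/200) ^ 2 + (17/125) ^ 2)) : ℝ) = (9687500/722857) := by norm_num
    rw [h10] at h7
    nlinarith
  · have h7 := arctan_le_tangent_sq (x := x) (x₀ := (4/25)) (V := (31/200)) hx (by norm_num) (by norm_num)
    have h8 := arctan_le_pade (y := (4/25) / (31/200)) (by norm_num)
    have h9 : ((4/25) / (31/200) * (945 + 735 * ((4/25) / (31/200)) ^ 2 + 64 * ((4/25) / (31/200)) ^ 4) /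
        (945 + 1050 * ((4/25) / (31/200)) ^ 2 + 225 * ((4/25) / (31/200)) ^ 4) : ℝ) ≤ (80151/100000) := by norm_num
    have h10 : ((31/200) / (2 * (4/25) * ((31/200) ^ 2 + (4/25) ^ 2)) : ℝ) = (3875/397) := by norm_num
    rw [h10] at h7
    nlinarith
  · have h7 := arctan_le_tangent_sq (x := x) (x₀ := (37/200)) (V := (31/200)) hx (by norm_num) (by norm_num)
    have h8 := arctan_le_pade (y := (37/200) / (31/200)) (by norm_num)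
    have h9 : ((37/200) / (31/200) * (945 + 735 * ((37/200) / (31/200)) ^ 2 + 64 * ((37/200) / (31/200)) ^ 4) /
        (945 + 1050 * ((37/200) / (31/200)) ^ 2 + 225 * ((37/200) / (31/200)) ^ 4) : ℝ) ≤ (174821/200000) := by norm_num
    have h10 : ((31/200) / (2 * (37/200) * ((31/200) ^ 2 + (37/200) ^ 2)) : ℝ) = (62000/8621) := by norm_num
    rw [h10] at h7
    nlinarith
  · have h7 := arctan_le_tangent_sq (x := x) (x₀ := (41/200)) (V := (31/200)) hx (by norm_num) (by norm_num)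
    have h8 := arctan_le_pade (y := (41/200) / (31/200)) (by norm_num)
    have h9 : ((41/200) / (31/200) * (945 + 735 * ((41/200) / (31/200)) ^ 2 + 64 * ((41/200) / (31/200)) ^ 4) /
        (945 + 1050 * ((41/200) / (31/200)) ^ 2 + 225 * ((41/200) / (31/200)) ^ 4) : ℝ) ≤ (46241/50000) := by norm_num
    have h10 : ((31/200) / (2 * (41/200) * ((31/200) ^ 2 + (41/200) ^ 2)) : ℝ) = (310000/54161) := by norm_num
    rw [h10] at h7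
    nlinarith
  · have h7 := arctan_le_tangent_sq (x := x) (x₀ := (219/1000)) (V := (31/200)) hx (by norm_num) (by norm_num)
    have h8 := arctan_le_pade (y := (219/1000) / (31/200)) (by norm_num)
    have h9 : ((219/1000) / (31/200) * (945 + 735 * ((219/1000) / (31/200)) ^ 2 + 64 * ((219/1000) / (31/200)) ^ 4) /
        (945 + 1050 * ((219/1000) / (31/200)) ^ 2 + 225 * ((219/1000) / (31/200)) ^ 4) : ℝ) ≤ (957057/1000000) := by norm_num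
    have h10 : ((31/200) / (2 * (219/1000) * ((31/200) ^ 2 + (219/1000) ^ 2)) : ℝ) = (38750000/7882467) := by norm_num
    rw [h10] at h7
    nlinarith
  · have h7 := arctan_le_tangent_sq (x := x) (x₀ := (117/500)) (V := (31/200)) hx (by norm_num) (by norm_num)
    have h8 := arctan_le_pade (y := (117/500) / (31/200)) (by norm_num)
    have h9 : ((117/500) / (31/200) * (945 + 735 * ((117/500) / (31/200)) ^ 2 + 64 * ((117/500) / (31/200)) ^ 4) /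
        (945 + 1050 * ((117/500) / (31/200)) ^ 2 + 225 * ((117/500) / (31/200)) ^ 4) : ℝ) ≤ (19781/20000) := by norm_num
    have h10 : ((31/200) / (2 * (117/500) * ((31/200) ^ 2 + (117/500) ^ 2)) : ℝ) = (38750000/9217377) := by norm_num
    rw [h10] at h7
    nlinarith
  · have h7 := arctan_le_tangent_sq (x := x) (x₀ := (243/1000)) (V := (31/200)) hx (by norm_num) (by norm_num)
    have h8 := arctan_le_pade (y := (243/1000) / (31/200)) (by norm_num)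
    have h9 : ((243/1000) / (31/200) * (945 + 735 * ((243/1000) / (31/200)) ^ 2 + 64 * ((243/1000) / (31/200)) ^ 4) /
        (945 + 1050 * ((243/1000) / (31/200)) ^ 2 + 225 * ((243/1000) / (31/200)) ^ 4) : ℝ) ≤ (503567/500000) := by norm_num
    have h10 : ((31/200) / (2 * (243/1000) * ((31/200) ^ 2 + (243/1000) ^ 2)) : ℝ) = (38750000/10093491) := by norm_num
    rw [h10] at h7
    nlinarith
  · exfalso; linarith
  · exfalso; linarith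
  · exfalso; linarith
  · exfalso; linarith
  · exfalso; linarith
  · exfalso; linarith
  · exfalso; linarith
  · exfalso; linarith

end Vale.Agent.Lib.P226
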