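import Vale.Agent.Lib.P226.MaxPrinciple

/-!
Tensorisation of the functional form of Ehrhard's inequality.
-/

open MeasureTheory ProbabilityTheory Real Set Filter Topology

set_option linter.unusedSectionVars false

namespace Vale.Agent.Lib.P226

/-- The functional form of Ehrhard's inequality on a space with a measure. -/
def EhrProp (θ η : ℝ) (X : Type*) [TopologicalSpace X] [AddCommGroup X] [Module ℝ X]
    [MeasurableSpace X] (μ : Measure X) : Prop :=
  ∀ f g h : X → ℝ, Continuous f → HasCompactSupport f → (∀ x, 0 ≤ f x) → (∀ x, f x ≤ 1 - η) →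
    Continuous g → HasCompactSupport g → (∀ x, 0 ≤ g x) → (∀ x, g x ≤ 1 - η) →
    Continuous h → HasCompactSupport h → (∀ x, 0 ≤ h x) →
    (∀ x y, ehrM θ (f x) (g y) ≤ h (θ • x + (1 - θ) • y)) →
    ehrM θ (∫ x, f x ∂μ) (∫ x, g x ∂μ) ≤ ∫ x, h x ∂μ

lemma ehrProp_real {θ η : ℝ} (hθ0 : 0 < θ) (hθ1 : θ < 1) (hη0 : 0 < η) (hη1 : η < 1) :
    EhrProp θ η ℝ (gaussianReal 0 1) := by
  intro f g h hf hfc hf0 hf1 hg hgc hg0 hg1 hh hhc hh0 hM
  exact ehrhard_one hθ0 hθ1 hη0 hη1 hf hfc hf0 hf1 hg hgc hg0 hg1 hh hhc hh0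
    (fun x y => by simpa [smul_eq_mul] using hM x y)

section Product

variable {X Y : Type*} [TopologicalSpace X] [AddCommGroup X] [Module ℝ X] [MeasurableSpace X]
  [TopologicalSpace Y] [AddCommGroup Y] [Module ℝ Y] [MeasurableSpace Y]
  [T2Space X] [T2Space Y] [SecondCountableTopology X] [SecondCountableTopology Y]
  [BorelSpace X] [BorelSpace Y]

lemma section_compact {f : X × Y → ℝ} (hfc : HasCompactSupport f) (y : Y) :
    HasCompactSupport (fun x => f (x, y)) := by
  refine HasCompactSupport.intro (hfc.isCompact.image continuous_fst) (fun x hx => ?_)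
  by_contra hne
  exact hx ⟨(x, y), subset_tsupport f hne, rfl⟩

lemma marginal_compact {f : X × Y → ℝ} (hfc : HasCompactSupport f) (μ : Measure X) :
    HasCompactSupport (fun y => ∫ x, f (x, y) ∂μ) := by
  refine HasCompactSupport.intro (hfc.isCompact.image continuous_snd) (fun y hy => ?_)
  have h0 : ∀ x, f (x, y) = 0 := by
    intro x
    by_contra hne
    exact hy ⟨(x, y), subset_tsupport f hne, rfl⟩
  simp [h0]

lemma marginal_continuous {f : X × Y → ℝ} (hf : Continuous f) {C : ℝ} (hC : ∀ p, |f p| ≤ C)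
    (μ : Measure X) [IsProbabilityMeasure μ] : Continuous (fun y => ∫ x, f (x, y) ∂μ) := by
  refine continuous_of_dominated (bound := fun _ => C) ?_ ?_ (integrable_const C) ?_
  · intro y
    exact (hf.comp (by fun_prop : Continuous fun x : X => (x, y))).aestronglyMeasurable
  · exact fun y => ae_of_all _ (fun x => hC _)
  · exact ae_of_all _ (fun x => hf.comp (by fun_prop : Continuous fun y : Y => (x, y)))

lemma marginal_nonneg {f : X × Y → ℝ} (hf0 : ∀ p, 0 ≤ f p) (μ : Measure X) (y : Y) :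
    0 ≤ ∫ x, f (x, y) ∂μ := integral_nonneg (fun x => hf0 _)

lemma marginal_le {f : X × Y → ℝ} (hf : Continuous f) {C : ℝ} (hC0 : 0 ≤ C) (hf0 : ∀ p, 0 ≤ f p)
    (hf1 : ∀ p, f p ≤ C) (μ : Measure X) [IsProbabilityMeasure μ] (y : Y) :
    ∫ x, f (x, y) ∂μ ≤ C := by
  have h1 : Integrable (fun x => f (x, y)) μ := by
    refine Integrable.of_bound (hf.comp (by fun_prop : Continuous fun x : X => (x, y))).aestronglyMeasurable
      C (ae_of_all _ (fun x => ?_))
    rw [Real.norm_eq_abs, abs_of_nonneg (hf0 _)]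
    exact hf1 _
  have h2 : ∫ x, f (x, y) ∂μ ≤ ∫ _x, C ∂μ := integral_mono h1 (integrable_const C) (fun x => hf1 _)
  simpa using h2

lemma integral_prod_eq {f : X × Y → ℝ} (hf : Continuous f) {C : ℝ} (hC : ∀ p, |f p| ≤ C)
    (μ : Measure X) (ν : Measure Y) [IsProbabilityMeasure μ] [IsProbabilityMeasure ν] :
    ∫ p, f p ∂(μ.prod ν) = ∫ y, ∫ x, f (x, y) ∂μ ∂ν := by
  refine integral_prod_symm f ?_
  exact Integrable.of_bound hf.aestronglyMeasurable C (ae_of_all _ (fun x => hC _))

theorem EhrProp.prod {θ η : ℝ} (hη1 : η < 1) {μ : Measure X} {ν : Measure Y} [IsProbabilityMeasure μ]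
    [IsProbabilityMeasure ν] (hX : EhrProp θ η X μ) (hY : EhrProp θ η Y ν) :
    EhrProp θ η (X × Y) (μ.prod ν) := by
  intro f g h hf hfc hf0 hf1 hg hgc hg0 hg1 hh hhc hh0 hM
  have hη' : 0 ≤ 1 - η := by linarith
  obtain ⟨Ch, hCh⟩ : ∃ C, ∀ x, |h x| ≤ C := by
    obtain ⟨C, hC⟩ := hhc.exists_bound_of_continuous hh
    exact ⟨C, fun x => by simpa using hC x⟩
  have hCf : ∀ p, |f p| ≤ 1 - η := fun p => by
    rw [abs_of_nonneg (hf0 p)]
    exact hf1 p
  have hCg : ∀ p, |g p| ≤ 1 - η := fun p => by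
    rw [abs_of_nonneg (hg0 p)]
    exact hg1 p
  rw [integral_prod_eq hf hCf, integral_prod_eq hg hCg, integral_prod_eq hh hCh]
  refine hY _ _ _ (marginal_continuous hf hCf μ) (marginal_compact hfc μ) (marginal_nonneg hf0 μ)
    (marginal_le hf hη' hf0 hf1 μ) (marginal_continuous hg hCg μ) (marginal_compact hgc μ)
    (marginal_nonneg hg0 μ) (marginal_le hg hη' hg0 hg1 μ) (marginal_continuous hh hCh μ)
    (marginal_compact hhc μ) (marginal_nonneg hh0 μ) (fun y₁ y₂ => ?_)
  refine hX _ _ _ (hf.comp (by fun_prop)) (section_compact hfc y₁) (fun x => hf0 _) (fun x => hf1 _)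
    (hg.comp (by fun_prop)) (section_compact hgc y₂) (fun x => hg0 _) (fun x => hg1 _)
    (hh.comp (by fun_prop)) (section_compact hhc _) (fun x => hh0 _) (fun x₁ x₂ => ?_)
  exact hM (x₁, y₁) (x₂, y₂)

end Product

section Transfer

variable {A B : Type*} [TopologicalSpace A] [AddCommGroup A] [Module ℝ A] [MeasurableSpace A]
  [TopologicalSpace B] [AddCommGroup B] [Module ℝ B] [MeasurableSpace B]
  [BorelSpace A] [BorelSpace B] [T2Space A] [T2Space B] [SecondCountableTopology B]

/-- Transfer along a linear homeomorphism. -/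
theorem EhrProp.transfer {θ η : ℝ} {μ : Measure A} (hA : EhrProp θ η A μ) {Ψ : A → B} {Ξ : B → A}
    (hΨ : Continuous Ψ) (hΞ : Continuous Ξ) (hinv : ∀ a, Ξ (Ψ a) = a)
    (hlin : ∀ a b, Ψ (θ • a + (1 - θ) • b) = θ • Ψ a + (1 - θ) • Ψ b) :
    EhrProp θ η B (μ.map Ψ) := by
  have hcomp : ∀ f : B → ℝ, HasCompactSupport f → HasCompactSupport (fun a => f (Ψ a)) := by
    intro f hfc
    refine HasCompactSupport.intro (hfc.isCompact.image hΞ) (fun a ha => ?_)
    by_contra hne
    exact ha ⟨Ψ a, subset_tsupport f hne, hinv a⟩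
  intro f g h hf hfc hf0 hf1 hg hgc hg0 hg1 hh hhc hh0 hM
  rw [integral_map hΨ.aemeasurable hf.aestronglyMeasurable,
    integral_map hΨ.aemeasurable hg.aestronglyMeasurable,
    integral_map hΨ.aemeasurable hh.aestronglyMeasurable]
  refine hA _ _ _ (hf.comp hΨ) (hcomp f hfc) (fun x => hf0 _) (fun x => hf1 _) (hg.comp hΨ)
    (hcomp g hgc) (fun x => hg0 _) (fun x => hg1 _) (hh.comp hΨ) (hcomp h hhc) (fun x => hh0 _)
    (fun x y => ?_)
  rw [hlin]
  exact hM _ _

end Transfer

/-- The functional inequality on the Gauss space of a product of lines. -/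
theorem ehrProp_pi {θ η : ℝ} (hθ0 : 0 < θ) (hθ1 : θ < 1) (hη0 : 0 < η) (hη1 : η < 1) (n : ℕ) :
    EhrProp θ η (Fin n → ℝ) (Measure.pi (fun _ : Fin n => gaussianReal 0 1)) := by
  induction n with
  | zero =>
    intro f g h hf hfc hf0 hf1 hg hgc hg0 hg1 hh hhc hh0 hM
    have hu : ∀ x : Fin 0 → ℝ, x = 0 := fun x => Subsingleton.elim _ _
    have e : ∀ φ : (Fin 0 → ℝ) → ℝ, ∫ x, φ x ∂(Measure.pi (fun _ : Fin 0 => gaussianReal 0 1)) = φ 0 := by
      intro φ
      have h1 : φ = fun _ => φ 0 := funext (fun x => by rw [hu x])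
      rw [h1]
      simp
    rw [e, e, e]
    have := hM 0 0
    simpa using this
  | succ n ih =>
    have h2 := (ehrProp_real hθ0 hθ1 hη0 hη1).prod hη1 ih
    have h3 := h2.transfer (B := Fin (n + 1) → ℝ)
      (Ψ := (MeasurableEquiv.piFinSuccAbove (fun _ : Fin (n + 1) => ℝ) 0).symm)
      (Ξ := MeasurableEquiv.piFinSuccAbove (fun _ : Fin (n + 1) => ℝ) 0) ?_ ?_ ?_ ?_
    · have h4 := (measurePreserving_piFinSuccAbove
        (fun _ : Fin (n + 1) => (gaussianReal 0 1 : Measure ℝ)) 0).symm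
      rw [h4.map_eq] at h3
      exact h3
    · refine continuous_pi (fun i => ?_)
      refine Fin.cases ?_ (fun j => ?_) i
      · simpa [MeasurableEquiv.piFinSuccAbove_symm_apply] using continuous_fst
      · have e : (fun a : ℝ × (Fin n → ℝ) =>
            (MeasurableEquiv.piFinSuccAbove (fun _ : Fin (n + 1) => ℝ) 0).symm a j.succ)
            = fun a => a.2 j := by
          funext a
          have := Fin.insertNth_apply_succAbove (α := fun _ : Fin (n + 1) => ℝ) (0 : Fin (n + 1))
            a.1 a.2 j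
          simpa [MeasurableEquiv.piFinSuccAbove_symm_apply] using this
        rw [e]
        fun_prop
    · have e : (⇑(MeasurableEquiv.piFinSuccAbove (fun _ : Fin (n + 1) => ℝ) 0))
          = fun x => (x 0, fun j => x (Fin.succAbove 0 j)) := by
        funext x
        simp [MeasurableEquiv.piFinSuccAbove_apply]
        rfl
      rw [e]
      fun_prop
    · exact fun a => MeasurableEquiv.apply_symm_apply _ a
    · intro a b
      funext i
      refine Fin.cases ?_ (fun j => ?_) i
      · simp [MeasurableEquiv.piFinSuccAbove_symm_apply]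
      · have e : ∀ c : ℝ × (Fin n → ℝ),
            (MeasurableEquiv.piFinSuccAbove (fun _ : Fin (n + 1) => ℝ) 0).symm c j.succ = c.2 j := by
          intro c
          have := Fin.insertNth_apply_succAbove (α := fun _ : Fin (n + 1) => ℝ) (0 : Fin (n + 1))
            c.1 c.2 j
          simpa [MeasurableEquiv.piFinSuccAbove_symm_apply] using this
        simp only [Pi.add_apply, Pi.smul_apply, e]
        simp

variable {E : Type*} [NormedAddCommGroup E] [InnerProductSpace ℝ E] [FiniteDimensional ℝ E]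
  [MeasurableSpace E] [BorelSpace E]

/-- The functional inequality on a Euclidean space with the standard Gaussian measure. -/
theorem ehrProp_E {θ η : ℝ} (hθ0 : 0 < θ) (hθ1 : θ < 1) (hη0 : 0 < η) (hη1 : η < 1) :
    EhrProp θ η E (stdGaussian E) := by
  set b := stdOrthonormalBasis ℝ E with hb
  have h1 := (ehrProp_pi hθ0 hθ1 hη0 hη1 (Module.finrank ℝ E)).transfer (B := E)
    (Ψ := fun x => ∑ i, x i • b i) (Ξ := fun v i => inner ℝ (b i) v) (by fun_prop) (by fun_prop)
    ?_ ?_
  · exact h1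
  · intro x
    funext i
    rw [inner_sum]
    simp only [inner_smul_right, b.inner_eq_ite]
    simp
  · intro x y
    simp only [Pi.add_apply, Pi.smul_apply, smul_eq_mul, add_smul, mul_smul, Finset.sum_add_distrib,
      Finset.smul_sum]

end Vale.Agent.Lib.P226
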