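import Vale.Agent.Lib.P226.Gap

/-!
The exact formula for the support integral of three vectors, and the bound for three cells.
-/

open MeasureTheory ProbabilityTheory Real Set
open scoped RealInnerProductSpace ENNReal NNReal Pointwise

namespace Vale.Agent.Lib.P226

variable {E : Type*} [NormedAddCommGroup E] [InnerProductSpace ℝ E] [FiniteDimensional ℝ E]
  [MeasurableSpace E] [BorelSpace E]

/-- The Gaussian measure is invariant under the point reflection. -/
lemma integral_neg_std {f : E → ℝ} (hf : Continuous f) :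
    ∫ x, f (-x) ∂(stdGaussian E) = ∫ x, f x ∂(stdGaussian E) := by
  have h := stdGaussian_map (LinearIsometryEquiv.neg ℝ : E ≃ₗᵢ[ℝ] E)
  have hm : Measurable (fun x : E => -x) := measurable_neg
  have h1 : (stdGaussian E).map (fun x : E => -x) = stdGaussian E := h
  conv_rhs => rw [← h1]
  rw [integral_map hm.aemeasurable hf.aestronglyMeasurable]

/-- A real identity for the maximum of three numbers. -/
lemma max_three_identity {u v w m n : ℝ}
    (hu1 : u ≤ m) (hv1 : v ≤ m) (hw1 : w ≤ m) (hm : m = u ∨ m = v ∨ m = w)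
    (hu2 : -u ≤ n) (hv2 : -v ≤ n) (hw2 : -w ≤ n) (hn : n = -u ∨ n = -v ∨ n = -w) :
    m + n = (|u - v| + |v - w| + |w - u|) / 2 := by
  rcases le_total u v with h1 | h1 <;> rcases le_total v w with h2 | h2 <;>
    rcases le_total w u with h3 | h3 <;>
    simp only [abs_of_nonneg, abs_of_nonpos, sub_nonneg, sub_nonpos, h1, h2, h3] <;>
    rcases hm with hm | hm | hm <;> rcases hn with hn | hn | hn <;> linarith

variable {κ : Type*} [Fintype κ] [Nonempty κ]

/-- The exact value of `Φ` on three vectors. -/
theorem Phi_triple (s : κ → E) {a b c : κ} (hall : ∀ m, m = a ∨ m = b ∨ m = c) :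
    Phi s = (‖s a - s b‖ + ‖s b - s c‖ + ‖s c - s a‖) / (2 * √(2 * π)) := by
  have hpt : ∀ x, phi s x + phi s (-x)
      = (|⟪s a - s b, x⟫| + |⟪s b - s c, x⟫| + |⟪s c - s a, x⟫|) / 2 := by
    intro x
    have h := max_three_identity (u := ⟪s a, x⟫) (v := ⟪s b, x⟫) (w := ⟪s c, x⟫)
      (m := phi s x) (n := phi s (-x)) (inner_le_phi s x a) (inner_le_phi s x b)
      (inner_le_phi s x c) ?_ ?_ ?_ ?_ ?_
    · simpa only [inner_sub_left] using h
    · obtain ⟨i, hi⟩ := exists_phi_eq s x
      rw [hi]
      rcases hall i with rfl | rfl | rfl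
      · exact Or.inl rfl
      · exact Or.inr (Or.inl rfl)
      · exact Or.inr (Or.inr rfl)
    · have := inner_le_phi s (-x) a
      rwa [inner_neg_right] at this
    · have := inner_le_phi s (-x) b
      rwa [inner_neg_right] at this
    · have := inner_le_phi s (-x) c
      rwa [inner_neg_right] at this
    · obtain ⟨i, hi⟩ := exists_phi_eq s (-x)
      rw [hi, inner_neg_right]
      rcases hall i with rfl | rfl | rfl
      · exact Or.inl rfl
      · exact Or.inr (Or.inl rfl)
      · exact Or.inr (Or.inr rfl)
  have hneg : ∫ x, phi s (-x) ∂(stdGaussian E) = Phi s := integral_neg_std (continuous_phi s)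
  have hint : Integrable (fun x => phi s (-x)) (stdGaussian E) := by
    have h1 : (stdGaussian E).map (fun x : E => -x) = stdGaussian E :=
      stdGaussian_map (LinearIsometryEquiv.neg ℝ : E ≃ₗᵢ[ℝ] E)
    have h2 : Integrable (phi s) ((stdGaussian E).map (fun x : E => -x)) := by
      rw [h1]
      exact integrable_phi s
    exact h2.comp_measurable measurable_neg
  have h2 : ∫ x, (phi s x + phi s (-x)) ∂(stdGaussian E) = 2 * Phi s := by
    rw [integral_add (integrable_phi s) hint, hneg]
    unfold Phi
    ring
  have h3 : ∫ x, (|⟪s a - s b, x⟫| + |⟪s b - s c, x⟫| + |⟪s c - s a, x⟫|) / 2 ∂(stdGaussian E)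
      = (‖s a - s b‖ + ‖s b - s c‖ + ‖s c - s a‖) / √(2 * π) := by
    have hi : Integrable (fun x : E => |⟪s a - s b, x⟫| + |⟪s b - s c, x⟫|) (stdGaussian E) :=
      (integrable_abs_inner _).add (integrable_abs_inner _)
    rw [integral_div, integral_add hi (integrable_abs_inner _),
      integral_add (integrable_abs_inner _) (integrable_abs_inner _),
      integral_abs_inner, integral_abs_inner, integral_abs_inner]
    ring
  simp_rw [hpt] at h2
  rw [h3] at h2
  have hs : (0 : ℝ) < √(2 * π) := by positivity
  field_simp at h2 ⊢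
  linarith

end Vale.Agent.Lib.P226
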