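import Vale.Agent.Lib.P226.Cells

/-!
The wall density identity: upper bound for thin slabs of a cell, and the Bonferroni lower bound.
-/

open MeasureTheory ProbabilityTheory Real Set
open scoped RealInnerProductSpace ENNReal NNReal

namespace Vale.Agent.Lib.P226

variable {E : Type*} [NormedAddCommGroup E] [InnerProductSpace ℝ E] [FiniteDimensional ℝ E]
  [MeasurableSpace E] [BorelSpace E]

variable {ι : Type*} [Fintype ι]

/-! ### One dimensional marginals -/

lemma real_inner_le_eq_ncdf {e : E} (he : ‖e‖ = 1) (c : ℝ) :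
    (stdGaussian E).real {x | ⟪e, x⟫ ≤ c} = ncdf c := by
  have h := map_inner_std e
  rw [he] at h
  simp only [one_pow, Real.toNNReal_one] at h
  unfold ncdf
  rw [← h, map_measureReal_apply (measurable_inner_const e) measurableSet_Iic]
  rfl

lemma ncdf_sub_le {a b : ℝ} (hab : a ≤ b) : ncdf b - ncdf a ≤ (b - a) * npdf 0 := by
  rw [ncdf_sub]
  have h1 : ∀ t ∈ Set.Icc a b, npdf t ≤ npdf 0 := by
    intro t _
    unfold npdf
    have : rexp (-t ^ 2 / 2) ≤ rexp (-(0:ℝ) ^ 2 / 2) := by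
      apply Real.exp_le_exp.mpr
      nlinarith [sq_nonneg t]
    exact mul_le_mul_of_nonneg_left this (by positivity)
  have h2 := intervalIntegral.integral_mono_on (μ := volume) hab (continuous_npdf.intervalIntegrable a b)
    (continuous_const.intervalIntegrable a b) h1
  simp only [intervalIntegral.integral_const, smul_eq_mul] at h2
  exact h2

lemma le_ncdf_sub {ρ : ℝ} (hρ : 0 ≤ ρ) : ρ * npdf ρ ≤ ncdf ρ - ncdf 0 := by
  rw [ncdf_sub]
  have h1 : ∀ t ∈ Set.Icc (0:ℝ) ρ, npdf ρ ≤ npdf t := by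
    intro t ht
    unfold npdf
    have : rexp (-ρ ^ 2 / 2) ≤ rexp (-t ^ 2 / 2) := by
      apply Real.exp_le_exp.mpr
      nlinarith [ht.1, ht.2]
    exact mul_le_mul_of_nonneg_left this (by positivity)
  have h2 := intervalIntegral.integral_mono_on (μ := volume) hρ
    (continuous_const.intervalIntegrable 0 ρ) (continuous_npdf.intervalIntegrable 0 ρ) h1
  simp only [intervalIntegral.integral_const, smul_eq_mul] at h2
  linarith

/-- The half space measure. -/
lemma real_halfspace {v : E} (hv : v ≠ 0) : (stdGaussian E).real {x | 0 ≤ ⟪v, x⟫} = 1 / 2 := by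
  have hn : 0 < ‖v‖ := norm_pos_iff.mpr hv
  set e : E := -(‖v‖⁻¹ • v) with he
  have hen : ‖e‖ = 1 := by
    rw [he, norm_neg, norm_smul, norm_inv, norm_norm, inv_mul_cancel₀ hn.ne']
  have hset : {x : E | 0 ≤ ⟪v, x⟫} = {x | ⟪e, x⟫ ≤ 0} := by
    ext x
    simp only [Set.mem_ofPred_eq, he, inner_neg_left, inner_smul_left, conj_trivial]
    constructor
    · intro h
      have : 0 ≤ ‖v‖⁻¹ * ⟪v, x⟫ := by positivity
      linarith
    · intro h
      have h2 : 0 ≤ ‖v‖⁻¹ * ⟪v, x⟫ := by linarith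
      have h3 : 0 < ‖v‖⁻¹ := by positivity
      exact nonneg_of_mul_nonneg_right h2 h3
  rw [hset, real_inner_le_eq_ncdf hen, ncdf_zero]

/-- A thin strip next to a hyperplane has small measure. -/
lemma real_strip_le {w : E} (hw : w ≠ 0) {η : ℝ} (hη : 0 < η) :
    (stdGaussian E).real {x | -η < ⟪w, x⟫ ∧ ⟪w, x⟫ < 0} ≤ npdf 0 / ‖w‖ * η := by
  have hn : 0 < ‖w‖ := norm_pos_iff.mpr hw
  set e : E := ‖w‖⁻¹ • w with he
  have hen : ‖e‖ = 1 := by
    rw [he, norm_smul, norm_inv, norm_norm, inv_mul_cancel₀ hn.ne']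
  have hwe : ∀ x, ⟪w, x⟫ = ‖w‖ * ⟪e, x⟫ := by
    intro x
    rw [he, inner_smul_left]
    simp only [conj_trivial]
    field_simp
  have hsub : {x : E | -η < ⟪w, x⟫ ∧ ⟪w, x⟫ < 0} ⊆
      {x | ⟪e, x⟫ ≤ 0} \ {x | ⟪e, x⟫ ≤ -η / ‖w‖} := by
    intro x hx
    have h1 := hx.1
    have h2 := hx.2
    rw [hwe x] at h1 h2
    refine ⟨?_, ?_⟩
    · simp only [Set.mem_ofPred_eq]
      by_contra hc
      push Not at hc
      have : 0 < ‖w‖ * ⟪e, x⟫ := by positivity
      linarith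
    · simp only [Set.mem_ofPred_eq, not_le]
      rw [div_lt_iff₀ hn]
      linarith
  have hsub2 : {x : E | ⟪e, x⟫ ≤ -η / ‖w‖} ⊆ {x | ⟪e, x⟫ ≤ 0} := by
    intro x hx
    have h3 : -η / ‖w‖ ≤ 0 := div_nonpos_of_nonpos_of_nonneg (by linarith) hn.le
    exact le_trans hx h3
  have hmeas : MeasurableSet {x : E | ⟪e, x⟫ ≤ -η / ‖w‖} :=
    measurableSet_le (measurable_inner_const e) measurable_const
  calc (stdGaussian E).real {x | -η < ⟪w, x⟫ ∧ ⟪w, x⟫ < 0}
      ≤ (stdGaussian E).real ({x | ⟪e, x⟫ ≤ 0} \ {x | ⟪e, x⟫ ≤ -η / ‖w‖}) := measureReal_mono hsub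
    _ = ncdf 0 - ncdf (-η / ‖w‖) := by
        rw [measureReal_sdiff hsub2 hmeas, real_inner_le_eq_ncdf hen, real_inner_le_eq_ncdf hen]
    _ ≤ (0 - (-η / ‖w‖)) * npdf 0 :=
        ncdf_sub_le (div_nonpos_of_nonpos_of_nonneg (by linarith) hn.le)
    _ = npdf 0 / ‖w‖ * η := by ring

/-! ### Independence of a coordinate and the orthogonal projection -/

/-- Projection onto the orthogonal complement of `n`. -/
noncomputable def perp (n x : E) : E := x - ⟪n, x⟫ • n

omit [FiniteDimensional ℝ E] [MeasurableSpace E] [BorelSpace E] in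
lemma inner_perp_self {n : E} (hn : ‖n‖ = 1) (x : E) : ⟪n, perp n x⟫ = 0 := by
  simp only [perp, inner_sub_right, inner_smul_right, real_inner_self_eq_norm_sq, hn]
  ring

omit [FiniteDimensional ℝ E] [MeasurableSpace E] [BorelSpace E] in
lemma inner_perp_comm {n : E} (hn : ‖n‖ = 1) (a x : E) : ⟪perp n a, x⟫ = ⟪a, perp n x⟫ := by
  simp only [perp, inner_sub_left, inner_sub_right, inner_smul_left, inner_smul_right,
    conj_trivial]
  rw [real_inner_comm a n]
  ring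

omit [FiniteDimensional ℝ E] [MeasurableSpace E] [BorelSpace E] in
lemma inner_of_perp {n : E} (hn : ‖n‖ = 1) {a : E} (ha : ⟪n, a⟫ = 0) (x : E) :
    ⟪a, perp n x⟫ = ⟪a, x⟫ := by
  simp only [perp, inner_sub_right, inner_smul_right]
  rw [real_inner_comm n a, ha]
  ring

lemma indepFun_inner_perp {n : E} (hn : ‖n‖ = 1) :
    IndepFun (fun x : E => ⟪n, x⟫) (perp n) (stdGaussian E) := by
  have hL : HasGaussianLaw (fun x : E => (⟪n, x⟫, perp n x)) (stdGaussian E) := by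
    have h0 : HasGaussianLaw (id : E → E) (stdGaussian E) := IsGaussian.hasGaussianLaw_id
    let L : E →L[ℝ] ℝ × E := (innerSL ℝ n).prod
      (ContinuousLinearMap.id ℝ E - (innerSL ℝ n).smulRight n)
    have h1 := h0.map_fun L
    have h2 : (fun x : E => (⟪n, x⟫, perp n x)) = fun x => L (id x) := by
      ext x <;> simp [L, perp]
    rw [h2]
    exact h1
  apply hL.indepFun_of_covariance_inner
  intro a b
  have hcov : ∀ p q : E, cov[fun x : E => ⟪p, x⟫, fun x : E => ⟪q, x⟫; stdGaussian E] = ⟪p, q⟫ := by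
    intro p q
    have h1 := covarianceBilin_apply_eq_cov (μ := stdGaussian E) IsGaussian.memLp_two_id p q
    rw [covarianceBilin_stdGaussian] at h1
    rw [← h1, innerSL_apply_apply]
  have h1 : (fun x : E => inner ℝ a ⟪n, x⟫) = fun x => ⟪a • n, x⟫ := by
    ext x
    rw [real_inner_smul_left]
    simp [mul_comm]
  have h2 : (fun x : E => ⟪b, perp n x⟫) = fun x => ⟪perp n b, x⟫ := by
    ext x
    rw [inner_perp_comm hn]
  rw [h1, h2, hcov, real_inner_smul_left, inner_perp_self hn, mul_zero]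

/-- The measure of a product event. -/
lemma real_inter_perp {n : E} (hn : ‖n‖ = 1) {R : Set ℝ} (hR : MeasurableSet R) {T : Set E}
    (hT : MeasurableSet T) (hinv : ∀ x, x ∈ T ↔ perp n x ∈ T) :
    (stdGaussian E).real ({x | ⟪n, x⟫ ∈ R} ∩ T)
      = (stdGaussian E).real {x | ⟪n, x⟫ ∈ R} * (stdGaussian E).real T := by
  have h1 : T = perp n ⁻¹' T := by
    ext x
    exact hinv x
  have h2 := (indepFun_inner_perp (E := E) hn).measure_inter_preimage_eq_mul R T hR hT
  have h3 : ({x | ⟪n, x⟫ ∈ R} ∩ T) = (fun x : E => ⟪n, x⟫) ⁻¹' R ∩ perp n ⁻¹' T := by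
    rw [← h1]
    rfl
  rw [measureReal_def, measureReal_def, measureReal_def, h3, h2, ENNReal.toReal_mul, ← h1]
  rfl

/-! ### The wall bound -/

namespace IsOptimal

variable {t : ι → E} {A : ι → Set E}

/-- Upper bound for a thin slab of a closed cell next to a wall. -/
lemma slab_le (h : IsOptimal t A) (hd : ∀ i j, i ≠ j → t i ≠ t j) {i j : ι} (hij : i ≠ j)
    [DecidableEq ι] {u : E}
    (hu : ∀ m, ⟪t m, u⟫ = (if m = i then 1 else 0) - 1 / (Fintype.card ι : ℝ)) {ε : ℝ} (hε : 0 < ε) :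
    (stdGaussian E).real {x | x ∈ ccell t j ∧ ⟪t j - t i, x⟫ < ε}
      ≤ ε / (Fintype.card ι : ℝ) + ε ^ 2 * ‖u‖ ^ 2 / 2 := by
  set S := ccell t j with hS
  have hSm : MeasurableSet S := measurableSet_ccell t j
  set s : E := ε • u with hs
  have hcard : (0:ℝ) ≤ (Fintype.card ι : ℝ) := Nat.cast_nonneg _
  -- the translate
  have hset : {x | x + s ∈ S} = {x | x ∈ S ∧ ε ≤ ⟪t j - t i, x⟫} := by
    ext x
    simp only [Set.mem_ofPred_eq, hS, mem_ccell, inner_add_right, hs, inner_smul_right, hu,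
      inner_sub_left]
    have hji : ¬ j = i := fun h => hij h.symm
    simp only [hji, if_false]
    constructor
    · intro hx
      have hi := hx i
      simp only [if_true] at hi
      refine ⟨fun m => ?_, by linarith⟩
      by_cases hm : m = i
      · subst hm
        have : 0 < ε := hε
        nlinarith
      · have := hx m
        simp only [hm, if_false] at this
        linarith
    · rintro ⟨h1, h2⟩ m
      by_cases hm : m = i
      · subst hm
        simp only [if_true]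
        nlinarith
      · simp only [hm, if_false]
        have := h1 m
        linarith
  have hsm : MeasurableSet {x | x ∈ S ∧ ε ≤ ⟪t j - t i, x⟫} := by
    rw [← hset]
    have : {x | x + s ∈ S} = (fun x : E => x + s) ⁻¹' S := rfl
    rw [this]
    exact (measurable_add_const s) hSm
  have hW : {x | x ∈ S ∧ ⟪t j - t i, x⟫ < ε} = S \ {x | x ∈ S ∧ ε ≤ ⟪t j - t i, x⟫} := by
    ext x
    simp only [Set.mem_ofPred_eq, Set.mem_sdiff, not_and, not_le]
    constructor
    · rintro ⟨h1, h2⟩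
      exact ⟨h1, fun _ => h2⟩
    · rintro ⟨h1, h2⟩
      exact ⟨h1, h2 h1⟩
  have hsub : {x | x ∈ S ∧ ε ≤ ⟪t j - t i, x⟫} ⊆ S := fun x hx => hx.1
  rw [hW, measureReal_sdiff hsub hsm, ← hset, real_preimage_add s hSm]
  -- the integral computation
  have h1 : (stdGaussian E).real S = ∫ _x in S, (1:ℝ) ∂(stdGaussian E) := by
    simp [measureReal_def]
  have hint : Integrable (fun y : E => ‖s‖ ^ 2 / 2 - ⟪s, y⟫) (stdGaussian E) :=
    (integrable_const _).sub (integrable_inner_std s)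
  have hdif : ∫ x in S, (1:ℝ) ∂(stdGaussian E) - ∫ y in S, shiftDens s y ∂(stdGaussian E)
      ≤ ∫ y in S, (‖s‖ ^ 2 / 2 - ⟪s, y⟫) ∂(stdGaussian E) := by
    rw [← integral_sub (integrable_const _).integrableOn (integrable_shiftDens s).integrableOn]
    refine setIntegral_mono ((integrable_const _).sub (integrable_shiftDens s)).integrableOn
      hint.integrableOn (fun y => ?_)
    have := Real.add_one_le_exp (⟪s, y⟫ - ‖s‖ ^ 2 / 2)
    simp only [shiftDens]
    linarith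
  have hval : ∫ y in S, (‖s‖ ^ 2 / 2 - ⟪s, y⟫) ∂(stdGaussian E)
      = (stdGaussian E).real S * (‖s‖ ^ 2 / 2) - ⟪s, t j⟫ := by
    rw [integral_sub (integrable_const _).integrableOn (integrable_inner_std s).integrableOn,
      setIntegral_const, h.inner_setIntegral_ccell hd j s]
    simp [measureReal_def]
  have hst : ⟪s, t j⟫ = -(ε / (Fintype.card ι : ℝ)) := by
    rw [hs, real_inner_smul_left, real_inner_comm, hu]
    have hji : ¬ j = i := fun h => hij h.symm
    simp only [hji, if_false]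
    ring
  have hns : ‖s‖ ^ 2 = ε ^ 2 * ‖u‖ ^ 2 := by
    rw [hs, norm_smul, Real.norm_of_nonneg hε.le]
    ring
  have hle : (stdGaussian E).real S ≤ 1 := measureReal_le_one
  rw [h1]
  have hpos : 0 ≤ ‖s‖ ^ 2 / 2 := by positivity
  calc ∫ x in S, (1:ℝ) ∂(stdGaussian E) - ∫ y in S, shiftDens s y ∂(stdGaussian E)
      ≤ (stdGaussian E).real S * (‖s‖ ^ 2 / 2) - ⟪s, t j⟫ := hdif.trans_eq hval
    _ ≤ 1 * (‖s‖ ^ 2 / 2) - ⟪s, t j⟫ := by gcongr
    _ = ε / (Fintype.card ι : ℝ) + ε ^ 2 * ‖u‖ ^ 2 / 2 := by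
        rw [hst, hns]; ring

/-- The measure of a slab. -/
lemma _root_.Vale.Agent.Lib.P226.real_slab {n : E} (hn : ‖n‖ = 1) {ρ : ℝ} (hρ : 0 ≤ ρ) :
    (stdGaussian E).real {x | ⟪n, x⟫ ∈ Ico 0 ρ} = ncdf ρ - ncdf 0 := by
  have hm := map_inner_std n
  rw [hn] at hm
  simp only [one_pow, Real.toNNReal_one] at hm
  have h1 : (stdGaussian E).real {x | ⟪n, x⟫ ∈ Ico 0 ρ}
      = (gaussianReal (0:ℝ) 1).real (Ico 0 ρ) := by
    rw [← hm, map_measureReal_apply (measurable_inner_const n) measurableSet_Ico]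
    rfl
  have hat : NullSingletonClass (gaussianReal (0:ℝ) 1) :=
    nullSingletonClass_gaussianReal (μ := 0) (v := 1) (by simp)
  rw [h1, measureReal_congr Ico_ae_eq_Ioc, ← Iic_sdiff_Iic, measureReal_sdiff
    (Iic_subset_Iic.mpr hρ) measurableSet_Iic]
  rfl

/-- The sector measure. -/
noncomputable def _root_.Vale.Agent.Lib.P226.sec (a b : E) : ℝ :=
  (stdGaussian E).real {x | 0 ≤ ⟪a, x⟫ ∧ 0 ≤ ⟪b, x⟫}

lemma _root_.Vale.Agent.Lib.P226.exists_strip_const (w : E) :
    ∃ C : ℝ, 0 ≤ C ∧ ∀ η : ℝ, 0 < η →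
      (stdGaussian E).real {x | -η < ⟪w, x⟫ ∧ ⟪w, x⟫ < 0} ≤ C * η := by
  by_cases hw : w = 0
  · refine ⟨0, le_rfl, fun η _ => ?_⟩
    subst hw
    have : {x : E | -η < ⟪(0:E), x⟫ ∧ ⟪(0:E), x⟫ < 0} = ∅ := by
      ext x
      simp
    rw [this]
    simp
  · refine ⟨npdf 0 / ‖w‖, ?_, fun η hη => real_strip_le hw hη⟩
    have := npdf_pos 0
    positivity

/-- Pointwise form of the Bonferroni bound for a thin slab. -/
lemma wall_lower_aux (h : IsOptimal t A) (hd : ∀ i j, i ≠ j → t i ≠ t j) {i j : ι} (hij : i ≠ j)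
    [DecidableEq ι] {u : E}
    (hu : ∀ m, ⟪t m, u⟫ = (if m = i then 1 else 0) - 1 / (Fintype.card ι : ℝ))
    {n : E} {D : ℝ} (hD : 0 < D) (hnD : t j - t i = D • n) (hn : ‖n‖ = 1)
    (hv : perp n (t j) ≠ 0) :
    ∃ C : ℝ, 0 ≤ C ∧ ∀ ρ : ℝ, 0 < ρ →
      npdf ρ * ((1 / 2 - ∑ m with m ≠ i ∧ m ≠ j, sec (perp n (t j)) (perp n (t m - t j))) - C * ρ)
        ≤ D / (Fintype.card ι : ℝ) + D ^ 2 * ρ * ‖u‖ ^ 2 / 2 := by
  classical
  set v := perp n (t j) with hvdef
  set w : ι → E := fun m => perp n (t m - t j) with hw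
  set O : Finset ι := Finset.univ.filter (fun m => m ≠ i ∧ m ≠ j) with hO
  set B : ℝ := 1 + ∑ m, |⟪n, t m - t j⟫| with hB
  have hBpos : 0 < B := by
    have : 0 ≤ ∑ m, |⟪n, t m - t j⟫| := Finset.sum_nonneg (fun m _ => abs_nonneg _)
    linarith
  have hBle : ∀ m, |⟪n, t m - t j⟫| ≤ B := by
    intro m
    have := Finset.single_le_sum (f := fun m => |⟪n, t m - t j⟫|)
      (fun m _ => abs_nonneg _) (Finset.mem_univ m)
    linarith
  choose Cm hCm0 hCm using fun m => exists_strip_const (w m)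
  set Ctot : ℝ := B * ∑ m ∈ O, Cm m with hCtot
  have hCtot0 : 0 ≤ Ctot := mul_nonneg hBpos.le (Finset.sum_nonneg (fun m _ => hCm0 m))
  refine ⟨Ctot, hCtot0, fun ρ hρ => ?_⟩
  set K : ℝ := 1 / 2 - ∑ m ∈ O, sec v (w m) with hK
  set η : ℝ := ρ * B with hη
  have hηpos : 0 < η := by positivity
  set R : Set E := {x | ⟪n, x⟫ ∈ Ico 0 ρ} with hR
  set H : Set E := {x | 0 ≤ ⟪v, x⟫} with hH
  set T : Set E := H ∩ ⋂ m ∈ O, {x | ⟪w m, x⟫ ≤ -η} with hT
  have hvperp : ⟪n, v⟫ = 0 := inner_perp_self hn _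
  have hwperp : ∀ m, ⟪n, w m⟫ = 0 := fun m => inner_perp_self hn _
  have hHm : MeasurableSet H := measurableSet_le measurable_const (measurable_inner_const v)
  have hTm : MeasurableSet T := by
    refine hHm.inter (Finset.measurableSet_biInter _ (fun m _ => ?_))
    exact measurableSet_le (measurable_inner_const _) measurable_const
  have hinv : ∀ x, x ∈ T ↔ perp n x ∈ T := by
    intro x
    simp only [hT, hH, mem_inter_iff, Set.mem_ofPred_eq, mem_iInter, inner_of_perp hn hvperp,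
      inner_of_perp hn (hwperp _)]
  -- the product formula
  have hprod := real_inter_perp hn (measurableSet_Ico (a := (0:ℝ)) (b := ρ)) hTm hinv
  -- the inclusion in the slab
  have hincl : R ∩ T ⊆ {x | x ∈ ccell t j ∧ ⟪t j - t i, x⟫ < D * ρ} := by
    rintro x ⟨hxR, hxH, hxT⟩
    have hr0 : 0 ≤ ⟪n, x⟫ := hxR.1
    have hr1 : ⟪n, x⟫ < ρ := hxR.2
    have hU : ⟪t j - t i, x⟫ = D * ⟪n, x⟫ := by
      rw [hnD, real_inner_smul_left]
    refine ⟨fun m => ?_, ?_⟩
    · by_cases hmi : m = i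
      · subst hmi
        have : 0 ≤ ⟪t j - t m, x⟫ := by rw [hU]; positivity
        rw [inner_sub_left] at this
        linarith
      by_cases hmj : m = j
      · subst hmj; exact le_rfl
      · have hmO : m ∈ O := by simp [hO, hmi, hmj]
        have h1 : ⟪w m, x⟫ ≤ -η := by
          have := mem_iInter₂.mp hxT m hmO
          exact this
        have h2 : ⟪t m - t j, x⟫ = ⟪n, t m - t j⟫ * ⟪n, x⟫ + ⟪w m, x⟫ := by
          simp only [hw, perp, inner_sub_left, inner_smul_left, conj_trivial]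
          ring
        have h3 : ⟪n, t m - t j⟫ * ⟪n, x⟫ ≤ B * ρ := by
          have h4 := hBle m
          have h5 : ⟪n, t m - t j⟫ ≤ B := (le_abs_self _).trans h4
          nlinarith
        rw [inner_sub_left] at h2
        have : η = B * ρ := by rw [hη]; ring
        linarith
    · rw [hU]
      exact mul_lt_mul_of_pos_left hr1 hD
  -- lower bound for T
  have hTlow : K - Ctot * ρ ≤ (stdGaussian E).real T := by
    have hcover : H ⊆ T ∪ ⋃ m ∈ O, (H ∩ {x | -η < ⟪w m, x⟫}) := by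
      intro x hx
      by_cases hall : ∀ m ∈ O, ⟪w m, x⟫ ≤ -η
      · left
        exact ⟨hx, mem_iInter₂.mpr hall⟩
      · right
        push Not at hall
        obtain ⟨m, hm, hm2⟩ := hall
        exact mem_iUnion₂.mpr ⟨m, hm, hx, hm2⟩
    have hbad : ∀ m, (stdGaussian E).real (H ∩ {x | -η < ⟪w m, x⟫}) ≤ sec v (w m) + Cm m * η := by
      intro m
      have hsub : H ∩ {x | -η < ⟪w m, x⟫} ⊆ {x | 0 ≤ ⟪v, x⟫ ∧ 0 ≤ ⟪w m, x⟫} ∪
          {x | -η < ⟪w m, x⟫ ∧ ⟪w m, x⟫ < 0} := by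
        rintro x ⟨hx1, hx2⟩
        by_cases h0 : 0 ≤ ⟪w m, x⟫
        · exact Or.inl ⟨hx1, h0⟩
        · exact Or.inr ⟨hx2, not_le.mp h0⟩
      calc (stdGaussian E).real (H ∩ {x | -η < ⟪w m, x⟫})
          ≤ (stdGaussian E).real ({x | 0 ≤ ⟪v, x⟫ ∧ 0 ≤ ⟪w m, x⟫} ∪
              {x | -η < ⟪w m, x⟫ ∧ ⟪w m, x⟫ < 0}) := measureReal_mono hsub
        _ ≤ _ := measureReal_union_le _ _
        _ ≤ sec v (w m) + Cm m * η := by
            gcongr
            · exact le_rfl
            · exact hCm m η hηpos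
    have h1 : (stdGaussian E).real H = 1 / 2 := real_halfspace hv
    have h2 : (stdGaussian E).real H ≤ (stdGaussian E).real T
        + ∑ m ∈ O, (stdGaussian E).real (H ∩ {x | -η < ⟪w m, x⟫}) :=
      (measureReal_mono hcover).trans ((measureReal_union_le _ _).trans
        (by gcongr; exact measureReal_biUnion_finset_le _ _))
    have h3 : ∑ m ∈ O, (stdGaussian E).real (H ∩ {x | -η < ⟪w m, x⟫})
        ≤ ∑ m ∈ O, (sec v (w m) + Cm m * η) := Finset.sum_le_sum (fun m _ => hbad m)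
    rw [Finset.sum_add_distrib, ← Finset.sum_mul] at h3
    have h4 : (∑ m ∈ O, Cm m) * η = Ctot * ρ := by
      rw [hCtot, hη]; ring
    rw [hK]
    linarith
  -- assemble
  have hslab := h.slab_le hd hij hu (ε := D * ρ) (by positivity)
  have hRval : (stdGaussian E).real R = ncdf ρ - ncdf 0 := real_slab hn hρ.le
  have hRlow : ρ * npdf ρ ≤ (stdGaussian E).real R := by
    rw [hRval]
    exact le_ncdf_sub hρ.le
  have hTnn : 0 ≤ (stdGaussian E).real T := measureReal_nonneg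
  have hmain : (ρ * npdf ρ) * (K - Ctot * ρ) ≤ (stdGaussian E).real (R ∩ T) := by
    rw [show R ∩ T = {x | ⟪n, x⟫ ∈ Ico 0 ρ} ∩ T from rfl, hprod]
    have hp : 0 ≤ ρ * npdf ρ := mul_nonneg hρ.le (npdf_pos ρ).le
    calc (ρ * npdf ρ) * (K - Ctot * ρ) ≤ (ρ * npdf ρ) * (stdGaussian E).real T :=
          mul_le_mul_of_nonneg_left hTlow hp
      _ ≤ _ := mul_le_mul_of_nonneg_right hRlow hTnn
  have hfin : (ρ * npdf ρ) * (K - Ctot * ρ) ≤
      D * ρ / (Fintype.card ι : ℝ) + (D * ρ) ^ 2 * ‖u‖ ^ 2 / 2 :=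
    hmain.trans ((measureReal_mono hincl).trans hslab)
  have hcancel : ρ * (npdf ρ * (K - Ctot * ρ))
      ≤ ρ * (D / (Fintype.card ι : ℝ) + D ^ 2 * ρ * ‖u‖ ^ 2 / 2) := by
    have e1 : ρ * (npdf ρ * (K - Ctot * ρ)) = (ρ * npdf ρ) * (K - Ctot * ρ) := by ring
    have e2 : ρ * (D / (Fintype.card ι : ℝ) + D ^ 2 * ρ * ‖u‖ ^ 2 / 2)
        = D * ρ / (Fintype.card ι : ℝ) + (D * ρ) ^ 2 * ‖u‖ ^ 2 / 2 := by ring
    rw [e1, e2]
    exact hfin
  exact le_of_mul_le_mul_left hcancel hρ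

/-- The wall bound: `φ(0) (1/2 - ∑ sectors) ≤ D / k`. -/
theorem wall_lower (h : IsOptimal t A) (hd : ∀ i j, i ≠ j → t i ≠ t j) {i j : ι} (hij : i ≠ j)
    [DecidableEq ι] {u : E}
    (hu : ∀ m, ⟪t m, u⟫ = (if m = i then 1 else 0) - 1 / (Fintype.card ι : ℝ))
    {n : E} {D : ℝ} (hD : 0 < D) (hnD : t j - t i = D • n) (hn : ‖n‖ = 1)
    (hv : perp n (t j) ≠ 0) :
    npdf 0 * (1 / 2 - ∑ m with m ≠ i ∧ m ≠ j, sec (perp n (t j)) (perp n (t m - t j)))
      ≤ D / (Fintype.card ι : ℝ) := by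
  obtain ⟨C, -, hC⟩ := h.wall_lower_aux hd hij hu hD hnD hn hv
  set K : ℝ := 1 / 2 - ∑ m with m ≠ i ∧ m ≠ j, sec (perp n (t j)) (perp n (t m - t j)) with hK
  set f : ℝ → ℝ := fun ρ => D / (Fintype.card ι : ℝ) + D ^ 2 * ρ * ‖u‖ ^ 2 / 2
    - npdf ρ * (K - C * ρ) with hf
  have hcont : Continuous f := by
    simp only [hf]
    have := continuous_npdf
    fun_prop
  have hnn : ∀ ρ, 0 < ρ → 0 ≤ f ρ := by
    intro ρ hρ
    have := hC ρ hρ
    simp only [hf]
    linarith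
  have hlim : Filter.Tendsto f (nhdsWithin 0 (Ioi 0)) (nhds (f 0)) :=
    (hcont.tendsto 0).mono_left nhdsWithin_le_nhds
  have h0 : 0 ≤ f 0 := by
    refine ge_of_tendsto hlim ?_
    filter_upwards [self_mem_nhdsWithin] with ρ hρ
    exact hnn ρ hρ
  simp only [hf] at h0
  have e : D ^ 2 * 0 * ‖u‖ ^ 2 / 2 = 0 := by ring
  rw [e] at h0
  simp only [mul_zero, sub_zero, add_zero] at h0
  linarith

end IsOptimal

end Vale.Agent.Lib.P226
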